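import Mathlib

-- ▼ part R188/Noe1
section

set_option autoImplicit false

namespace Crest.Agent.R188.Noe

open IsLocalRing RingTheory.Sequence

universe u v w

/-- `M` has a weakly regular sequence of length `n` contained in the maximal ideal. -/
def Dep (R : Type u) [CommRing R] [IsLocalRing R] (n : ℕ) (M : Type v) [AddCommGroup M]
    [Module R M] : Prop :=
  ∃ rs : List R, rs.length = n ∧ (∀ r ∈ rs, r ∈ maximalIdeal R) ∧ IsWeaklyRegular M rs

section basic

variable {R : Type u} [CommRing R] [IsLocalRing R] {M : Type v} [AddCommGroup M] [Module R M]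
  {N : Type w} [AddCommGroup N] [Module R N]

theorem Dep.zero : Dep R 0 M := ⟨[], rfl, by simp, IsWeaklyRegular.nil R M⟩

theorem Dep.congr (e : M ≃ₗ[R] N) {n : ℕ} (h : Dep R n M) : Dep R n N := by
  obtain ⟨rs, h1, h2, h3⟩ := h
  exact ⟨rs, h1, h2, (e.isWeaklyRegular_congr rs).1 h3⟩


theorem dep_succ_iff {n : ℕ} :
    Dep R (n + 1) M ↔ ∃ x ∈ maximalIdeal R, IsSMulRegular M x ∧ Dep R n (QuotSMulTop x M) := by
  constructor
  · rintro ⟨rs, h1, h2, h3⟩
    cases rs with
    | nil => simp at h1
    | cons r rs =>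
      rw [isWeaklyRegular_cons_iff] at h3
      exact ⟨r, h2 r (by simp), h3.1, rs, by simpa using h1, fun s hs => h2 s (by simp [hs]), h3.2⟩
  · rintro ⟨x, hx, hr, rs, h1, h2, h3⟩
    refine ⟨x :: rs, by simp [h1], ?_, ?_⟩
    · intro r hr'
      rcases List.mem_cons.1 hr' with rfl | h
      · exact hx
      · exact h2 r h
    · rw [isWeaklyRegular_cons_iff]
      exact ⟨hr, h3⟩

theorem Dep.cons {n : ℕ} {x : R} (hx : x ∈ maximalIdeal R) (hr : IsSMulRegular M x)
    (h : Dep R n (QuotSMulTop x M)) : Dep R (n + 1) M :=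
  dep_succ_iff.2 ⟨x, hx, hr, h⟩

theorem Dep.mono {n m : ℕ} (hmn : m ≤ n) (h : Dep R n M) : Dep R m M := by
  obtain ⟨rs, h1, h2, h3⟩ := h
  refine ⟨rs.take m, by simp [h1, hmn], fun r hr => h2 r (List.mem_of_mem_take hr), ?_⟩
  have := rs.take_append_drop m
  rw [← this, isWeaklyRegular_append_iff] at h3
  exact h3.1

/-- `QuotSMulTop` in two elements commutes. -/
noncomputable def quotSwap (x z : R) (M : Type v) [AddCommGroup M] [Module R M] :
    QuotSMulTop x (QuotSMulTop z M) ≃ₗ[R] QuotSMulTop z (QuotSMulTop x M) :=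
  ((Submodule.quotOfListConsSMulTopEquivQuotSMulTopInner M z [x]).trans
    (Submodule.quotEquivOfEq _ _ (by
      rw [Ideal.ofList_singleton, Submodule.ideal_span_singleton_smul]))).symm.trans
    ((Submodule.quotEquivOfEq _ _ (by
      rw [Ideal.ofList_cons, Ideal.ofList_singleton, Ideal.ofList_cons, Ideal.ofList_singleton,
        sup_comm])).trans
    ((Submodule.quotOfListConsSMulTopEquivQuotSMulTopInner M x [z]).trans
    (Submodule.quotEquivOfEq _ _ (by
      rw [Ideal.ofList_singleton, Submodule.ideal_span_singleton_smul]))))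

end basic

section depth

variable {R : Type u} [CommRing R] [IsLocalRing R] [IsNoetherianRing R]

/-- positive depth. -/
theorem exists_regular_iff {M : Type v} [AddCommGroup M] [Module R M] [Module.Finite R M] :
    (∃ z ∈ maximalIdeal R, IsSMulRegular M z) ↔
      ∀ u : M, (∀ r ∈ maximalIdeal R, r • u = 0) → u = 0 := by
  constructor
  · rintro ⟨z, hz, hr⟩ u hu
    exact hr.right_eq_zero_of_smul (hu z hz)
  · intro h
    have : Subsingleton ((R ⧸ maximalIdeal R) →ₗ[R] M) := by
      refine subsingleton_of_forall_eq 0 fun f => ?_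
      have h1 : f (Ideal.Quotient.mk _ 1) = 0 := by
        refine h _ fun r hr => ?_
        rw [← map_smul]
        have : r • (Ideal.Quotient.mk (maximalIdeal R) 1) = 0 := by
          rw [Algebra.smul_def, map_one, mul_one]
          exact Ideal.Quotient.eq_zero_iff_mem.2 hr
        rw [this, map_zero]
      ext
      simpa using h1
    rw [IsSMulRegular.subsingleton_linearMap_iff] at this
    obtain ⟨r, hr, hr'⟩ := this
    rw [Ideal.annihilator_quotient] at hr
    exact ⟨r, hr, hr'⟩

omit [IsNoetherianRing R] in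
theorem soc_exchange {M : Type v} [AddCommGroup M] [Module R M] {x y : R}
    (hx : IsSMulRegular M x) (hy : IsSMulRegular M y) (hym : y ∈ maximalIdeal R)
    (h : ∀ u : QuotSMulTop y M, (∀ r ∈ maximalIdeal R, r • u = 0) → u = 0)
    (u : QuotSMulTop x M) (hu : ∀ r ∈ maximalIdeal R, r • u = 0) : u = 0 := by
  obtain ⟨u, rfl⟩ := Submodule.Quotient.mk_surjective _ u
  have hmem : ∀ r ∈ maximalIdeal R, ∃ w : M, x • w = r • u := by
    intro r hr
    have := hu r hr
    rw [← Submodule.Quotient.mk_smul, Submodule.Quotient.mk_eq_zero,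
      Submodule.mem_smul_pointwise_iff_exists] at this
    obtain ⟨w, -, hw⟩ := this
    exact ⟨w, hw⟩
  obtain ⟨v, hv⟩ := hmem y hym
  have hv0 : (Submodule.Quotient.mk v : QuotSMulTop y M) = 0 := by
    refine h _ fun r hr => ?_
    rw [← Submodule.Quotient.mk_smul, Submodule.Quotient.mk_eq_zero,
      Submodule.mem_smul_pointwise_iff_exists]
    obtain ⟨w, hw⟩ := hmem r hr
    refine ⟨w, trivial, ?_⟩
    refine hx ?_
    show x • y • w = x • r • v
    rw [smul_comm x y, hw, smul_comm x r, hv, smul_comm]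
  rw [Submodule.Quotient.mk_eq_zero, Submodule.mem_smul_pointwise_iff_exists] at hv0
  obtain ⟨w, -, hw⟩ := hv0
  rw [Submodule.Quotient.mk_eq_zero, Submodule.mem_smul_pointwise_iff_exists]
  refine ⟨w, trivial, ?_⟩
  refine hy ?_
  show y • x • w = y • u
  rw [← hv, ← hw, smul_comm]

/-- Exchange: if `M` has depth `≥ n + 1` and `x` is `M`-regular then `M / x M` has depth `≥ n`. -/
theorem Dep.quot {n : ℕ} : ∀ {M : Type v} [AddCommGroup M] [Module R M] [Module.Finite R M]
    {x : R}, x ∈ maximalIdeal R → IsSMulRegular M x → Dep R (n + 1) M →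
      Dep R n (QuotSMulTop x M) := by
  induction n with
  | zero => intro M _ _ _ x _ _ _; exact Dep.zero
  | succ n ih =>
    intro M _ _ _ x hx hxr h
    obtain ⟨y, hy, hyr, hD⟩ := dep_succ_iff.1 h
    -- an element regular on `M/x` and on `M/y`
    have hy1 : ∀ u : QuotSMulTop y M, (∀ r ∈ maximalIdeal R, r • u = 0) → u = 0 := by
      obtain ⟨z, hz, hzr, -⟩ := dep_succ_iff.1 hD
      exact exists_regular_iff.1 ⟨z, hz, hzr⟩
    have hx1 := soc_exchange hxr hyr hy hy1
    obtain ⟨z, hz, hzr⟩ : ∃ z ∈ maximalIdeal R,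
        IsSMulRegular (QuotSMulTop x M × QuotSMulTop y M) z := by
      rw [exists_regular_iff]
      rintro ⟨a, b⟩ hab
      have ha := hx1 a fun r hr => by simpa using congrArg Prod.fst (hab r hr)
      have hb := hy1 b fun r hr => by simpa using congrArg Prod.snd (hab r hr)
      simp [ha, hb]
    have hzx : IsSMulRegular (QuotSMulTop x M) z := by
      intro a b hab
      have : z • ((a, 0) : QuotSMulTop x M × QuotSMulTop y M) = z • (b, 0) := by
        simpa using hab
      simpa using congrArg Prod.fst (hzr this)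
    have hzy : IsSMulRegular (QuotSMulTop y M) z := by
      intro a b hab
      have : z • ((0, a) : QuotSMulTop x M × QuotSMulTop y M) = z • (0, b) := by
        simpa using hab
      simpa using congrArg Prod.snd (hzr this)
    -- permute
    have perm : ∀ {s : R}, s ∈ maximalIdeal R → IsSMulRegular M s →
        IsSMulRegular (QuotSMulTop s M) z → IsSMulRegular M z ∧
          IsSMulRegular (QuotSMulTop z M) s := by
      intro s hs hsr hzs
      have h1 : IsWeaklyRegular M [s, z] := by
        rw [isWeaklyRegular_cons_iff, isWeaklyRegular_singleton_iff]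
        exact ⟨hsr, hzs⟩
      have h2 : IsWeaklyRegular M [z, s] := by
        refine IsLocalRing.isWeaklyRegular_of_perm_of_subset_maximalIdeal h1
          (List.Perm.swap _ _ _) ?_
        intro r hr
        simp only [List.mem_cons, List.not_mem_nil, or_false] at hr
        rcases hr with rfl | rfl
        · exact hs
        · exact hz
      rw [isWeaklyRegular_cons_iff, isWeaklyRegular_singleton_iff] at h2
      exact h2
    obtain ⟨hzM, hxz⟩ := perm hx hxr hzx
    obtain ⟨-, hyz⟩ := perm hy hyr hzy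
    have h1 : Dep R n (QuotSMulTop z (QuotSMulTop y M)) := ih hz hzy hD
    have h2 : Dep R (n + 1) (QuotSMulTop z M) :=
      Dep.cons hy hyz (h1.congr (quotSwap z y M))
    have h3 : Dep R n (QuotSMulTop x (QuotSMulTop z M)) := ih hx hxz h2
    exact Dep.cons hz hzx (h3.congr (quotSwap x z M))


end depth

end Crest.Agent.R188.Noe
end

-- ▼ part R188/Noe2
section

set_option autoImplicit false

namespace Crest.Agent.R188.Noe

open IsLocalRing RingTheory.Sequence Pointwise

universe u v w

section assoc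

variable {R : Type u} [CommRing R]

/-- Chains of primes: if `P ≤ Q`, `x ∈ Q`, `x ∉ P`, then `dim R/Q + 1 ≤ dim R/P`. -/
theorem ringKrullDim_quotient_add_one_le {P Q : Ideal R} [P.IsPrime] (hPQ : P ≤ Q)
    {x : R} (hxQ : x ∈ Q) (hxP : x ∉ P) :
    ringKrullDim (R ⧸ Q) + 1 ≤ ringKrullDim (R ⧸ P) := by
  have h0 : Ideal.Quotient.mk P x ∈ nonZeroDivisors (R ⧸ P) :=
    mem_nonZeroDivisors_of_ne_zero (by rwa [Ne, Ideal.Quotient.eq_zero_iff_mem])
  refine le_trans ?_ (ringKrullDim_quotient_succ_le_of_nonZeroDivisor h0)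
  gcongr
  refine ringKrullDim_le_of_surjective
    (Ideal.Quotient.lift (Ideal.span {Ideal.Quotient.mk P x}) (Ideal.Quotient.factor hPQ) ?_) ?_
  · intro a ha
    obtain ⟨b, rfl⟩ := Ideal.mem_span_singleton'.1 ha
    rw [map_mul, Ideal.Quotient.factor_mk, Ideal.Quotient.eq_zero_iff_mem.2 hxQ, mul_zero]
  · intro y
    obtain ⟨y, rfl⟩ := Ideal.Quotient.mk_surjective y
    exact ⟨Ideal.Quotient.mk _ (Ideal.Quotient.mk _ y), by simp⟩

variable [IsLocalRing R] [IsNoetherianRing R]

theorem exists_assoc_quot {M : Type v} [AddCommGroup M] [Module R M] [Module.Finite R M] {x : R}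
    (hx : x ∈ maximalIdeal R) (hr : IsSMulRegular M x) {P : Ideal R}
    (hP : P ∈ associatedPrimes R M) :
    ∃ Q ∈ associatedPrimes R (QuotSMulTop x M), P ≤ Q ∧ x ∈ Q := by
  obtain ⟨hPp, z, hz⟩ := (isAssociatedPrime_iff (R := R)).1 hP
  let N : Submodule R M := Submodule.torsionBySet R M P
  have hN : ∀ m : M, m ∈ N ↔ ∀ a ∈ P, a • m = 0 := fun m => by
    simp [N, Submodule.mem_torsionBySet_iff]
  have hz0 : z ≠ 0 := by
    rintro rfl
    apply hPp.ne_top
    rw [hz, Ideal.eq_top_iff_one, Submodule.mem_colon_singleton]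
    simp
  have hzN : z ∈ N := by
    rw [hN]
    intro a ha
    rw [hz, Submodule.mem_colon_singleton] at ha
    simpa using ha
  obtain ⟨n, hn, hnx⟩ : ∃ n ∈ N, n ∉ x • (⊤ : Submodule R M) := by
    by_contra hcon
    push Not at hcon
    have h1 : N ≤ Ideal.span {x} • N := by
      intro n hn
      obtain ⟨m, -, hm⟩ := Submodule.mem_smul_pointwise_iff_exists _ _ _ |>.1 (hcon n hn)
      have hmN : m ∈ N := by
        rw [hN]
        intro a ha
        refine hr ?_
        show x • a • m = x • (0 : M)
        rw [smul_comm, hm, (hN n).1 hn a ha, smul_zero]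
      rw [← hm]
      exact Submodule.smul_mem_smul (Ideal.mem_span_singleton_self x) hmN
    have h2 : N = ⊥ := by
      refine Submodule.eq_bot_of_le_smul_of_le_jacobson_bot (Ideal.span {x}) N
        (IsNoetherian.noetherian N) h1 ?_
      rw [Ideal.span_singleton_le_iff_mem, IsLocalRing.jacobson_eq_maximalIdeal _ bot_ne_top]
      exact hx
    rw [h2, Submodule.mem_bot] at hzN
    exact hz0 hzN
  have hn0 : (Submodule.Quotient.mk n : QuotSMulTop x M) ≠ 0 := by
    rwa [Ne, Submodule.Quotient.mk_eq_zero]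
  obtain ⟨Q, hQ, hle⟩ := exists_le_isAssociatedPrime_of_isNoetherianRing R _ hn0
  refine ⟨Q, hQ, fun a ha => hle ?_, hle ?_⟩
  · rw [Submodule.mem_colon_singleton, ← Submodule.Quotient.mk_smul, (hN n).1 hn a ha,
      Submodule.Quotient.mk_zero]
    exact Submodule.zero_mem _
  · rw [Submodule.mem_colon_singleton]
    have := Module.mem_annihilator.1 (QuotSMulTop.mem_annihilator x (M := M) (R := R))
      (Submodule.Quotient.mk n)
    rw [this]
    exact Submodule.zero_mem _

/-- depth `M ≤ dim R/P` for every associated prime `P` of `M`. -/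
theorem Dep.le_ringKrullDim {n : ℕ} : ∀ {M : Type v} [AddCommGroup M] [Module R M]
    [Module.Finite R M] {P : Ideal R}, P ∈ associatedPrimes R M → Dep R n M →
      (n : WithBot ℕ∞) ≤ ringKrullDim (R ⧸ P) := by
  induction n with
  | zero =>
    intro M _ _ _ P hP _
    have := (AssociatedPrimes.mem_iff.1 hP).isPrime
    have : Nontrivial (R ⧸ P) := Ideal.Quotient.nontrivial_iff.2 this.ne_top
    exact_mod_cast ringKrullDim_nonneg_of_nontrivial
  | succ n ih =>
    intro M _ _ _ P hP h
    obtain ⟨x, hx, hr, hD⟩ := dep_succ_iff.1 h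
    obtain ⟨Q, hQ, hPQ, hxQ⟩ := exists_assoc_quot hx hr hP
    have h1 := ih hQ hD
    have hPp := (AssociatedPrimes.mem_iff.1 hP).isPrime
    have hxP : x ∉ P := by
      intro hxP
      have : x ∈ ⋃ p ∈ associatedPrimes R M, (p : Set R) := Set.mem_biUnion hP hxP
      rw [biUnion_associatedPrimes_eq_compl_regular] at this
      exact this hr
    have h2 := ringKrullDim_quotient_add_one_le hPQ hxQ hxP
    calc ((n + 1 : ℕ) : WithBot ℕ∞) = (n : WithBot ℕ∞) + 1 := by push_cast; rfl
      _ ≤ ringKrullDim (R ⧸ Q) + 1 := by gcongr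
      _ ≤ _ := h2

end assoc

section CM

variable {R : Type u} [CommRing R] [IsLocalRing R]

/-- `M` is a Cohen-Macaulay module of dimension `n`. -/
structure CM (R : Type u) [CommRing R] [IsLocalRing R] (n : ℕ) (M : Type v) [AddCommGroup M]
    [Module R M] : Prop where
  dep : Dep R n M
  dim : Module.supportDim R M = n

variable {M : Type v} [AddCommGroup M] [Module R M] {N : Type w} [AddCommGroup N] [Module R N]

theorem CM.congr {n : ℕ} (e : M ≃ₗ[R] N) (h : CM R n M) : CM R n N :=
  ⟨h.dep.congr e, by rw [← Module.supportDim_eq_of_equiv e, h.dim]⟩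

theorem CM.nontrivial {n : ℕ} (h : CM R n M) : Nontrivial M := by
  rw [← Module.supportDim_ne_bot_iff_nontrivial R, h.dim]
  exact WithBot.natCast_ne_bot n

omit [IsLocalRing R] in
/-- `dim R/P ≤ dim X` for `P` in the support. -/
theorem ringKrullDim_quotient_le_supportDim {X : Type w} [AddCommGroup X] [Module R X]
    [Module.Finite R X] {P : Ideal R} (hP : Module.annihilator R X ≤ P) :
    ringKrullDim (R ⧸ P) ≤ Module.supportDim R X := by
  rw [Module.supportDim_eq_ringKrullDim_quotient_annihilator]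
  exact ringKrullDim_le_of_surjective (Ideal.Quotient.factor hP) (Ideal.Quotient.factor_surjective hP)

theorem add_one_cancel {e : WithBot ℕ∞} {d : ℕ} (h : e + 1 = ((d + 1 : ℕ) : WithBot ℕ∞)) :
    e = d := by
  induction e with
  | bot =>
    exfalso
    rw [WithBot.bot_add] at h
    exact WithBot.bot_ne_natCast (d + 1) h
  | coe e =>
    induction e with
    | top => exact absurd h (by
        intro h
        have : ((⊤ : ℕ∞) : WithBot ℕ∞) + 1 = ((⊤ : ℕ∞) : WithBot ℕ∞) := rfl
        rw [this] at h
        exact (ENat.top_ne_natCast (d + 1)) (WithBot.coe_injective h))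
    | coe e =>
      have : ((e + 1 : ℕ) : WithBot ℕ∞) = ((d + 1 : ℕ) : WithBot ℕ∞) := by
        rw [← h]; push_cast; rfl
      have h2 : e + 1 = d + 1 := by exact_mod_cast this
      have h3 : e = d := by omega
      rw [h3]; rfl

variable [IsNoetherianRing R] [Module.Finite R M]

theorem CM.isSMulRegular {n : ℕ} (h : CM R n M) {x : R} 
    (hd : Module.supportDim R (QuotSMulTop x M) < n) : IsSMulRegular M x := by
  by_contra hr
  have : x ∈ ⋃ p ∈ associatedPrimes R M, (p : Set R) := by
    rw [biUnion_associatedPrimes_eq_compl_regular]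
    exact hr
  simp only [Set.mem_iUnion, SetLike.mem_coe, exists_prop] at this
  obtain ⟨P, hP, hxP⟩ := this
  have h1 := h.dep.le_ringKrullDim hP
  have hann : Module.annihilator R M ≤ P := by
    have := (AssociatedPrimes.mem_iff.1 hP).annihilator_le
    rwa [Submodule.annihilator_top] at this
  have h2 : ringKrullDim (R ⧸ P) ≤ Module.supportDim R (QuotSMulTop x M) := by
    have hPp := (AssociatedPrimes.mem_iff.1 hP).isPrime
    have hmem : (⟨P, hPp⟩ : PrimeSpectrum R) ∈ Module.support R (QuotSMulTop x M) := by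
      rw [Module.support_quotSMulTop]
      refine ⟨Module.mem_support_iff_of_finite.2 hann, ?_⟩
      rw [PrimeSpectrum.mem_zeroLocus]
      simpa using hxP
    exact ringKrullDim_quotient_le_supportDim (Module.mem_support_iff_of_finite.1 hmem)
  exact absurd (h1.trans h2) (not_le.2 hd)

theorem CM.quotSMulTop {n : ℕ} (h : CM R (n + 1) M) {x : R} (hx : x ∈ maximalIdeal R)
    (hr : IsSMulRegular M x) : CM R n (QuotSMulTop x M) := by
  refine ⟨h.dep.quot hx hr, ?_⟩
  have := Module.supportDim_quotSMulTop_succ_eq_supportDim hr hx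
  rw [h.dim] at this
  exact add_one_cancel this

/-- The dimension drops at most by the number of equations. -/
theorem supportDim_le_add_length : ∀ (rs : List R), (∀ r ∈ rs, r ∈ maximalIdeal R) →
    ∀ (M : Type v) [AddCommGroup M] [Module R M] [Module.Finite R M],
    Module.supportDim R M ≤
      Module.supportDim R (M ⧸ (Ideal.ofList rs • ⊤ : Submodule R M)) + rs.length := by
  intro rs
  induction rs with
  | nil =>
    intro _ M _ _ _
    have e : (M ⧸ (Ideal.ofList ([] : List R) • ⊤ : Submodule R M)) ≃ₗ[R] M :=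
      Submodule.quotEquivOfEqBot _ (by simp)
    rw [Module.supportDim_eq_of_equiv e]
    simp
  | cons r rs ih =>
    intro h M _ _ _
    have h1 := ih (fun s hs => h s (by simp [hs])) (QuotSMulTop r M)
    have h2 := Module.supportDim_le_supportDim_quotSMulTop_succ (M := M) (h r (by simp))
    rw [Module.supportDim_eq_of_equiv
      (Submodule.quotOfListConsSMulTopEquivQuotSMulTopInner M r rs)]
    refine h2.trans ((add_le_add_left h1 1).trans ?_)
    rw [List.length_cons, add_assoc]
    push_cast
    exact le_rfl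

/-- In a Cohen-Macaulay module, a (partial) system of parameters is a regular sequence. -/
theorem CM.regular_of_dim_le : ∀ (rs : List R), (∀ r ∈ rs, r ∈ maximalIdeal R) →
    ∀ (n : ℕ) (M : Type v) [AddCommGroup M] [Module R M] [Module.Finite R M], 
    CM R (n + rs.length) M →
    Module.supportDim R (M ⧸ (Ideal.ofList rs • ⊤ : Submodule R M)) ≤ n →
    IsWeaklyRegular M rs ∧ CM R n (M ⧸ (Ideal.ofList rs • ⊤ : Submodule R M)) := by
  intro rs
  induction rs with
  | nil =>
    intro _ n M _ _ _ hM _
    have e : (M ⧸ (Ideal.ofList ([] : List R) • ⊤ : Submodule R M)) ≃ₗ[R] M :=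
      Submodule.quotEquivOfEqBot _ (by simp)
    exact ⟨IsWeaklyRegular.nil R M, (by simpa using hM : CM R n M).congr e.symm⟩
  | cons r rs ih =>
    intro h n M _ _ _ hM hd
    have hr := h r (by simp)
    have hrs : ∀ s ∈ rs, s ∈ maximalIdeal R := fun s hs => h s (by simp [hs])
    rw [Module.supportDim_eq_of_equiv
      (Submodule.quotOfListConsSMulTopEquivQuotSMulTopInner M r rs)] at hd
    have h1 := supportDim_le_add_length rs hrs (QuotSMulTop r M)
    have h2 : Module.supportDim R (QuotSMulTop r M) ≤ (n + rs.length : ℕ) := by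
      refine h1.trans ?_
      push_cast
      gcongr
    have hM' : CM R ((n + rs.length) + 1) M := by
      simpa [add_assoc] using hM
    have hreg : IsSMulRegular M r := by
      refine hM'.isSMulRegular (lt_of_le_of_lt h2 ?_)
      exact_mod_cast Nat.lt_succ_self _
    obtain ⟨h3, h4⟩ := ih hrs n (QuotSMulTop r M) (hM'.quotSMulTop hr hreg) hd
    refine ⟨?_, h4.congr (Submodule.quotOfListConsSMulTopEquivQuotSMulTopInner M r rs).symm⟩
    rw [isWeaklyRegular_cons_iff]
    exact ⟨hreg, h3⟩

theorem CM.quot_of_isWeaklyRegular : ∀ (rs : List R), (∀ r ∈ rs, r ∈ maximalIdeal R) →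
    ∀ (n : ℕ) (M : Type v) [AddCommGroup M] [Module R M] [Module.Finite R M], 
    CM R (n + rs.length) M → IsWeaklyRegular M rs →
    CM R n (M ⧸ (Ideal.ofList rs • ⊤ : Submodule R M)) := by
  intro rs
  induction rs with
  | nil =>
    intro _ n M _ _ _ hM _
    have e : (M ⧸ (Ideal.ofList ([] : List R) • ⊤ : Submodule R M)) ≃ₗ[R] M :=
      Submodule.quotEquivOfEqBot _ (by simp)
    exact (by simpa using hM : CM R n M).congr e.symm
  | cons r rs ih =>
    intro h n M _ _ _ hM hreg
    rw [isWeaklyRegular_cons_iff] at hreg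
    have hM' : CM R ((n + rs.length) + 1) M := by
      simpa [add_assoc] using hM
    exact (ih (fun s hs => h s (by simp [hs])) n (QuotSMulTop r M)
      (hM'.quotSMulTop (h r (by simp)) hreg.1) hreg.2).congr
      (Submodule.quotOfListConsSMulTopEquivQuotSMulTopInner M r rs).symm

end CM

end Crest.Agent.R188.Noe
end

-- ▼ part R188/Noe3

set_option autoImplicit false

namespace Crest.Agent.R188.Noe

open IsLocalRing RingTheory.Sequence Pointwise

universe u v w

theorem le_of_add_one_le_add_one {e : WithBot ℕ∞} {d : ℕ}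
    (h : ((d + 1 : ℕ) : WithBot ℕ∞) ≤ e + 1) : (d : WithBot ℕ∞) ≤ e := by
  induction e with
  | bot =>
    rw [WithBot.bot_add, le_bot_iff] at h
    exact absurd h (WithBot.natCast_ne_bot _)
  | coe e =>
    induction e with
    | top => exact WithBot.coe_le_coe.2 le_top
    | coe e =>
      have h1 : ((d + 1 : ℕ) : WithBot ℕ∞) ≤ ((e + 1 : ℕ) : WithBot ℕ∞) := by
        refine h.trans (le_of_eq ?_)
        push_cast; rfl
      have h2 : d + 1 ≤ e + 1 := by exact_mod_cast h1
      have h3 : d ≤ e := by omega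
      exact WithBot.coe_le_coe.2 (by exact_mod_cast h3)

section transfer

variable {R : Type u} [CommRing R] [IsLocalRing R] {S : Type v} [CommRing S] [IsLocalRing S]
  [Algebra R S] {M : Type w} [AddCommGroup M] [Module R M] [Module S M] [IsScalarTower R S M]

theorem dep_of_surjective (hs : Function.Surjective (algebraMap R S)) {n : ℕ} (h : Dep S n M) :
    Dep R n M := by
  have hl : IsLocalHom (algebraMap R S) := IsLocalRing.surjective_units_map_of_local_ringHom _ hs |>
    fun _ => IsLocalHom.of_surjective _ hs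
  obtain ⟨rs, h1, h2, h3⟩ := h
  have : ∀ rs : List S, (∀ r ∈ rs, r ∈ maximalIdeal S) → ∃ ts : List R,
      ts.map (algebraMap R S) = rs ∧ ∀ t ∈ ts, t ∈ maximalIdeal R := by
    intro rs
    induction rs with
    | nil => intro _; exact ⟨[], rfl, by simp⟩
    | cons r rs ih =>
      intro h
      obtain ⟨ts, h1, h2⟩ := ih fun s hs => h s (by simp [hs])
      obtain ⟨t, ht⟩ := hs r
      refine ⟨t :: ts, by simp [ht, h1], ?_⟩
      intro s hs'
      rcases List.mem_cons.1 hs' with rfl | h'
      · have hr := h r (by simp)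
        rw [mem_maximalIdeal, mem_nonunits_iff] at hr ⊢
        intro hu
        exact hr (ht ▸ hu.map (algebraMap R S))
      · exact h2 s h'
  obtain ⟨ts, rfl, h5⟩ := this rs h2
  refine ⟨ts, by simpa using h1, h5, ?_⟩
  rwa [isWeaklyRegular_map_algebraMap_iff] at h3

theorem dep_of_isLocalHom [IsLocalHom (algebraMap R S)] {n : ℕ} (h : Dep R n M) :
    Dep S n M := by
  obtain ⟨rs, h1, h2, h3⟩ := h
  refine ⟨rs.map (algebraMap R S), by simpa using h1, ?_, ?_⟩
  · intro s hs
    obtain ⟨r, hr, rfl⟩ := List.mem_map.1 hs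
    have := h2 r hr
    rw [mem_maximalIdeal, mem_nonunits_iff] at this ⊢
    exact fun hu => this (isUnit_of_map_unit _ _ hu)
  · rwa [isWeaklyRegular_map_algebraMap_iff]

end transfer

section reg

/-- an element outside `m²` and outside all minimal primes. -/
theorem exists_notMem_sq (R : Type u) [CommRing R] [IsLocalRing R] [IsNoetherianRing R]
    (hd : 0 < ringKrullDim R) :
    ∃ x ∈ maximalIdeal R, x ∉ maximalIdeal R ^ 2 ∧ ∀ P ∈ minimalPrimes R, x ∉ P := by
  classical
  have hmin : (minimalPrimes R).Finite := minimalPrimes.finite_of_isNoetherianRing R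
  have h0 : maximalIdeal R ≠ ⊥ := by
    intro h
    have : IsField R := IsLocalRing.isField_iff_maximalIdeal_eq.2 h
    let := this.toField
    rw [ringKrullDim_eq_zero_of_field] at hd
    exact absurd hd (lt_irrefl _)
  by_contra! hcon
  have hsub : (maximalIdeal R : Set R) ⊆
      ⋃ I ∈ insert (maximalIdeal R ^ 2) (minimalPrimes R), (I : Set R) := by
    intro x hx
    simp only [Set.mem_iUnion, Set.mem_insert_iff, exists_prop, SetLike.mem_coe]
    by_cases hx2 : x ∈ maximalIdeal R ^ 2
    · exact ⟨_, Or.inl rfl, hx2⟩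
    · obtain ⟨P, hP, hxP⟩ := hcon x hx hx2
      exact ⟨P, Or.inr hP, hxP⟩
  have hfin : (insert (maximalIdeal R ^ 2) (minimalPrimes R)).Finite := hmin.insert _
  obtain ⟨I, hI, hle⟩ := (Ideal.subset_union_prime_finite hfin (maximalIdeal R ^ 2)
    (maximalIdeal R ^ 2) (by
      intro I hI h1 _
      rcases Set.mem_insert_iff.1 hI with rfl | h
      · exact absurd rfl h1
      · exact Ideal.IsMinimalPrime.isPrime h)).1 hsub
  rcases Set.mem_insert_iff.1 hI with rfl | h
  · have h1 : maximalIdeal R ≤ maximalIdeal R • maximalIdeal R := by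
      rw [smul_eq_mul, ← pow_two]; exact hle
    refine h0 (Submodule.eq_bot_of_le_smul_of_le_jacobson_bot _ _
      (IsNoetherian.noetherian _) h1 ?_)
    rw [IsLocalRing.jacobson_eq_maximalIdeal _ bot_ne_top]
  · have hp := Ideal.IsMinimalPrime.isPrime h
    have h1 : I = maximalIdeal R := le_antisymm (le_maximalIdeal hp.ne_top) hle
    have h2 : ringKrullDim R ≤ 0 := by
      have h3 : Ring.KrullDimLE 0 R := Ring.KrullDimLE.mk₀ fun Q hQ => by
        have h4 : Q ≤ I := by rw [h1]; exact le_maximalIdeal hQ.ne_top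
        have h5 : I ≤ Q := h.2 ⟨hQ, bot_le⟩ h4
        rw [le_antisymm h4 h5, h1]
        infer_instance
      exact (Ring.krullDimLE_iff (n := 0)).1 h3
    exact absurd (hd.trans_le h2) (lt_irrefl _)

/-- If `x ∈ m \ m²` then `m` is generated by `x` and `d` further elements. -/
theorem exists_generators {R : Type u} [CommRing R] [IsLocalRing R] {d : ℕ}
    (hfg : (maximalIdeal R).FG)
    (hd : (maximalIdeal R).spanFinrank = d + 1) {x : R} (hx : x ∈ maximalIdeal R)
    (hx2 : x ∉ maximalIdeal R ^ 2) :
    ∃ s : Finset R, s.card = d ∧ maximalIdeal R = Ideal.span {x} ⊔ Ideal.span (s : Set R) := by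
  classical
  obtain ⟨t, ht, hts⟩ := Submodule.FG.exists_span_finset_card_eq_spanFinrank hfg
  rw [hd] at ht
  have htm : ∀ y ∈ t, y ∈ maximalIdeal R := fun y hy => by
    rw [← hts]; exact Submodule.subset_span hy
  have hx' : x ∈ Submodule.span R (t : Set R) := by rw [hts]; exact hx
  rw [Submodule.mem_span_finset] at hx'
  obtain ⟨f, -, hf⟩ := hx'
  obtain ⟨y, hy, hfy⟩ : ∃ y ∈ t, IsUnit (f y) := by
    by_contra! hcon
    apply hx2
    rw [← hf, pow_two]
    refine Ideal.sum_mem _ fun y hy => ?_
    exact Ideal.mul_mem_mul (hcon y hy) (htm y hy)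
  refine ⟨t.erase y, by rw [Finset.card_erase_of_mem hy, ht]; rfl, ?_⟩
  apply le_antisymm
  · rw [← hts]
    change Submodule.span R _ ≤ _
    rw [Submodule.span_le]
    intro z hz
    by_cases hzy : z = y
    · subst hzy
      have h1 : f z * z ∈ Ideal.span {x} ⊔ Ideal.span (↑(t.erase z) : Set R) := by
        have h2 : f z * z = x - ∑ w ∈ t.erase z, f w * w := by
          rw [← hf, ← Finset.add_sum_erase _ _ hy]
          simp [smul_eq_mul]
        rw [h2]
        refine Ideal.sub_mem _ (Ideal.mem_sup_left (Ideal.mem_span_singleton_self x)) ?_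
        refine Ideal.sum_mem _ fun w hw => Ideal.mul_mem_left _ _ (Ideal.mem_sup_right ?_)
        exact Ideal.subset_span hw
      exact (Ideal.unit_mul_mem_iff_mem _ hfy).1 h1
    · exact Ideal.mem_sup_right (Ideal.subset_span (by simpa [hzy] using hz))
  · rw [sup_le_iff]
    constructor
    · rw [Ideal.span_singleton_le_iff_mem]; exact hx
    · rw [Ideal.span_le]
      intro z hz
      exact htm z (Finset.mem_of_mem_erase hz)

/-- The quotient of a regular local ring by an element of `m \ m²` is regular. -/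
theorem isRegularLocalRing_quotient {R : Type u} [CommRing R] [IsRegularLocalRing R] {d : ℕ}
    (hd : ringKrullDim R = (d + 1 : ℕ)) {x : R} (hx : x ∈ maximalIdeal R)
    (hx2 : x ∉ maximalIdeal R ^ 2) :
    IsRegularLocalRing (R ⧸ Ideal.span {x}) ∧ ringKrullDim (R ⧸ Ideal.span {x}) = (d : ℕ) := by
  classical
  have hsp : (maximalIdeal R).spanFinrank = d + 1 := by
    have := (isRegularLocalRing_iff R).1 inferInstance
    rw [hd] at this
    exact_mod_cast this
  obtain ⟨s, hs, hm⟩ := exists_generators (IsNoetherian.noetherian _) hsp hx hx2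
  have hne : Ideal.span {x} ≠ ⊤ := fun h =>
    (maximalIdeal.isMaximal R).ne_top (top_le_iff.1 (h ▸ (by
      rw [Ideal.span_singleton_le_iff_mem]; exact hx)))
  have : Nontrivial (R ⧸ Ideal.span {x}) := Ideal.Quotient.nontrivial_iff.2 hne
  have : IsLocalRing (R ⧸ Ideal.span {x}) :=
    IsLocalRing.of_surjective' (Ideal.Quotient.mk _) Ideal.Quotient.mk_surjective
  have hm' : maximalIdeal (R ⧸ Ideal.span {x}) =
      Ideal.span ((Ideal.Quotient.mk (Ideal.span {x})) '' (s : Set R)) := by
    rw [← Ideal.map_span, ← IsLocalRing.map_maximalIdeal_of_surjective _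
      (Ideal.Quotient.mk_surjective (I := Ideal.span {x})), hm, Ideal.map_sup,
      Ideal.map_quotient_self, bot_sup_eq]
  have h1 : (maximalIdeal (R ⧸ Ideal.span {x})).spanFinrank ≤ d := by
    rw [hm']
    refine (Submodule.spanFinrank_span_le_ncard_of_finite (Set.toFinite _)).trans ?_
    rw [← hs, ← Set.ncard_coe_finset s]
    exact Set.ncard_image_le (Set.toFinite _)
  have h2 : ringKrullDim R ≤ ringKrullDim (R ⧸ Ideal.span {x}) + 1 := by
    have h := ringKrullDim_le_ringKrullDim_quotSMulTop_succ hx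
    have he : x • (⊤ : Ideal R) = Ideal.span {x} := by
      rw [← Submodule.ideal_span_singleton_smul]; simp
    rwa [he] at h
  have h3 : ringKrullDim (R ⧸ Ideal.span {x}) ≤ (maximalIdeal (R ⧸ Ideal.span {x})).spanFinrank :=
    ringKrullDim_le_spanFinrank_maximalIdeal _
  have h4 : ringKrullDim (R ⧸ Ideal.span {x}) ≤ (d : ℕ) := h3.trans (by exact_mod_cast h1)
  have h5 : (d : WithBot ℕ∞) ≤ ringKrullDim (R ⧸ Ideal.span {x}) := by
    rw [hd] at h2
    exact le_of_add_one_le_add_one h2
  have h6 := le_antisymm h4 h5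
  exact ⟨IsRegularLocalRing.of_spanFinrank_maximalIdeal_le _ (by rw [h6]; exact_mod_cast h1), h6⟩

theorem isDomain_of_prime_quotient {R : Type u} [CommRing R] [IsLocalRing R] [IsNoetherianRing R]
    {x : R} (hx : x ∈ maximalIdeal R) [IsDomain (R ⧸ Ideal.span {x})]
    (hmin : ∀ P ∈ minimalPrimes R, x ∉ P) : IsDomain R := by
  have hpr : (Ideal.span {x}).IsPrime := (Ideal.Quotient.isDomain_iff_prime _).1 inferInstance
  obtain ⟨P, hP, hle⟩ := Ideal.exists_minimalPrimes_le (bot_le (a := Ideal.span {x}))
  have hPp : P.IsPrime := hP.1.1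
  have hxP : x ∉ P := hmin P hP
  have h1 : P ≤ Ideal.span {x} • P := by
    intro a ha
    obtain ⟨b, rfl⟩ := Ideal.mem_span_singleton'.1 (hle ha)
    have hb : b ∈ P := (hPp.mem_or_mem ha).resolve_right hxP
    rw [smul_eq_mul, mul_comm b x]
    exact Ideal.mul_mem_mul (Ideal.mem_span_singleton_self x) hb
  have h2 : P = ⊥ := by
    refine Submodule.eq_bot_of_le_smul_of_le_jacobson_bot _ _ (IsNoetherian.noetherian _) h1 ?_
    rw [Ideal.span_singleton_le_iff_mem, IsLocalRing.jacobson_eq_maximalIdeal _ bot_ne_top]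
    exact hx
  rw [h2] at hPp
  exact IsDomain.of_bot_isPrime R

/-- **A regular local ring is a domain and is Cohen-Macaulay.** -/
theorem regular_aux (d : ℕ) : ∀ (R : Type u) [CommRing R] [IsRegularLocalRing R],
    ringKrullDim R = (d : ℕ) → IsDomain R ∧ Dep R d R := by
  induction d with
  | zero =>
    intro R _ _ hd
    have h1 : (maximalIdeal R).spanFinrank = 0 := by
      have := (isRegularLocalRing_iff R).1 inferInstance
      rw [hd] at this
      exact_mod_cast this
    have h2 : maximalIdeal R = ⊥ := 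
      (Submodule.spanFinrank_eq_zero_iff_eq_bot (IsNoetherian.noetherian _)).1 h1
    have h3 : IsField R := IsLocalRing.isField_iff_maximalIdeal_eq.2 h2
    exact ⟨h3.isDomain, Dep.zero⟩
  | succ d ih =>
    intro R _ _ hd
    obtain ⟨x, hx, hx2, hmin⟩ := exists_notMem_sq R (by rw [hd]; exact_mod_cast Nat.succ_pos d)
    obtain ⟨hR', hd'⟩ := isRegularLocalRing_quotient hd hx hx2
    obtain ⟨hdom, hD⟩ := ih (R ⧸ Ideal.span {x}) hd'
    have hRd : IsDomain R := isDomain_of_prime_quotient hx hmin
    refine ⟨hRd, ?_⟩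
    have hx0 : x ≠ 0 := by
      rintro rfl
      exact hx2 (Ideal.zero_mem _)
    have hreg : IsSMulRegular R x := by
      intro a b hab
      exact mul_left_cancel₀ hx0 hab
    have hD' : Dep R d (R ⧸ Ideal.span {x}) :=
      dep_of_surjective (R := R) (S := R ⧸ Ideal.span {x}) (M := R ⧸ Ideal.span {x})
        Ideal.Quotient.mk_surjective hD
    refine Dep.cons hx hreg (hD'.congr (Submodule.quotEquivOfEq _ _ ?_))
    rw [← Submodule.ideal_span_singleton_smul]; simp

theorem isDomain_of_regular (R : Type u) [CommRing R] [IsRegularLocalRing R] : IsDomain R := by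
  obtain ⟨d, hd⟩ : ∃ d : ℕ, ringKrullDim R = d :=
    ⟨_, ((isRegularLocalRing_iff R).1 inferInstance).symm⟩
  exact (regular_aux d R hd).1

/-- **A regular local ring is Cohen-Macaulay.** -/
theorem CM.of_regular (R : Type u) [CommRing R] [IsRegularLocalRing R] {d : ℕ}
    (hd : ringKrullDim R = (d : ℕ)) : CM R d R :=
  ⟨(regular_aux d R hd).2, by rw [Module.supportDim_self_eq_ringKrullDim, hd]⟩

end reg

end Crest.Agent.R188.Noe
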