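import Crest.Agent.R183.Om4
import Crest.Agent.R183.Cic
import Crest.Agent.R183.BInf7
import Crest.Agent.R183.Env1
import Mathlib.FieldTheory.Minpoly.IsIntegrallyClosed
import Mathlib.RingTheory.Algebraic.Integral

-- ▼ part R188/Apl1
section

/-!
R188 / Apl1 : the `p`-completion `A` of `B_∞ = B[p^{1/p^∞}, y^{1/p^∞}]` is a completely integrally
closed domain.  Abstract form: a ring with levels (`Lev`).   Author: helper245.
-/

set_option autoImplicit false
set_option linter.unusedSectionVars false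

namespace Crest.Agent.R188.Apl

open Crest.Agent.R183.Om (Reg RegMod PData exists_series)
open Crest.Agent.R183.Cic (CIC)

/-- A ring `R` with levels `S e` (`= B[p^{1/p^e}, y^{1/p^e}]`) over a base `B`. -/
structure Lev (p : ℕ) {B R : Type*} [CommRing B] [CommRing R] (j : B →+* R) (ϖ : ℕ → R)
    (S : ℕ → Subring R) : Prop where
  dat : PData p R ϖ
  reg : Reg (p : R)
  mono : Monotone S
  memB : ∀ e b, j b ∈ S e
  memϖ : ∀ e, ϖ e ∈ S e
  dense : ∀ x, ∃ e, ∃ y ∈ S e, (p : R) ∣ x - y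
  cancel : ∀ e w, ϖ e * w ∈ S e → w ∈ S e
  pow : ∀ e, ∀ z ∈ S e, ∃ b, (p : R) ∣ z ^ p ^ e - j b
  lift : ∀ e b, ∃ z ∈ S e, (p : R) ∣ z ^ p ^ e - j b
  inj : ∀ b f, ϖ f ∣ j b → (p : B) ∣ b
  dom : ∀ a b : B, (p : B) ∣ a * b → (p : B) ∣ a ∨ (p : B) ∣ b
  one : ¬ (p : B) ∣ 1
  cic : ∀ a b c : B, ¬ (p : B) ∣ b → ¬ (p : B) ∣ c →
    (∀ m : ℕ, ∃ x, (p : B) ∣ c * a ^ m - b ^ m * x) → ∃ x, (p : B) ∣ a - b * x

section

variable {p : ℕ} [hp : Fact p.Prime] {B R : Type*} [CommRing B] [CommRing R] {j : B →+* R}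
  {ϖ : ℕ → R} {S : ℕ → Subring R}

omit hp in
lemma pow_congr {a b : R} (k : ℕ) {n : R} (h : n ∣ a - b) : n ∣ a ^ k - b ^ k :=
  h.trans (sub_dvd_pow_sub_pow _ _ _)

lemma dvd_frob (a b : R) : (p : R) ∣ a ^ p - b ^ p - (a - b) ^ p := by
  have h := add_pow_prime_eq hp.out (a - b) b
  rw [sub_add_cancel] at h
  rw [h]
  refine ⟨(a - b) * b * ∑ k ∈ Finset.Ioo 0 p, (a - b) ^ (k - 1) * b ^ (p - k - 1) *
    ↑(p.choose k / p), ?_⟩
  ring

/-- `ϖ f` does not divide `x` for any `f` (content `0`) -/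
def Unr (ϖ : ℕ → R) (x : R) : Prop := ∀ f, ¬ ϖ f ∣ x

namespace Lev

variable (L : Lev p j ϖ S)
include L

lemma dvd_le {e f : ℕ} (h : e ≤ f) : ϖ f ∣ ϖ e := by
  obtain ⟨k, rfl⟩ := Nat.exists_eq_add_of_le h
  rw [← L.dat.roots' e k]
  exact dvd_pow_self _ (pow_ne_zero _ hp.out.ne_zero)

lemma dvd_p (f : ℕ) : ϖ f ∣ (p : R) := by
  rw [← L.dat.zero]; exact L.dvd_le (Nat.zero_le _)

lemma unr_of_not {e : ℕ} {z : R} {b : B} (h : (p : R) ∣ z ^ p ^ e - j b) (hb : ¬ (p : B) ∣ b) :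
    Unr ϖ z := by
  intro f hf
  apply hb
  apply L.inj b f
  have h1 : ϖ f ∣ z ^ p ^ e := hf.trans (dvd_pow_self _ (pow_ne_zero _ hp.out.ne_zero))
  have h2 : j b = z ^ p ^ e - (z ^ p ^ e - j b) := by ring
  rw [h2]
  exact dvd_sub h1 ((L.dvd_p f).trans h)

lemma dvd_of_dvd {e : ℕ} {z : R} {b : B} (h : (p : R) ∣ z ^ p ^ e - j b) (hb : (p : B) ∣ b) :
    ϖ e ∣ z := by
  apply L.dat.finj_iter L.reg e
  have h2 : z ^ p ^ e = (z ^ p ^ e - j b) + j b := by ring
  rw [h2]
  refine dvd_add h ?_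
  have := map_dvd j hb
  rwa [map_natCast] at this

lemma not_dvd_of_unr {e : ℕ} {z : R} {b : B} (h : (p : R) ∣ z ^ p ^ e - j b) (hz : Unr ϖ z) :
    ¬ (p : B) ∣ b := fun hb => hz e (L.dvd_of_dvd h hb)

/-- every element has a power congruent to an element of `B` -/
lemma exists_pow (z : R) : ∃ e b, (p : R) ∣ z ^ p ^ e - j b := by
  obtain ⟨e, y, hy, h⟩ := L.dense z
  obtain ⟨b, hb⟩ := L.pow e y hy
  refine ⟨e, b, ?_⟩
  have := dvd_add (pow_congr (p ^ e) h) hb
  have h2 : z ^ p ^ e - j b = (z ^ p ^ e - y ^ p ^ e) + (y ^ p ^ e - j b) := by ring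
  rw [h2]; exact this

omit L in
lemma raise {e : ℕ} {z : R} {b : B} (h : (p : R) ∣ z ^ p ^ e - j b) (k : ℕ) :
    (p : R) ∣ z ^ p ^ (e + k) - j (b ^ p ^ k) := by
  rw [pow_add, pow_mul, map_pow]
  exact pow_congr _ h

lemma exists_pow₂ (z w : R) : ∃ e b c, (p : R) ∣ z ^ p ^ e - j b ∧ (p : R) ∣ w ^ p ^ e - j c := by
  obtain ⟨e, b, hb⟩ := L.exists_pow z
  obtain ⟨f, c, hc⟩ := L.exists_pow w
  refine ⟨e + f, b ^ p ^ f, c ^ p ^ e, raise hb f, ?_⟩
  rw [add_comm]
  exact raise hc e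

lemma unr_mul {x y : R} (hx : Unr ϖ x) (hy : Unr ϖ y) : Unr ϖ (x * y) := by
  obtain ⟨e, b, c, hb, hc⟩ := L.exists_pow₂ x y
  have hb' := L.not_dvd_of_unr hb hx
  have hc' := L.not_dvd_of_unr hc hy
  refine L.unr_of_not (e := e) (b := b * c) ?_ fun h => (L.dom b c h).elim hb' hc'
  obtain ⟨u, hu⟩ := hb
  obtain ⟨v, hv⟩ := hc
  refine ⟨u * y ^ p ^ e + j b * v, ?_⟩
  rw [mul_pow, map_mul]
  linear_combination y ^ p ^ e * hu + j b * hv

lemma unr_one : Unr ϖ (1 : R) := by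
  refine L.unr_of_not (e := 0) (b := 1) ?_ L.one
  rw [one_pow, map_one, sub_self]; exact dvd_zero _

lemma unr_pow {x : R} (hx : Unr ϖ x) (m : ℕ) : Unr ϖ (x ^ m) := by
  induction m with
  | zero => rw [pow_zero]; exact L.unr_one
  | succ m ih => rw [pow_succ]; exact L.unr_mul ih hx

lemma unr_add {x : R} (hx : Unr ϖ x) (e : ℕ) (w : R) : Unr ϖ (x + ϖ e * w) := by
  intro f hf
  refine hx (max e f) ?_
  have h1 : ϖ (max e f) ∣ x + ϖ e * w := (L.dvd_le (le_max_right e f)).trans hf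
  have h2 : ϖ (max e f) ∣ ϖ e * w := (L.dvd_le (le_max_left e f)).mul_right _
  exact (dvd_add_left h2).1 h1

/-- content modulo `p` -/
lemma content_aux {y : R} (hy : ¬ (p : R) ∣ y) : ∃ (e k : ℕ) (y0 : R), k < p ^ e ∧
    y = ϖ e ^ k * y0 ∧ Unr ϖ y0 := by
  classical
  obtain ⟨e, r, hr, w, hw⟩ := L.dense y
  have hpe : 0 < p ^ e := pow_pos hp.out.pos e
  have hr' : ¬ (p : R) ∣ r := by
    intro h
    apply hy
    have : y = p * w + r := by rw [← hw]; ring
    rw [this]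
    exact dvd_add (dvd_mul_right _ _) h
  -- maximal k
  have key : ∀ n ≤ p ^ e, (∃ k < n, ∃ r0 ∈ S e, r = ϖ e ^ k * r0 ∧ ¬ ϖ e ∣ r0) ∨
      ∃ r0 ∈ S e, r = ϖ e ^ n * r0 := by
    intro n hn
    induction n with
    | zero => exact Or.inr ⟨r, hr, by ring⟩
    | succ n ih =>
      rcases ih (by omega) with ⟨k, hk, h⟩ | ⟨r0, hr0, h⟩
      · exact Or.inl ⟨k, by omega, h⟩
      · by_cases hd : ϖ e ∣ r0
        · obtain ⟨s, hs⟩ := hd
          refine Or.inr ⟨s, L.cancel e s (hs ▸ hr0), ?_⟩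
          rw [h, hs]; ring
        · exact Or.inl ⟨n, by omega, r0, hr0, h, hd⟩
  rcases key (p ^ e) le_rfl with ⟨k, hk, r0, hr0, h, hd⟩ | ⟨r0, -, h⟩
  · refine ⟨e, k, r0 + ϖ e * (ϖ e ^ (p ^ e - k - 1) * w), hk, ?_, ?_⟩
    · have h1 : y = r + p * w := by rw [← hw]; ring
      have h2 : (p : R) = ϖ e ^ k * (ϖ e * ϖ e ^ (p ^ e - k - 1)) := by
        rw [← pow_succ', ← pow_add, ← L.dat.pow_eq_p e]
        congr 1
        omega
      rw [h1, h]
      linear_combination w * h2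
    · apply L.unr_add
      obtain ⟨b, hb⟩ := L.pow e r0 hr0
      exact L.unr_of_not hb fun h => hd (L.dvd_of_dvd hb h)
  · exact absurd (h ▸ (L.dat.pow_eq_p e).symm ▸ dvd_mul_right _ _) hr'

lemma regMod_of_unr {x : R} (hx : Unr ϖ x) : RegMod x (p : R) := by
  intro y hy
  by_contra hn
  obtain ⟨e, k, y0, hk, rfl, h0⟩ := L.content_aux hn
  obtain ⟨z, hz⟩ := hy
  have h2 : (p : R) = ϖ e ^ k * (ϖ e * ϖ e ^ (p ^ e - k - 1)) := by
    rw [← pow_succ', ← pow_add, ← L.dat.pow_eq_p e]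
    congr 1
    omega
  have h3 : ϖ e ^ k * (x * y0 - ϖ e * (ϖ e ^ (p ^ e - k - 1) * z)) = 0 := by
    linear_combination hz + z * h2
  have h4 := L.dat.reg_pow L.reg e k _ h3
  refine L.unr_mul hx h0 e ?_
  rw [sub_eq_zero] at h4
  rw [h4]
  exact dvd_mul_right _ _

lemma regMod_pow {x : R} (hx : RegMod x (p : R)) : ∀ (m : ℕ) (y : R), (p : R) ^ m ∣ x * y →
    (p : R) ^ m ∣ y := by
  intro m
  induction m with
  | zero => intro y _; simp
  | succ m ih =>
    intro y hy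
    obtain ⟨z, rfl⟩ := ih y ((pow_dvd_pow _ (Nat.le_succ m)).trans hy)
    obtain ⟨w, hw⟩ := hy
    have h1 : (p : R) ^ m * (x * z - p * w) = 0 := by rw [pow_succ] at hw; linear_combination hw
    have h2 : x * z - p * w = 0 := by
      clear ih hw
      induction m with
      | zero => simpa using h1
      | succ m ihm =>
        rw [pow_succ', mul_assoc] at h1
        exact ihm (L.reg _ h1)
    obtain ⟨v, hv⟩ := hx z ⟨w, by linear_combination h2⟩
    exact ⟨v, by rw [hv]; ring⟩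

/-- regular modulo powers of `ϖ` -/
lemma regMod_ϖ {x : R} (hx : RegMod x (p : R)) (e k : ℕ) (y : R) (h : ϖ e ^ k ∣ x * y) :
    ϖ e ^ k ∣ y := by
  obtain ⟨z, hz⟩ := h
  have hk : k ≤ p ^ e * k := Nat.le_mul_of_pos_left k (pow_pos hp.out.pos e)
  have h1 : (p : R) ^ k = ϖ e ^ k * ϖ e ^ (p ^ e * k - k) := by
    rw [← L.dat.pow_eq_p e, ← pow_mul, ← pow_add]
    congr 1
    omega
  have h2 : (p : R) ^ k ∣ x * (ϖ e ^ (p ^ e * k - k) * y) := ⟨z, by
    rw [h1]; linear_combination ϖ e ^ (p ^ e * k - k) * hz⟩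
  obtain ⟨w, hw⟩ := L.regMod_pow hx k _ h2
  refine ⟨w, ?_⟩
  have h3 : ϖ e ^ (p ^ e * k - k) * (y - ϖ e ^ k * w) = 0 := by
    rw [h1] at hw
    linear_combination hw
  have := L.dat.reg_pow L.reg e _ _ h3
  linear_combination this

section Sep

variable (hsep : ∀ x : R, (∀ n : ℕ, (p : R) ^ n ∣ x) → x = 0)
include hsep

/-- content decomposition -/
theorem content {y : R} (hy : y ≠ 0) : ∃ (e k : ℕ) (y0 : R), y = ϖ e ^ k * y0 ∧ Unr ϖ y0 := by
  classical
  have h1 : ∃ n : ℕ, ¬ (p : R) ^ n ∣ y := by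
    by_contra h
    push Not at h
    exact hy (hsep y h)
  have h2 := Nat.find_spec h1
  have h3 : Nat.find h1 ≠ 0 := by
    intro h0
    rw [h0, pow_zero] at h2
    exact h2 (one_dvd _)
  obtain ⟨n, hn⟩ := Nat.exists_eq_succ_of_ne_zero h3
  obtain ⟨z, hz⟩ : (p : R) ^ n ∣ y := by
    by_contra h
    have := Nat.find_min' h1 h
    omega
  have h4 : ¬ (p : R) ∣ z := by
    rintro ⟨w, hw⟩
    apply h2
    rw [hn]
    exact ⟨w, by rw [hz, hw, Nat.succ_eq_add_one]; ring⟩
  obtain ⟨e, k, y0, -, hz0, h0⟩ := L.content_aux h4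
  refine ⟨e, p ^ e * n + k, y0, ?_, h0⟩
  rw [hz, hz0, ← L.dat.pow_eq_p e]
  ring

lemma regMod_reg {x : R} (hx : RegMod x (p : R)) : Reg x := by
  intro y hy
  refine hsep y fun n => L.regMod_pow hx n y ?_
  rw [hy]; exact dvd_zero _

theorem mul_ne_zero {x y : R} (hx : x ≠ 0) (hy : y ≠ 0) : x * y ≠ 0 := by
  obtain ⟨e, k, x0, rfl, h0⟩ := L.content hsep hx
  intro h
  rw [mul_assoc] at h
  have h1 := L.dat.reg_pow L.reg e k _ h
  exact hy (L.regMod_reg hsep (L.regMod_of_unr h0) y h1)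

end Sep

lemma content_raise {y y0 : R} {e k : ℕ} (h : y = ϖ e ^ k * y0) {f : ℕ} (hf : e ≤ f) :
    ∃ l, y = ϖ f ^ l * y0 := by
  obtain ⟨i, rfl⟩ := Nat.exists_eq_add_of_le hf
  refine ⟨p ^ i * k, ?_⟩
  rw [h, ← L.dat.roots' e i, ← pow_mul]

/-- Frobenius kills the difference modulo `ϖ_e` -/
lemma pow_congr_ϖ {u v : R} (e : ℕ) (h : ϖ e ∣ u - v) : (p : R) ∣ u ^ p ^ e - v ^ p ^ e := by
  have h1 : ∀ (e : ℕ) (u v : R), (p : R) ∣ (u - v) ^ p ^ e - (u ^ p ^ e - v ^ p ^ e) := by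
    intro e
    induction e with
    | zero => intro u v; simp
    | succ e ih =>
      intro u v
      have h2 := dvd_frob (p := p) u v
      have h3 := pow_congr (p ^ e) h2
      have h4 := ih (u ^ p) (v ^ p)
      rw [← pow_mul, ← pow_mul, ← pow_succ'] at h4
      have h5 : (u - v) ^ p ^ (e + 1) - (u ^ p ^ (e + 1) - v ^ p ^ (e + 1)) =
          -(((u ^ p - v ^ p) ^ p ^ e) - ((u - v) ^ p) ^ p ^ e) +
            ((u ^ p - v ^ p) ^ p ^ e - (u ^ p ^ (e + 1) - v ^ p ^ (e + 1))) := by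
        rw [← pow_mul (u - v), ← pow_succ' p e]; ring
      rw [h5]
      exact dvd_add ((dvd_neg).2 h3) h4
  have h2 : (p : R) ∣ (u - v) ^ p ^ e := by
    rw [← L.dat.pow_eq_p e]
    exact pow_dvd_pow_of_dvd h _
  have h3 : u ^ p ^ e - v ^ p ^ e = (u - v) ^ p ^ e - ((u - v) ^ p ^ e - (u ^ p ^ e - v ^ p ^ e)) := by
    ring
  rw [h3]
  exact dvd_sub h2 (h1 e u v)

omit L hp in
/-- `b^n ∣ c a^n` for all `n` -/
def AI (a b c : R) : Prop := ∀ n : ℕ, b ^ n ∣ c * a ^ n

omit L in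
lemma AI.sub {a b c : R} (h : AI a b c) (x : R) : AI (a - b * x) b c := by
  intro n
  rw [sub_eq_add_neg, add_pow, Finset.mul_sum]
  refine Finset.dvd_sum fun k hk => ?_
  rw [Finset.mem_range, Nat.lt_succ_iff] at hk
  obtain ⟨y, hy⟩ := h k
  have h1 : b ^ n = b ^ k * b ^ (n - k) := by rw [← pow_add]; congr 1; omega
  refine ⟨y * (-x) ^ (n - k) * (n.choose k : R), ?_⟩
  rw [h1, neg_mul_eq_mul_neg, mul_pow]
  linear_combination b ^ (n - k) * (-x) ^ (n - k) * (n.choose k : R) * hy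

/-- `B/p` is root closed in its fraction field -/
lemma root_B {u v s : B} {Q : ℕ} (hQ : 0 < Q) (hv : ¬ (p : B) ∣ v)
    (h : (p : B) ∣ u ^ Q - v ^ Q * s) : ∃ x, (p : B) ∣ u - v * x := by
  have hvp : ∀ n, ¬ (p : B) ∣ v ^ n := by
    intro n
    induction n with
    | zero => rw [pow_zero]; exact L.one
    | succ n ih => rw [pow_succ]; exact fun hh => (L.dom _ _ hh).elim ih hv
  refine L.cic u v (v ^ Q) hv (hvp Q) fun m => ?_
  have h1 : (p : B) ∣ u ^ (Q * (m / Q)) - v ^ (Q * (m / Q)) * s ^ (m / Q) := by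
    rw [pow_mul, pow_mul, ← mul_pow]
    exact pow_congr _ h
  have h2 : Q * (m / Q) + m % Q = m := Nat.div_add_mod m Q
  have h3 : m % Q < Q := Nat.mod_lt _ hQ
  refine ⟨v ^ (Q - m % Q) * s ^ (m / Q) * u ^ (m % Q), ?_⟩
  have h4 : v ^ Q * u ^ m - v ^ m * (v ^ (Q - m % Q) * s ^ (m / Q) * u ^ (m % Q)) =
      v ^ Q * u ^ (m % Q) * (u ^ (Q * (m / Q)) - v ^ (Q * (m / Q)) * s ^ (m / Q)) := by
    have h5 : v ^ m * v ^ (Q - m % Q) = v ^ Q * v ^ (Q * (m / Q)) := by
      rw [← pow_add, ← pow_add]; congr 1; omega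
    have h6 : u ^ m = u ^ (Q * (m / Q)) * u ^ (m % Q) := by
      rw [← pow_add, h2]
    rw [h6]
    linear_combination -(s ^ (m / Q) * u ^ (m % Q)) * h5
  rw [h4]
  exact h1.mul_left _

/-- division modulo `ϖ_e` -/
lemma div_step {a b c α β γ : R} {e : ℕ} (hα : α ∈ S e) (hβ : β ∈ S e) (hγ : γ ∈ S e)
    (ha : ϖ e ∣ a - α) (hb : (p : R) ∣ b - β) (hc : (p : R) ∣ c - γ) (ub : Unr ϖ b)
    (uc : Unr ϖ c) (h : AI a b c) : ∃ ξ ∈ S e, ∃ α' ∈ S e, α = β * ξ + ϖ e * α' := by
  obtain ⟨α1, hα1⟩ := L.pow e α hα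
  obtain ⟨β1, hβ1⟩ := L.pow e β hβ
  obtain ⟨γ1, hγ1⟩ := L.pow e γ hγ
  have ha1 : (p : R) ∣ a ^ p ^ e - j α1 := by
    have := dvd_add (L.pow_congr_ϖ e ha) hα1
    rwa [sub_add_sub_cancel] at this
  have hb1 : (p : R) ∣ b ^ p ^ e - j β1 := by
    have := dvd_add (pow_congr (p ^ e) hb) hβ1
    rwa [sub_add_sub_cancel] at this
  have hc1 : (p : R) ∣ c ^ p ^ e - j γ1 := by
    have := dvd_add (pow_congr (p ^ e) hc) hγ1
    rwa [sub_add_sub_cancel] at this
  have nb := L.not_dvd_of_unr hb1 ub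
  have nc := L.not_dvd_of_unr hc1 uc
  have hvp : ∀ n, ¬ (p : B) ∣ β1 ^ n := by
    intro n
    induction n with
    | zero => rw [pow_zero]; exact L.one
    | succ n ih => rw [pow_succ]; exact fun hh => (L.dom _ _ hh).elim ih nb
  have key : ∀ m : ℕ, ∃ x, (p : B) ∣ γ1 * α1 ^ m - β1 ^ m * x := by
    intro m
    obtain ⟨x, hx⟩ := h m
    obtain ⟨f, ξ, hξ⟩ := L.exists_pow x
    refine L.root_B (s := ξ ^ p ^ e) (Q := p ^ f) (pow_pos hp.out.pos f) (hvp m) ?_
    have e1 : (p : R) ∣ (c * a ^ m) ^ p ^ e - j (γ1 * α1 ^ m) := by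
      obtain ⟨u, hu⟩ := hc1
      obtain ⟨v, hv⟩ := pow_congr m ha1
      refine ⟨u * (a ^ p ^ e) ^ m + j γ1 * v, ?_⟩
      rw [mul_pow, ← pow_mul, mul_comm m, pow_mul, map_mul, map_pow]
      linear_combination (a ^ p ^ e) ^ m * hu + j γ1 * hv
    have e2 : (p : R) ∣ (b ^ m * x) ^ p ^ e - j (β1 ^ m) * x ^ p ^ e := by
      obtain ⟨v, hv⟩ := pow_congr m hb1
      refine ⟨v * x ^ p ^ e, ?_⟩
      rw [mul_pow, ← pow_mul, mul_comm m, pow_mul, map_pow]
      linear_combination x ^ p ^ e * hv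
    have e3 : (p : R) ∣ j (γ1 * α1 ^ m) - j (β1 ^ m) * x ^ p ^ e := by
      have : j (γ1 * α1 ^ m) - j (β1 ^ m) * x ^ p ^ e =
          ((b ^ m * x) ^ p ^ e - j (β1 ^ m) * x ^ p ^ e) -
            ((c * a ^ m) ^ p ^ e - j (γ1 * α1 ^ m)) := by rw [hx]; ring
      rw [this]; exact dvd_sub e2 e1
    have e4 := pow_congr (p ^ f) e3
    have e5 : (p : R) ∣ j ((γ1 * α1 ^ m) ^ p ^ f - (β1 ^ m) ^ p ^ f * ξ ^ p ^ e) := by
      obtain ⟨v, hv⟩ := pow_congr (p ^ e) hξ
      obtain ⟨w, hw⟩ := e4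
      refine ⟨w + j (β1 ^ m) ^ p ^ f * v, ?_⟩
      rw [map_sub, map_mul, map_pow, map_pow, map_pow j ξ]
      have h7 : (x ^ p ^ f) ^ p ^ e = (x ^ p ^ e) ^ p ^ f := by
        rw [← pow_mul, ← pow_mul, mul_comm]
      rw [mul_pow, ← h7] at hw
      linear_combination hw + j (β1 ^ m) ^ p ^ f * hv
    apply L.inj _ 0
    rwa [L.dat.zero]
  obtain ⟨x, hx⟩ := L.cic α1 β1 γ1 nb nc key
  obtain ⟨ξ, hξ, hξ1⟩ := L.lift e x
  have h1 : (p : R) ∣ (β * ξ) ^ p ^ e - j (β1 * x) := by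
    obtain ⟨u, hu⟩ := hβ1
    obtain ⟨v, hv⟩ := hξ1
    refine ⟨u * ξ ^ p ^ e + j β1 * v, ?_⟩
    rw [mul_pow, map_mul]
    linear_combination ξ ^ p ^ e * hu + j β1 * hv
  have h2 : (p : R) ∣ α ^ p ^ e - (β * ξ) ^ p ^ e := by
    have h3 := map_dvd j hx
    rw [map_natCast, map_sub] at h3
    have h4 : α ^ p ^ e - (β * ξ) ^ p ^ e = (α ^ p ^ e - j α1) + (j α1 - j (β1 * x)) -
        ((β * ξ) ^ p ^ e - j (β1 * x)) := by ring
    rw [h4]
    exact dvd_sub (dvd_add hα1 h3) h1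
  have h3 : (p : R) ∣ (α - β * ξ) ^ p ^ e := by
    have h5 : ∀ (e : ℕ) (u v : R), (p : R) ∣ u ^ p ^ e - v ^ p ^ e → (p : R) ∣ (u - v) ^ p ^ e := by
      intro e
      induction e with
      | zero => intro u v h; simpa using h
      | succ e ih =>
        intro u v h
        have h6 : (p : R) ∣ (u ^ p - v ^ p) ^ p ^ e := by
          apply ih
          rwa [← pow_mul, ← pow_mul, ← pow_succ']
        have h7 := pow_congr (p ^ e) (dvd_frob (p := p) u v)
        rw [pow_succ', pow_mul]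
        have h8 : ((u - v) ^ p) ^ p ^ e = (u ^ p - v ^ p) ^ p ^ e -
            ((u ^ p - v ^ p) ^ p ^ e - ((u - v) ^ p) ^ p ^ e) := by ring
        rw [h8]
        exact dvd_sub h6 h7
    exact h5 e _ _ h2
  obtain ⟨α', hα'⟩ := L.dat.finj_iter L.reg e h3
  refine ⟨ξ, hξ, α', L.cancel e α' ?_, by rw [← hα']; ring⟩
  rw [← hα']
  exact (S e).sub_mem hα ((S e).mul_mem hβ hξ)

/-- division modulo `p` -/
lemma div_p {a b c : R} (ub : Unr ϖ b) (uc : Unr ϖ c) (h : AI a b c) :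
    ∃ x w, a = b * x + p * w := by
  obtain ⟨e1, α, hα, haα⟩ := L.dense a
  obtain ⟨e2, β, hβ, hbβ⟩ := L.dense b
  obtain ⟨e3, γ, hγ, hcγ⟩ := L.dense c
  obtain ⟨e, h1, h2, h3⟩ : ∃ e, e1 ≤ e ∧ e2 ≤ e ∧ e3 ≤ e :=
    ⟨max e1 (max e2 e3), by omega, by omega, by omega⟩
  replace hα := L.mono h1 hα
  replace hβ := L.mono h2 hβ
  replace hγ := L.mono h3 hγ
  have ubm : ∀ m, RegMod (b ^ m) (p : R) := fun m => L.regMod_of_unr (L.unr_pow ub m)
  have key : ∀ k ≤ p ^ e, ∃ x, ∃ α' ∈ S e, ∃ w, a = b * x + ϖ e ^ k * α' + p * w := by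
    intro k
    induction k with
    | zero =>
      intro _
      obtain ⟨w, hw⟩ := haα
      exact ⟨0, α, hα, w, by rw [← hw]; ring⟩
    | succ k ih =>
      intro hk
      obtain ⟨x, α', hα', w, hx⟩ := ih (by omega)
      have hpk : (p : R) = ϖ e ^ k * (ϖ e * ϖ e ^ (p ^ e - k - 1)) := by
        rw [← pow_succ', ← pow_add, ← L.dat.pow_eq_p e]
        congr 1
        omega
      set a' := α' + ϖ e * (ϖ e ^ (p ^ e - k - 1) * w) with ha'
      have haa : a - b * x = ϖ e ^ k * a' := by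
        rw [hx, ha']
        linear_combination w * hpk
      have hai : AI a' b c := by
        intro m
        obtain ⟨y, hy⟩ := h.sub x m
        rw [haa] at hy
        obtain ⟨z, hz⟩ := L.regMod_ϖ (ubm m) e (k * m) y ⟨c * a' ^ m, by
          rw [← hy, pow_mul]; ring_nf⟩
        refine ⟨z, ?_⟩
        have h5 : ϖ e ^ (k * m) * (c * a' ^ m - b ^ m * z) = 0 := by
          rw [hz, mul_pow, ← pow_mul] at hy
          linear_combination hy
        have := L.dat.reg_pow L.reg e _ _ h5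
        linear_combination this
      obtain ⟨ξ, hξ, α2, hα2, hh⟩ := L.div_step (a := a') hα' hβ hγ
        ⟨ϖ e ^ (p ^ e - k - 1) * w, by rw [ha']; ring⟩ hbβ hcγ ub uc hai
      obtain ⟨u, hu⟩ := hbβ
      refine ⟨x + ϖ e ^ k * ξ, α2, hα2, w - ϖ e ^ k * u * ξ, ?_⟩
      rw [hx, hh]
      linear_combination -(ϖ e ^ k * ξ) * hu
  obtain ⟨x, α', -, w, hx⟩ := key (p ^ e) le_rfl
  refine ⟨x, α' + w, ?_⟩
  rw [hx, L.dat.pow_eq_p e]; ring

theorem dvd_of_unr [hA : IsAdicComplete (Ideal.span {(p : R)}) R] {a b c : R} (ub : Unr ϖ b)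
    (uc : Unr ϖ c) (h : AI a b c) : b ∣ a := by
  have hsep : ∀ x : R, (∀ n : ℕ, (p : R) ^ n ∣ x) → x = 0 := by
    intro x hx
    refine IsHausdorff.haus (I := Ideal.span {(p : R)}) inferInstance x fun n => ?_
    rw [SModEq.zero, smul_eq_mul, Ideal.mul_top, Ideal.span_singleton_pow,
      Ideal.mem_span_singleton]
    exact hx n
  have ubm : ∀ m, RegMod (b ^ m) (p : R) := fun m => L.regMod_of_unr (L.unr_pow ub m)
  have step : ∀ a : {a : R // AI a b c}, ∃ x : R, ∃ a' : {a : R // AI a b c},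
      (a : R) = b * x + p * a' := by
    rintro ⟨a, ha⟩
    obtain ⟨x, w, hw⟩ := L.div_p ub uc ha
    refine ⟨x, ⟨w, fun m => ?_⟩, hw⟩
    obtain ⟨y, hy⟩ := ha.sub x m
    have h1 : a - b * x = p * w := by rw [hw]; ring
    rw [h1] at hy
    obtain ⟨z, hz⟩ := L.regMod_pow (ubm m) m y ⟨c * w ^ m, by rw [← hy]; ring⟩
    refine ⟨z, ?_⟩
    have h5 : (p : R) ^ m * (c * w ^ m - b ^ m * z) = 0 := by
      rw [hz, mul_pow] at hy
      linear_combination hy
    have h6 : ∀ (m : ℕ) (x : R), (p : R) ^ m * x = 0 → x = 0 := by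
      intro m
      induction m with
      | zero => intro x hx; simpa using hx
      | succ m ih =>
        intro x hx
        rw [pow_succ, mul_assoc] at hx
        exact L.reg _ (ih _ hx)
    have := h6 _ _ h5
    linear_combination this
  choose X N hXN using step
  let s : ℕ → {a : R // AI a b c} := fun n => N^[n] ⟨a, h⟩
  have hs : ∀ n, (s n : R) = b * X (s n) + p * s (n + 1) := by
    intro n
    have : s (n + 1) = N (s n) := Function.iterate_succ_apply' N n _
    rw [this]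
    exact hXN (s n)
  have hsum : ∀ n, a = b * ∑ i ∈ Finset.range n, (p : R) ^ i * X (s i) + (p : R) ^ n * s n := by
    intro n
    induction n with
    | zero => simp [s]
    | succ n ih =>
      rw [Finset.sum_range_succ]
      have := hs n
      linear_combination ih + (p : R) ^ n * this
  obtain ⟨x, hx⟩ := exists_series (p : R) (fun i => X (s i))
  refine ⟨x, ?_⟩
  rw [← sub_eq_zero]
  refine hsep _ fun n => ?_
  obtain ⟨y, hy⟩ := hx n
  refine ⟨s n - b * y, ?_⟩
  have := hsum n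
  linear_combination this - b * hy

/-- **`R` is completely integrally closed.** -/
theorem cicR [hA : IsAdicComplete (Ideal.span {(p : R)}) R] : CIC R := by
  have hsep : ∀ x : R, (∀ n : ℕ, (p : R) ^ n ∣ x) → x = 0 := by
    intro x hx
    refine IsHausdorff.haus (I := Ideal.span {(p : R)}) inferInstance x fun n => ?_
    rw [SModEq.zero, smul_eq_mul, Ideal.mul_top, Ideal.span_singleton_pow,
      Ideal.mem_span_singleton]
    exact hx n
  intro a b c hb hc h
  by_cases ha : a = 0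
  · rw [ha]; exact dvd_zero _
  obtain ⟨e1, i1, a0, ha0, ua⟩ := L.content hsep ha
  obtain ⟨e2, i2, b0, hb0, ub⟩ := L.content hsep hb
  obtain ⟨e3, i3, c0, hc0, uc⟩ := L.content hsep hc
  obtain ⟨e, h1, h2, h3⟩ : ∃ e, e1 ≤ e ∧ e2 ≤ e ∧ e3 ≤ e :=
    ⟨max e1 (max e2 e3), by omega, by omega, by omega⟩
  obtain ⟨k, hk⟩ := L.content_raise ha0 h1
  obtain ⟨i, hi⟩ := L.content_raise hb0 h2
  obtain ⟨l, hl⟩ := L.content_raise hc0 h3
  have ubm : ∀ m, RegMod (b0 ^ m) (p : R) := fun m => L.regMod_of_unr (L.unr_pow ub m)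
  have hik : i ≤ k := by
    by_contra hlt
    push Not at hlt
    obtain ⟨y, hy⟩ := h (l + 1)
    rw [hk, hi, hl] at hy
    obtain ⟨r, hr⟩ : ∃ r, i * (l + 1) = (l + k * (l + 1)) + 1 + r := by
      refine ⟨i * (l + 1) - ((l + k * (l + 1)) + 1), ?_⟩
      have : (k + 1) * (l + 1) ≤ i * (l + 1) := Nat.mul_le_mul_right _ hlt
      have h9 : (k + 1) * (l + 1) = (l + k * (l + 1)) + 1 := by ring
      omega
    have h5 : ϖ e ^ (l + k * (l + 1)) * (c0 * a0 ^ (l + 1) -
        ϖ e * (ϖ e ^ r * b0 ^ (l + 1) * y)) = 0 := by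
      have e1 : (ϖ e ^ i * b0) ^ (l + 1) = ϖ e ^ (l + k * (l + 1)) * (ϖ e * ϖ e ^ r) *
          b0 ^ (l + 1) := by
        rw [mul_pow, ← pow_mul, hr, pow_add, pow_add, pow_one]; ring
      rw [e1] at hy
      have e2 : ϖ e ^ l * c0 * (ϖ e ^ k * a0) ^ (l + 1) =
          ϖ e ^ (l + k * (l + 1)) * (c0 * a0 ^ (l + 1)) := by
        rw [mul_pow, ← pow_mul, pow_add]; ring
      rw [e2] at hy
      linear_combination hy
    have h6 := L.dat.reg_pow L.reg e _ _ h5
    refine L.unr_mul uc (L.unr_pow ua (l + 1)) e ⟨ϖ e ^ r * b0 ^ (l + 1) * y, ?_⟩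
    linear_combination h6
  have hai : AI a0 b0 c0 := by
    intro m
    obtain ⟨y, hy⟩ := h m
    rw [hk, hi, hl] at hy
    have e1 : ϖ e ^ (i * m) * (ϖ e ^ (l + (k - i) * m) * (c0 * a0 ^ m) - b0 ^ m * y) = 0 := by
      have e3 : l + k * m = i * m + (l + (k - i) * m) := by
        obtain ⟨t, rfl⟩ := Nat.exists_eq_add_of_le hik
        rw [Nat.add_sub_cancel_left]; ring
      have e2 : ϖ e ^ l * c0 * (ϖ e ^ k * a0) ^ m =
          ϖ e ^ (i * m) * ϖ e ^ (l + (k - i) * m) * (c0 * a0 ^ m) := by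
        rw [← pow_add, ← e3, mul_pow, ← pow_mul, pow_add]; ring
      rw [e2, mul_pow, ← pow_mul] at hy
      linear_combination hy
    have h6 := L.dat.reg_pow L.reg e _ _ e1
    obtain ⟨z, hz⟩ := L.regMod_ϖ (ubm m) e (l + (k - i) * m) y ⟨c0 * a0 ^ m, by
      linear_combination -h6⟩
    refine ⟨z, ?_⟩
    have h7 : ϖ e ^ (l + (k - i) * m) * (c0 * a0 ^ m - b0 ^ m * z) = 0 := by
      rw [hz] at h6
      linear_combination h6
    have := L.dat.reg_pow L.reg e _ _ h7
    linear_combination this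
  obtain ⟨x, hx⟩ := L.dvd_of_unr ub uc hai
  refine ⟨ϖ e ^ (k - i) * x, ?_⟩
  rw [hk, hi, hx]
  have : ϖ e ^ k = ϖ e ^ i * ϖ e ^ (k - i) := by rw [← pow_add]; congr 1; omega
  rw [this]; ring

theorem isDomain [hA : IsAdicComplete (Ideal.span {(p : R)}) R] : IsDomain R := by
  have hsep : ∀ x : R, (∀ n : ℕ, (p : R) ^ n ∣ x) → x = 0 := by
    intro x hx
    refine IsHausdorff.haus (I := Ideal.span {(p : R)}) inferInstance x fun n => ?_
    rw [SModEq.zero, smul_eq_mul, Ideal.mul_top, Ideal.span_singleton_pow,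
      Ideal.mem_span_singleton]
    exact hx n
  have : Nontrivial R := by
    refine ⟨0, 1, fun h => ?_⟩
    exact L.unr_one 0 (h ▸ dvd_zero _)
  have : NoZeroDivisors R := ⟨fun {x y} h => by
    by_contra hh
    push Not at hh
    exact L.mul_ne_zero hsep hh.1 hh.2 h⟩
  exact NoZeroDivisors.to_isDomain R

theorem isIntegrallyClosed [hA : IsAdicComplete (Ideal.span {(p : R)}) R] [IsDomain R] :
    IsIntegrallyClosed R := L.cicR.isIntegrallyClosed

end Lev

end

end Crest.Agent.R188.Apl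
end

-- ▼ part R188/Apl2
section

/-!
R188 / Apl2 : the level structure `Lev` on `B_∞` and on its `p`-completion.   Author: helper245.
-/

set_option autoImplicit false
set_option linter.unusedSectionVars false

namespace Crest.Agent.R188.Apl

open Crest.Agent.R183 Crest.Agent.R183.Om Crest.Agent.R183.BInf
open Crest.Agent.R183.Cic (CIC)

/-! ### transfer to the completion -/

section Compl

universe u v w

variable {p : ℕ} [hp : Fact p.Prime] {B : Type w} {R : Type u} {C : Type v} [CommRing B]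
  [CommRing R] [CommRing C] {j : B →+* R} {ϖ : ℕ → R} {S : ℕ → Subring R}

/-- divisibility by `ϖ_e` does not change in the completion -/
lemma Lev.dvd_compl (L : Lev p j ϖ S) {ι : R →+* C} (h : IsCompl (p : R) ι) (e : ℕ) {s : R}
    (hs : ι (ϖ e) ∣ ι s) : ϖ e ∣ s := by
  have hpe : 0 < p ^ e := Nat.pow_pos hp.out.pos
  have hϖ := L.dat.pow_eq_p e
  have h1 : ι (p : R) ^ 1 ∣ ι (s * ϖ e ^ (p ^ e - 1)) := by
    obtain ⟨c, hc⟩ := hs
    refine ⟨c, ?_⟩
    rw [pow_one, map_mul, hc, map_pow, ← hϖ, map_pow]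
    have : ι (ϖ e) ^ p ^ e = ι (ϖ e) * ι (ϖ e) ^ (p ^ e - 1) := by
      rw [← pow_succ']; congr 1; omega
    rw [this]; ring
  have h2 := (h.dvd_iff 1 _).1 h1
  rw [pow_one] at h2
  obtain ⟨r, hr⟩ := h2
  refine ⟨r, ?_⟩
  have h3 : ϖ e ^ (p ^ e - 1) * (s - ϖ e * r) = 0 := by
    have h4 : (p : R) = ϖ e ^ (p ^ e - 1) * ϖ e := by
      rw [← hϖ, ← pow_succ]; congr 1; omega
    rw [h4] at hr
    linear_combination hr
  have := L.dat.reg_pow L.reg e _ _ h3
  linear_combination this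

theorem Lev.compl (L : Lev p j ϖ S) {ι : R →+* C} (h : IsCompl (p : R) ι) :
    Lev p (ι.comp j) (fun e => ι (ϖ e)) (fun e => (S e).map ι) := by
  obtain ⟨hd, hr⟩ := L.dat.completion h
  have hp0 : ι (p : R) = (p : C) := map_natCast ι p
  have hdvd : ∀ x : R, (p : C) ∣ ι x ↔ (p : R) ∣ x := by
    intro x
    have := h.dvd_iff 1 x
    rwa [pow_one, pow_one, hp0] at this
  refine
    { dat := hd
      reg := hr
      mono := fun e f hef => by
        rintro _ ⟨x, hx, rfl⟩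
        exact ⟨x, L.mono hef hx, rfl⟩
      memB := fun e b => ⟨j b, L.memB e b, rfl⟩
      memϖ := fun e => ⟨ϖ e, L.memϖ e, rfl⟩
      dense := ?_
      cancel := ?_
      pow := ?_
      lift := ?_
      inj := fun b f hb => L.inj b f (L.dvd_compl h f hb)
      dom := L.dom
      one := L.one
      cic := L.cic }
  · intro x
    obtain ⟨y, z, hz⟩ := h.dense 1 x
    obtain ⟨e, y', hy', hyy⟩ := L.dense y
    refine ⟨e, ι y', ⟨y', hy', rfl⟩, ?_⟩
    have h1 : x - ι y' = (x - ι y) + ι (y - y') := by rw [map_sub]; ring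
    rw [h1, hz, pow_one, hp0]
    exact dvd_add (dvd_mul_right _ _) ((hdvd _).2 hyy)
  · rintro e w ⟨s, hs, hw⟩
    obtain ⟨r, rfl⟩ := L.dvd_compl h e ⟨w, hw⟩
    refine ⟨r, L.cancel e r hs, ?_⟩
    rw [map_mul] at hw
    have h1 : ι (ϖ e) * (ι r - w) = 0 := by linear_combination hw
    have h2 : ι (ϖ e) ^ 1 * (ι r - w) = 0 := by rw [pow_one]; exact h1
    have := hd.reg_pow hr e 1 _ h2
    linear_combination this
  · rintro e _ ⟨z, hz, rfl⟩
    obtain ⟨b, hb⟩ := L.pow e z hz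
    refine ⟨b, ?_⟩
    rw [← map_pow, RingHom.comp_apply, ← map_sub, hdvd]
    exact hb
  · intro e b
    obtain ⟨z, hz, hb⟩ := L.lift e b
    refine ⟨ι z, ⟨z, hz, rfl⟩, ?_⟩
    rw [← map_pow, RingHom.comp_apply, ← map_sub, hdvd]
    exact hb

end Compl

/-! ### levels of `B_∞` -/

section Level

variable {d : ℕ} {p : ℕ} {B : Type*} [CommRing B] (t : Fin d → B) (hp : 0 < p)

theorem mem_SA_iff (e : ℕ) (x : BInf p t) :
    x ∈ SA p t hp e ↔ ∀ γ : Gam1 d p, (¬ ∃ n : Fin d → ℕ, (γ : Gam d p) = ex p hp e n) →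
      (basis p t).repr x γ = 0 := by
  classical
  constructor
  · intro hx γ hγ
    obtain ⟨c, rfl⟩ := exists_sum_level p t hp e x hx
    rw [map_sum, Finsupp.finsetSum_apply]
    refine Finset.sum_eq_zero fun j _ => ?_
    let γj : Gam1 d p := ⟨ex p hp e (fun i => (j i : ℕ)), ex_lt_one p hp e j⟩
    have h3 : mon p t (ex p hp e (fun i => (j i : ℕ))) = basis p t γj := (basis_apply p t γj).symm
    rw [h3, map_smul, Module.Basis.repr_self, Finsupp.smul_apply, smul_eq_mul,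
      Finsupp.single_apply, if_neg, mul_zero]
    intro h4
    apply hγ
    exact ⟨fun i => (j i : ℕ), by rw [← h4]⟩
  · intro h
    have h1 : x = Finsupp.linearCombination B (basis p t) ((basis p t).repr x) :=
      ((basis p t).linearCombination_repr x).symm
    rw [h1, Finsupp.linearCombination_apply, Finsupp.sum]
    refine Subalgebra.sum_mem _ fun γ _ => ?_
    by_cases hγ : ∃ n : Fin d → ℕ, (γ : Gam d p) = ex p hp e n
    · obtain ⟨n, hn⟩ := hγ
      rw [basis_apply, hn]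
      exact Subalgebra.smul_mem _ (mon_ex_mem p t hp e n) _
    · rw [h γ hγ, zero_smul]
      exact Subalgebra.zero_mem _

theorem mem_SA_of_natCast_mul (hreg : ∀ x : B, (p : B) * x = 0 → x = 0) (e : ℕ) (w : BInf p t)
    (h : (p : BInf p t) * w ∈ SA p t hp e) : w ∈ SA p t hp e := by
  rw [mem_SA_iff] at h ⊢
  intro γ hγ
  apply hreg
  rw [← repr_natCast_mul]
  exact h γ hγ

end Level

section Inst

variable {d : ℕ} {p : ℕ} [hpr : Fact p.Prime] {B : Type*} [CommRing B] {t : Fin d → B} {i0 : Fin d}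

theorem rt_mem (e : ℕ) (i : Fin d) : rt p t hpr.out.pos e i ∈ SA p t hpr.out.pos e :=
  mon_ex_mem p t hpr.out.pos e _

theorem mon_ex_pow (e : ℕ) (n : Fin d → ℕ) :
    mon p t (ex p hpr.out.pos e n) ^ p ^ e = algebraMap B (BInf p t) (∏ i, t i ^ n i) := by
  rw [← mon_nsmul, nsmul_ex, mon_natG]

theorem exists_pow_SA (e : ℕ) (z : BInf p t) (hz : z ∈ SA p t hpr.out.pos e) :
    ∃ b : B, (p : BInf p t) ∣ z ^ p ^ e - algebraMap B (BInf p t) b := by
  have hx' : z ∈ Submodule.span B (Set.range fun n : Fin d → ℕ =>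
      mon p t (ex p hpr.out.pos e n)) := by
    rw [← SA_eq_span]; exact hz
  clear hz
  induction hx' using Submodule.span_induction with
  | mem x hx =>
    obtain ⟨n, rfl⟩ := hx
    exact ⟨∏ i, t i ^ n i, by rw [mon_ex_pow, sub_self]; exact dvd_zero _⟩
  | zero =>
    exact ⟨0, by rw [map_zero, sub_zero, zero_pow (pow_ne_zero _ hpr.out.ne_zero)]; exact dvd_zero _⟩
  | add x y _ _ hx hy =>
    obtain ⟨b, hb⟩ := hx
    obtain ⟨c, hc⟩ := hy
    refine ⟨b + c, ?_⟩
    obtain ⟨r, hr⟩ := exists_add_pow_prime_pow_eq hpr.out x y e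
    rw [hr, map_add]
    have h1 : x ^ p ^ e + y ^ p ^ e + (p : BInf p t) * x * y * r -
        (algebraMap B (BInf p t) b + algebraMap B (BInf p t) c) =
        (x ^ p ^ e - algebraMap B (BInf p t) b) + (y ^ p ^ e - algebraMap B (BInf p t) c) +
          (p : BInf p t) * (x * y * r) := by ring
    rw [h1]
    exact dvd_add (dvd_add hb hc) (dvd_mul_right _ _)
  | smul a x _ hx =>
    obtain ⟨b, hb⟩ := hx
    refine ⟨a ^ p ^ e * b, ?_⟩
    have h1 : (a • x) ^ p ^ e - algebraMap B (BInf p t) (a ^ p ^ e * b) =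
        algebraMap B (BInf p t) (a ^ p ^ e) * (x ^ p ^ e - algebraMap B (BInf p t) b) := by
      rw [smul_pow, map_mul, mul_sub]
      congr 1
      exact Algebra.smul_def (a ^ p ^ e) (x ^ p ^ e)
    rw [h1]
    exact hb.mul_left _

theorem exists_lift_SA (h : PBasis p t i0) (e : ℕ) : ∀ b : B,
    ∃ z ∈ SA p t hpr.out.pos e, (p : BInf p t) ∣ z ^ p ^ e - algebraMap B (BInf p t) b := by
  induction e with
  | zero =>
    intro b
    exact ⟨algebraMap B _ b, Subalgebra.algebraMap_mem _ b, by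
      rw [pow_zero, pow_one, sub_self]; exact dvd_zero _⟩
  | succ e ih =>
    intro b
    obtain ⟨c, a, ha⟩ := h.gen b
    choose z hz hzc using fun α => ih (c α)
    refine ⟨∑ α, mon p t (ex p hpr.out.pos (e + 1) (fun i => (α.1 i : ℕ))) * z α,
      Subalgebra.sum_mem _ fun α _ => Subalgebra.mul_mem _ (mon_ex_mem p t _ _ _)
        (SA_mono p t _ (Nat.le_succ e) (hz α)), ?_⟩
    have hb : b = (∑ α : PIdx p i0, (∏ i, t i ^ (α.1 i : ℕ)) * c α ^ p) + p * a := by
      rw [← ha]; ring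
    have hsum : ∀ (s : Finset (PIdx p i0)) (f : PIdx p i0 → BInf p t) (k : ℕ),
        (p : BInf p t) ∣ (∑ α ∈ s, f α) ^ p ^ k - ∑ α ∈ s, f α ^ p ^ k := by
      classical
      intro s f k
      induction s using Finset.induction_on with
      | empty =>
        rw [Finset.sum_empty, Finset.sum_empty, zero_pow (pow_ne_zero _ hpr.out.ne_zero), sub_zero]
        exact dvd_zero _
      | insert α s hα ih =>
        rw [Finset.sum_insert hα, Finset.sum_insert hα]
        obtain ⟨r, hr⟩ := exists_add_pow_prime_pow_eq hpr.out (f α) (∑ α ∈ s, f α) k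
        rw [hr]
        obtain ⟨q, hq⟩ := ih
        exact ⟨q + f α * (∑ α ∈ s, f α) * r, by linear_combination hq⟩
    have h1 := hsum Finset.univ
      (fun α => mon p t (ex p hpr.out.pos (e + 1) (fun i => (α.1 i : ℕ))) * z α) (e + 1)
    have h2 : (p : BInf p t) ∣ (∑ α : PIdx p i0,
        (mon p t (ex p hpr.out.pos (e + 1) (fun i => (α.1 i : ℕ))) * z α) ^ p ^ (e + 1)) -
        algebraMap B (BInf p t) b := by
      rw [hb, map_add, map_sum, map_mul, map_natCast, ← sub_sub, ← Finset.sum_sub_distrib]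
      refine dvd_sub (Finset.dvd_sum fun α _ => ?_) (dvd_mul_right _ _)
      rw [mul_pow, mon_ex_pow, map_mul, map_pow, ← mul_sub]
      refine Dvd.dvd.mul_left ?_ _
      rw [pow_succ, pow_mul]
      exact pow_congr p (hzc α)
    have h3 := dvd_add h1 h2
    rwa [sub_add_sub_cancel] at h3

theorem dvd_of_rt_dvd (h : PBasis p t i0) (b : B) (f : ℕ)
    (hb : rt p t hpr.out.pos f i0 ∣ algebraMap B (BInf p t) b) : (p : B) ∣ b := by
  classical
  obtain ⟨w, hw⟩ := hb
  have hpf : 0 < p ^ f := Nat.pow_pos hpr.out.pos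
  let j : Fin d → Fin (p ^ f) := fun i => if i = i0 then ⟨p ^ f - 1, by omega⟩ else ⟨0, hpf⟩
  let γ : Gam1 d p := ⟨ex p hpr.out.pos f (fun i => (j i : ℕ)), ex_lt_one p hpr.out.pos f j⟩
  have h1 : rt p t hpr.out.pos f i0 ^ (p ^ f - 1) = basis p t γ := by
    rw [basis_apply]
    change _ = mon p t (ex p hpr.out.pos f (fun i => (j i : ℕ)))
    rw [mon_ex, Finset.prod_eq_single i0]
    · simp [j]
    · intro i _ hi
      simp [j, hi]
    · intro hh; exact absurd (Finset.mem_univ _) hh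
  have h2 : rt p t hpr.out.pos f i0 ^ p ^ f = (p : BInf p t) := h.pdata.pow_eq_p f
  have h3 : algebraMap B (BInf p t) b * basis p t γ = (p : BInf p t) * w := by
    rw [← h1, hw, ← h2]
    have : rt p t hpr.out.pos f i0 ^ p ^ f = rt p t hpr.out.pos f i0 *
        rt p t hpr.out.pos f i0 ^ (p ^ f - 1) := by
      rw [← pow_succ']; congr 1; omega
    rw [this]; ring
  have h4 := congrArg (fun x => (basis p t).repr x γ) h3
  rw [repr_natCast_mul, repr_algebraMap_mul, Module.Basis.repr_self, Finsupp.single_eq_same,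
    mul_one] at h4
  exact ⟨_, h4⟩

/-- **the level structure of `B_∞`** -/
theorem lev_of_pbasis (h : PBasis p t i0)
    (dom : ∀ a b : B, (p : B) ∣ a * b → (p : B) ∣ a ∨ (p : B) ∣ b)
    (cic : ∀ a b c : B, ¬ (p : B) ∣ b → ¬ (p : B) ∣ c →
      (∀ m : ℕ, ∃ x, (p : B) ∣ c * a ^ m - b ^ m * x) → ∃ x, (p : B) ∣ a - b * x) :
    Lev p (algebraMap B (BInf p t)) (fun e => rt p t hpr.out.pos e i0)
      (Sub p t hpr.out.pos) where
  dat := h.pdata
  reg := h.reg_p
  mono := Sub_mono p t hpr.out.pos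
  memB := fun e b => Subalgebra.algebraMap_mem (SA p t hpr.out.pos e) b
  memϖ := fun e => rt_mem e i0
  dense := by
    intro x
    obtain ⟨e, he⟩ := exists_mem_SA p t hpr.out.pos x
    exact ⟨e, x, he, by rw [sub_self]; exact dvd_zero _⟩
  cancel := by
    intro e w hw
    apply mem_SA_of_natCast_mul t hpr.out.pos h.reg e w
    have h1 : (p : BInf p t) * w = rt p t hpr.out.pos e i0 ^ (p ^ e - 1) *
        (rt p t hpr.out.pos e i0 * w) := by
      rw [← mul_assoc, ← pow_succ, ← h.pdata.pow_eq_p e]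
      congr 2
      have : 0 < p ^ e := Nat.pow_pos hpr.out.pos
      omega
    rw [h1]
    exact Subalgebra.mul_mem _ (Subalgebra.pow_mem _ (rt_mem e i0) _) hw
  pow := exists_pow_SA
  lift := exists_lift_SA h
  inj := dvd_of_rt_dvd h
  dom := dom
  one := fun h1 => h.nonunit (isUnit_of_dvd_one h1)
  cic := cic

end Inst

/-! ### the base `W(K)[[X_1, …, X_n]]` -/

section Witt

variable {n p : ℕ} [hp : Fact p.Prime] {K : Type*} [Field K] [CharP K p] [PerfectRing K p]

theorem dom_witt (a b : MvPowerSeries (Fin n) (WittVector p K))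
    (h : (p : MvPowerSeries (Fin n) (WittVector p K)) ∣ a * b) :
    (p : MvPowerSeries (Fin n) (WittVector p K)) ∣ a ∨
      (p : MvPowerSeries (Fin n) (WittVector p K)) ∣ b := by
  by_cases ha : (p : MvPowerSeries (Fin n) (WittVector p K)) ∣ a
  · exact Or.inl ha
  · exact Or.inr (regMod_witt ha b h)

theorem cic_witt (a b c : MvPowerSeries (Fin n) (WittVector p K))
    (hb : ¬ (p : MvPowerSeries (Fin n) (WittVector p K)) ∣ b)
    (hc : ¬ (p : MvPowerSeries (Fin n) (WittVector p K)) ∣ c)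
    (h : ∀ m : ℕ, ∃ x, (p : MvPowerSeries (Fin n) (WittVector p K)) ∣ c * a ^ m - b ^ m * x) :
    ∃ x, (p : MvPowerSeries (Fin n) (WittVector p K)) ∣ a - b * x := by
  have hk : ∀ x : WittVector p K, WittVector.constantCoeff x = 0 ↔ (p : WittVector p K) ∣ x :=
    fun x => Om.W_dvd_p_iff.symm
  have hs : Function.Surjective (WittVector.constantCoeff : WittVector p K →+* K) := fun x =>
    ⟨WittVector.teichmuller p x, Om.constCoeff_teich x⟩
  rw [natCast_dvd_iff_map _ hk] at hb hc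
  have h1 : ∀ m : ℕ, (MvPowerSeries.map WittVector.constantCoeff b : MvPowerSeries (Fin n) K) ^ m ∣
      MvPowerSeries.map WittVector.constantCoeff c *
        (MvPowerSeries.map WittVector.constantCoeff a) ^ m := by
    intro m
    obtain ⟨x, hx⟩ := h m
    rw [natCast_dvd_iff_map _ hk, map_sub, map_mul, map_mul, map_pow, map_pow, sub_eq_zero] at hx
    exact ⟨_, hx⟩
  obtain ⟨y, hy⟩ := (CIC.of_field K |>.mvPowerSeries n) _ _ _ hb hc h1
  obtain ⟨x, rfl⟩ := BInf.map_surjective (n := n) _ hs y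
  refine ⟨x, ?_⟩
  rw [natCast_dvd_iff_map _ hk, map_sub, map_mul, hy, sub_self]

/-- the level structure of `B_∞` for `B = W(K)[[X_1, …, X_n]]` -/
theorem lev_witt (n p : ℕ) [hp : Fact p.Prime] (K : Type*) [Field K] [CharP K p]
    [PerfectRing K p] :
    Lev p (algebraMap (MvPowerSeries (Fin n) (WittVector p K)) (BInf p (tb n p (WittVector p K))))
      (fun e => rt p (tb n p (WittVector p K)) hp.out.pos e 0)
      (Sub p (tb n p (WittVector p K)) hp.out.pos) :=
  lev_of_pbasis (pbasis_witt n p K) dom_witt cic_witt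

end Witt

end Crest.Agent.R188.Apl
end

-- ▼ part R188/Apl3

/-!
R188 / Apl3 : regularity modulo `p` on integral closures; the absolute integral closure `A⁺`.
Author: helper245.
-/

set_option autoImplicit false
set_option linter.unusedSectionVars false

namespace Crest.Agent.R188.Apl

open Crest.Agent.R183 Crest.Agent.R183.Om
open Crest.Agent.R183.Cic (CIC)
open Polynomial

/-! ### (REG) -/

section Reg

variable {A : Type*} [CommRing A]

lemma RegMod.pow_left {D π : A} (h : RegMod D π) (n : ℕ) : RegMod (D ^ n) π := by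
  induction n with
  | zero => intro x hx; simpa using hx
  | succ n ih =>
    intro x hx
    rw [pow_succ, mul_assoc] at hx
    exact h _ (ih _ hx)



/-- `D` regular modulo `π`, `π` regular ⇒ `D` regular modulo `π ^ n` -/
lemma RegMod.pow_right {D π : A} (hπ : Reg π) (h : RegMod D π) (n : ℕ) : RegMod D (π ^ n) := by
  induction n with
  | zero => intro x _; simp
  | succ n ih =>
    intro x hx
    obtain ⟨y, hy⟩ := h x (by
      refine dvd_trans ?_ hx
      rw [pow_succ']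
      exact dvd_mul_right _ _)
    subst hy
    obtain ⟨z, hz⟩ := hx
    have h1 : π * (D * y - π ^ n * z) = 0 := by
      rw [pow_succ'] at hz
      linear_combination hz
    have h2 := hπ _ h1
    have h3 : π ^ n ∣ D * y := ⟨z, by linear_combination h2⟩
    obtain ⟨w, hw⟩ := ih y h3
    exact ⟨w, by rw [hw]; ring⟩

variable [IsDomain A] [IsIntegrallyClosed A] {L : Type*} [Field L] [Algebra A L] [FaithfulSMul A L]

/-- `D x`, `π x` integral, `D` regular modulo `π` ⇒ `x` integral. -/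
theorem isIntegral_of_regMod {D π : A} (hπ : π ≠ 0) (hD0 : D ≠ 0) (hD : RegMod D π) {x : L}
    (h1 : IsIntegral A (algebraMap A L D * x)) (h2 : IsIntegral A (algebraMap A L π * x)) :
    IsIntegral A x := by
  have hinj := FaithfulSMul.algebraMap_injective A L
  have hπL : algebraMap A L π ≠ 0 := fun h => hπ (hinj (by rw [h, map_zero]))
  have hreg : Reg π := fun y hy => (mul_eq_zero.1 hy).resolve_left hπ
  have e1 := IsIntegrallyClosed.minpoly_smul (R := A) hπ h1
  have e2 := IsIntegrallyClosed.minpoly_smul (R := A) hD0 h2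
  have e3 : π • (algebraMap A L D * x) = D • (algebraMap A L π * x) := by
    rw [Algebra.smul_def, Algebra.smul_def]; ring
  rw [e3, e2] at e1
  set g := minpoly A (algebraMap A L D * x) with hg
  set h := minpoly A (algebraMap A L π * x) with hh
  have hhm : h.Monic := minpoly.monic h2
  have hdeg : h.natDegree = g.natDegree := by
    have := congrArg Polynomial.natDegree e1
    rwa [natDegree_scaleRoots, natDegree_scaleRoots] at this
  have key : ∀ i : Fin h.natDegree, ∃ c, h.coeff i = π ^ (h.natDegree - i) * c := by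
    intro i
    have h3 := congrArg (fun q => q.coeff (i : ℕ)) e1
    simp only [coeff_scaleRoots] at h3
    refine (RegMod.pow_right hreg (RegMod.pow_left hD (h.natDegree - i)) (h.natDegree - i)) _ ?_
    rw [mul_comm, h3, ← hdeg]
    exact dvd_mul_left _ _
  choose c hc using key
  refine ⟨X ^ h.natDegree + ∑ i : Fin h.natDegree, C (c i) * X ^ (i : ℕ), ?_, ?_⟩
  · exact monic_X_pow_add (degree_sum_fin_lt c)
  · have h0 := minpoly.aeval A (algebraMap A L π * x)
    rw [← hh, aeval_eq_sum_range, Finset.sum_range_succ, Finset.sum_range] at h0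
    have h4 : h.coeff h.natDegree = 1 := hhm
    rw [h4, one_smul] at h0
    rw [eval₂_add, eval₂_pow, eval₂_X, eval₂_finsetSum]
    have h5 : (algebraMap A L π) ^ h.natDegree * (x ^ h.natDegree +
        ∑ i : Fin h.natDegree, eval₂ (algebraMap A L) x (C (c i) * X ^ (i : ℕ))) = 0 := by
      rw [← h0, mul_add, ← mul_pow, add_comm, Finset.mul_sum]
      congr 1
      refine Finset.sum_congr rfl fun i _ => ?_
      rw [eval₂_mul, eval₂_C, eval₂_pow, eval₂_X, hc i, Algebra.smul_def, map_mul, map_pow, mul_pow]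
      have : (algebraMap A L π) ^ h.natDegree = (algebraMap A L π) ^ (h.natDegree - i) *
          (algebraMap A L π) ^ (i : ℕ) := by
        rw [← pow_add]; congr 1; have := i.2; omega
      rw [this]; ring
    exact (mul_eq_zero.1 h5).resolve_left (pow_ne_zero _ hπL)

/-- **(REG)** for the integral closure of `A` in a field -/
theorem regMod_integralClosure {D π : A} (hπ : π ≠ 0) (hD : RegMod D π) :
    RegMod (algebraMap A (integralClosure A L) D) (algebraMap A (integralClosure A L) π) := by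
  have hinj := FaithfulSMul.algebraMap_injective A L
  have hπL : algebraMap A L π ≠ 0 := fun h => hπ (hinj (by rw [h, map_zero]))
  rintro t ⟨s, hs⟩
  by_cases hD0 : D = 0
  · have h1 : π ∣ 1 := hD 1 (by rw [hD0, zero_mul]; exact dvd_zero _)
    have h2 := map_dvd (algebraMap A (integralClosure A L)) h1
    rw [map_one] at h2
    exact h2.trans (one_dvd _)
  have hs' : algebraMap A L D * (t : L) = algebraMap A L π * (s : L) := congrArg Subtype.val hs
  have h3 : IsIntegral A ((t : L) / algebraMap A L π) := by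
    refine isIntegral_of_regMod hπ hD0 hD ?_ ?_
    · have : algebraMap A L D * ((t : L) / algebraMap A L π) = s := by
        field_simp
        linear_combination hs'
      rw [this]; exact s.2
    · have : algebraMap A L π * ((t : L) / algebraMap A L π) = t := by
        field_simp
      rw [this]; exact t.2
  refine ⟨⟨_, h3⟩, Subtype.ext ?_⟩
  change (t : L) = algebraMap A L π * ((t : L) / algebraMap A L π)
  field_simp

end Reg

/-! ### fraction forms of (CIC) -/

section Frac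

variable {A : Type*} [CommRing A] [IsDomain A] {K : Type*} [Field K] [Algebra A K]
  [IsFractionRing A K]


end Frac

end Crest.Agent.R188.Apl
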