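import Crest.Agent.R188.FlgKos

/-! # R188, block (G): the flag filtration of `J V`

`V` an `A`-module, free over `Ω` (`b : V ≃ Ω^r`), rows `l i : Ω^r` of a flag which is stable under
`A`, characters `γ k : A → Ω`.
-/

set_option autoImplicit false

namespace Crest.Agent.R188.Flg

open Finset

universe u

section tw

variable {Ω A : Type u} [CommRing Ω] [CommRing A] [Algebra Ω A]

/-- `Ω` with the `A`-module structure given by the character `γ` -/
def Tw (_γ : A →ₐ[Ω] Ω) : Type u := Ω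

instance (γ : A →ₐ[Ω] Ω) : AddCommGroup (Tw γ) := inferInstanceAs (AddCommGroup Ω)

instance (γ : A →ₐ[Ω] Ω) : Module A (Tw γ) := Module.compHom Ω (γ : A →+* Ω)

instance (γ : A →ₐ[Ω] Ω) : Module Ω (Tw γ) := inferInstanceAs (Module Ω Ω)

/-- the underlying element of `Ω` -/
def Tw.out {γ : A →ₐ[Ω] Ω} (x : Tw γ) : Ω := x

/-- the element of `Tw γ` given by an element of `Ω` -/
def Tw.mk {γ : A →ₐ[Ω] Ω} (x : Ω) : Tw γ := x

lemma Tw.smul_def {γ : A →ₐ[Ω] Ω} (a : A) (x : Tw γ) : a • x = Tw.mk (γ a * x.out) := rfl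

lemma Tw.smul_def' {γ : A →ₐ[Ω] Ω} (a : Ω) (x : Tw γ) : a • x = Tw.mk (a * x.out) := rfl


instance (γ : A →ₐ[Ω] Ω) : IsScalarTower Ω A (Tw γ) where
  smul_assoc a x y := by
    rw [Tw.smul_def, Tw.smul_def, Tw.smul_def', map_smul, smul_eq_mul, mul_assoc]
    rfl

/-- an ideal of `Ω` as an `A`-submodule of `Tw γ` -/
def twI (γ : A →ₐ[Ω] Ω) (I : Ideal Ω) : Submodule A (Tw γ) where
  carrier := {x | x.out ∈ I}
  add_mem' := fun hx hy => I.add_mem hx hy
  zero_mem' := I.zero_mem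
  smul_mem' := fun a _ hx => I.mul_mem_left (γ a) hx

lemma mem_twI {γ : A →ₐ[Ω] Ω} {I : Ideal Ω} {x : Tw γ} : x ∈ twI γ I ↔ x.out ∈ I := Iff.rfl

end tw

section filt

variable {Ω A : Type u} [CommRing Ω] [CommRing A] [Algebra Ω A] {𝔞 : Ideal Ω}
variable {V : Type u} [AddCommGroup V] [Module Ω V] [Module A V] [IsScalarTower Ω A V] {r : ℕ}

lemma coord_smul_mem (b : V ≃ₗ[Ω] (Fin r → Ω)) (I : Ideal Ω) (a : A) (x : V)
    (hx : ∀ c, b x c ∈ I) (c : Fin r) : b (a • x) c ∈ I := by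
  have h1 : x = ∑ c', b x c' • b.symm (Pi.single c' (1 : Ω)) := by
    apply b.injective
    rw [map_sum]
    ext c''
    simp [Finset.sum_apply, Pi.single_apply]
  have h2 : a • x = ∑ c', b x c' • (a • b.symm (Pi.single c' (1 : Ω))) := by
    conv_lhs => rw [h1]
    rw [Finset.smul_sum]
    refine Finset.sum_congr rfl fun c' _ => ?_
    rw [← algebraMap_smul A (b x c') (b.symm _), ← algebraMap_smul A (b x c') (a • b.symm _),
      smul_smul, smul_smul, mul_comm]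
  rw [h2, map_sum, Finset.sum_apply]
  refine I.sum_mem fun c' _ => ?_
  rw [map_smul, Pi.smul_apply, smul_eq_mul]
  exact I.mul_mem_right _ (hx c')

variable (A) in
/-- `I V` as an `A`-submodule -/
def JV (b : V ≃ₗ[Ω] (Fin r → Ω)) (I : Ideal Ω) : Submodule A V where
  carrier := {x | ∀ c, b x c ∈ I}
  add_mem' := fun {x y} hx hy c => by rw [map_add]; exact I.add_mem (hx c) (hy c)
  zero_mem' := fun c => by rw [map_zero]; exact I.zero_mem
  smul_mem' := fun a x hx c => coord_smul_mem b I a x hx c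

lemma mem_JV {b : V ≃ₗ[Ω] (Fin r → Ω)} {I : Ideal Ω} {x : V} : x ∈ JV A b I ↔ ∀ c, b x c ∈ I :=
  Iff.rfl

/-- `A`-stability of the flag with characters `γ` -/
def IsFlag (b : V ≃ₗ[Ω] (Fin r → Ω)) (l : ℕ → Fin r → Ω) (γ : ℕ → (A →ₐ[Ω] Ω)) : Prop :=
  ∀ k < r, ∀ x : V, (∀ i < k, ev (l i) (b x) = 0) →
    ∀ a : A, ev (l k) (b (a • x)) = γ k a * ev (l k) (b x)

/-- `V_k ∩ I V` -/
def VK (b : V ≃ₗ[Ω] (Fin r → Ω)) (l : ℕ → Fin r → Ω) (γ : ℕ → (A →ₐ[Ω] Ω))
    (hγ : IsFlag b l γ) (I : Ideal Ω) (k : ℕ) : Submodule A V where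
  carrier := {x | (∀ c, b x c ∈ I) ∧ ∀ i < k, i < r → ev (l i) (b x) = 0}
  add_mem' := fun {x y} hx hy => ⟨fun c => by rw [map_add]; exact I.add_mem (hx.1 c) (hy.1 c),
    fun i hi hir => by rw [map_add, ev_add, hx.2 i hi hir, hy.2 i hi hir, add_zero]⟩
  zero_mem' := ⟨fun c => by rw [map_zero]; exact I.zero_mem, fun i _ _ => by
    rw [map_zero, ev_zero]⟩
  smul_mem' := fun a x hx => ⟨fun c => coord_smul_mem b I a x hx.1 c, fun i hi hir => by
    rw [hγ i hir x (fun j hj => hx.2 j (by omega) (by omega)) a, hx.2 i hi hir, mul_zero]⟩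

variable {b : V ≃ₗ[Ω] (Fin r → Ω)} {l : ℕ → Fin r → Ω} {γ : ℕ → (A →ₐ[Ω] Ω)}

lemma mem_VK {hγ : IsFlag b l γ} {I : Ideal Ω} {k : ℕ} {x : V} :
    x ∈ VK b l γ hγ I k ↔ (∀ c, b x c ∈ I) ∧ ∀ i < k, i < r → ev (l i) (b x) = 0 := Iff.rfl

lemma VK_zero (hγ : IsFlag b l γ) (I : Ideal Ω) : VK b l γ hγ I 0 = JV A b I := by
  ext x
  simp [mem_VK, mem_JV]

/-- the map to the graded piece -/
def gr (hγ : IsFlag b l γ) (I : Ideal Ω) (k : ℕ) (hk : k < r) :
    VK b l γ hγ I k →ₗ[A] Tw (γ k) where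
  toFun x := Tw.mk (ev (l k) (b x.1))
  map_add' x y := by
    change Tw.mk (ev (l k) (b (x.1 + y.1))) = _
    rw [map_add, ev_add]; rfl
  map_smul' a x := by
    change Tw.mk (ev (l k) (b (a • x.1))) = _
    rw [hγ k hk x.1 (fun i hi => x.2.2 i hi (by omega)) a]
    rfl

/-- the kernel of the map to the graded piece -/
def kerEquiv (hγ : IsFlag b l γ) (I : Ideal Ω) (k : ℕ) (hk : k < r) :
    LinearMap.ker (gr hγ I k hk) ≃ₗ[A] VK b l γ hγ I (k + 1) where
  toFun x := ⟨x.1.1, x.1.2.1, fun i hi hir => by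
    rcases Nat.lt_succ_iff_lt_or_eq.1 hi with h | h
    · exact x.1.2.2 i h hir
    · subst h; exact x.2⟩
  invFun x := ⟨⟨x.1, x.2.1, fun i hi hir => x.2.2 i (by omega) hir⟩, x.2.2 k (by omega) hk⟩
  map_add' x y := rfl
  map_smul' a x := rfl
  left_inv x := rfl
  right_inv x := rfl

variable (E : EulerFun Ω A 𝔞)

/-- **the filtration formula** -/
theorem val_JV (hγ : IsFlag b l γ)
    (hdet : ∀ x : V, (∀ i < r, ev (l i) (b x) = 0) → x = 0) (I : Ideal Ω) (J' : ℕ → Ideal Ω)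
    (hlow : ∀ k < r, ∀ y ∈ J' k, ∃ x : V, (∀ c, b x c ∈ I) ∧ (∀ i < k, ev (l i) (b x) = 0) ∧
      ev (l k) (b x) = y)
    (hupp : ∀ k < r, ∀ x : V, (∀ c, b x c ∈ I) → (∀ i < k, ev (l i) (b x) = 0) → ∀ h ∈ 𝔞,
      h * ev (l k) (b x) ∈ J' k)
    (hfin : E.Fn (JV A b I)) (hfin' : ∀ k < r, E.Fn (twI (γ k) (J' k))) :
    E.val (JV A b I) = ∑ k ∈ range r, E.val (twI (γ k) (J' k)) := by
  -- the graded pieces
  have hgr : ∀ k (hk : k < r), E.Fn (LinearMap.range (gr hγ I k hk)) ∧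
      E.val (LinearMap.range (gr hγ I k hk)) = E.val (twI (γ k) (J' k)) := by
    intro k hk
    have h1 : twI (γ k) (J' k) ≤ LinearMap.range (gr hγ I k hk) := by
      intro y hy
      obtain ⟨x, hx1, hx2, hx3⟩ := hlow k hk y.out hy
      exact ⟨⟨x, hx1, fun i hi _ => hx2 i hi⟩, hx3⟩
    have h2 : ∀ a ∈ 𝔞, ∀ x ∈ LinearMap.range (gr hγ I k hk),
        algebraMap Ω A a • x ∈ twI (γ k) (J' k) := by
      rintro a ha _ ⟨x, rfl⟩
      rw [mem_twI, Tw.smul_def, AlgHom.commutes]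
      exact hupp k hk x.1 x.2.1 (fun i hi => x.2.2 i hi (by omega)) a ha
    exact ⟨(E.fn_alm h1 h2).1 (hfin' k hk), (E.val_alm h1 h2 (hfin' k hk)).symm⟩
  have key : ∀ k, k ≤ r → E.Fn (VK b l γ hγ I k) ∧
      E.val (JV A b I) = ∑ j ∈ range k, E.val (twI (γ j) (J' j)) + E.val (VK b l γ hγ I k) := by
    intro k
    induction k with
    | zero =>
      intro _
      rw [VK_zero]
      exact ⟨hfin, by simp⟩
    | succ k ih =>
      intro hk
      obtain ⟨ih1, ih2⟩ := ih (by omega)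
      obtain ⟨g1, g2⟩ := hgr k (by omega)
      have k1 := E.fn_ker (gr hγ I k (by omega)) ih1 g1
      have k2 := E.val_ker (gr hγ I k (by omega)) ih1 g1
      refine ⟨E.fn_congr (kerEquiv hγ I k (by omega)) k1, ?_⟩
      rw [ih2, k2, Finset.sum_range_succ, g2, E.val_congr (kerEquiv hγ I k (by omega)) k1]
      ring
  obtain ⟨h1, h2⟩ := key r le_rfl
  have : Subsingleton (VK b l γ hγ I r) := by
    constructor
    rintro ⟨x, hx⟩ ⟨y, hy⟩
    rw [Subtype.mk.injEq, hdet x (fun i hi => hx.2 i hi hi), hdet y (fun i hi => hy.2 i hi hi)]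
  rw [h2, E.val_sub, add_zero]

end filt

section cramer

variable {Ω : Type u} [CommRing Ω] {r : ℕ}

/-- Cramer: `mu_k(σ) l_k(x) = ∑_c x_c mu_{k+1}(σ⌢c)` if `l_i(x) = 0` for `i < k`. -/
theorem mu_mul_ev (l : ℕ → Fin r → Ω) (k : ℕ) (σ : Fin k → Fin r) (x : Fin r → Ω)
    (hx : ∀ i < k, ev (l i) x = 0) :
    mu l k σ * ev (l k) x = ∑ c, mu l (k + 1) (Fin.snoc (α := fun _ => Fin r) σ c) * x c := by
  have h1 : ∀ c, mu l (k + 1) (Fin.snoc (α := fun _ => Fin r) σ c) * x c =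
      ∑ m : Fin (k + 1), ((-1) ^ (m.val + k) *
        Matrix.det (Matrix.of fun i j : Fin k => l (m.succAbove i) (σ j))) * (l m c * x c) := by
    intro c
    rw [mu_snoc, Finset.sum_mul]
    refine Finset.sum_congr rfl fun m _ => by ring
  simp_rw [h1]
  rw [Finset.sum_comm]
  simp_rw [← Finset.mul_sum]
  rw [Fin.sum_univ_castSucc]
  have h2 : ∀ m : Fin k, ∑ c, l (Fin.castSucc m) c * x c = 0 := fun m => hx m m.2
  simp_rw [h2, mul_zero, Finset.sum_const_zero, zero_add]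
  have h4 : Matrix.det (Matrix.of fun i j : Fin k => l ((Fin.last k).succAbove i) (σ j)) =
      mu l k σ := by
    rw [mu]
    congr 1
    ext i j
    simp [Matrix.of_apply]
  rw [h4, Fin.val_last, ← two_mul, pow_mul]
  simp [ev]

/-- number of generators of block `k` -/
def flagS (r : ℕ) (k : Fin (r + 1)) : ℕ := Fintype.card (Fin k.val → Fin r)

/-- generators of block `k`: the `k`-minors of the first `k` rows -/
noncomputable def flagG (l : ℕ → Fin r → Ω) (k : Fin (r + 1)) : Fin (flagS r k) → Ω :=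
  fun i => mu l k.val ((Fintype.equivFin (Fin k.val → Fin r)).symm i)

/-- a system of ideals with the properties of the monomial ideals `J t` generated by the
`∏ g^α`, `|α_k| ≥ t_k`. -/
structure MonoSys (𝔞 : Ideal Ω) {κ : Type*} [DecidableEq κ] (s : κ → ℕ) (g : ∀ k, Fin (s k) → Ω)
    (m : ℕ) (J : (κ → ℕ) → Ideal Ω) : Prop where
  mul : ∀ t k i, ∀ x ∈ J t, g k i * x ∈ J (t + Pi.single k 1)
  skoda : ∀ t, (∀ j, m ≤ t j) → ∀ k, ∀ x ∈ J (t + Pi.single k 1), ∃ a : Fin (s k) → Ω,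
    (∀ i, a i ∈ J t) ∧ x = ∑ i, g k i * a i
  colon : ∀ t, (∀ j, m ≤ t j) → ∀ k, ∀ x, (∀ i, g k i * x ∈ J (t + Pi.single k 1)) → ∀ h ∈ 𝔞,
    h * x ∈ J t

variable {𝔞 : Ideal Ω} {l : ℕ → Fin r → Ω} {m : ℕ} {J : (Fin (r + 1) → ℕ) → Ideal Ω}

lemma MonoSys.mul_mu (hJ : MonoSys 𝔞 (flagS r) (flagG l) m J) (t : Fin (r + 1) → ℕ)
    (k : Fin (r + 1)) (τ : Fin k.val → Fin r) {x : Ω} (hx : x ∈ J t) :
    mu l k.val τ * x ∈ J (t + Pi.single k 1) := by
  have := hJ.mul t k (Fintype.equivFin (Fin k.val → Fin r) τ) x hx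
  unfold flagG at this
  rwa [Equiv.symm_apply_apply] at this

/-- lower bound for the graded piece -/
theorem MonoSys.low (hJ : MonoSys 𝔞 (flagS r) (flagG l) m J) (T : Fin (r + 1) → ℕ)
    (hT : ∀ j, m + 1 ≤ T j) (k : Fin r) (y : Ω)
    (hy : y ∈ J (T - Pi.single k.castSucc 1 + Pi.single k.succ 1)) :
    ∃ x : Fin r → Ω, (∀ c, x c ∈ J T) ∧ (∀ i < k.val, ev (l i) x = 0) ∧ ev (l k.val) x = y := by
  obtain ⟨a, ha, rfl⟩ := hJ.skoda (T - Pi.single k.castSucc 1) (fun j => by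
    have := hT j
    by_cases h : j = k.castSucc
    · subst h; simp; omega
    · simp [h]; omega) k.succ y hy
  have hT' : T - Pi.single k.castSucc 1 + Pi.single k.castSucc 1 = T := by
    ext j
    have := hT j
    by_cases h : j = k.castSucc
    · subst h; simp; omega
    · simp [h]
  set e := Fintype.equivFin (Fin (k.val + 1) → Fin r) with he
  refine ⟨∑ i : Fin (flagS r k.succ), a i • uv l k.val (e.symm i), ?_, ?_, ?_⟩
  · intro c
    rw [Finset.sum_apply]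
    refine (J T).sum_mem fun i _ => ?_
    rw [Pi.smul_apply, uv, Finset.sum_apply, Finset.smul_sum]
    refine (J T).sum_mem fun j _ => ?_
    rw [Pi.smul_apply, smul_eq_mul, smul_eq_mul, ← hT']
    have h1 := hJ.mul_mu (T - Pi.single k.castSucc 1) k.castSucc (e.symm i ∘ j.succAbove) (ha i)
    have h2 : a i * ((-1) ^ (j.val + k.val) * mu l k.val (e.symm i ∘ j.succAbove) *
        (Pi.single (e.symm i j) (1 : Ω) : Fin r → Ω) c) =
        ((-1) ^ (j.val + k.val) * (Pi.single (e.symm i j) (1 : Ω) : Fin r → Ω) c) *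
          (mu l k.val (e.symm i ∘ j.succAbove) * a i) := by ring
    rw [h2]
    exact Ideal.mul_mem_left _ _ h1
  · intro i hi
    rw [ev_sum]
    refine Finset.sum_eq_zero fun j _ => ?_
    rw [ev_smul, ev_uv_of_lt _ _ _ _ hi, mul_zero]
  · rw [ev_sum]
    refine Finset.sum_congr rfl fun i _ => ?_
    rw [ev_smul, ev_uv_self, mul_comm]
    rfl

/-- upper bound for the graded piece -/
theorem MonoSys.upp (hJ : MonoSys 𝔞 (flagS r) (flagG l) m J) (T : Fin (r + 1) → ℕ)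
    (hT : ∀ j, m + 1 ≤ T j) (k : Fin r) (x : Fin r → Ω) (hx : ∀ c, x c ∈ J T)
    (hx0 : ∀ i < k.val, ev (l i) x = 0) (h : Ω) (hh : h ∈ 𝔞) :
    h * ev (l k.val) x ∈ J (T - Pi.single k.castSucc 1 + Pi.single k.succ 1) := by
  have hT' : T - Pi.single k.castSucc 1 + Pi.single k.succ 1 + Pi.single k.castSucc 1 =
      T + Pi.single k.succ 1 := by
    ext j
    have := hT j
    by_cases h : j = k.castSucc
    · subst h
      simp only [Pi.add_apply, Pi.sub_apply, Pi.single_eq_same]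
      omega
    · simp [h]
  refine hJ.colon _ (fun j => ?_) k.castSucc _ (fun i => ?_) h hh
  · have := hT j
    simp only [Pi.add_apply, Pi.sub_apply]
    by_cases h : j = k.castSucc
    · subst h; simp only [Pi.single_eq_same]; omega
    · rw [Pi.single_eq_of_ne h]; omega
  · rw [hT']
    have h1 : flagG l k.castSucc i * ev (l k.val) x = _ :=
      mu_mul_ev l k.val ((Fintype.equivFin (Fin k.val → Fin r)).symm i) x hx0
    rw [h1]
    refine Ideal.sum_mem _ fun c _ => ?_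
    exact hJ.mul_mu T k.succ _ (hx c)

end cramer

section main

variable {Ω A : Type u} [CommRing Ω] [CommRing A] [Algebra Ω A] {𝔞 : Ideal Ω}
variable {V : Type u} [AddCommGroup V] [Module Ω V] [Module A V] [IsScalarTower Ω A V] {r : ℕ}
variable {b : V ≃ₗ[Ω] (Fin r → Ω)} {l : ℕ → Fin r → Ω} {γ : ℕ → (A →ₐ[Ω] Ω)}

/-- the multidegree of the `k`-th graded piece -/
def grT {r : ℕ} (T : Fin (r + 1) → ℕ) (k : ℕ) : Fin (r + 1) → ℕ :=
  if hk : k < r then T - Pi.single (⟨k, hk⟩ : Fin r).castSucc 1 + Pi.single (⟨k, hk⟩ : Fin r).succ 1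
  else T

/-- **Block (G), filtration step**: `val (J(T) V) = ∑_k val (J(T - e_k + e_{k+1})^{γ_k})`. -/
theorem val_JV_mono (E : EulerFun Ω A 𝔞) (hγ : IsFlag b l γ)
    (hdet : ∀ x : V, (∀ i < r, ev (l i) (b x) = 0) → x = 0) {m : ℕ}
    {J : (Fin (r + 1) → ℕ) → Ideal Ω} (hJ : MonoSys 𝔞 (flagS r) (flagG l) m J)
    (T : Fin (r + 1) → ℕ) (hT : ∀ j, m + 1 ≤ T j)
    (hfin : E.Fn (JV A b (J T))) (hfin' : ∀ k < r, E.Fn (twI (γ k) (J (grT T k)))) :
    E.val (JV A b (J T)) = ∑ k ∈ range r, E.val (twI (γ k) (J (grT T k))) := by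
  refine val_JV E hγ hdet (J T) (fun k => J (grT T k)) ?_ ?_ hfin hfin'
  · intro k hk y hy
    simp only [grT, dif_pos hk] at hy
    obtain ⟨x, h1, h2, h3⟩ := hJ.low T hT ⟨k, hk⟩ y hy
    exact ⟨b.symm x, by simpa using h1, by simpa using h2, by simpa using h3⟩
  · intro k hk x hx hx0 h hh
    simp only [grT, dif_pos hk]
    exact hJ.upp T hT ⟨k, hk⟩ (b x) hx hx0 h hh

/-- **Block (G), version with one twist** (helper111's (I) as the hypothesis `h1`). -/
theorem flag_formula_of_twist (E : EulerFun Ω A 𝔞) (hγ : IsFlag b l γ)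
    (hdet : ∀ x : V, (∀ i < r, ev (l i) (b x) = 0) → x = 0) {m : ℕ}
    {J : (Fin (r + 1) → ℕ) → Ideal Ω} (hJ : MonoSys 𝔞 (flagS r) (flagG l) m J)
    (T : Fin (r + 1) → ℕ) (hT : ∀ j, m + 1 ≤ T j)
    (hfin : E.Fn (JV A b (J T))) (hfin' : ∀ k < r, E.Fn (twI (γ k) (J (grT T k))))
    (h1 : E.val V = E.val (JV A b (J T)))
    (h2 : ∀ k < r, E.val (twI (γ k) (J (grT T k))) = E.val (Tw (γ k))) :
    E.val V = ∑ k ∈ range r, E.val (Tw (γ k)) := by
  rw [h1, val_JV_mono E hγ hdet hJ T hT hfin hfin']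
  exact Finset.sum_congr rfl fun k hk => h2 k (Finset.mem_range.1 hk)

end main

end Crest.Agent.R188.Flg
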