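import Mathlib
import Crest.Agent.R188.Noe3

-- ▼ part R188/Noe4
section

set_option autoImplicit false

namespace Crest.Agent.R188.Noe

open IsLocalRing RingTheory.Sequence Pointwise

universe u v w

section free

/-- A finite module on which generators of the maximal ideal form a regular sequence is free. -/
theorem free_of_isWeaklyRegular (n : ℕ) : ∀ (B : Type u) [CommRing B] [IsLocalRing B]
    [IsNoetherianRing B] (rs : List B), rs.length = n → Ideal.ofList rs = maximalIdeal B →
    ∀ (M : Type v) [AddCommGroup M] [Module B M] [Module.Finite B M], IsWeaklyRegular M rs →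
    Module.Free B M := by
  induction n with
  | zero =>
    intro B _ _ _ rs hn hm M _ _ _ _
    rw [List.length_eq_zero_iff] at hn
    subst hn
    have h3 : IsField B := IsLocalRing.isField_iff_maximalIdeal_eq.2 (by rw [← hm]; simp)
    let _ := h3.toField
    exact Module.Free.of_divisionRing B M
  | succ n ih =>
    intro B _ _ _ rs hn hm M _ _ _ hM
    cases rs with
    | nil => simp at hn
    | cons r rs =>
      rw [isWeaklyRegular_cons_iff] at hM
      have hrm : r ∈ maximalIdeal B := by
        rw [← hm, Ideal.ofList_cons]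
        exact Ideal.mem_sup_left (Ideal.mem_span_singleton_self r)
      have hne : Ideal.span {r} ≠ ⊤ := fun h =>
        (maximalIdeal.isMaximal B).ne_top (top_le_iff.1 (h ▸ (by
          rw [Ideal.span_singleton_le_iff_mem]; exact hrm)))
      have : Nontrivial (B ⧸ Ideal.span {r}) := Ideal.Quotient.nontrivial_iff.2 hne
      have : IsLocalRing (B ⧸ Ideal.span {r}) :=
        IsLocalRing.of_surjective' (Ideal.Quotient.mk _) Ideal.Quotient.mk_surjective
      have hm' : Ideal.ofList (rs.map (Ideal.Quotient.mk (Ideal.span {r}))) =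
          maximalIdeal (B ⧸ Ideal.span {r}) := by
        rw [← IsLocalRing.map_maximalIdeal_of_surjective _
          (Ideal.Quotient.mk_surjective (I := Ideal.span {r})), ← hm, Ideal.ofList_cons,
          Ideal.map_sup, Ideal.map_quotient_self, bot_sup_eq, Ideal.map_ofList]
      have hfin : Module.Finite (B ⧸ Ideal.span {r}) (QuotSMulTop r M) :=
        Module.Finite.of_restrictScalars_finite B _ _
      have h1 : IsWeaklyRegular (QuotSMulTop r M)
          (rs.map (algebraMap B (B ⧸ Ideal.span {r}))) := by
        rw [isWeaklyRegular_map_algebraMap_iff]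
        exact hM.2
      have h2 : Module.Free (B ⧸ Ideal.span {r}) (QuotSMulTop r M) :=
        ih (B ⧸ Ideal.span {r}) (rs.map (Ideal.Quotient.mk (Ideal.span {r})))
          (by simpa using hn) hm' (QuotSMulTop r M) h1
      have hfp : Module.FinitePresentation B M := Module.finitePresentation_of_finite B M
      refine (Module.free_quotSMulTop_iff_free B M (x := r) ?_ hM.1).1 h2
      rw [IsLocalRing.jacobson_eq_maximalIdeal _ bot_ne_top]
      exact hrm

end free

section ker

variable {R : Type u} [CommRing R] [IsLocalRing R] [IsNoetherianRing R]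

/-- depth of a kernel. -/
theorem Dep.ker (n : ℕ) : ∀ {K F L : Type v} [AddCommGroup K] [Module R K] [AddCommGroup F]
    [Module R F] [AddCommGroup L] [Module R L] [Module.Finite R F]
    (f : K →ₗ[R] F) (g : F →ₗ[R] L), Function.Injective f → Function.Surjective g →
    Function.Exact f g → Dep R (n + 1) F → Dep R n L → Dep R (n + 1) K := by
  induction n with
  | zero =>
    intro K F L _ _ _ _ _ _ _ f g hf hg hfg hF hL
    obtain ⟨x, hx, hr, -⟩ := dep_succ_iff.1 hF
    refine Dep.cons hx ?_ Dep.zero
    intro a b hab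
    apply hf
    apply hr
    show x • f a = x • f b
    rw [← map_smul, ← map_smul]
    exact congrArg f hab
  | succ n ih =>
    intro K F L _ _ _ _ _ _ _ f g hf hg hfg hF hL
    have hLf : Module.Finite R L := Module.Finite.of_surjective g hg
    have hKf : Module.Finite R K := Module.Finite.of_injective f hf
    have hF1 : ∃ z ∈ maximalIdeal R, IsSMulRegular F z := by
      obtain ⟨x, hx, hr, -⟩ := dep_succ_iff.1 hF
      exact ⟨x, hx, hr⟩
    have hL1 : ∃ z ∈ maximalIdeal R, IsSMulRegular L z := by
      obtain ⟨x, hx, hr, -⟩ := dep_succ_iff.1 hL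
      exact ⟨x, hx, hr⟩
    rw [exists_regular_iff] at hF1 hL1
    obtain ⟨z, hz, hzr⟩ : ∃ z ∈ maximalIdeal R, IsSMulRegular (F × L) z := by
      rw [exists_regular_iff]
      rintro ⟨a, b⟩ hab
      have ha := hF1 a fun r hr => by simpa using congrArg Prod.fst (hab r hr)
      have hb := hL1 b fun r hr => by simpa using congrArg Prod.snd (hab r hr)
      simp [ha, hb]
    have hzF : IsSMulRegular F z := by
      intro a b hab
      have : z • ((a, 0) : F × L) = z • (b, 0) := by simpa using hab
      simpa using congrArg Prod.fst (hzr this)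
    have hzL : IsSMulRegular L z := by
      intro a b hab
      have : z • ((0, a) : F × L) = z • (0, b) := by simpa using hab
      simpa using congrArg Prod.snd (hzr this)
    have hzK : IsSMulRegular K z := by
      intro a b hab
      apply hf
      apply hzF
      show z • f a = z • f b
      rw [← map_smul, ← map_smul]
      exact congrArg f hab
    refine Dep.cons hz hzK (ih (QuotSMulTop.map z f) (QuotSMulTop.map z g) ?_
      (QuotSMulTop.map_surjective z hg) (QuotSMulTop.map_exact z hfg hg) (hF.quot hz hzF)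
      (hL.quot hz hzL))
    -- injectivity
    rw [injective_iff_map_eq_zero]
    intro a ha
    obtain ⟨a, rfl⟩ := Submodule.Quotient.mk_surjective _ a
    rw [QuotSMulTop.map_apply_mk, Submodule.Quotient.mk_eq_zero,
      Submodule.mem_smul_pointwise_iff_exists] at ha
    obtain ⟨b, -, hb⟩ := ha
    have h1 : g b = 0 := by
      apply hzL
      show z • g b = z • 0
      rw [← map_smul, hb, smul_zero]
      exact (hfg (f a)).2 ⟨a, rfl⟩
    obtain ⟨c, rfl⟩ := (hfg b).1 h1
    rw [Submodule.Quotient.mk_eq_zero, Submodule.mem_smul_pointwise_iff_exists]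
    refine ⟨c, trivial, hf ?_⟩
    rw [map_smul, hb]

end ker

section dim

variable {R : Type u} [CommRing R] [IsLocalRing R] [IsNoetherianRing R]

/-- `depth ≤ dim`. -/
theorem Dep.le_supportDim {M : Type v} [AddCommGroup M] [Module R M] [Module.Finite R M]
    [Nontrivial M] {n : ℕ} (h : Dep R n M) : (n : WithBot ℕ∞) ≤ Module.supportDim R M := by
  obtain ⟨P, hP⟩ := associatedPrimes.nonempty R M
  have hann : Module.annihilator R M ≤ P := by
    have := (AssociatedPrimes.mem_iff.1 hP).annihilator_le
    rwa [Submodule.annihilator_top] at this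
  exact (h.le_ringKrullDim hP).trans (ringKrullDim_quotient_le_supportDim hann)

omit [IsNoetherianRing R] in
theorem Dep.pi {M : Type v} [AddCommGroup M] [Module R M] {n : ℕ} (h : Dep R n M)
    (k : ℕ) : Dep R n (Fin k → M) := by
  obtain ⟨rs, h1, h2, h3⟩ := h
  refine ⟨rs, h1, h2, ?_⟩
  clear h1 h2
  induction rs generalizing M with
  | nil => exact IsWeaklyRegular.nil R _
  | cons r rs ih =>
    rw [isWeaklyRegular_cons_iff] at h3 ⊢
    refine ⟨?_, ?_⟩
    · intro a b hab
      funext i
      exact h3.1 (congrFun hab i)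
    · have h4 := ih h3.2
      let e : QuotSMulTop r (Fin k → M) ≃ₗ[R] (Fin k → QuotSMulTop r M) :=
        LinearEquiv.ofBijective
          (Submodule.liftQ _ (LinearMap.pi fun i => (Submodule.mkQ _).comp (LinearMap.proj i)) (by
            intro x hx
            obtain ⟨y, -, rfl⟩ := (Submodule.mem_smul_pointwise_iff_exists _ _ _).1 hx
            rw [LinearMap.mem_ker]
            funext i
            simp only [LinearMap.pi_apply, LinearMap.comp_apply, LinearMap.proj_apply,
              Pi.smul_apply, Pi.zero_apply, Submodule.mkQ_apply]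
            rw [Submodule.Quotient.mk_eq_zero]
            exact Submodule.smul_mem_pointwise_smul _ _ _ trivial)) (by
        constructor
        · rw [injective_iff_map_eq_zero]
          intro a ha
          obtain ⟨a, rfl⟩ := Submodule.Quotient.mk_surjective _ a
          rw [Submodule.liftQ_apply] at ha
          have h5 : ∀ i, ∃ b, r • b = a i := by
            intro i
            have := congrFun ha i
            simp only [LinearMap.pi_apply, LinearMap.comp_apply, LinearMap.proj_apply,
              Pi.zero_apply, Submodule.mkQ_apply] at this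
            rw [Submodule.Quotient.mk_eq_zero] at this
            obtain ⟨y, -, hy⟩ := (Submodule.mem_smul_pointwise_iff_exists _ _ _).1 this
            exact ⟨y, hy⟩
          choose b hb using h5
          rw [Submodule.Quotient.mk_eq_zero, Submodule.mem_smul_pointwise_iff_exists]
          exact ⟨b, trivial, funext hb⟩
        · intro y
          choose z hz using fun i => Submodule.Quotient.mk_surjective _ (y i)
          refine ⟨Submodule.Quotient.mk z, ?_⟩
          rw [Submodule.liftQ_apply]
          funext i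
          exact hz i)
      exact (e.isWeaklyRegular_congr rs).2 h4

end dim

section regular

variable {B : Type u} [CommRing B] [IsRegularLocalRing B]

/-- **A finite module of depth `dim B` over a regular local ring `B` is free.** -/
theorem free_of_dep {n : ℕ} (hn : ringKrullDim B = (n : ℕ)) {M : Type v} [AddCommGroup M]
    [Module B M] [Module.Finite B M] (h : Dep B n M) : Module.Free B M := by
  classical
  cases subsingleton_or_nontrivial M with
  | inl hs => exact Module.Free.of_subsingleton B M
  | inr hnt =>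
    have hsp : (maximalIdeal B).spanFinrank = n := by
      have := (isRegularLocalRing_iff B).1 inferInstance
      rw [hn] at this
      exact_mod_cast this
    obtain ⟨t, ht, hts⟩ := Submodule.FG.exists_span_finset_card_eq_spanFinrank
      (IsNoetherian.noetherian (maximalIdeal B))
    rw [hsp] at ht
    have hl : Ideal.ofList t.toList = maximalIdeal B := by
      rw [← hts, Ideal.ofList]
      congr 1
      ext x
      simp
    have hCM : CM B n M := ⟨h, le_antisymm
      ((Module.supportDim_le_ringKrullDim B M).trans hn.le) h.le_supportDim⟩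
    have hmem : ∀ r ∈ t.toList, r ∈ maximalIdeal B := fun r hr => by
      rw [← hl]; exact Ideal.subset_span hr
    have hlen : t.toList.length = n := by rw [Finset.length_toList, ht]
    have hd0 : Module.supportDim B (M ⧸ (Ideal.ofList t.toList • ⊤ : Submodule B M)) ≤ (0 : ℕ) := by
      rw [hl, Module.supportDim_eq_ringKrullDim_quotient_annihilator]
      have h1 : maximalIdeal B ≤
          Module.annihilator B (M ⧸ (maximalIdeal B • ⊤ : Submodule B M)) := by
        intro r hr
        rw [Module.mem_annihilator]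
        intro m
        obtain ⟨m, rfl⟩ := Submodule.Quotient.mk_surjective _ m
        rw [← Submodule.Quotient.mk_smul, Submodule.Quotient.mk_eq_zero]
        exact Submodule.smul_mem_smul hr trivial
      refine (ringKrullDim_le_of_surjective (Ideal.Quotient.factor h1)
        (Ideal.Quotient.factor_surjective h1)).trans ?_
      have : IsField (B ⧸ maximalIdeal B) :=
        (Ideal.Quotient.maximal_ideal_iff_isField_quotient _).1 inferInstance
      let _ := this.toField
      exact (ringKrullDim_eq_zero_of_field (B ⧸ maximalIdeal B)).le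
    have := (hCM : CM B n M)
    obtain ⟨h1, -⟩ := CM.regular_of_dim_le t.toList hmem 0 M (by rw [hlen, zero_add]; exact hCM) hd0
    exact free_of_isWeaklyRegular n B t.toList hlen hl M h1

theorem dep_of_free {n : ℕ} (hn : ringKrullDim B = (n : ℕ)) {M : Type v} [AddCommGroup M]
    [Module B M] [Module.Finite B M] [Module.Free B M] : Dep B n M := by
  have h1 : Dep B n B := (CM.of_regular B hn).dep
  let b := Module.finBasis B M
  exact (h1.pi _).congr b.equivFun.symm

end regular

end Crest.Agent.R188.Noe
end

-- ▼ part R188/Noe5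
section

set_option autoImplicit false

namespace Crest.Agent.R188.Noe

open IsLocalRing RingTheory.Sequence Pointwise

universe u v w

section avoid

variable {R : Type u} [CommRing R]

/-- The dimension of `R/J` is the supremum over the minimal primes of `J`. -/
theorem ringKrullDim_quotient_le_of_minimalPrimes {J : Ideal R} {k : WithBot ℕ∞}
    (h : ∀ P ∈ J.minimalPrimes, ringKrullDim (R ⧸ P) ≤ k) : ringKrullDim (R ⧸ J) ≤ k := by
  rw [ringKrullDim_quotient]
  refine iSup_le fun c => ?_
  obtain ⟨P, hP, hle⟩ := Ideal.exists_minimalPrimes_le (I := J) (J := c.head.1.asIdeal)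
    ((PrimeSpectrum.mem_zeroLocus _ _).1 c.head.2)
  refine le_trans ?_ (h P hP)
  rw [ringKrullDim_quotient]
  let c' : LTSeries (PrimeSpectrum.zeroLocus (P : Set R)) :=
    { length := c.length
      toFun := fun i => ⟨(c i).1, by
        rw [PrimeSpectrum.mem_zeroLocus]
        have h1 : c.head ≤ c i := LTSeries.head_le c i
        exact fun x hx => h1 (hle hx)⟩
      step := fun i => c.step i }
  exact le_iSup (fun q : LTSeries (PrimeSpectrum.zeroLocus (P : Set R)) =>
    ((q.length : ℕ∞) : WithBot ℕ∞)) c'

theorem ringKrullDim_quotient_mono {I J : Ideal R} (h : I ≤ J) :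
    ringKrullDim (R ⧸ J) ≤ ringKrullDim (R ⧸ I) :=
  ringKrullDim_le_of_surjective (Ideal.Quotient.factor h) (Ideal.Quotient.factor_surjective h)

theorem le_of_add_one_le_add_one' {e : WithBot ℕ∞} {d : ℕ}
    (h : e + 1 ≤ ((d + 1 : ℕ) : WithBot ℕ∞)) : e ≤ d := by
  induction e with
  | bot => exact bot_le
  | coe e =>
    induction e with
    | top =>
      exfalso
      have h1 : ((⊤ : ℕ∞) : WithBot ℕ∞) + 1 = ((⊤ : ℕ∞) : WithBot ℕ∞) := rfl
      rw [h1] at h
      have h2 : (⊤ : ℕ∞) ≤ ((d + 1 : ℕ) : ℕ∞) := WithBot.coe_le_coe.1 h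
      exact absurd h2 (by simp)
    | coe e =>
      have h1 : ((e + 1 : ℕ) : WithBot ℕ∞) ≤ ((d + 1 : ℕ) : WithBot ℕ∞) := by
        refine le_trans (le_of_eq ?_) h
        push_cast; rfl
      have h2 : e + 1 ≤ d + 1 := by exact_mod_cast h1
      have h3 : e ≤ d := by omega
      exact WithBot.coe_le_coe.2 (by exact_mod_cast h3)

/-- **Common systems of parameters.**  If `dim R/J i ≤ n i + a` and `dim R/(J i + I) ≤ n i` then
there are `a` elements of `I` which cut all the dimensions down to `n i`. -/
theorem exists_params [IsNoetherianRing R] (I : Ideal R) {ι : Type w} [Finite ι] (n : ι → ℕ)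
    (a : ℕ) : ∀ (J : ι → Ideal R), (∀ i, ringKrullDim (R ⧸ J i) ≤ (n i + a : ℕ)) →
    (∀ i, ringKrullDim (R ⧸ (J i ⊔ I)) ≤ (n i : ℕ)) →
    ∃ G : List R, G.length = a ∧ (∀ g ∈ G, g ∈ I) ∧
      ∀ i, ringKrullDim (R ⧸ (J i ⊔ Ideal.ofList G)) ≤ (n i : ℕ) := by
  classical
  induction a with
  | zero =>
    intro J h1 _
    refine ⟨[], rfl, by simp, fun i => ?_⟩
    rw [Ideal.ofList_nil, sup_bot_eq]
    simpa using h1 i
  | succ a ih =>
    intro J h1 h2
    -- the bad primes
    let B : Set (Ideal R) := ⋃ i, {P ∈ (J i).minimalPrimes | ¬ ringKrullDim (R ⧸ P) ≤ (n i + a : ℕ)}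
    have hBfin : B.Finite := Set.finite_iUnion fun i =>
      ((J i).finite_minimalPrimes_of_isNoetherianRing R).subset (Set.sep_subset _ _)
    obtain ⟨g, hgI, hg⟩ : ∃ g ∈ I, ∀ P ∈ B, g ∉ P := by
      by_contra! hcon
      have hsub : (I : Set R) ⊆ ⋃ P ∈ B, (P : Set R) := by
        intro g hg
        obtain ⟨P, hP, hgP⟩ := hcon g hg
        exact Set.mem_biUnion hP hgP
      obtain ⟨P, hP, hle⟩ := (Ideal.subset_union_prime_finite hBfin I I (by
        intro P hP _ _
        obtain ⟨i, hi⟩ := Set.mem_iUnion.1 hP
        exact hi.1.1.1)).1 hsub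
      obtain ⟨i, hi⟩ := Set.mem_iUnion.1 hP
      apply hi.2
      refine ((ringKrullDim_quotient_mono (sup_le hi.1.1.2 hle)).trans (h2 i)).trans ?_
      exact_mod_cast Nat.le_add_right _ _
    have h3 : ∀ i, ringKrullDim (R ⧸ (J i ⊔ Ideal.span {g})) ≤ (n i + a : ℕ) := by
      intro i
      refine ringKrullDim_quotient_le_of_minimalPrimes fun P' hP' => ?_
      have hP'p := hP'.1.1
      obtain ⟨P, hP, hle⟩ := Ideal.exists_minimalPrimes_le (I := J i) (J := P')
        (le_sup_left.trans hP'.1.2)
      have hgP' : g ∈ P' := hP'.1.2 (Ideal.mem_sup_right (Ideal.mem_span_singleton_self g))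
      by_cases hb : ringKrullDim (R ⧸ P) ≤ (n i + a : ℕ)
      · exact (ringKrullDim_quotient_mono hle).trans hb
      · have hgP : g ∉ P := hg P (Set.mem_iUnion.2 ⟨i, hP, hb⟩)
        have hPp := hP.1.1
        have h4 := ringKrullDim_quotient_add_one_le hle hgP' hgP
        have h5 : ringKrullDim (R ⧸ P) ≤ (n i + (a + 1) : ℕ) :=
          (ringKrullDim_quotient_mono hP.1.2).trans (h1 i)
        exact le_of_add_one_le_add_one' (h4.trans h5)
    obtain ⟨G, hG1, hG2, hG3⟩ := ih (fun i => J i ⊔ Ideal.span {g}) h3 (fun i => by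
      refine (ringKrullDim_quotient_mono ?_).trans (h2 i)
      exact sup_le_sup_right le_sup_left I)
    refine ⟨g :: G, by simp [hG1], ?_, fun i => ?_⟩
    · intro r hr
      rcases List.mem_cons.1 hr with rfl | h
      · exact hgI
      · exact hG2 r h
    · rw [Ideal.ofList_cons, ← sup_assoc]
      exact hG3 i

/-- the annihilator of `M / I M` up to radical. -/
theorem supportDim_quotient_smul_top (I : Ideal R) (M : Type v) [AddCommGroup M] [Module R M]
    [Module.Finite R M] : Module.supportDim R (M ⧸ (I • ⊤ : Submodule R M)) =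
      ringKrullDim (R ⧸ (Module.annihilator R M ⊔ I)) := by
  rw [Module.supportDim, Module.support_quotient, ringKrullDim_quotient,
    Module.support_eq_zeroLocus, ← PrimeSpectrum.zeroLocus_sup]

end avoid

section finlen

variable {R : Type u} [CommRing R] [IsLocalRing R] [IsNoetherianRing R]

/-- dimension `≤ 0` means that a power of the maximal ideal is contained. -/
theorem exists_pow_le_of_ringKrullDim_le_zero {J : Ideal R} (hJ : ringKrullDim (R ⧸ J) ≤ 0) :
    ∃ c, maximalIdeal R ^ c ≤ J := by
  have h1 : maximalIdeal R ≤ J.radical := by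
    rw [Ideal.radical_eq_sInf]
    refine le_sInf fun P hP => ?_
    obtain ⟨hle, hPp⟩ := hP
    have h2 : ringKrullDim (R ⧸ P) ≤ 0 := (ringKrullDim_quotient_mono hle).trans hJ
    have h3 : Ring.KrullDimLE 0 (R ⧸ P) := (Ring.krullDimLE_iff (n := 0)).2 h2
    have h4 : (⊥ : Ideal (R ⧸ P)).IsMaximal := Ideal.isMaximal_of_isPrime _
    have h5 : P.IsMaximal := Ideal.bot_quotient_isMaximal_iff P |>.1 h4
    rw [IsLocalRing.eq_maximalIdeal h5]
  exact (Ideal.exists_pow_le_of_le_radical_of_fg h1 (IsNoetherian.noetherian _))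

omit [IsNoetherianRing R] in
theorem ringKrullDim_le_zero_of_pow_le {J : Ideal R} {c : ℕ} (hJ : maximalIdeal R ^ c ≤ J) :
    ringKrullDim (R ⧸ J) ≤ 0 := by
  refine ringKrullDim_quotient_le_of_minimalPrimes fun P hP => ?_
  have hPp := hP.1.1
  have h1 : maximalIdeal R ≤ P := hPp.le_of_pow_le (hJ.trans hP.1.2)
  have h2 : P = maximalIdeal R := le_antisymm (le_maximalIdeal hPp.ne_top) h1
  subst h2
  have : IsField (R ⧸ maximalIdeal R) :=
    (Ideal.Quotient.maximal_ideal_iff_isField_quotient _).1 inferInstance
  let _ := this.toField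
  exact (ringKrullDim_eq_zero_of_field (R ⧸ maximalIdeal R)).le

end finlen

end Crest.Agent.R188.Noe
end

-- ▼ part R188/Noe6

set_option autoImplicit false

namespace Crest.Agent.R188.Noe

open IsLocalRing RingTheory.Sequence Pointwise

universe u v w

section change

variable {R : Type u} [CommRing R] {S : Type v} [CommRing S]
  [Algebra R S] {M : Type w} [AddCommGroup M] [Module R M] [Module S M] [IsScalarTower R S M]

/-- `supportDim` does not change under a surjective change of rings. -/
theorem supportDim_of_surjective (hs : Function.Surjective (algebraMap R S))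
    [Module.Finite R M] : Module.supportDim R M = Module.supportDim S M := by
  have hfin : Module.Finite S M := Module.Finite.of_restrictScalars_finite R S M
  rw [Module.supportDim_eq_ringKrullDim_quotient_annihilator,
    Module.supportDim_eq_ringKrullDim_quotient_annihilator]
  have hann : Module.annihilator R M = (Module.annihilator S M).comap (algebraMap R S) := by
    ext r
    rw [Ideal.mem_comap, Module.mem_annihilator, Module.mem_annihilator]
    simp only [algebraMap_smul]
  have e : (R ⧸ Module.annihilator R M) ≃+* (S ⧸ Module.annihilator S M) :=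
    RingEquiv.ofBijective (Ideal.quotientMap (Module.annihilator S M) (algebraMap R S) hann.le)
      ⟨Ideal.quotientMap_injective' hann.ge, Ideal.quotientMap_surjective hs⟩
  exact ringKrullDim_eq_of_ringEquiv e

variable [IsLocalRing R] [IsLocalRing S]

theorem CM.of_surjective (hs : Function.Surjective (algebraMap R S)) [Module.Finite R M] {n : ℕ}
    (h : CM R n M) : CM S n M := by
  have : IsLocalHom (algebraMap R S) := IsLocalHom.of_surjective _ hs
  exact ⟨dep_of_isLocalHom h.dep, by rw [← supportDim_of_surjective hs, h.dim]⟩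


end change

section G

variable {R : Type u} [CommRing R] [IsLocalRing R] [IsNoetherianRing R]

omit [IsLocalRing R] [IsNoetherianRing R] in
theorem ofList_smul_top (rs : List R) :
    (Ideal.ofList rs • ⊤ : Submodule R R) = Ideal.ofList rs := by
  rw [smul_eq_mul, Ideal.mul_top]

/-- In a CM ring, `rs ⊂ m` with `dim R/(rs) ≤ n - |rs|` is regular and `R/(rs)` is CM. -/
theorem regular_of_dim {n : ℕ} {rs : List R} (hm : ∀ r ∈ rs, r ∈ maximalIdeal R)
    (hR : CM R (n + rs.length) R) (hd : ringKrullDim (R ⧸ Ideal.ofList rs) ≤ (n : ℕ)) :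
    IsWeaklyRegular R rs ∧ CM R n (R ⧸ Ideal.ofList rs) := by
  have h := CM.regular_of_dim_le rs hm n R hR (by
    rw [ofList_smul_top, Module.supportDim_quotient_eq_ringKrullDim]
    exact hd)
  rw [ofList_smul_top] at h
  exact h

/-- **The complete intersection**, version without `p`. -/
theorem exists_G {a b : ℕ} (hR : CM R (b + a) R) {I A : Ideal R} (hI : I ≤ maximalIdeal R)
    (hIb : ringKrullDim (R ⧸ I) ≤ (b : ℕ)) (hA : ringKrullDim (R ⧸ A) ≤ (a : ℕ))
    (hAI : ringKrullDim (R ⧸ (A ⊔ I)) ≤ 0) :
    ∃ G : List R, G.length = a ∧ (∀ g ∈ G, g ∈ I) ∧ IsWeaklyRegular R G ∧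
      CM R b (R ⧸ Ideal.ofList G) ∧ ringKrullDim (R ⧸ (A ⊔ Ideal.ofList G)) ≤ 0 := by
  have hRd : ringKrullDim R = (b + a : ℕ) := by
    rw [← Module.supportDim_self_eq_ringKrullDim, hR.dim]
  obtain ⟨G, h1, h2, h3⟩ := exists_params I (ι := Bool) (fun i => cond i b 0) a
    (fun i => cond i ⊥ A) (by
      intro i
      cases i with
      | true =>
        exact (ringKrullDim_le_of_surjective _ (Ideal.Quotient.mk_surjective)).trans hRd.le
      | false =>
        show ringKrullDim (R ⧸ A) ≤ (0 + a : ℕ)
        rw [zero_add]; exact hA) (by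
      intro i
      cases i with
      | true =>
        show ringKrullDim (R ⧸ (⊥ ⊔ I)) ≤ (b : ℕ)
        rw [bot_sup_eq]; exact hIb
      | false => exact hAI)
  have h4 : ringKrullDim (R ⧸ (⊥ ⊔ Ideal.ofList G)) ≤ (b : ℕ) := h3 true
  have h5 : ringKrullDim (R ⧸ (A ⊔ Ideal.ofList G)) ≤ (0 : ℕ) := h3 false
  rw [bot_sup_eq] at h4
  obtain ⟨h6, h7⟩ := regular_of_dim (fun g hg => hI (h2 g hg)) (by rw [h1]; exact hR) h4
  exact ⟨G, h1, h2, h6, h7, by simpa using h5⟩

/-- **The complete intersection**, version with a parameter `p` modulo `I`. -/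
theorem exists_G_param {a b : ℕ} (hR : CM R (b + 1 + a) R) {I A : Ideal R} {p : R}
    (hpR : ringKrullDim (R ⧸ Ideal.span {p}) ≤ (b + a : ℕ))
    (hI : I ≤ maximalIdeal R)
    (hIb : ringKrullDim (R ⧸ I) ≤ (b + 1 : ℕ)) (hIp : ringKrullDim (R ⧸ (Ideal.span {p} ⊔ I)) ≤ (b : ℕ))
    (hA : ringKrullDim (R ⧸ A) ≤ (a : ℕ)) (hAI : ringKrullDim (R ⧸ (A ⊔ I)) ≤ 0) :
    ∃ G : List R, G.length = a ∧ (∀ g ∈ G, g ∈ I) ∧ IsWeaklyRegular R G ∧
      CM R (b + 1) (R ⧸ Ideal.ofList G) ∧ ringKrullDim (R ⧸ (A ⊔ Ideal.ofList G)) ≤ 0 ∧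
      ringKrullDim (R ⧸ (Ideal.ofList G ⊔ Ideal.span {p})) ≤ (b : ℕ) ∧
      IsSMulRegular (R ⧸ Ideal.ofList G) p := by
  have hRd : ringKrullDim R = (b + 1 + a : ℕ) := by
    rw [← Module.supportDim_self_eq_ringKrullDim, hR.dim]
  obtain ⟨G, h1, h2, h3⟩ := exists_params I (ι := Bool × Bool)
    (fun i => cond i.1 b (cond i.2 (b + 1) 0)) a
    (fun i => cond i.1 (Ideal.span {p}) (cond i.2 ⊥ A)) (by
      rintro ⟨i, j⟩
      cases i with
      | true => exact hpR
      | false =>
        cases j with
        | true =>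
          exact (ringKrullDim_le_of_surjective _ (Ideal.Quotient.mk_surjective)).trans hRd.le
        | false =>
          show ringKrullDim (R ⧸ A) ≤ (0 + a : ℕ)
          rw [zero_add]; exact hA) (by
      rintro ⟨i, j⟩
      cases i with
      | true => exact hIp
      | false =>
        cases j with
        | true =>
          show ringKrullDim (R ⧸ (⊥ ⊔ I)) ≤ (b + 1 : ℕ)
          rw [bot_sup_eq]; exact hIb
        | false => exact hAI)
  have h0 : ringKrullDim (R ⧸ (Ideal.span {p} ⊔ Ideal.ofList G)) ≤ (b : ℕ) := h3 (true, true)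
  have h4 : ringKrullDim (R ⧸ (⊥ ⊔ Ideal.ofList G)) ≤ (b + 1 : ℕ) := h3 (false, true)
  have h5 : ringKrullDim (R ⧸ (A ⊔ Ideal.ofList G)) ≤ (0 : ℕ) := h3 (false, false)
  rw [bot_sup_eq] at h4
  obtain ⟨h6, h7⟩ := regular_of_dim (fun g hg => hI (h2 g hg)) (by rw [h1]; exact hR) h4
  have h8 : ringKrullDim (R ⧸ (Ideal.ofList G ⊔ Ideal.span {p})) ≤ (b : ℕ) := by
    rw [sup_comm]; exact h0
  refine ⟨G, h1, h2, h6, h7, by simpa using h5, h8, ?_⟩
  refine h7.isSMulRegular ?_
  have h9 : Module.supportDim R (QuotSMulTop p (R ⧸ Ideal.ofList G)) =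
      ringKrullDim (R ⧸ (Ideal.ofList G ⊔ Ideal.span {p})) := by
    have := supportDim_quotient_smul_top (Ideal.span {p}) (R ⧸ Ideal.ofList G)
    rw [Ideal.annihilator_quotient] at this
    rw [← this]
    exact Module.supportDim_eq_of_equiv (Submodule.quotEquivOfEq _ _
      (by rw [Submodule.ideal_span_singleton_smul]))
  rw [h9]
  refine lt_of_le_of_lt h8 ?_
  exact_mod_cast Nat.lt_succ_self b


/-- `s.o.p.` of `R/J`: `b` elements of `m` with `dim R/(J + (t)) ≤ 0`. -/
theorem exists_sop {b : ℕ} {J : Ideal R} (hJm : J ≤ maximalIdeal R)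
    (hJ : ringKrullDim (R ⧸ J) ≤ (b : ℕ)) :
    ∃ t : Fin b → R, (∀ i, t i ∈ maximalIdeal R) ∧
      ∃ c, maximalIdeal R ^ c ≤ J ⊔ Ideal.span (Set.range t) := by
  obtain ⟨G, h1, h2, h3⟩ := exists_params (maximalIdeal R) (ι := Unit) (fun _ => 0) b
    (fun _ => J) (fun _ => by rw [zero_add]; exact hJ) (fun _ => by
      rw [sup_eq_right.2 hJm]
      exact ringKrullDim_le_zero_of_pow_le (c := 1) (by rw [pow_one]))
  subst h1
  refine ⟨fun i => G.get i, fun i => h2 _ (List.get_mem _ _), ?_⟩
  obtain ⟨c, hc⟩ := exists_pow_le_of_ringKrullDim_le_zero (h3 ())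
  refine ⟨c, hc.trans (sup_le_sup_left ?_ J)⟩
  rw [Ideal.ofList, Ideal.span_le]
  intro x hx
  obtain ⟨i, rfl⟩ := List.get_of_mem hx
  exact Ideal.subset_span ⟨i, rfl⟩

end G

section tensor

variable {R : Type u} [CommRing R]

open TensorProduct

/-- the support of a tensor product of finite modules. -/
theorem annihilator_tensorProduct_le {M : Type v} {N : Type w} [AddCommGroup M] [Module R M]
    [AddCommGroup N] [Module R N] [Module.Finite R M] [Module.Finite R N] {P : Ideal R}
    [hP : P.IsPrime] (hM : Module.annihilator R M ≤ P) (hN : Module.annihilator R N ≤ P) :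
    Module.annihilator R (M ⊗[R] N) ≤ P := by
  have h1 : (⟨P, hP⟩ : PrimeSpectrum R) ∈ Module.support R M :=
    Module.mem_support_iff_of_finite.2 hM
  have h2 : (⟨P, hP⟩ : PrimeSpectrum R) ∈ Module.support R N :=
    Module.mem_support_iff_of_finite.2 hN
  rw [Module.mem_support_iff_nontrivial_residueField_tensorProduct] at h1 h2
  have h3 : (⟨P, hP⟩ : PrimeSpectrum R) ∈ Module.support R (M ⊗[R] N) := by
    rw [Module.mem_support_iff_nontrivial_residueField_tensorProduct]
    let K := P.ResidueField
    have e := TensorProduct.AlgebraTensorModule.distribBaseChange R K M N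
    have h1' : Nontrivial (K ⊗[R] M) := h1
    have h2' : Nontrivial (K ⊗[R] N) := h2
    have h4 : Nontrivial ((K ⊗[R] M) ⊗[K] (K ⊗[R] N)) := by
      rw [← rank_pos_iff_nontrivial (R := K)]
      have h5 := (rank_pos_iff_nontrivial (R := K) (M := K ⊗[R] M)).2 h1'
      have h6 := (rank_pos_iff_nontrivial (R := K) (M := K ⊗[R] N)).2 h2'
      rw [rank_tensorProduct]
      rw [pos_iff_ne_zero] at h5 h6 ⊢
      exact mul_ne_zero (by simpa using h5) (by simpa using h6)
    exact e.toEquiv.nontrivial
  exact Module.mem_support_iff_of_finite.1 h3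

/-- A module of finite length over a local ring is killed by a power of the maximal ideal. -/
theorem exists_pow_le_annihilator [IsLocalRing R] {T : Type v} [AddCommGroup T] [Module R T]
    (h : IsFiniteLength R T) : ∃ c, maximalIdeal R ^ c ≤ Module.annihilator R T := by
  obtain ⟨hN, hA⟩ := isFiniteLength_iff_isNoetherian_isArtinian.1 h
  let f : ℕ →o (Submodule R T)ᵒᵈ :=
    { toFun := fun n => OrderDual.toDual (maximalIdeal R ^ n • (⊤ : Submodule R T))
      monotone' := fun m n hmn => by
        show (maximalIdeal R ^ n • (⊤ : Submodule R T)) ≤ (maximalIdeal R ^ m • (⊤ : Submodule R T))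
        exact Submodule.smul_mono_left (Ideal.pow_le_pow_right hmn) }
  obtain ⟨c, hc⟩ := IsArtinian.monotone_stabilizes f
  have h1 : (maximalIdeal R ^ c • (⊤ : Submodule R T)) = maximalIdeal R ^ (c + 1) • ⊤ :=
    hc (c + 1) (Nat.le_succ c)
  have h2 : (maximalIdeal R ^ c • (⊤ : Submodule R T)) = ⊥ := by
    refine Submodule.eq_bot_of_le_smul_of_le_jacobson_bot (maximalIdeal R) _
      (IsNoetherian.noetherian _) ?_ ?_
    · conv_lhs => rw [h1, pow_succ', Submodule.mul_smul]
    · rw [IsLocalRing.jacobson_eq_maximalIdeal _ bot_ne_top]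
  refine ⟨c, fun r hr => ?_⟩
  rw [Module.mem_annihilator]
  intro t
  have : r • t ∈ maximalIdeal R ^ c • (⊤ : Submodule R T) := Submodule.smul_mem_smul hr trivial
  rwa [h2, Submodule.mem_bot] at this

/-- `M ⊗ N` of finite length means that `Ann M + Ann N` is primary to the maximal ideal. -/
theorem ringKrullDim_le_zero_of_isFiniteLength [IsLocalRing R] [IsNoetherianRing R]
    {M : Type v} {N : Type w} [AddCommGroup M] [Module R M]
    [AddCommGroup N] [Module R N] [Module.Finite R M] [Module.Finite R N]
    (h : IsFiniteLength R (M ⊗[R] N)) :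
    ringKrullDim (R ⧸ (Module.annihilator R M ⊔ Module.annihilator R N)) ≤ 0 := by
  obtain ⟨c, hc⟩ := exists_pow_le_annihilator h
  refine ringKrullDim_quotient_le_of_minimalPrimes fun P hP => ?_
  have hPp := hP.1.1
  have h1 : Module.annihilator R (M ⊗[R] N) ≤ P :=
    annihilator_tensorProduct_le (le_sup_left.trans hP.1.2) (le_sup_right.trans hP.1.2)
  exact ringKrullDim_le_zero_of_pow_le (hc.trans h1)

/-- Conversely. -/
theorem isFiniteLength_tensorProduct [IsLocalRing R] [IsNoetherianRing R]
    {M : Type v} {N : Type w} [AddCommGroup M] [Module R M]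
    [AddCommGroup N] [Module R N] [Module.Finite R M] [Module.Finite R N]
    (h : ringKrullDim (R ⧸ (Module.annihilator R M ⊔ Module.annihilator R N)) ≤ 0) :
    IsFiniteLength R (M ⊗[R] N) := by
  obtain ⟨c, hc⟩ := exists_pow_le_of_ringKrullDim_le_zero h
  have hann : Module.annihilator R M ⊔ Module.annihilator R N ≤
      Module.annihilator R (M ⊗[R] N) := by
    rw [sup_le_iff]
    constructor
    · intro r hr
      rw [Module.mem_annihilator] at hr ⊢
      intro t
      induction t using TensorProduct.induction_on with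
      | zero => simp
      | tmul m n => rw [TensorProduct.smul_tmul', hr, TensorProduct.zero_tmul]
      | add x y hx hy => rw [smul_add, hx, hy, add_zero]
    · intro r hr
      rw [Module.mem_annihilator] at hr ⊢
      intro t
      induction t using TensorProduct.induction_on with
      | zero => simp
      | tmul m n => rw [← TensorProduct.tmul_smul, hr, TensorProduct.tmul_zero]
      | add x y hx hy => rw [smul_add, hx, hy, add_zero]
  have hT : maximalIdeal R ^ c ≤ Module.annihilator R (M ⊗[R] N) := hc.trans hann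
  rw [isFiniteLength_iff_isNoetherian_isArtinian]
  refine ⟨inferInstance, ?_⟩
  let A := R ⧸ Module.annihilator R (M ⊗[R] N)
  have hA : IsArtinianRing A := by
    rw [isArtinianRing_iff_krullDimLE_zero, Ring.krullDimLE_iff]
    exact_mod_cast ringKrullDim_le_zero_of_pow_le hT
  let _ : Module A (M ⊗[R] N) := Module.quotientAnnihilator
  have hsc : IsScalarTower R A (M ⊗[R] N) := (Module.isTorsionBySet_annihilator R _).isScalarTower
  have hfin : Module.Finite A (M ⊗[R] N) := Module.Finite.of_restrictScalars_finite R _ _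
  have hart : IsArtinian A (M ⊗[R] N) := isArtinian_of_fg_of_artinian'
  exact isArtinian_of_surjective_algebraMap (R := A) (S := R) Ideal.Quotient.mk_surjective

end tensor

end Crest.Agent.R188.Noe
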