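/-
R188, block A5 / WIT (helper46): Witt vectors of perfect rings (possibly zero rings),
distinguished elements, `W(R)/ξ`.
-/
import Crest.Agent.R188.PrfPerf

set_option autoImplicit false
set_option linter.unusedSectionVars false
set_option linter.unusedVariables false
set_option linter.style.haveILetI false
set_option linter.unreachableTactic false
set_option linter.unusedTactic false

namespace Crest.Agent.R188.Wit

open WittVector Function Crest.Agent.R188.Prf

universe u v w

variable {p : ℕ} [hp : Fact p.Prime] {R : Type u} [CommRing R]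

local notation "𝕎" => WittVector p
local notation "τ" => WittVector.teichmuller p

/-! ### basics -/

lemma charP_of (h : (p : R) = 0) [Nontrivial R] : CharP R p := by
  obtain ⟨q, hq⟩ := CharP.exists R
  have h1 : q ∣ p := (CharP.cast_eq_zero_iff R q p).1 h
  rcases (Nat.dvd_prime hp.out).1 h1 with rfl | rfl
  · have h2 := CharP.cast_eq_zero R 1
    rw [Nat.cast_one] at h2
    exact absurd h2 one_ne_zero
  · exact hq

lemma wv_eq_teich_add (x : 𝕎 R) :
    x = τ (x.coeff 0) + verschiebung (x.shift 1) := by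
  ext n
  rw [coeff_add_of_disjoint]
  · cases n with
    | zero => simp
    | succ n =>
      rw [teichmuller_coeff_pos p _ _ (Nat.succ_pos n), verschiebung_coeff_succ, shift_coeff,
        zero_add, add_comm]
  · intro n
    cases n with
    | zero => right; simp
    | succ n => left; exact teichmuller_coeff_pos p _ _ (Nat.succ_pos n)

lemma frobenius_teich (h0 : (p : R) = 0) (w : R) :
    WittVector.frobenius (τ w) = τ (w ^ p) := by
  rcases subsingleton_or_nontrivial R with hs | hn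
  · ext n; exact Subsingleton.elim _ _
  haveI := charP_of h0
  ext n
  rw [coeff_frobenius_charP]
  cases n with
  | zero => rw [teichmuller_coeff_zero, teichmuller_coeff_zero]
  | succ n =>
    rw [teichmuller_coeff_pos p _ _ (Nat.succ_pos n), teichmuller_coeff_pos p _ _ (Nat.succ_pos n),
      zero_pow hp.out.ne_zero]

/-- `([w] * x)_n = w ^ (p ^ n) * x_n`. -/
theorem teich_mul_coeff (h0 : (p : R) = 0) (w : R) (x : 𝕎 R) (n : ℕ) :
    (τ w * x).coeff n = w ^ (p ^ n) * x.coeff n := by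
  induction n generalizing w x with
  | zero => simp [WittVector.mul_coeff_zero]
  | succ n ih =>
    have h1 : τ w * x = τ (w * x.coeff 0) + verschiebung (τ (w ^ p) * x.shift 1) := by
      conv_lhs => rw [wv_eq_teich_add x]
      rw [mul_add, map_mul, ← frobenius_teich h0 w]
      congr 1
      rw [mul_comm (WittVector.frobenius _), verschiebung_mul_frobenius, mul_comm]
    rw [h1, coeff_add_of_disjoint]
    · rw [teichmuller_coeff_pos p _ _ (Nat.succ_pos n), verschiebung_coeff_succ, ih, zero_add,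
        shift_coeff, ← pow_mul, pow_succ', add_comm 1 n]
    · intro m
      cases m with
      | zero => right; simp
      | succ m => left; exact teichmuller_coeff_pos p _ _ (Nat.succ_pos m)

lemma mul_p_coeff_zero (h0 : (p : R) = 0) (x : 𝕎 R) : (x * (p : 𝕎 R)).coeff 0 = 0 := by
  rcases subsingleton_or_nontrivial R with hs | hn
  · exact Subsingleton.elim _ _
  haveI := charP_of h0
  exact mul_charP_coeff_zero x

lemma mul_p_coeff_succ (h0 : (p : R) = 0) (x : 𝕎 R) (n : ℕ) :
    (x * (p : 𝕎 R)).coeff (n + 1) = x.coeff n ^ p := by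
  rcases subsingleton_or_nontrivial R with hs | hn
  · exact Subsingleton.elim _ _
  haveI := charP_of h0
  exact mul_charP_coeff_succ x n



section Perf

variable (h : IsPerf p R)

include h

lemma perfectRing [CharP R p] : PerfectRing R p where
  bijective_frobenius := ⟨fun x y hxy => h.pow_inj hxy, fun x => ⟨h.rt x, h.rt_pow x⟩⟩

lemma eq_of_mul_p {x y : 𝕎 R} (hxy : x * (p : 𝕎 R) = y * p) : x = y := by
  ext n
  apply h.pow_inj
  rw [← mul_p_coeff_succ h.p_zero, hxy, mul_p_coeff_succ h.p_zero]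

lemma eq_of_p_mul {x y : 𝕎 R} (hxy : (p : 𝕎 R) * x = p * y) : x = y :=
  eq_of_mul_p h (by rw [mul_comm x, mul_comm y, hxy])

lemma eq_of_p_pow_mul {n : ℕ} {x y : 𝕎 R} (hxy : (p : 𝕎 R) ^ n * x = p ^ n * y) : x = y := by
  induction n generalizing x y with
  | zero => simpa using hxy
  | succ n ih =>
    rw [pow_succ, mul_assoc, mul_assoc] at hxy
    exact eq_of_p_mul h (ih hxy)

lemma p_regular {x : 𝕎 R} (hx : (p : 𝕎 R) * x = 0) : x = 0 :=
  eq_of_p_mul h (by rw [hx, mul_zero])

lemma p_pow_dvd_iff {n : ℕ} {x : 𝕎 R} : (p : 𝕎 R) ^ n ∣ x ↔ ∀ m < n, x.coeff m = 0 := by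
  rcases subsingleton_or_nontrivial R with hs | hn
  · constructor
    · intro _ m _; exact Subsingleton.elim _ _
    · intro _
      refine ⟨0, ?_⟩
      ext n; exact Subsingleton.elim _ _
  haveI := charP_of h.p_zero
  haveI := perfectRing h
  rw [← Ideal.mem_span_singleton]
  exact mem_span_p_pow_iff_le_coeff_eq_zero x n

lemma p_dvd_iff {x : 𝕎 R} : (p : 𝕎 R) ∣ x ↔ x.coeff 0 = 0 := by
  have := p_pow_dvd_iff h (n := 1) (x := x)
  rw [pow_one] at this
  rw [this]
  constructor
  · intro h1; exact h1 0 (by omega)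
  · intro h1 m hm
    obtain rfl : m = 0 := by omega
    exact h1

lemma exists_eq_teich_add (x : 𝕎 R) : ∃ y : 𝕎 R, x = τ (x.coeff 0) + (p : 𝕎 R) * y := by
  have h1 : (p : 𝕎 R) ∣ x - τ (x.coeff 0) := by
    rw [p_dvd_iff h]
    have : constantCoeff (x - τ (x.coeff 0)) = 0 := by
      rw [map_sub]; simp [constantCoeff]
    simpa [constantCoeff] using this
  obtain ⟨y, hy⟩ := h1
  exact ⟨y, by rw [← hy]; ring⟩

lemma eq_zero_of_forall_dvd {x : 𝕎 R} (hx : ∀ n, (p : 𝕎 R) ^ n ∣ x) : x = 0 := by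
  ext n
  rw [(p_pow_dvd_iff h).1 (hx (n + 1)) n (Nat.lt_succ_self n)]
  simp

theorem isAdicComplete : IsAdicComplete (Ideal.span {(p : 𝕎 R)}) (𝕎 R) := by
  rcases subsingleton_or_nontrivial R with hs | hn
  · haveI : Subsingleton (𝕎 R) := ⟨fun x y => by ext n; exact Subsingleton.elim _ _⟩
    exact ⟨⟩
  haveI := charP_of h.p_zero
  haveI := perfectRing h
  infer_instance

end Perf

/-! ### distinguished elements -/

/-- `ξ = [π] + p u`, `u` a unit. -/
structure IsDist (ξ : 𝕎 R) (π : R) : Prop where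
  ex : ∃ u : 𝕎 R, IsUnit u ∧ ξ = τ π + (p : 𝕎 R) * u

lemma IsDist.map {S : Type v} [CommRing S] {ξ : 𝕎 R} {π : R} (hξ : IsDist ξ π) (φ : R →+* S) :
    IsDist (WittVector.map φ ξ) (φ π) := by
  obtain ⟨u, hu, rfl⟩ := hξ.ex
  exact ⟨⟨WittVector.map φ u, hu.map _, by rw [map_add, map_mul, map_natCast, map_teichmuller]⟩⟩


section Dist

variable (h : IsPerf p R) {ξ : WittVector p R} {π : R} (hξ : IsDist ξ π)

include h hξ

/-- basic step: `ξ w ∈ p² W` implies `w ∈ p W`. -/
lemma dvd_of_xi_mul_dvd_sq {w : 𝕎 R} (hw : (p : 𝕎 R) ^ 2 ∣ ξ * w) : (p : 𝕎 R) ∣ w := by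
  obtain ⟨u, hu, rfl⟩ := hξ.ex
  obtain ⟨z, hz⟩ := hw
  -- `[π] w = (p z - u w) p`
  have h1 : τ π * w = (p * z - u * w) * p := by linear_combination hz
  have c0 : π * w.coeff 0 = 0 := by
    have := congrArg (fun t : 𝕎 R => t.coeff 0) h1
    rw [teich_mul_coeff h.p_zero, mul_p_coeff_zero h.p_zero, pow_zero, pow_one] at this
    exact this
  have c1 : π ^ p * w.coeff 1 = (-(u.coeff 0 * w.coeff 0)) ^ p := by
    have := congrArg (fun t : 𝕎 R => t.coeff 1) h1
    rw [teich_mul_coeff h.p_zero, mul_p_coeff_succ h.p_zero, pow_one] at this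
    rw [this]
    congr 1
    have e : constantCoeff ((p : 𝕎 R) * z - u * w) = -(u.coeff 0 * w.coeff 0) := by
      have e0 : constantCoeff (p : 𝕎 R) = 0 := by rw [map_natCast, h.p_zero]
      rw [map_sub, map_mul, map_mul, e0, zero_mul, zero_sub]
      rfl
    exact e
  have c2 : π * w.coeff 1 = 0 := by
    apply h.red_any (n := 2 * p)
    rw [neg_pow_p h.p_zero] at c1
    have : (π * w.coeff 1) ^ (2 * p) = (w.coeff 1) ^ (2 * p - 1) * (π ^ p * (π ^ p * w.coeff 1)) := by
      have hp1 : 2 * p - 1 + 1 = 2 * p := by have := hp.out.pos; omega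
      calc (π * w.coeff 1) ^ (2 * p) = π ^ (2 * p) * (w.coeff 1) ^ (2 * p) := mul_pow _ _ _
        _ = π ^ (2 * p) * (w.coeff 1) ^ (2 * p - 1 + 1) := by rw [hp1]
        _ = _ := by rw [pow_succ, two_mul, pow_add]; ring
    rw [this, c1, mul_pow]
    have : π ^ p * -(u.coeff 0 ^ p * w.coeff 0 ^ p) = 0 := by
      have : π ^ p * w.coeff 0 ^ p = 0 := by rw [← mul_pow, c0, zero_pow hp.out.ne_zero]
      linear_combination (-(u.coeff 0 ^ p)) * this
    rw [this, mul_zero]
  have c3 : u.coeff 0 * w.coeff 0 = 0 := by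
    apply h.red
    have h2 : π ^ p * w.coeff 1 = 0 := by
      have ht : π ^ p = π ^ (p - 1) * π := by
        rw [← pow_succ, Nat.sub_add_cancel hp.out.one_lt.le]
      rw [ht, mul_assoc, c2, mul_zero]
    rw [h2, neg_pow_p h.p_zero] at c1
    have := neg_eq_zero.1 c1.symm
    exact this
  have hu0 : IsUnit (u.coeff 0) := hu.map (constantCoeff (p := p) (R := R))
  rw [p_dvd_iff h]
  exact hu0.mul_right_eq_zero.1 c3

/-- `ξ w ∈ p^{n+1} W` implies `w ∈ p^n W`. -/
lemma dvd_of_xi_mul_dvd {n : ℕ} {w : 𝕎 R} (hw : (p : 𝕎 R) ^ (n + 1) ∣ ξ * w) :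
    (p : 𝕎 R) ^ n ∣ w := by
  induction n generalizing w with
  | zero => simp
  | succ n ih =>
    obtain ⟨w', rfl⟩ := dvd_of_xi_mul_dvd_sq h hξ
      ((pow_dvd_pow (p : 𝕎 R) (by omega : 2 ≤ n + 1 + 1)).trans hw)
    obtain ⟨z, hz⟩ := hw
    have h1 : ξ * w' = p ^ (n + 1) * z := by
      apply eq_of_p_mul h
      rw [← mul_assoc, mul_comm (p : 𝕎 R) ξ, mul_assoc, hz]; ring
    obtain ⟨w'', rfl⟩ := ih ⟨z, h1⟩
    exact ⟨w'', by ring⟩

/-- **`ξ` is a non-zero-divisor on `W(R)`, for every perfect ring `R`.** -/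
theorem xi_regular {w : 𝕎 R} (hw : ξ * w = 0) : w = 0 :=
  eq_zero_of_forall_dvd h fun n => dvd_of_xi_mul_dvd h hξ (by rw [hw]; exact dvd_zero _)

theorem xi_cancel {x y : 𝕎 R} (hxy : ξ * x = ξ * y) : x = y := by
  rw [← sub_eq_zero]
  apply xi_regular h hξ
  rw [mul_sub, hxy, sub_self]


/-- `ξ W` is closed: `⋂ (ξ W + p^n W) = ξ W`. -/
theorem xi_closed {y : 𝕎 R} (hy : ∀ n, ∃ a b, y = ξ * a + p ^ n * b) : ∃ x, y = ξ * x := by
  choose a b hab using hy
  have h1 : ∀ n, (p : 𝕎 R) ^ n ∣ a (n + 2) - a (n + 1) := by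
    intro n
    apply dvd_of_xi_mul_dvd h hξ
    refine ⟨b (n + 1) - p * b (n + 2), ?_⟩
    have e1 := hab (n + 1)
    have e2 := hab (n + 2)
    have e3 : (p : 𝕎 R) ^ (n + 2) = p ^ (n + 1) * p := pow_succ _ _
    rw [e3] at e2
    linear_combination e2.symm.trans e1
  haveI := isAdicComplete h
  have h2 : ∀ {m n : ℕ}, m ≤ n → a (m + 1) ≡ a (n + 1)
      [SMOD (Ideal.span {(p : 𝕎 R)} ^ m • (⊤ : Submodule (𝕎 R) (𝕎 R)))] := by
    intro m n hmn
    induction hmn with
    | refl => exact SModEq.refl _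
    | @step n hmn ih =>
      refine ih.trans ?_
      rw [SModEq.sub_mem, ← neg_mem_iff, neg_sub, smul_eq_mul, Ideal.mul_top,
        Ideal.span_singleton_pow, Ideal.mem_span_singleton]
      exact (pow_dvd_pow _ hmn).trans (h1 n)
  obtain ⟨L, hL⟩ := IsPrecomplete.prec (I := Ideal.span {(p : 𝕎 R)}) inferInstance
    (f := fun n => a (n + 1)) h2
  refine ⟨L, ?_⟩
  rw [← sub_eq_zero]
  apply eq_zero_of_forall_dvd h
  intro n
  have h3 := hL n
  rw [SModEq.sub_mem, smul_eq_mul, Ideal.mul_top, Ideal.span_singleton_pow,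
    Ideal.mem_span_singleton] at h3
  obtain ⟨c, hc⟩ := h3
  have e1 := hab (n + 1)
  refine ⟨ξ * c + p * b (n + 1), ?_⟩
  rw [e1, pow_succ]
  linear_combination ξ * hc

end Dist

end Crest.Agent.R188.Wit
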