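/-
R188, block A5 / WIT (helper46): the ring `Om = W(R)/ξ` for a perfect ring `R` and a
distinguished element `ξ`: `p`-adically complete, reduced, torsion.
-/
import Crest.Agent.R188.Wit1

set_option autoImplicit false
set_option linter.unusedSectionVars false
set_option linter.unusedVariables false
set_option linter.style.haveILetI false

namespace Crest.Agent.R188.Wit

open WittVector Function Crest.Agent.R188.Prf

universe u v w

variable {p : ℕ} [hp : Fact p.Prime] {R : Type u} [CommRing R]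

local notation "𝕎" => WittVector p
local notation "τ" => WittVector.teichmuller p

/-- `W(R)/ξ`. -/
abbrev Om (ξ : 𝕎 R) : Type u := 𝕎 R ⧸ Ideal.span {ξ}

/-- the projection `θ : W(R) → W(R)/ξ`. -/
noncomputable abbrev θ (ξ : 𝕎 R) : 𝕎 R →+* Om ξ := Ideal.Quotient.mk _

/-- the sharp map `c ↦ [c] mod ξ`. -/
noncomputable def sh (ξ : 𝕎 R) (c : R) : Om ξ := θ ξ (τ c)

lemma θ_surjective (ξ : 𝕎 R) : Surjective (θ ξ) := Ideal.Quotient.mk_surjective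

lemma θ_eq_zero_iff {ξ x : 𝕎 R} : θ ξ x = 0 ↔ ∃ y, x = ξ * y := by
  rw [Ideal.Quotient.eq_zero_iff_mem, Ideal.mem_span_singleton]; rfl

lemma θ_xi (ξ : 𝕎 R) : θ ξ ξ = 0 := θ_eq_zero_iff.2 ⟨1, by rw [mul_one]⟩

lemma sh_mul (ξ : 𝕎 R) (a b : R) : sh ξ (a * b) = sh ξ a * sh ξ b := by simp [sh]

lemma sh_pow (ξ : 𝕎 R) (a : R) (n : ℕ) : sh ξ (a ^ n) = sh ξ a ^ n := by simp [sh]

@[simp] lemma sh_one (ξ : 𝕎 R) : sh ξ (1 : R) = 1 := by simp [sh]

@[simp] lemma sh_zero (ξ : 𝕎 R) : sh ξ (0 : R) = 0 := by simp [sh]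

section

variable (h : IsPerf p R) {ξ : WittVector p R} {π : R} (hξ : IsDist ξ π)

include h hξ

omit h in
/-- `p = unit * π♯` in `Om`. -/
lemma exists_unit : ∃ e : Om ξ, IsUnit e ∧ (p : Om ξ) = sh ξ π * e := by
  obtain ⟨u, ⟨v, rfl⟩, he⟩ := hξ.ex
  refine ⟨-θ ξ ((v⁻¹ : (WittVector p R)ˣ) : WittVector p R), ?_, ?_⟩
  · exact ((v⁻¹).isUnit.map (θ ξ)).neg
  · have h1 : θ ξ (τ π + (p : 𝕎 R) * (v : 𝕎 R)) = 0 := by rw [← he]; exact θ_xi ξ
    rw [map_add, map_mul, map_natCast] at h1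
    have h4 : θ ξ (v : 𝕎 R) * θ ξ ((v⁻¹ : (WittVector p R)ˣ) : WittVector p R) = 1 := by
      rw [← map_mul, Units.mul_inv, map_one]
    have h5 : sh ξ π = θ ξ (τ π) := rfl
    rw [h5]
    linear_combination (θ ξ ((v⁻¹ : (WittVector p R)ˣ) : WittVector p R)) * h1 -
      (p : Om ξ) * h4

/-- the `p`-torsion of `Om` is killed by all `(π^{1/p^n})♯`. -/
lemma sh_rtn_mul_of_p_torsion {a : Om ξ} (ha : (p : Om ξ) * a = 0) (n : ℕ) :
    sh ξ (h.rtn n π) * a = 0 := by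
  obtain ⟨y, rfl⟩ := θ_surjective ξ a
  rw [← map_natCast (θ ξ), ← map_mul, θ_eq_zero_iff] at ha
  obtain ⟨x, hx⟩ := ha
  have c0 : π * x.coeff 0 = 0 := by
    obtain ⟨u, hu, rfl⟩ := hξ.ex
    have h1 : τ π * x = (y - u * x) * p := by linear_combination -hx
    have := congrArg (fun t : 𝕎 R => t.coeff 0) h1
    rwa [teich_mul_coeff h.p_zero, mul_p_coeff_zero h.p_zero, pow_zero, pow_one] at this
  have c1 : h.rtn n π * x.coeff 0 = 0 := by
    rw [mul_comm]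
    exact h.mul_rtn_eq_zero (n := 0) (by rw [h.rtn_zero', mul_comm, c0]) n
  obtain ⟨x', hx'⟩ := exists_eq_teich_add h x
  rw [sh, ← map_mul, θ_eq_zero_iff]
  refine ⟨τ (h.rtn n π) * x', ?_⟩
  apply eq_of_p_mul h
  have h2 : τ (h.rtn n π) * x = (p : 𝕎 R) * (τ (h.rtn n π) * x') := by
    conv_lhs => rw [hx']
    rw [mul_add, ← map_mul, c1, WittVector.teichmuller_zero, zero_add]; ring
  calc (p : 𝕎 R) * (τ (h.rtn n π) * y) = τ (h.rtn n π) * ((p : 𝕎 R) * y) := by ring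
    _ = ξ * (τ (h.rtn n π) * x) := by rw [hx]; ring
    _ = _ := by rw [h2]; ring


/-- `Om` is `p`-adically separated. -/
lemma Om_separated {a : Om ξ} (ha : ∀ n, ∃ b, a = (p : Om ξ) ^ n * b) : a = 0 := by
  obtain ⟨y, rfl⟩ := θ_surjective ξ a
  rw [θ_eq_zero_iff]
  apply xi_closed h hξ
  intro n
  obtain ⟨b, hb⟩ := ha n
  obtain ⟨z, rfl⟩ := θ_surjective ξ b
  rw [← map_natCast (θ ξ), ← map_pow, ← map_mul, ← sub_eq_zero, ← map_sub, θ_eq_zero_iff] at hb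
  obtain ⟨x, hx⟩ := hb
  exact ⟨x, z, by linear_combination hx⟩


/-- key step for reducedness: `a^p = 0` implies `a = (π^{1/p²})♯ b` with `b^p = 0`. -/
lemma red_step {a : Om ξ} (ha : a ^ p = 0) :
    ∃ b : Om ξ, b ^ p = 0 ∧ a = sh ξ (h.rtn 2 π) * b := by
  obtain ⟨e, he, hpe⟩ := exists_unit hξ
  obtain ⟨x, rfl⟩ := θ_surjective ξ a
  have ha0 := ha
  rw [← map_pow, θ_eq_zero_iff] at ha
  obtain ⟨y, hy⟩ := ha
  -- zeroth coefficient
  have c0 : x.coeff 0 ^ p = π * y.coeff 0 := by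
    have h1 : constantCoeff (x ^ p) = constantCoeff (ξ * y) := by rw [hy]
    rw [map_pow, map_mul] at h1
    have h2 : constantCoeff ξ = π := by
      obtain ⟨u, hu, rfl⟩ := hξ.ex
      rw [map_add, map_mul, map_natCast, h.p_zero, zero_mul, add_zero]
      simp [constantCoeff]
    rw [h2] at h1
    exact h1
  have c1 : x.coeff 0 = h.rtn 1 π * h.rtn 1 (y.coeff 0) := by
    apply h.pow_inj
    rw [mul_pow, c0]
    have := h.rtn_pow 1 π
    have h2 := h.rtn_pow 1 (y.coeff 0)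
    rw [pow_one] at this h2
    rw [this, h2]
  obtain ⟨x', hx'⟩ := exists_eq_teich_add h x
  -- `p = π♯ e = (π^{1/p})♯^p e`
  have hπp : sh ξ π = sh ξ (h.rtn 1 π) * sh ξ (h.rtn 1 π) ^ (p - 1) := by
    rw [← pow_succ', Nat.sub_add_cancel hp.out.one_lt.le, ← sh_pow]
    have := h.rtn_pow 1 π
    rw [pow_one] at this
    rw [this]
  set a'' : Om ξ := sh ξ (h.rtn 1 (y.coeff 0)) + sh ξ (h.rtn 1 π) ^ (p - 1) * e * θ ξ x' with ha''
  have h1 : θ ξ x = sh ξ (h.rtn 1 π) * a'' := by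
    conv_lhs => rw [hx', c1]
    rw [map_add, map_mul (θ ξ) (p : 𝕎 R), map_natCast, hpe, ha'', hπp]
    have : θ ξ (τ (h.rtn 1 π * h.rtn 1 (y.coeff 0))) =
        sh ξ (h.rtn 1 π) * sh ξ (h.rtn 1 (y.coeff 0)) := sh_mul ξ _ _
    rw [this]
    ring
  -- `π♯ a''^p = 0`, hence `p a''^p = 0`
  have h2 : (p : Om ξ) * a'' ^ p = 0 := by
    rw [hpe]
    have : sh ξ π * a'' ^ p = 0 := by
      rw [← ha0, h1, mul_pow, hπp, ← pow_succ', Nat.sub_add_cancel hp.out.one_lt.le]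
    linear_combination e * this
  have h3 := sh_rtn_mul_of_p_torsion h hξ h2 1
  refine ⟨sh ξ (h.rtn 2 π) ^ (p - 2) * (sh ξ (h.rtn 2 π) * a''), ?_, ?_⟩
  · rw [mul_pow, mul_pow (sh ξ (h.rtn 2 π)), ← sh_pow ξ (h.rtn 2 π) p]
    have : h.rtn 2 π ^ p = h.rtn 1 π := h.rtn_succ_pow 1 π
    rw [this, h3, mul_zero]
  · rw [h1]
    have : sh ξ (h.rtn 1 π) = sh ξ (h.rtn 2 π) * (sh ξ (h.rtn 2 π) ^ (p - 2) * sh ξ (h.rtn 2 π)) := by
      rw [← pow_succ, ← pow_succ', show p - 2 + 1 + 1 = p by have := hp.out.two_le; omega,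
        ← sh_pow]
      rw [h.rtn_succ_pow 1 π]
    rw [this]; ring

/-- **`W(R)/ξ` is reduced**, for every perfect ring `R`. -/
theorem Om_red_p {a : Om ξ} (ha : a ^ p = 0) : a = 0 := by
  have h1 : ∀ k, ∃ b : Om ξ, b ^ p = 0 ∧ a = sh ξ (h.rtn 2 π) ^ k * b := by
    intro k
    induction k with
    | zero => exact ⟨a, ha, by simp⟩
    | succ k ih =>
      obtain ⟨b, hb, hab⟩ := ih
      obtain ⟨c, hc, hbc⟩ := red_step h hξ hb
      exact ⟨c, hc, by rw [hab, hbc, pow_succ]; ring⟩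
  apply Om_separated h hξ
  intro n
  obtain ⟨b, -, hab⟩ := h1 (p ^ 2 * n)
  obtain ⟨e, ⟨e', rfl⟩, hpe⟩ := exists_unit hξ
  have h2 : sh ξ (h.rtn 2 π) ^ (p ^ 2) = sh ξ π := by
    rw [← sh_pow, h.rtn_pow]
  have h3 : sh ξ π = (p : Om ξ) * (↑(e'⁻¹) : Om ξ) := by
    rw [hpe, mul_assoc, Units.mul_inv, mul_one]
  refine ⟨(↑(e'⁻¹) : Om ξ) ^ n * b, ?_⟩
  rw [hab, pow_mul, h2, h3, mul_pow]; ring

theorem Om_isReduced : IsReduced (Om ξ) := by
  refine ⟨fun a ⟨n, hn⟩ => ?_⟩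
  have h1 : ∀ k, ∀ a : Om ξ, a ^ p ^ k = 0 → a = 0 := by
    intro k
    induction k with
    | zero => intro a ha; simpa using ha
    | succ k ih =>
      intro a ha
      rw [pow_succ, pow_mul] at ha
      exact ih a (Om_red_p h hξ ha)
  apply h1 n
  have : n ≤ p ^ n := (Nat.lt_pow_self hp.out.one_lt).le
  rw [← Nat.add_sub_cancel' this, pow_add, hn, zero_mul]

/-- `c♯`-torsion of `Om` is killed by all `(c^{1/p^n})♯`. -/
theorem sh_torsion {c : R} {a : Om ξ} {m : ℕ} (ha : sh ξ c ^ m * a = 0) (n : ℕ) :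
    sh ξ (h.rtn n c) * a = 0 := by
  haveI := Om_isReduced h hξ
  apply eq_zero_of_pow_eq_zero (n := p ^ n * (m + 1))
  rw [mul_pow, pow_mul, ← sh_pow, h.rtn_pow]
  obtain ⟨t, ht⟩ : ∃ t, p ^ n * (m + 1) = t + 1 :=
    ⟨p ^ n * (m + 1) - 1, (Nat.sub_add_cancel (Nat.mul_pos (pow_pos hp.out.pos n)
      (Nat.succ_pos m))).symm⟩
  rw [ht, pow_succ' a, pow_succ]
  calc sh ξ c ^ m * sh ξ c * (a * a ^ t) = (sh ξ c ^ m * a) * (sh ξ c * a ^ t) := by ring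
    _ = 0 := by rw [ha, zero_mul]
where
  eq_zero_of_pow_eq_zero {M : Type u} [CommRing M] [IsReduced M] {x : M} {n : ℕ}
    (h : x ^ n = 0) : x = 0 := (IsNilpotent.eq_zero ⟨n, h⟩)

end

end Crest.Agent.R188.Wit
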