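/-
R188, block A5 / WIT (helper46): the closed ideals `W~(I)` of `W(A)`.
-/
import Crest.Agent.R188.Wit2
import Crest.Agent.R183.Digit

set_option autoImplicit false
set_option linter.unusedSectionVars false
set_option linter.unusedVariables false
set_option linter.style.haveILetI false

namespace Crest.Agent.R188.Wit

open WittVector Function Crest.Agent.R188.Prf Polynomial

universe u v w

variable {p : ℕ} [hp : Fact p.Prime]

local notation "𝕎" => WittVector p
local notation "τ" => WittVector.teichmuller p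

section Gen

variable {A : Type u} [CommRing A]

lemma exists_map_of_coeff {B : Type u} [CommRing B] {B' : Type v} [CommRing B'] (φ : B' →+* B)
    {x : 𝕎 B} (hx : ∀ n, ∃ b, φ b = x.coeff n) : ∃ y : 𝕎 B', WittVector.map φ y = x := by
  choose b hb using hx
  refine ⟨WittVector.mk p b, ?_⟩
  ext n
  rw [WittVector.map_coeff, WittVector.coeff_mk, hb]

lemma rees_iff (h0 : (p : A) = 0) (I : Ideal A) (x : 𝕎 A) :
    (∀ n, x.coeff n ∈ I ^ p ^ n) ↔
      ∃ y : 𝕎 (reesAlgebra I), WittVector.map (reesAlgebra I).val.toRingHom y =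
        τ (X : A[X]) * WittVector.map (C : A →+* A[X]) x := by
  have h0' : (p : A[X]) = 0 := by rw [← map_natCast (C : A →+* A[X]), h0, map_zero]
  have hc : ∀ n, (τ (X : A[X]) * WittVector.map (C : A →+* A[X]) x).coeff n =
      monomial (p ^ n) (x.coeff n) := by
    intro n
    rw [teich_mul_coeff h0', WittVector.map_coeff, mul_comm, C_mul_X_pow_eq_monomial]
  constructor
  · intro hx
    apply exists_map_of_coeff
    intro n
    exact ⟨⟨monomial (p ^ n) (x.coeff n), reesAlgebra.monomial_mem.2 (hx n)⟩, (hc n).symm⟩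
  · rintro ⟨y, hy⟩ n
    have := congrArg (fun t : 𝕎 A[X] => t.coeff n) hy
    rw [hc, WittVector.map_coeff] at this
    apply reesAlgebra.monomial_mem.1
    rw [← this]
    exact (y.coeff n).2

/-- `{x ∈ W(A) | x_n ∈ I^{p^n} for all n}`, an ideal of `W(A)` (`A` of characteristic `p`). -/
def WI (h0 : (p : A) = 0) (I : Ideal A) : Ideal (𝕎 A) where
  carrier := {x | ∀ n, x.coeff n ∈ I ^ p ^ n}
  zero_mem' := by
    intro n
    simp
  add_mem' := by
    intro x y hx hy
    simp only [Set.mem_ofPred_eq] at *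
    rw [rees_iff h0] at *
    obtain ⟨x', hx'⟩ := hx
    obtain ⟨y', hy'⟩ := hy
    exact ⟨x' + y', by rw [map_add, map_add, hx', hy', mul_add]⟩
  smul_mem' := by
    intro a x hx
    simp only [Set.mem_ofPred_eq, smul_eq_mul] at *
    rw [rees_iff h0] at *
    obtain ⟨x', hx'⟩ := hx
    refine ⟨WittVector.map (algebraMap A (reesAlgebra I)) a * x', ?_⟩
    rw [map_mul, map_mul, hx']
    have : WittVector.map (reesAlgebra I).val.toRingHom
        (WittVector.map (algebraMap A (reesAlgebra I)) a) =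
        WittVector.map (C : A →+* A[X]) a := by
      ext n
      simp only [WittVector.map_coeff]
      rfl
    rw [this]; ring


lemma WI_mono {h0 : (p : A) = 0} {I J : Ideal A} (hIJ : I ≤ J) : WI h0 I ≤ WI h0 J :=
  fun _ hx n => Ideal.pow_right_mono hIJ _ (hx n)

lemma WI_top {h0 : (p : A) = 0} : WI h0 (⊤ : Ideal A) = ⊤ := by
  rw [eq_top_iff]
  intro x _ n
  rw [Ideal.top_pow]
  trivial

lemma teich_mem_WI {h0 : (p : A) = 0} {I : Ideal A} {a : A} (ha : a ∈ I) : τ a ∈ WI h0 I := by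
  intro n
  cases n with
  | zero => simpa using ha
  | succ n => rw [teichmuller_coeff_pos p _ _ (Nat.succ_pos n)]; exact Ideal.zero_mem _

lemma teich_mul_mem_WI {h0 : (p : A) = 0} {I J : Ideal A} {a : A}
    (ha : ∀ x ∈ I, a * x ∈ J) {x : 𝕎 A} (hx : x ∈ WI h0 I) : τ a * x ∈ WI h0 J := by
  intro n
  rw [teich_mul_coeff h0]
  have h1 : Ideal.span {a} * I ≤ J := by
    rw [Ideal.mul_le]
    intro r hr s hs
    obtain ⟨c, rfl⟩ := Ideal.mem_span_singleton.1 hr
    rw [mul_comm a c, mul_assoc]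
    exact J.mul_mem_left _ (ha s hs)
  have h2 := Ideal.pow_right_mono h1 (p ^ n)
  rw [mul_pow] at h2
  exact h2 (Ideal.mul_mem_mul (Ideal.pow_mem_pow (Ideal.mem_span_singleton_self a) _) (hx n))

lemma coeff_zero_mem_of_WI {h0 : (p : A) = 0} {I : Ideal A} {x : 𝕎 A} (hx : x ∈ WI h0 I) :
    x.coeff 0 ∈ I := by simpa using hx 0

end Gen

section Perf

variable {P : Type u} [CommRing P] (hP : IsPerf p P) {I J : Ideal P}

open Crest.Agent.R183.Digit (Convex)

lemma Convex.inf (hI : Convex p I) (hJ : Convex p J) : Convex p (I ⊓ J) := by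
  intro n x hx
  exact ⟨hI n x (Ideal.pow_right_mono inf_le_left _ hx),
    hJ n x (Ideal.pow_right_mono inf_le_right _ hx)⟩

lemma Convex.top : Convex p (⊤ : Ideal P) := fun _ _ _ => trivial

include hP

lemma pow_pow_mem_iff (hI : Convex p I) {n : ℕ} {x : P} :
    x ∈ I ^ p ^ n ↔ hP.rtn n x ∈ I := by
  constructor
  · intro hx
    apply hI n
    rwa [hP.rtn_pow]
  · intro hx
    have := Ideal.pow_mem_pow hx (p ^ n)
    rwa [hP.rtn_pow] at this

/-- digit description of `WI` for a convex ideal. -/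
lemma mem_WI_iff_digit (hI : Convex p I) {x : 𝕎 P} :
    x ∈ WI hP.p_zero I ↔ ∀ n, hP.rtn n (x.coeff n) ∈ I :=
  forall_congr' fun _ => pow_pow_mem_iff hP hI

lemma WI_of_p_mul_mem (hI : Convex p I) {x : 𝕎 P} (hx : (p : 𝕎 P) * x ∈ WI hP.p_zero I) :
    x ∈ WI hP.p_zero I := by
  rw [mem_WI_iff_digit hP hI] at *
  intro n
  have := hx (n + 1)
  rw [mul_comm, mul_p_coeff_succ hP.p_zero, hP.rtn_eq_of_pow (y := hP.rtn n (x.coeff n))] at this
  · exact this
  · rw [pow_succ, pow_mul, hP.rtn_pow]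

lemma WI_of_p_pow_mul_mem (hI : Convex p I) {n : ℕ} {x : 𝕎 P}
    (hx : (p : 𝕎 P) ^ n * x ∈ WI hP.p_zero I) : x ∈ WI hP.p_zero I := by
  induction n with
  | zero => simpa using hx
  | succ n ih =>
    rw [pow_succ', mul_assoc] at hx
    exact ih (WI_of_p_mul_mem hP hI hx)

lemma WI_exists_eq_teich_add (hI : Convex p I) {x : 𝕎 P} (hx : x ∈ WI hP.p_zero I) :
    ∃ y ∈ WI hP.p_zero I, x = τ (x.coeff 0) + (p : 𝕎 P) * y := by
  obtain ⟨y, hy⟩ := exists_eq_teich_add hP x
  refine ⟨y, ?_, hy⟩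
  apply WI_of_p_mul_mem hP hI
  have h1 : (p : 𝕎 P) * y = x - τ (x.coeff 0) := eq_sub_of_add_eq' hy.symm
  rw [h1]
  exact sub_mem hx (teich_mem_WI (coeff_zero_mem_of_WI hx))

/-- `W~(I)` is `p`-adically closed. -/
lemma WI_closed {x : 𝕎 P} (hx : ∀ n, ∃ y ∈ WI hP.p_zero I, (p : 𝕎 P) ^ n ∣ x - y) :
    x ∈ WI hP.p_zero I := by
  intro n
  obtain ⟨y, hy, hz⟩ := hx (n + 1)
  rw [p_pow_dvd_iff hP, ← le_coeff_eq_iff_le_sub_coeff_eq_zero] at hz
  rw [hz n (Nat.lt_succ_self n)]
  exact hy n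

lemma WI_inf (hI : Convex p I) (hJ : Convex p J) :
    WI hP.p_zero (I ⊓ J) = WI hP.p_zero I ⊓ WI hP.p_zero J := by
  ext x
  rw [Ideal.mem_inf, mem_WI_iff_digit hP hI, mem_WI_iff_digit hP hJ,
    mem_WI_iff_digit hP (Convex.inf hI hJ), ← forall_and]
  rfl


end Perf

/-! ### perfect closure of a subring of a perfect ring -/

section PC

variable {B : Type u} [CommRing B] (hB : IsPerf p B)

/-- the perfect closure of a subring inside a perfect ring. -/
def pc (hB : IsPerf p B) (B₀ : Subring B) : Subring B where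
  carrier := {s | ∃ m, s ^ p ^ m ∈ B₀}
  zero_mem' := ⟨0, by simp⟩
  one_mem' := ⟨0, by simp⟩
  add_mem' := by
    rintro x y ⟨m, hm⟩ ⟨n, hn⟩
    refine ⟨m + n, ?_⟩
    rw [add_pow_pn hB.p_zero]
    refine add_mem ?_ ?_
    · rw [pow_add, pow_mul]; exact pow_mem hm _
    · rw [add_comm, pow_add, pow_mul]; exact pow_mem hn _
  mul_mem' := by
    rintro x y ⟨m, hm⟩ ⟨n, hn⟩
    refine ⟨m + n, ?_⟩
    rw [mul_pow]
    refine mul_mem ?_ ?_
    · rw [pow_add, pow_mul]; exact pow_mem hm _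
    · rw [add_comm, pow_add, pow_mul]; exact pow_mem hn _
  neg_mem' := by
    rintro x ⟨m, hm⟩
    refine ⟨m, ?_⟩
    have : (-x) ^ p ^ m = -x ^ p ^ m := by
      have := sub_pow_pn hB.p_zero m 0 x
      rwa [zero_sub, zero_pow (pow_ne_zero _ hp.out.ne_zero), zero_sub] at this
    rw [this]
    exact neg_mem hm


lemma le_pc (B₀ : Subring B) : B₀ ≤ pc hB B₀ := fun x hx => ⟨0, by simpa using hx⟩

theorem isPerf_pc (B₀ : Subring B) : IsPerf p (pc hB B₀) where
  p_zero := by
    apply Subtype.ext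
    have := hB.p_zero
    simpa using this
  red := by
    rintro ⟨x, hx⟩ h
    apply Subtype.ext
    exact hB.red x (congrArg Subtype.val h)
  surj := by
    rintro ⟨x, m, hm⟩
    refine ⟨⟨hB.rt x, m + 1, ?_⟩, Subtype.ext (hB.rt_pow x)⟩
    rw [pow_succ', pow_mul, hB.rt_pow]
    exact hm

end PC

/-! ### `ξ` on `W(P)/W~(I)` -/

section Tor

variable {P : Type u} [CommRing P] (hP : IsPerf p P) {I : Ideal P}

open Crest.Agent.R183.Digit (Convex)

/-- **`ξ`-torsion of `W(P)/W~(I)` is killed by all `[c^{1/p^k}]`, `c ∈ I`** (`I` convex, `P` any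
perfect ring). -/
theorem xi_torsion_WI (hI : Convex p I) {ξ : WittVector p P} {π : P} (hξ : IsDist ξ π) {z : 𝕎 P}
    (hz : ξ * z ∈ WI hP.p_zero I) {c : P} (hc : c ∈ I) (k : ℕ) :
    τ (hP.rtn k c) * z ∈ WI hP.p_zero I := by
  rcases subsingleton_or_nontrivial P with hs | hn
  · intro n
    have : (τ (hP.rtn k c) * z).coeff n = 0 := Subsingleton.elim _ _
    rw [this]
    exact Ideal.zero_mem _
  haveI : CharP P p := hP.charP
  haveI : IsReduced P := hP.isReduced
  haveI : CharP P[X] p := inferInstance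
  haveI : IsReduced P[X] := by
    refine ⟨fun f hf => ?_⟩
    ext n
    rw [coeff_zero]
    exact (Polynomial.isNilpotent_iff.1 hf n).eq_zero
  -- the big perfect ring
  let B := PerfectClosure P[X] p
  have hB : IsPerf p B := IsPerf.of_perfectRing
  let j : P[X] →+* B := PerfectClosure.of P[X] p
  have hj : Injective j := by
    intro a b hab
    have h1 : PerfectClosure.mk P[X] p (0, a) = PerfectClosure.mk P[X] p (0, b) := hab
    rw [PerfectClosure.eq_iff] at h1
    simpa using h1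
  let i : P →+* B := j.comp C
  -- the small perfect ring
  let B₀ : Subring B := (reesAlgebra I).toSubring.map j
  let S : Subring B := pc hB B₀
  have hS : IsPerf p S := isPerf_pc hB B₀
  let ι : S →+* B := S.subtype
  have hι : Injective ι := Subtype.val_injective
  have hPS : ∀ a : P, i a ∈ S := fun a =>
    le_pc hB B₀ ⟨C a, (reesAlgebra I).algebraMap_mem a, rfl⟩
  let i' : P →+* S := i.codRestrict S hPS
  have hii' : ι.comp i' = i := rfl
  let t : B := j X
  -- elements `[t] x`, `x ∈ W~(I)`, come from `W(S)`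
  have lift : ∀ x ∈ WI hP.p_zero I, ∃ y : 𝕎 S, WittVector.map ι y = τ t * WittVector.map i x := by
    intro x hx
    apply exists_map_of_coeff
    intro n
    rw [teich_mul_coeff hB.p_zero, WittVector.map_coeff]
    have h1 : t ^ p ^ n * i (x.coeff n) = j (monomial (p ^ n) (x.coeff n)) := by
      rw [← C_mul_X_pow_eq_monomial, map_mul, map_pow]
      show j X ^ p ^ n * j (C (x.coeff n)) = _
      ring
    rw [h1]
    exact ⟨⟨j (monomial (p ^ n) (x.coeff n)), le_pc hB B₀
      ⟨_, reesAlgebra.monomial_mem.2 (hx n), rfl⟩⟩, rfl⟩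
  obtain ⟨a, ha⟩ := lift _ hz
  obtain ⟨b, hb⟩ := lift (τ c * z) (Ideal.mul_mem_right _ _ (teich_mem_WI hc))
  -- `[c] a = ξ b` in `W(S)`
  have hmι : Injective (WittVector.map ι : 𝕎 S → 𝕎 B) := WittVector.map_injective ι hι
  have hcomp : ∀ x : 𝕎 P, WittVector.map ι (WittVector.map i' x) = WittVector.map i x := by
    intro x; ext n; simp only [WittVector.map_coeff]; rfl
  have e1 : τ (i' c) * a = WittVector.map i' ξ * b := by
    apply hmι
    rw [map_mul, map_mul, ha, hb, hcomp, map_teichmuller, map_mul, map_mul, map_teichmuller]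
    have : ι (i' c) = i c := rfl
    rw [this]; ring
  have hξS : IsDist (WittVector.map i' ξ) (i' π) := hξ.map i'
  have e2 : sh (WittVector.map i' ξ) (i' c) ^ 1 * θ (WittVector.map i' ξ) a = 0 := by
    rw [pow_one]
    have : sh (WittVector.map i' ξ) (i' c) * θ (WittVector.map i' ξ) a =
        θ (WittVector.map i' ξ) (τ (i' c) * a) := by rw [map_mul]; rfl
    rw [this, e1, map_mul, θ_xi, zero_mul]
  have e3 := sh_torsion hS hξS e2 k
  have e4 : θ (WittVector.map i' ξ) (τ (hS.rtn k (i' c)) * a) = 0 := by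
    rw [map_mul]; exact e3
  obtain ⟨b', hb'⟩ := θ_eq_zero_iff.1 e4
  -- back in `W(B)`
  have e5 : τ (t * i (hP.rtn k c)) * WittVector.map i z = WittVector.map ι b' := by
    apply xi_cancel hB (hξ.map i)
    have := congrArg (WittVector.map ι) hb'
    rw [map_mul, map_mul, ha, hcomp, map_teichmuller, hS.map_rtn hB ι] at this
    have h3 : ι (i' c) = i c := rfl
    rw [h3, ← hP.map_rtn hB i, map_mul] at this
    rw [← this, map_mul]; ring
  rw [mem_WI_iff_digit hP hI]
  intro n
  have e6 := congrArg (fun y : 𝕎 B => y.coeff n) e5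
  rw [teich_mul_coeff hB.p_zero, WittVector.map_coeff, WittVector.map_coeff] at e6
  -- the coefficient is in `S`
  set y : P := (τ (hP.rtn k c) * z).coeff n with hy
  have hy' : y = hP.rtn k c ^ p ^ n * z.coeff n := by rw [hy, teich_mul_coeff hP.p_zero]
  have e7 : j (monomial (p ^ n) y) ∈ S := by
    have : j (monomial (p ^ n) y) = (t * i (hP.rtn k c)) ^ p ^ n * i (z.coeff n) := by
      rw [← C_mul_X_pow_eq_monomial, map_mul, map_pow, hy']
      show i (hP.rtn k c ^ p ^ n * z.coeff n) * t ^ p ^ n = _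
      rw [map_mul, map_pow, mul_pow]; ring
    rw [this, e6]
    exact (b'.coeff n).2
  obtain ⟨m, f, hf, hf2⟩ := e7
  have e8 : f = monomial (p ^ n * p ^ m) (y ^ p ^ m) := by
    apply hj
    rw [hf2, ← map_pow, monomial_pow]
  have e9 : y ^ p ^ m ∈ I ^ (p ^ n * p ^ m) := by
    rw [e8] at hf
    exact reesAlgebra.monomial_mem.1 hf
  apply hI (n + m)
  have e10 : hP.rtn n y ^ p ^ (n + m) = y ^ p ^ m := by rw [pow_add, pow_mul, hP.rtn_pow]
  rw [e10, pow_add]
  exact e9


end Tor

end Crest.Agent.R188.Wit
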