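import Crest.Agent.R188.FlgEuler

/-! # R188, block (G): the homological Koszul complex on `Finset (Fin s) → M`

`kD g f B = ∑_{i ∉ B} (-1)^{#{j ∈ B, j < i}} g i • f (insert i B)`.
`KosNull 𝔞 g I`: the graded complex `C q = {f | f B ∈ I q, f B = 0 unless #B = q}` has
almost zero homology in every degree.
-/

set_option autoImplicit false

namespace Crest.Agent.R188.Flg

open Finset

universe u v

section basic

variable {R : Type*} [CommRing R] {M : Type*} [AddCommGroup M] [Module R M] {s : ℕ}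

/-- the Koszul sign `(-1)^{#{j ∈ B, j < i}}` -/
def sg (R : Type*) [CommRing R] (i : Fin s) (B : Finset (Fin s)) : R :=
  (-1) ^ (B.filter (· < i)).card

lemma sg_empty (i : Fin s) : sg R i (∅ : Finset (Fin s)) = 1 := by simp [sg]

lemma sg_insert_of_lt {i j : Fin s} {B : Finset (Fin s)} (hj : j ∉ B) (h : j < i) :
    sg R i (insert j B) = - sg R i B := by
  unfold sg
  rw [Finset.filter_insert, if_pos h, Finset.card_insert_of_notMem (by simp [hj]), pow_succ]
  ring

lemma sg_insert_of_not_lt {i j : Fin s} {B : Finset (Fin s)} (h : ¬ j < i) :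
    sg R i (insert j B) = sg R i B := by
  unfold sg
  rw [Finset.filter_insert, if_neg h]

lemma sg_comm {i j : Fin s} {B : Finset (Fin s)} (hi : i ∉ B) (hj : j ∉ B) (hij : i ≠ j) :
    sg R i B * sg R j (insert i B) = - (sg R j B * sg R i (insert j B)) := by
  rcases lt_or_gt_of_ne hij with h | h
  · rw [sg_insert_of_lt hi h, sg_insert_of_not_lt (not_lt.2 h.le)]
    ring
  · rw [sg_insert_of_lt hj h, sg_insert_of_not_lt (not_lt.2 h.le)]
    ring

/-- the Koszul differential -/
def kD (g : Fin s → R) : (Finset (Fin s) → M) →ₗ[R] (Finset (Fin s) → M) where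
  toFun f B := ∑ i ∈ Bᶜ, (sg R i B * g i) • f (insert i B)
  map_add' f f' := by
    ext B
    simp [smul_add, Finset.sum_add_distrib]
  map_smul' a f := by
    ext B
    simp only [Pi.smul_apply, RingHom.id_apply, Finset.smul_sum]
    refine Finset.sum_congr rfl fun i _ => ?_
    rw [smul_comm]

lemma kD_apply (g : Fin s → R) (f : Finset (Fin s) → M) (B : Finset (Fin s)) :
    kD g f B = ∑ i ∈ Bᶜ, (sg R i B * g i) • f (insert i B) := rfl

theorem kD_kD (g : Fin s → R) (f : Finset (Fin s) → M) : kD g (kD g f) = 0 := by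
  ext B
  rw [kD_apply]
  have h1 : ∀ i ∈ Bᶜ, (sg R i B * g i) • kD g f (insert i B) =
      ∑ j : Fin s, if j ∉ B ∧ j ≠ i then
        ((sg R i B * sg R j (insert i B)) * (g i * g j)) • f (insert j (insert i B)) else 0 := by
    intro i hi
    rw [kD_apply, Finset.smul_sum, ← Finset.sum_filter]
    refine Finset.sum_congr ?_ fun j _ => ?_
    · ext j
      simp only [mem_compl, mem_insert, not_or, mem_filter, mem_univ, true_and]
      tauto
    · rw [smul_smul]
      congr 1
      ring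
  rw [Finset.sum_congr rfl h1]
  have h2 : (∑ i ∈ Bᶜ, ∑ j : Fin s, if j ∉ B ∧ j ≠ i then
        ((sg R i B * sg R j (insert i B)) * (g i * g j)) • f (insert j (insert i B)) else 0) =
      ∑ x : Fin s × Fin s, if x.1 ∉ B ∧ x.2 ∉ B ∧ x.2 ≠ x.1 then
        ((sg R x.1 B * sg R x.2 (insert x.1 B)) * (g x.1 * g x.2)) •
          f (insert x.2 (insert x.1 B)) else 0 := by
    rw [Fintype.sum_prod_type]
    have : Bᶜ = (Finset.univ : Finset (Fin s)).filter (fun i => i ∉ B) := by
      ext i; simp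
    rw [this, Finset.sum_filter]
    refine Finset.sum_congr rfl fun i _ => ?_
    by_cases hi : i ∈ B
    · simp [hi]
    · simp [hi]
  rw [h2]
  refine Finset.sum_involution (fun x _ => (x.2, x.1)) ?_ ?_ ?_ ?_
  · rintro ⟨i, j⟩ _
    simp only
    by_cases h : i ∉ B ∧ j ∉ B ∧ j ≠ i
    · rw [if_pos h, if_pos ⟨h.2.1, h.1, fun e => h.2.2 e.symm⟩]
      rw [sg_comm h.1 h.2.1 (fun e => h.2.2 e.symm), Finset.insert_comm j i, mul_comm (g j) (g i),
        ← add_smul]
      rw [neg_mul, neg_add_cancel, zero_smul]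
    · rw [if_neg h, if_neg (fun h' => h ⟨h'.2.1, h'.1, fun e => h'.2.2 e.symm⟩), add_zero]
  · rintro ⟨i, j⟩ _ hne
    simp only [ne_eq, Prod.mk.injEq, not_and] at *
    intro e1 _
    apply hne
    rw [if_neg]
    rintro ⟨_, _, h3⟩
    exact h3 e1
  · intro x _; exact Finset.mem_univ _
  · rintro ⟨i, j⟩ _; rfl

/-- the graded pieces -/
def kK (I : ℕ → Submodule R M) (s q : ℕ) : Submodule R (Finset (Fin s) → M) where
  carrier := {f | (∀ B, f B ∈ I q) ∧ ∀ B, B.card ≠ q → f B = 0}
  add_mem' := by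
    rintro f f' ⟨h1, h2⟩ ⟨h3, h4⟩
    refine ⟨fun B => add_mem (h1 B) (h3 B), fun B hB => ?_⟩
    rw [Pi.add_apply, h2 B hB, h4 B hB, add_zero]
  zero_mem' := ⟨fun B => zero_mem _, fun B _ => rfl⟩
  smul_mem' := by
    rintro a f ⟨h1, h2⟩
    refine ⟨fun B => Submodule.smul_mem _ _ (h1 B), fun B hB => ?_⟩
    rw [Pi.smul_apply, h2 B hB, smul_zero]



/-- almost exactness of the Koszul complex -/
def KosNull (𝔞 : Ideal R) (g : Fin s → R) (I : ℕ → Submodule R M) : Prop :=
  ∀ q, ∀ f ∈ kK I s q, kD g f = 0 → ∀ h ∈ 𝔞, ∃ f' ∈ kK I s (q + 1), kD g f' = h • f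





end basic


section recursion

variable {Ω A : Type u} [CommRing Ω] [CommRing A] [Algebra Ω A] {𝔞 : Ideal Ω}


end recursion

end Crest.Agent.R188.Flg
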