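import Crest.Agent.R188.Wit2
import Crest.Agent.R188.Wit4
import Crest.Agent.R188.Wit5
import Crest.Agent.R188.FlgKos

-- ▼ part R188/Wit3
section

set_option autoImplicit false
set_option linter.unusedSectionVars false
set_option linter.unusedVariables false
set_option linter.style.haveILetI false

namespace Crest.Agent.R188.Wit

open WittVector Function Crest.Agent.R188.Prf

universe u v w

variable {p : ℕ} [hp : Fact p.Prime] {S : Type u} [CommRing S] {S' : Type v} [CommRing S']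

local notation "𝕎" => WittVector p
local notation "τ" => WittVector.teichmuller p

/-- the "degree `e`" part of `S`. -/
def Gr (ι ρ : S →+* S') (e : S') : AddSubgroup S where
  carrier := {s | ρ s = e * ι s}
  zero_mem' := by simp
  add_mem' := by
    intro a b ha hb
    simp only [Set.mem_ofPred_eq] at *
    rw [map_add, map_add, ha, hb, mul_add]
  neg_mem' := by
    intro a ha
    simp only [Set.mem_ofPred_eq] at *
    rw [map_neg, map_neg, ha, mul_neg]

/-- the "degree `e`" part of `W(S)`. -/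
def WGr (ι ρ : S →+* S') (e : S') : AddSubgroup (𝕎 S) where
  carrier := {x | WittVector.map ρ x = τ e * WittVector.map ι x}
  zero_mem' := by simp
  add_mem' := by
    intro a b ha hb
    simp only [Set.mem_ofPred_eq] at *
    rw [map_add, map_add, ha, hb, mul_add]
  neg_mem' := by
    intro a ha
    simp only [Set.mem_ofPred_eq] at *
    rw [map_neg, map_neg, ha, mul_neg]

variable {ι ρ : S →+* S'} {e f : S'}

lemma mem_Gr {s : S} : s ∈ Gr ι ρ e ↔ ρ s = e * ι s := Iff.rfl

lemma mem_WGr {x : 𝕎 S} :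
    x ∈ WGr (p := p) ι ρ e ↔ WittVector.map ρ x = τ e * WittVector.map ι x := Iff.rfl

lemma mul_mem_Gr {s t : S} (hs : s ∈ Gr ι ρ e) (ht : t ∈ Gr ι ρ f) : s * t ∈ Gr ι ρ (e * f) := by
  rw [mem_Gr] at *
  rw [map_mul, map_mul, hs, ht]; ring

lemma mul_mem_WGr {x y : 𝕎 S} (hx : x ∈ WGr ι ρ e) (hy : y ∈ WGr ι ρ f) :
    x * y ∈ WGr ι ρ (e * f) := by
  rw [mem_WGr] at *
  rw [map_mul, map_mul, map_mul, hx, hy]; ring

lemma one_mem_WGr : (1 : 𝕎 S) ∈ WGr ι ρ (1 : S') := by
  rw [mem_WGr]; simp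

lemma mul_mem_WGr' {x y : 𝕎 S} (hx : x ∈ WGr ι ρ (1 : S')) (hy : y ∈ WGr ι ρ f) :
    x * y ∈ WGr ι ρ f := by
  have := mul_mem_WGr hx hy
  rwa [one_mul] at this

lemma teich_mem_WGr {s : S} (hs : s ∈ Gr ι ρ e) : τ s ∈ WGr ι ρ e := by
  rw [mem_WGr, map_teichmuller, map_teichmuller, mem_Gr.1 hs, map_mul]

lemma mem_WGr_iff_coeff (h0 : (p : S') = 0) {x : 𝕎 S} :
    x ∈ WGr ι ρ e ↔ ∀ n, x.coeff n ∈ Gr ι ρ (e ^ p ^ n) := by
  rw [mem_WGr]
  constructor
  · intro hx n
    have := congrArg (fun t : 𝕎 S' => t.coeff n) hx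
    rw [teich_mul_coeff h0] at this
    rw [mem_Gr]
    simpa only [WittVector.map_coeff] using this
  · intro hx
    ext n
    rw [teich_mul_coeff h0, WittVector.map_coeff, WittVector.map_coeff]
    exact hx n

section Perf

variable (hS : IsPerf p S) (hS' : IsPerf p S')

include hS hS'

lemma rtn_mem_Gr {n : ℕ} {s : S} (hs : s ∈ Gr ι ρ (e ^ p ^ n)) : hS.rtn n s ∈ Gr ι ρ e := by
  rw [mem_Gr] at *
  rw [hS.map_rtn hS', hS.map_rtn hS', hs, hS'.rtn_mul, hS'.rtn_eq_of_pow (n := n) (y := e) rfl]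

lemma mem_WGr_iff_digit {x : 𝕎 S} :
    x ∈ WGr ι ρ e ↔ ∀ n, hS.rtn n (x.coeff n) ∈ Gr ι ρ e := by
  rw [mem_WGr_iff_coeff hS'.p_zero]
  constructor
  · intro hx n
    exact rtn_mem_Gr hS hS' (hx n)
  · intro hx n
    have := hx n
    rw [mem_Gr] at this ⊢
    have h2 := congrArg (fun t => t ^ p ^ n) this
    simp only [mul_pow] at h2
    rw [← map_pow, ← map_pow, hS.rtn_pow] at h2
    exact h2

/-- `p x ∈ WGr` implies `x ∈ WGr`. -/
lemma of_p_mul_mem {x : 𝕎 S} (hx : (p : 𝕎 S) * x ∈ WGr ι ρ e) : x ∈ WGr ι ρ e := by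
  rw [mem_WGr] at *
  rw [map_mul, map_mul, map_natCast, map_natCast] at hx
  exact eq_of_p_mul hS' (by rw [hx]; ring)

lemma of_p_pow_mul_mem {n : ℕ} {x : 𝕎 S} (hx : (p : 𝕎 S) ^ n * x ∈ WGr ι ρ e) :
    x ∈ WGr ι ρ e := by
  induction n with
  | zero => simpa using hx
  | succ n ih =>
    rw [pow_succ', mul_assoc] at hx
    exact ih (of_p_mul_mem hS hS' hx)

lemma coeff_zero_mem {x : 𝕎 S} (hx : x ∈ WGr ι ρ e) : x.coeff 0 ∈ Gr ι ρ e := by
  have := (mem_WGr_iff_coeff hS'.p_zero).1 hx 0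
  simpa using this


/-- `WGr` is `p`-adically closed in `W(S)`. -/
lemma mem_of_forall_sub {x : 𝕎 S} (hx : ∀ n, ∃ y ∈ WGr ι ρ e, (p : 𝕎 S) ^ n ∣ x - y) :
    x ∈ WGr ι ρ e := by
  rw [mem_WGr, ← sub_eq_zero]
  apply eq_zero_of_forall_dvd hS'
  intro n
  obtain ⟨y, hy, z, hz⟩ := hx n
  rw [mem_WGr] at hy
  have hxy : x = y + (p : 𝕎 S) ^ n * z := by rw [← hz]; ring
  refine ⟨WittVector.map ρ z - τ e * WittVector.map ι z, ?_⟩
  rw [hxy, map_add, map_add, map_mul, map_mul, map_pow, map_pow, map_natCast, map_natCast, hy]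
  ring


end Perf

/-! ### module structure over the constants -/

section Const

variable {P : Type w} [CommRing P] [Algebra P S]

/-- `W(S)` as a `W(P)`-algebra (local instance!). -/
noncomputable abbrev wAlg (p : ℕ) [Fact p.Prime] (P : Type w) (S : Type u) [CommRing P]
    [CommRing S] [Algebra P S] : Algebra (WittVector p P) (WittVector p S) :=
  (WittVector.map (algebraMap P S)).toAlgebra

attribute [local instance] wAlg



end Const

end Crest.Agent.R188.Wit
end

-- ▼ part R188/Cmp1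
section

set_option autoImplicit false
set_option linter.unusedSectionVars false
set_option linter.unusedVariables false
set_option linter.style.haveILetI false

namespace Crest.Agent.R188.Cmp

open WittVector Function Crest.Agent.R188.Prf Crest.Agent.R188.Wit

universe u v w

local notation "τ" => WittVector.teichmuller _

/-- a perfect ring `P`, a perfect "graded" `P`-algebra `S` (constants `ι`, coaction `ρ`) with an
augmentation `ε : S → P`. -/
structure GD (p : ℕ) [Fact p.Prime] (P : Type u) (S : Type v) (S' : Type w)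
    [CommRing P] [CommRing S] [CommRing S'] where
  hP : IsPerf p P
  hS : IsPerf p S
  hS' : IsPerf p S'
  i : P →+* S
  ε : S →+* P
  ι : S →+* S'
  ρ : S →+* S'
  εi : ∀ a, ε (i a) = a
  ρi : ∀ a, ρ (i a) = ι (i a)

namespace GD

variable {p : ℕ} [hp : Fact p.Prime] {P : Type u} {S : Type v} {S' : Type w}
  [CommRing P] [CommRing S] [CommRing S'] (D : GD p P S S')

/-- the degree `e` part of `S`. -/
abbrev K (e : S') : AddSubgroup S := Gr D.ι D.ρ e

/-- the degree `e` part of `W(S)`. -/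
abbrev KW (e : S') : AddSubgroup (WittVector p S) := WGr D.ι D.ρ e

lemma i_mem (a : P) : D.i a ∈ D.K (1 : S') := by
  rw [mem_Gr, one_mul]; exact D.ρi a

lemma i_mul_mem {e : S'} (a : P) {s : S} (hs : s ∈ D.K e) : D.i a * s ∈ D.K e := by
  have := mul_mem_Gr (D.i_mem a) hs
  rwa [one_mul] at this

lemma mapi_mem (a : WittVector p P) : WittVector.map D.i a ∈ D.KW (1 : S') := by
  rw [mem_WGr, map_one, one_mul]
  ext n
  simp only [WittVector.map_coeff]
  exact D.ρi _

lemma mapi_mul_mem {e : S'} (a : WittVector p P) {s : WittVector p S} (hs : s ∈ D.KW e) :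
    WittVector.map D.i a * s ∈ D.KW e := mul_mem_WGr' (D.mapi_mem a) hs

/-- the ideal `ε(K e)` of `P`. -/
def I (e : S') : Ideal P where
  carrier := {x | ∃ s ∈ D.K e, D.ε s = x}
  zero_mem' := ⟨0, zero_mem _, map_zero _⟩
  add_mem' := by
    rintro _ _ ⟨s, hs, rfl⟩ ⟨t, ht, rfl⟩
    exact ⟨s + t, add_mem hs ht, map_add _ _ _⟩
  smul_mem' := by
    rintro a _ ⟨s, hs, rfl⟩
    exact ⟨D.i a * s, D.i_mul_mem a hs, by rw [map_mul, D.εi, smul_eq_mul]⟩

lemma mem_I {e : S'} {x : P} : x ∈ D.I e ↔ ∃ s ∈ D.K e, D.ε s = x := Iff.rfl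

lemma I_pow (e : S') (n : ℕ) {x : P} (hx : x ∈ D.I e ^ n) : x ∈ D.I (e ^ n) := by
  induction n generalizing x with
  | zero =>
    rw [pow_zero]
    exact ⟨D.i x, D.i_mem x, D.εi x⟩
  | succ n ih =>
    rw [pow_succ] at hx
    refine Submodule.mul_induction_on hx ?_ ?_
    · intro a ha b hb
      obtain ⟨s, hs, rfl⟩ := ih ha
      obtain ⟨t, ht, rfl⟩ := hb
      exact ⟨s * t, by rw [pow_succ]; exact mul_mem_Gr hs ht, map_mul _ _ _⟩
    · intro a b ha hb
      exact Ideal.add_mem _ ha hb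

lemma rtn_mem_I {e : S'} {n : ℕ} {x : P} (hx : x ∈ D.I (e ^ p ^ n)) : D.hP.rtn n x ∈ D.I e := by
  obtain ⟨s, hs, rfl⟩ := hx
  exact ⟨D.hS.rtn n s, rtn_mem_Gr D.hS D.hS' hs, D.hS.map_rtn D.hP D.ε n s⟩

lemma I_convex (e : S') : R183.Digit.Convex p (D.I e) := by
  intro n x hx
  have := D.rtn_mem_I (D.I_pow e (p ^ n) hx)
  rwa [D.hP.rtn_eq_of_pow (n := n) (y := x) rfl] at this

/-- the closed ideal `W~(I e)` of `W(P)`. -/
abbrev WtI (e : S') : Ideal (WittVector p P) := WI D.hP.p_zero (D.I e)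

lemma map_mem_WtI {e : S'} {y : WittVector p S} (hy : y ∈ D.KW e) :
    WittVector.map D.ε y ∈ D.WtI e := by
  rw [mem_WI_iff_digit D.hP (D.I_convex e)]
  intro n
  rw [WittVector.map_coeff, ← D.hS.map_rtn D.hP D.ε]
  exact ⟨_, (mem_WGr_iff_digit D.hS D.hS').1 hy n, rfl⟩

lemma exists_lift {e : S'} {x : WittVector p P} (hx : x ∈ D.WtI e) :
    ∃ y ∈ D.KW e, WittVector.map D.ε y = x := by
  rw [mem_WI_iff_digit D.hP (D.I_convex e)] at hx
  choose k hk hk2 using hx
  refine ⟨WittVector.mk p (fun n => k n ^ p ^ n), ?_, ?_⟩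
  · rw [mem_WGr_iff_digit D.hS D.hS']
    intro n
    rw [WittVector.coeff_mk, D.hS.rtn_eq_of_pow (n := n) (y := k n) rfl]
    exact hk n
  · ext n
    rw [WittVector.map_coeff, WittVector.coeff_mk, map_pow, hk2, D.hP.rtn_pow]

/-- the kernel of `K e → P` is killed by all `h^{1/p^n}`. -/
def Nul (e : S') (h : P) : Prop := ∀ s ∈ D.K e, D.ε s = 0 → ∀ n, D.i (D.hP.rtn n h) * s = 0

lemma Nul.lift {e : S'} {h : P} (hN : D.Nul e h) {y : WittVector p S} (hy : y ∈ D.KW e)
    (hy0 : WittVector.map D.ε y = 0) (n : ℕ) :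
    WittVector.map D.i (τ (D.hP.rtn n h)) * y = 0 := by
  rw [map_teichmuller]
  ext m
  rw [teich_mul_coeff D.hS.p_zero, WittVector.zero_coeff]
  apply D.hS.red_pow m (x := _)
  -- reduce to the digit
  have hd := (mem_WGr_iff_digit D.hS D.hS').1 hy m
  have h0 : D.ε (D.hS.rtn m (y.coeff m)) = 0 := by
    rw [D.hS.map_rtn D.hP D.ε]
    have : D.ε (y.coeff m) = 0 := by
      rw [← WittVector.map_coeff, hy0, WittVector.zero_coeff]
    rw [this, IsPerf.rtn_zero]
  have h1 := hN _ hd h0 n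
  have h2 : y.coeff m = D.hS.rtn m (y.coeff m) ^ p ^ m := (D.hS.rtn_pow m _).symm
  rw [h2, ← mul_pow, h1, zero_pow (pow_ne_zero _ hp.out.ne_zero),
    zero_pow (pow_ne_zero _ hp.out.ne_zero)]

variable {ξ : WittVector p P} {π : P}

/-- the ideal `J e = θ(W~(I e))` of `Om ξ`. -/
noncomputable def J (ξ : WittVector p P) (e : S') : Ideal (Om ξ) := (D.WtI e).map (θ ξ)

lemma mem_J {e : S'} {a : Om ξ} : a ∈ D.J ξ e ↔ ∃ y ∈ D.KW e, θ ξ (WittVector.map D.ε y) = a := by
  unfold J
  rw [Ideal.mem_map_iff_of_surjective _ (θ_surjective ξ)]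
  constructor
  · rintro ⟨x, hx, rfl⟩
    obtain ⟨y, hy, rfl⟩ := D.exists_lift hx
    exact ⟨y, hy, rfl⟩
  · rintro ⟨y, hy, rfl⟩
    exact ⟨_, D.map_mem_WtI hy, rfl⟩

lemma J_one : D.J ξ (1 : S') = ⊤ := by
  rw [Ideal.eq_top_iff_one, mem_J]
  exact ⟨1, one_mem_WGr, by rw [map_one, map_one]⟩

lemma sh_mul_mem_J {e f : S'} {g : S} (hg : g ∈ D.K f) {a : Om ξ} (ha : a ∈ D.J ξ e) :
    sh ξ (D.ε g) * a ∈ D.J ξ (f * e) := by
  obtain ⟨y, hy, rfl⟩ := D.mem_J.1 ha
  refine D.mem_J.2 ⟨τ g * y, mul_mem_WGr (teich_mem_WGr hg) hy, ?_⟩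
  rw [map_mul, map_mul, map_teichmuller]
  rfl


/-- **the kernel of `K~ / ξ → Om ξ` is `h^{1/p^∞}`-null.** -/
theorem ker_null (hξ : IsDist ξ π) {e : S'} {h : P} (hN : D.Nul e h) {m : ℕ}
    (hm : h ^ m ∈ D.I e) {y : WittVector p S} (hy : y ∈ D.KW e)
    (hy0 : θ ξ (WittVector.map D.ε y) = 0) (n : ℕ) :
    ∃ y' ∈ D.KW e, WittVector.map D.i (τ (D.hP.rtn n h)) * y = WittVector.map D.i ξ * y' := by
  obtain ⟨z, hz⟩ := θ_eq_zero_iff.1 hy0
  -- `[h^{1/p^{n+1}}] z ∈ W~(I)`
  have h1 : τ (D.hP.rtn (n + 1) h) * z ∈ D.WtI e := by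
    have hz' : ξ * z ∈ D.WtI e := by rw [← hz]; exact D.map_mem_WtI hy
    have h2 := xi_torsion_WI D.hP (D.I_convex e) hξ hz' hm (n + 1 + m)
    rw [D.hP.rtn_pow_comm] at h2
    have h3 : D.hP.rtn (n + 1) h =
        D.hP.rtn (n + 1 + m) h ^ (p ^ m - m) * D.hP.rtn (n + 1 + m) h ^ m := by
      rw [← pow_add, Nat.sub_add_cancel (Nat.lt_pow_self hp.out.one_lt).le,
        D.hP.rtn_add_pow]
    rw [h3, map_mul, mul_assoc]
    exact Ideal.mul_mem_left _ _ h2
  obtain ⟨y', hy', hy2⟩ := D.exists_lift h1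
  set t := WittVector.map D.i (WittVector.teichmuller p (D.hP.rtn (n + 1) h)) with ht
  have e1 : ∀ a, WittVector.map D.ε (WittVector.map D.i a) = (a : WittVector p P) := by
    intro a; ext k; simp only [WittVector.map_coeff]; exact D.εi _
  have h4 : t * (t * y - WittVector.map D.i ξ * y') = 0 := by
    refine hN.lift D (sub_mem (D.mapi_mul_mem _ hy) (D.mapi_mul_mem _ hy')) ?_ (n + 1)
    rw [map_sub, map_mul, map_mul, e1, e1, hz, hy2]; ring
  have h5 : D.hP.rtn n h = D.hP.rtn (n + 1) h ^ (p - 2) * (D.hP.rtn (n + 1) h *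
      D.hP.rtn (n + 1) h) := by
    rw [← pow_two, ← pow_add, Nat.sub_add_cancel hp.out.two_le, D.hP.rtn_succ_pow]
  refine ⟨WittVector.map D.i (τ (D.hP.rtn (n + 1) h)) ^ (p - 2) * (t * y'), ?_, ?_⟩
  · rw [← map_pow]
    exact D.mapi_mul_mem _ (D.mapi_mul_mem _ hy')
  · rw [h5, map_mul, map_mul, map_mul, map_mul, map_pow, map_pow]
    linear_combination (WittVector.map D.i (τ (D.hP.rtn (n + 1) h)) ^ (p - 2)) * h4

end GD

end Crest.Agent.R188.Cmp
end

-- ▼ part R188/Cmp2

set_option autoImplicit false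
set_option linter.unusedSectionVars false
set_option linter.unusedVariables false
set_option linter.style.haveILetI false

namespace Crest.Agent.R188.Cmp

open WittVector Function Crest.Agent.R188.Prf Crest.Agent.R188.Wit Crest.Agent.R188.Flg

universe u v w

/-- the Koszul differential commutes with ring homs. -/
lemma kD_map {R : Type u} [CommRing R] {R' : Type v} [CommRing R'] (φ : R →+* R') {s : ℕ}
    (g : Fin s → R) (f : Finset (Fin s) → R) (B : Finset (Fin s)) :
    φ (kD g f B) = kD (fun i => φ (g i)) (fun B => φ (f B)) B := by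
  rw [kD_apply, kD_apply, map_sum]
  refine Finset.sum_congr rfl fun i _ => ?_
  simp only [sg, smul_eq_mul, map_mul, map_pow, map_neg, map_one]

lemma kD_comp_map {R : Type u} [CommRing R] {R' : Type v} [CommRing R'] (φ : R →+* R') {s : ℕ}
    (g : Fin s → R) (f : Finset (Fin s) → R) :
    (fun B => φ (kD g f B)) = kD (fun i => φ (g i)) (fun B => φ (f B)) := by
  funext B; exact kD_map φ g f B

lemma kD_mul {R : Type u} [CommRing R] {s : ℕ} (g : Fin s → R) (a : R)
    (f : Finset (Fin s) → R) : kD g (fun B => a * f B) = fun B => a * kD g f B := by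
  have : (fun B => a * f B) = a • f := rfl
  rw [this, map_smul]; rfl

lemma kD_sub' {R : Type u} [CommRing R] {s : ℕ} (g : Fin s → R)
    (f f' : Finset (Fin s) → R) : kD g (fun B => f B - f' B) = fun B => kD g f B - kD g f' B := by
  have : (fun B => f B - f' B) = f - f' := rfl
  rw [this, map_sub]; rfl

section Supp

variable {R : Type u} [CommRing R] {s : ℕ}

/-- functions supported in cardinality `q` with values in `K`. -/
def SuppIn (K : AddSubgroup R) (q : ℕ) (f : Finset (Fin s) → R) : Prop :=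
  (∀ B, f B ∈ K) ∧ ∀ B, B.card ≠ q → f B = 0

lemma kD_suppIn {K K' : AddSubgroup R} {g : Fin s → R} (hg : ∀ i, ∀ x ∈ K', g i * x ∈ K)
    {q : ℕ} {f : Finset (Fin s) → R} (hf : SuppIn K' (q + 1) f) : SuppIn K q (kD g f) := by
  refine ⟨fun B => ?_, fun B hB => ?_⟩
  · rw [kD_apply]
    refine sum_mem fun i _ => ?_
    have h1 := hg i _ (hf.1 (insert i B))
    unfold sg
    rcases neg_one_pow_eq_or R (B.filter (· < i)).card with h | h
    · rw [h, one_mul]; exact h1
    · rw [h, neg_one_mul, neg_smul]; exact neg_mem h1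
  · rw [kD_apply]
    refine Finset.sum_eq_zero fun i hi => ?_
    rw [Finset.mem_compl] at hi
    rw [hf.2 _ (by rw [Finset.card_insert_of_notMem hi]; omega), smul_zero]

lemma SuppIn.eq_zero {K : AddSubgroup R} {q : ℕ} {f : Finset (Fin s) → R} (hf : SuppIn K q f)
    (hq : s < q) : f = 0 := by
  funext B
  apply hf.2
  have := Finset.card_le_univ B
  rw [Fintype.card_fin] at this
  omega

lemma SuppIn.zero (K : AddSubgroup R) (q : ℕ) : SuppIn K q (0 : Finset (Fin s) → R) :=
  ⟨fun _ => zero_mem _, fun _ _ => rfl⟩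

lemma kD_suppIn' {K : ℕ → AddSubgroup R} {g : Fin s → R}
    (hg : ∀ q < s, ∀ i, ∀ x ∈ K (q + 1), g i * x ∈ K q)
    (q : ℕ) {f : Finset (Fin s) → R} (hf : SuppIn (K (q + 1)) (q + 1) f) :
    SuppIn (K q) q (kD g f) := by
  by_cases hq : q < s
  · exact kD_suppIn (hg q hq) hf
  · rw [hf.eq_zero (by omega), map_zero]
    exact SuppIn.zero _ _

end Supp

namespace GD

variable {p : ℕ} [hp : Fact p.Prime] {P : Type u} {S : Type v} {S' : Type w}
  [CommRing P] [CommRing S] [CommRing S'] (D : GD p P S S') {s : ℕ}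

/-- exactness of the Koszul complex `… → K(e (q+1))^{..} → K(e q)^{..} → …` of `S` at all
spots. -/
def KosEx (g : Fin s → S) (e : ℕ → S') : Prop :=
  ∀ q, ∀ f : Finset (Fin s) → S, SuppIn (D.K (e q)) q f → kD g f = 0 →
    ∃ f', SuppIn (D.K (e (q + 1))) (q + 1) f' ∧ kD g f' = f

/-- the same for `W(S)`. -/
def KosExW (g : Fin s → S) (e : ℕ → S') : Prop :=
  ∀ q, ∀ f : Finset (Fin s) → WittVector p S, SuppIn (D.KW (e q)) q f →
    kD (fun i => WittVector.teichmuller p (g i)) f = 0 →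
    ∃ f', SuppIn (D.KW (e (q + 1))) (q + 1) f' ∧
      kD (fun i => WittVector.teichmuller p (g i)) f' = f

/-- the module of `SuppIn` functions. -/
def CW (s : ℕ) (e : S') (q : ℕ) : Submodule ℤ (Finset (Fin s) → WittVector p S) where
  carrier := {f | SuppIn (D.KW e) q f}
  zero_mem' := ⟨fun _ => zero_mem _, fun _ _ => rfl⟩
  add_mem' := by
    rintro f f' ⟨h1, h2⟩ ⟨h3, h4⟩
    exact ⟨fun B => add_mem (h1 B) (h3 B), fun B hB => by
      rw [Pi.add_apply, h2 B hB, h4 B hB, add_zero]⟩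
  smul_mem' := by
    rintro n f ⟨h1, h2⟩
    exact ⟨fun B => zsmul_mem (h1 B) n, fun B hB => by rw [Pi.smul_apply, h2 B hB, smul_zero]⟩

lemma zsmul_p (k : ℕ) {X : Type v} [CommRing X] (x : X) : ((p : ℤ) ^ k) • x = (p : X) ^ k * x := by
  rw [zsmul_eq_mul]; push_cast; ring

lemma cpl_WS (hS : IsPerf p S) : Cpl (p : ℤ) (Finset (Fin s) → WittVector p S) := by
  apply Cpl.pi
  haveI := isAdicComplete hS
  intro m
  obtain ⟨t, ht⟩ := (cpl_of_isPrecomplete (a := (p : WittVector p S)) (M := WittVector p S)) m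
  refine ⟨t, fun k => ?_⟩
  obtain ⟨m', hm'⟩ := ht k
  refine ⟨m', ?_⟩
  rw [hm', zsmul_p]
  congr 1
  exact Finset.sum_congr rfl fun i _ => by rw [zsmul_p, smul_eq_mul]

lemma sep_WS (hS : IsPerf p S) : Sep (p : ℤ) (Finset (Fin s) → WittVector p S) := by
  apply Sep.pi
  intro x hx
  apply eq_zero_of_forall_dvd hS
  intro n
  obtain ⟨y, hy⟩ := hx n
  rw [zsmul_p] at hy
  exact ⟨y, hy⟩

lemma tf_WS (hS : IsPerf p S) : Tf (p : ℤ) (Finset (Fin s) → WittVector p S) := by
  apply Tf.pi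
  intro x hx
  apply p_regular hS
  have := zsmul_p (p := p) 1 x
  rw [pow_one, pow_one] at this
  rw [← this]; exact hx

lemma cpl_CW (e : S') (q : ℕ) : Cpl (p : ℤ) (D.CW s e q) := by
  apply Cpl.submodule (cpl_WS D.hS)
  · intro x hx
    have hz : ∀ B, ∀ k, ∃ y ∈ D.KW e, (p : WittVector p S) ^ k ∣ x B - y := by
      intro B k
      obtain ⟨y, hy, z, hz⟩ := hx k
      refine ⟨y B, hy.1 B, z B, ?_⟩
      rw [hz, Pi.add_apply, Pi.smul_apply, zsmul_p]; ring
    refine ⟨fun B => mem_of_forall_sub D.hS D.hS' (hz B), fun B hB => ?_⟩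
    apply eq_zero_of_forall_dvd D.hS
    intro k
    obtain ⟨y, hy, z, hz⟩ := hx k
    refine ⟨z B, ?_⟩
    rw [hz, Pi.add_apply, Pi.smul_apply, zsmul_p, hy.2 B hB, zero_add]
  · intro k z hz
    refine ⟨z, ⟨fun B => ?_, fun B hB => ?_⟩, rfl⟩
    · have := hz.1 B
      rw [Pi.smul_apply, zsmul_p] at this
      exact of_p_pow_mul_mem D.hS D.hS' this
    · have := hz.2 B hB
      rw [Pi.smul_apply, zsmul_p] at this
      exact eq_of_p_pow_mul D.hS (by rw [this, mul_zero])

/-- **Witt lift of an exact Koszul complex.** -/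
theorem KosEx.lift {g : Fin s → S} {e : ℕ → S'} {v : S'} (hg : ∀ i, g i ∈ D.K v)
    (hv : ∀ q < s, v * e (q + 1) = e q) (h : D.KosEx g e) : D.KosExW g e := by
  classical
  intro q f hf hf0
  let G : Fin s → WittVector p S := fun i => WittVector.teichmuller p (g i)
  have hG : ∀ q < s, ∀ i, ∀ x ∈ D.KW (e (q + 1)), G i * x ∈ D.KW (e q) := by
    intro q hq i x hx
    have := mul_mem_WGr (teich_mem_WGr (p := p) (hg i)) hx
    rwa [hv q hq] at this
  let F : D.CW s (e (q + 1)) (q + 1) →ₗ[ℤ] D.CW s (e q) q :=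
    { toFun := fun f => ⟨kD G f.1, kD_suppIn' (K := fun q => D.KW (e q)) hG q f.2⟩
      map_add' := fun a b => Subtype.ext (map_add (kD G) a.1 b.1)
      map_smul' := fun n a => Subtype.ext (by
        show kD G (n • a.1) = n • kD G a.1
        exact map_zsmul (kD G) n a.1) }
  let H : D.CW s (e q) q →ₗ[ℤ] (Finset (Fin s) → WittVector p S) :=
    { toFun := fun f => kD G f.1
      map_add' := fun a b => map_add (kD G) a.1 b.1
      map_smul' := fun n a => map_zsmul (kD G) n a.1 }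
  have hFH : ∀ m, H (F m) = 0 := fun m => kD_kD G m.1
  have hex : Exact F H := by
    refine exact_of_exMod (a := (p : ℤ)) hFH (cpl_CW D _ _)
      (Sep.sub (f := (D.CW s (e q) q).subtype) (Submodule.injective_subtype _) (sep_WS D.hS))
      (tf_WS D.hS) ?_
    rintro ⟨f, hf⟩ ⟨y, hy⟩
    have hy' : ∀ B, kD G f B = (p : WittVector p S) * y B := by
      intro B
      have := congrFun hy B
      have h2 := zsmul_p (p := p) 1 (y B)
      rw [pow_one, pow_one] at h2
      rw [← h2]; exact this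
    -- coefficient zero
    have hc : kD g (fun B => (f B).coeff 0) = 0 := by
      have h1 := kD_comp_map (WittVector.constantCoeff (p := p) (R := S)) G f
      have h2 : (fun i => WittVector.constantCoeff (p := p) (G i)) = g := by
        funext i; simp [G, WittVector.constantCoeff]
      rw [h2] at h1
      have h3 : (fun B => WittVector.constantCoeff (p := p) (kD G f B)) =
          (0 : Finset (Fin s) → S) := by
        funext B
        rw [hy', map_mul, map_natCast, D.hS.p_zero, zero_mul]; rfl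
      rw [h3] at h1
      exact h1.symm
    obtain ⟨m0, hm0, hm1⟩ := h q (fun B => (f B).coeff 0)
      ⟨fun B => coeff_zero_mem D.hS D.hS' (hf.1 B), fun B hB => by
        show (f B).coeff 0 = 0
        rw [hf.2 B hB, WittVector.zero_coeff]⟩ hc
    let m : Finset (Fin s) → WittVector p S := fun B => WittVector.teichmuller p (m0 B)
    have hm : SuppIn (D.KW (e (q + 1))) (q + 1) m :=
      ⟨fun B => teich_mem_WGr (hm0.1 B), fun B hB => by
        show WittVector.teichmuller p (m0 B) = 0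
        rw [hm0.2 B hB, WittVector.teichmuller_zero]⟩
    have hdiff : ∀ B, ∃ n, f B - kD G m B = (p : WittVector p S) * n := by
      intro B
      have : (p : WittVector p S) ∣ f B - kD G m B := by
        rw [p_dvd_iff D.hS]
        have h5 : WittVector.constantCoeff (p := p) (kD G m B) = (f B).coeff 0 := by
          rw [kD_map]
          have h2 : (fun i => WittVector.constantCoeff (p := p) (G i)) = g := by
            funext i; simp [G, WittVector.constantCoeff]
          have h3 : (fun B => WittVector.constantCoeff (p := p) (m B)) = m0 := by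
            funext i; simp [m, WittVector.constantCoeff]
          rw [h2, h3, hm1]
        have h6 : WittVector.constantCoeff (p := p) (f B - kD G m B) = 0 := by
          rw [map_sub, h5]
          exact sub_self _
        exact h6
      exact this
    choose n hn using hdiff
    have hkm := kD_suppIn' (K := fun q => D.KW (e q)) hG q hm
    have hnm : SuppIn (D.KW (e q)) q n := by
      refine ⟨fun B => ?_, fun B hB => ?_⟩
      · apply of_p_mul_mem D.hS D.hS'
        rw [← hn]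
        exact sub_mem (hf.1 B) (hkm.1 B)
      · apply p_regular D.hS
        rw [← hn, hf.2 B hB, hkm.2 B hB, sub_zero]
    refine ⟨⟨m, hm⟩, ⟨n, hnm⟩, Subtype.ext ?_⟩
    funext B
    show f B = kD G m B + (p : ℤ) • n B
    have h2 := zsmul_p (p := p) 1 (n B)
    rw [pow_one, pow_one] at h2
    rw [h2, ← hn]; ring
  obtain ⟨⟨f', hf'⟩, hF⟩ := (hex ⟨f, hf⟩).1 hf0
  exact ⟨f', hf', congrArg Subtype.val hF⟩

variable {ξ : WittVector p P} {π : P}

/-- **(J3): the Koszul complex on the ideals `J(e q)` of `Om ξ` is almost exact.** -/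
theorem kosNull (hξ : IsDist ξ π) {g : Fin s → S} {e : ℕ → S'} {v : S'} (hg : ∀ i, g i ∈ D.K v)
    (hv : ∀ q < s, v * e (q + 1) = e q) (h : D.KosExW g e) {h₀ : P}
    (hN : ∀ q ≤ s, D.Nul (e q) h₀) (hI : ∀ q ≤ s, ∃ m, h₀ ^ m ∈ D.I (e q))
    (hN' : D.Nul (v * e 0) h₀) (hI' : ∃ m, h₀ ^ m ∈ D.I (v * e 0))
    {𝔞 : Ideal (Om ξ)} (h𝔞 : 𝔞 ≤ Ideal.span (Set.range fun n => sh ξ (D.hP.rtn n h₀))) :
    KosNull 𝔞 (fun i => sh ξ (D.ε (g i))) (fun q => (D.J ξ (e q) : Submodule (Om ξ) (Om ξ))) := by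
  classical
  intro q f hf hf0 a ha
  let G : Fin s → WittVector p S := fun i => WittVector.teichmuller p (g i)
  have hG : ∀ q < s, ∀ i, ∀ x ∈ D.KW (e (q + 1)), G i * x ∈ D.KW (e q) := by
    intro q hq i x hx
    have := mul_mem_WGr (teich_mem_WGr (p := p) (hg i)) hx
    rwa [hv q hq] at this
  let Θ : WittVector p S →+* Om ξ := (θ ξ).comp (WittVector.map D.ε)
  have hΘi : ∀ x, Θ (WittVector.map D.i x) = θ ξ x := by
    intro x
    show θ ξ (WittVector.map D.ε (WittVector.map D.i x)) = θ ξ x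
    congr 1
    ext k; simp only [WittVector.map_coeff]; exact D.εi _
  have hΘG : (fun i => Θ (G i)) = fun i => sh ξ (D.ε (g i)) := by
    funext i
    show θ ξ (WittVector.map D.ε (WittVector.teichmuller p (g i))) = _
    rw [map_teichmuller]; rfl
  -- trivial degrees
  by_cases hqs : s < q
  · have hf00 : f = 0 := by
      funext B
      apply hf.2
      have := Finset.card_le_univ B
      rw [Fintype.card_fin] at this
      omega
    exact ⟨0, zero_mem _, by rw [hf00, map_zero, smul_zero]⟩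
  -- it suffices to treat the generators of the almost ideal
  have key : ∀ n, ∃ f' ∈ kK (fun q => (D.J ξ (e q) : Submodule (Om ξ) (Om ξ))) s (q + 1),
      kD (fun i => sh ξ (D.ε (g i))) f' = sh ξ (D.hP.rtn n h₀) • f := by
    intro n
    -- lift `f`
    have hl : ∀ B, ∃ y, y ∈ D.KW (e q) ∧ Θ y = f B ∧ (B.card ≠ q → y = 0) := by
      intro B
      by_cases hB : B.card = q
      · obtain ⟨y, hy, hy2⟩ := D.mem_J.1 (hf.1 B)
        exact ⟨y, hy, hy2, fun h => absurd hB h⟩
      · exact ⟨0, zero_mem _, by rw [map_zero, hf.2 B hB], fun _ => rfl⟩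
    choose F hF1 hF2 hF3 using hl
    have hFs : SuppIn (D.KW (e q)) q F := ⟨hF1, hF3⟩
    have hΘF : (fun B => Θ (F B)) = f := by funext B; exact hF2 B
    -- the differential of the lift lies in the kernel of `Θ`
    have hker : ∀ B, Θ (kD G F B) = 0 := by
      intro B
      rw [kD_map, hΘG, hΘF, hf0]; rfl
    -- degree of the differential
    obtain ⟨e', he', hNe', hIe', hsupp⟩ : ∃ e' : S', v * e q = e' ∧ D.Nul e' h₀ ∧
        (∃ m, h₀ ^ m ∈ D.I e') ∧ ∀ B, kD G F B ∈ D.KW e' := by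
      have hmem : ∀ B, kD G F B ∈ D.KW (v * e q) := by
        intro B
        rw [kD_apply]
        refine sum_mem fun i _ => ?_
        have h1 : G i * F (insert i B) ∈ D.KW (v * e q) :=
          mul_mem_WGr (teich_mem_WGr (p := p) (hg i)) (hF1 _)
        unfold sg
        rcases neg_one_pow_eq_or (WittVector p S) (B.filter (· < i)).card with h | h
        · rw [h, one_mul]; exact h1
        · rw [h, neg_one_mul, neg_smul]; exact neg_mem h1
      cases q with
      | zero => exact ⟨_, rfl, hN', hI', hmem⟩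
      | succ q =>
        refine ⟨_, rfl, ?_, ?_, hmem⟩
        · rw [hv q (by omega)]; exact hN q (by omega)
        · rw [hv q (by omega)]; exact hI q (by omega)
    obtain ⟨m, hm⟩ := hIe'
    -- kill the kernel
    set t := WittVector.map D.i (WittVector.teichmuller p (D.hP.rtn n h₀)) with ht
    have hy : ∀ B, ∃ y', y' ∈ D.KW e' ∧ t * kD G F B = WittVector.map D.i ξ * y' := by
      intro B
      obtain ⟨y', hy', hy2⟩ := D.ker_null hξ hNe' hm (hsupp B) (hker B) n
      exact ⟨y', hy', hy2⟩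
    choose Y hY1 hY2 using hy
    -- `Y` is a cycle and is supported correctly
    have hξS : IsDist (WittVector.map D.i ξ) (D.i π) := hξ.map D.i
    have hYD : kD G (fun B => t * F B) = fun B => WittVector.map D.i ξ * Y B := by
      rw [kD_mul]
      funext B
      exact hY2 B
    have hYc : kD G Y = 0 := by
      have h1 := kD_kD G (fun B => t * F B)
      rw [hYD, kD_mul] at h1
      funext B
      exact xi_regular D.hS hξS (congrFun h1 B)
    -- find a preimage of `Y`
    have hYpre : ∃ Z, SuppIn (D.KW (e q)) q Z ∧ kD G Z = Y := by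
      cases q with
      | zero =>
        -- then `kD G F = 0`
        have h0 : ∀ B, kD G F B = 0 := by
          intro B
          rw [kD_apply]
          refine Finset.sum_eq_zero fun i hi => ?_
          rw [Finset.mem_compl] at hi
          rw [hF3 _ (by rw [Finset.card_insert_of_notMem hi]; omega), smul_zero]
        have hY0 : Y = 0 := by
          funext B
          apply xi_regular D.hS hξS
          rw [← hY2, h0, mul_zero]
        exact ⟨0, ⟨fun _ => zero_mem _, fun _ _ => rfl⟩, by rw [hY0, map_zero]⟩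
      | succ q =>
        have hY0 : ∀ B, B.card ≠ q → Y B = 0 := by
          intro B hB
          apply xi_regular D.hS hξS
          rw [← hY2, (kD_suppIn' (K := fun q => D.KW (e q)) hG q hFs).2 B hB, mul_zero]
        have he'' : e' = e q := by rw [← he', hv q (by omega)]
        obtain ⟨Z, hZ, hZ2⟩ := h q Y ⟨fun B => he'' ▸ hY1 B, hY0⟩ hYc
        exact ⟨Z, hZ, hZ2⟩
    obtain ⟨Z, hZ, hZ2⟩ := hYpre
    -- `t F - ξ Z` is a cycle
    have hc : kD G (fun B => t * F B - WittVector.map D.i ξ * Z B) = 0 := by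
      rw [kD_sub', hYD, kD_mul, hZ2]
      funext B
      exact sub_self _
    have hs : SuppIn (D.KW (e q)) q (fun B => t * F B - WittVector.map D.i ξ * Z B) := by
      refine ⟨fun B => sub_mem (D.mapi_mul_mem _ (hF1 B)) (D.mapi_mul_mem _ (hZ.1 B)),
        fun B hB => ?_⟩
      simp only
      rw [hF3 B hB, hZ.2 B hB, mul_zero, mul_zero, sub_zero]
    obtain ⟨F', hF', hF'2⟩ := h q _ hs hc
    refine ⟨fun B => Θ (F' B), ⟨fun B => D.mem_J.2 ⟨F' B, hF'.1 B, rfl⟩, fun B hB => by
      show Θ (F' B) = 0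
      rw [hF'.2 B hB, map_zero]⟩, ?_⟩
    rw [← hΘG, ← kD_comp_map]
    funext B
    have := congrFun hF'2 B
    show Θ (kD G F' B) = _
    have h3 : kD G F' B = t * F B - WittVector.map D.i ξ * Z B := this
    rw [h3, map_sub, map_mul, map_mul, hF2, ht, hΘi, hΘi, θ_xi, zero_mul, sub_zero]
    rfl
  have ha' := h𝔞 ha
  refine Submodule.span_induction (p := fun a _ => ∃ f' ∈ kK (fun q => (D.J ξ (e q) :
    Submodule (Om ξ) (Om ξ))) s (q + 1), kD (fun i => sh ξ (D.ε (g i))) f' = a • f)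
    ?_ ?_ ?_ ?_ ha'
  · rintro _ ⟨n, rfl⟩
    exact key n
  · exact ⟨0, zero_mem _, by rw [map_zero, zero_smul]⟩
  · rintro a b _ _ ⟨fa, hfa, ha⟩ ⟨fb, hfb, hb⟩
    exact ⟨fa + fb, add_mem hfa hfb, by rw [map_add, ha, hb, add_smul]⟩
  · rintro c a _ ⟨fa, hfa, ha⟩
    exact ⟨c • fa, Submodule.smul_mem _ _ hfa, by rw [map_smul, ha, smul_smul, smul_eq_mul]⟩

end GD

end Crest.Agent.R188.Cmp
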