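import Crest.Agent.R188.FlgFilt
import Crest.Agent.R188.Cmp2
import Crest.Agent.R188.Asm1

-- ▼ part R188/FlgColon
section

/-! # R188, block (G): COLON and `MonoSys` from almost exact Koszul complexes -/

set_option autoImplicit false

namespace Crest.Agent.R188.Flg

open Finset

section colon

variable {Ω : Type*} [CommRing Ω] {𝔞 : Ideal Ω}

/-- the colon property from the left end (`q = s`, `q = s - 1`) of the Koszul complex -/
theorem colon_of_kosNull {s : ℕ} {g : Fin s → Ω} {I : ℕ → Submodule Ω Ω} (hK : KosNull 𝔞 g I)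
    (i₀ : Fin s) (hreg : ∀ x, g i₀ * x = 0 → x = 0) (x : Ω) (hx : ∀ i, g i * x ∈ I (s - 1))
    (h : Ω) (hh : h ∈ 𝔞) : h * x ∈ I s := by
  have hs : 0 < s := by have := i₀.2; omega
  let F : Finset (Fin s) → Ω := fun B => if B = Finset.univ then x else 0
  -- values of `kD` on functions concentrated at `univ`
  have hval : ∀ (G : Finset (Fin s) → Ω), (∀ B, B ≠ Finset.univ → G B = 0) → ∀ i : Fin s,
      kD g G ({i}ᶜ) = sg Ω i {i}ᶜ * g i * G Finset.univ := by
    intro G _ i
    rw [kD_apply, compl_compl, Finset.sum_singleton, smul_eq_mul]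
    congr 2
    ext j
    by_cases hj : j = i <;> simp [hj]
  have hf : kD g F ∈ kK I s (s - 1) := by
    refine ⟨fun B => ?_, fun B hB => ?_⟩
    · rw [kD_apply]
      refine Submodule.sum_mem _ fun i hi => ?_
      rw [mul_smul]
      refine Submodule.smul_mem _ _ ?_
      by_cases h1 : insert i B = Finset.univ
      · simp only [F, if_pos h1]; exact hx i
      · simp only [F, if_neg h1, smul_zero]; exact Submodule.zero_mem _
    · rw [kD_apply]
      refine Finset.sum_eq_zero fun i hi => ?_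
      rw [Finset.mem_compl] at hi
      have h1 : insert i B ≠ Finset.univ := by
        intro h1
        have h2 := congrArg Finset.card h1
        rw [Finset.card_insert_of_notMem hi, Finset.card_univ, Fintype.card_fin] at h2
        omega
      simp only [F, if_neg h1, smul_zero]
  obtain ⟨f', hf', hD⟩ := hK (s - 1) _ hf (kD_kD g F) h hh
  rw [Nat.sub_add_cancel hs] at hf'
  have hf'0 : ∀ B, B ≠ Finset.univ → f' B = 0 := by
    intro B hB
    refine hf'.2 B ?_
    intro hc
    apply hB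
    rw [← Finset.card_eq_iff_eq_univ, hc, Fintype.card_fin]
  have h1 := congrFun hD ({i₀}ᶜ)
  rw [hval f' hf'0, Pi.smul_apply, hval F (fun B hB => by simp [F, hB])] at h1
  have h2 : sg Ω i₀ {i₀}ᶜ * (g i₀ * (f' Finset.univ - h * x)) = 0 := by
    have h3 : F Finset.univ = x := by simp [F]
    rw [h3, smul_eq_mul] at h1
    linear_combination h1
  have h3 : sg Ω i₀ ({i₀}ᶜ : Finset (Fin s)) * sg Ω i₀ ({i₀}ᶜ : Finset (Fin s)) = 1 := by
    unfold sg
    rw [← pow_add, ← two_mul, pow_mul]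
    simp
  have h4 : g i₀ * (f' Finset.univ - h * x) = 0 := by
    have := congrArg (fun y => sg Ω i₀ ({i₀}ᶜ : Finset (Fin s)) * y) h2
    simp only [mul_zero] at this
    rwa [← mul_assoc, h3, one_mul] at this
  have h5 := hreg _ h4
  rw [← sub_eq_zero.1 h5]
  exact hf'.1 _

/-- **`MonoSys` from the Koszul complexes**: `mul`, exact `skoda`, and almost exactness of the
Koszul complex in every direction, one regular generator per block. -/
theorem MonoSys.of_kosNull {κ : Type*} [DecidableEq κ] {s : κ → ℕ} {g : ∀ k, Fin (s k) → Ω}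
    {J : (κ → ℕ) → Ideal Ω} {m : ℕ}
    (hmul : ∀ t k i, ∀ x ∈ J t, g k i * x ∈ J (t + Pi.single k 1))
    (hsk : ∀ t, (∀ j, m ≤ t j) → ∀ k, ∀ x ∈ J (t + Pi.single k 1), ∃ a : Fin (s k) → Ω,
      (∀ i, a i ∈ J t) ∧ x = ∑ i, g k i * a i)
    (hK : ∀ T : κ → ℕ, ∀ k, s k ≤ T k → KosNull 𝔞 (g k) (fun q => J (T - Pi.single k q)))
    (hreg : ∀ k, ∃ i, ∀ x, g k i * x = 0 → x = 0) : MonoSys 𝔞 s g m J where
  mul := hmul
  skoda := hsk
  colon := by
    intro t _ k x hx h hh
    obtain ⟨i₀, hi₀⟩ := hreg k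
    have hs : 0 < s k := by have := i₀.2; omega
    have h1 := colon_of_kosNull (hK (t + Pi.single k (s k)) k (by simp)) i₀ hi₀ x
      (fun i => ?_) h hh
    · have h2 : t + Pi.single k (s k) - Pi.single k (s k) = t := by
        ext j; simp
      simp only [h2] at h1
      exact h1
    · have h2 : t + Pi.single k (s k) - Pi.single k (s k - 1) = t + Pi.single k 1 := by
        ext j
        by_cases hj : j = k
        · subst hj; simp; omega
        · simp [hj]
      simp only [h2]
      exact hx i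


end colon

end Crest.Agent.R188.Flg
end

-- ▼ part R188/AsmG1
section

/-! # R188, assembly glue (helper83), part 1: graded data `GD` give a `MonoSys` -/

set_option autoImplicit false

namespace Crest.Agent.R188.AsmG

open WittVector Crest.Agent.R188.Prf Crest.Agent.R188.Wit Crest.Agent.R188.Flg Crest.Agent.R188.Cmp

universe u v w

variable {p : ℕ} [hp : Fact p.Prime] {P : Type u} {S : Type v} {S' : Type w}
  [CommRing P] [CommRing S] [CommRing S'] (D : GD p P S S') {ξ : WittVector p P} {π : P}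

/-- the almost ideal generated by the sharps of the `p`-power roots of `h` -/
noncomputable def almId (D : GD p P S S') (ξ : WittVector p P) (h : P) : Ideal (Om ξ) :=
  Ideal.span (Set.range fun n => sh ξ (D.hP.rtn n h))

/-- exact Skoda from the exact Koszul complex upstairs -/
theorem skoda_J {s : ℕ} {g : Fin s → S} {e : ℕ → S'} (hK : D.KosExW g e) (x : Om ξ)
    (hx : x ∈ D.J ξ (e 0)) :
    ∃ a : Fin s → Om ξ, (∀ i, a i ∈ D.J ξ (e 1)) ∧ x = ∑ i, sh ξ (D.ε (g i)) * a i := by
  classical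
  obtain ⟨y, hy, hyx⟩ := D.mem_J.1 hx
  let F : Finset (Fin s) → WittVector p S := fun B => if B = ∅ then y else 0
  have hF : SuppIn (D.KW (e 0)) 0 F := by
    refine ⟨fun B => ?_, fun B hB => ?_⟩
    · by_cases hB : B = ∅
      · simp only [F, if_pos hB]; exact hy
      · simp only [F, if_neg hB]; exact zero_mem _
    · have : B ≠ ∅ := by rintro rfl; exact hB Finset.card_empty
      simp only [F, if_neg this]
  have hF0 : kD (fun i => WittVector.teichmuller p (g i)) F = 0 := by
    ext1 B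
    rw [kD_apply]
    refine Finset.sum_eq_zero fun i _ => ?_
    have : insert i B ≠ ∅ := Finset.insert_ne_empty _ _
    simp only [F, if_neg this, smul_zero]
  obtain ⟨f', hf', hD⟩ := hK 0 F hF hF0
  refine ⟨fun i => θ ξ (WittVector.map D.ε (f' {i})), fun i => D.mem_J.2 ⟨_, hf'.1 _, rfl⟩, ?_⟩
  have h1 := congrFun hD ∅
  rw [kD_apply] at h1
  simp only [F, if_true] at h1
  rw [← hyx, ← h1, Finset.compl_empty, map_sum, map_sum]
  refine Finset.sum_congr rfl fun i _ => ?_
  rw [sg_empty, one_mul, smul_eq_mul, map_mul, map_mul, map_teichmuller]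
  rfl

section sys

variable {κ : Type*} [DecidableEq κ] {s : κ → ℕ} (g : ∀ k, Fin (s k) → S)
  (v : κ → S') (e : (κ → ℕ) → S')

include v in
/-- **`MonoSys` for the ideals `J(e t)`** (and all the Koszul complexes, `J 0 = ⊤`) -/
theorem monoSys_J (hξ : IsDist ξ π)
    (he0 : e 0 = 1) (he : ∀ t k, v k * e t = e (t + Pi.single k 1))
    (hg : ∀ k i, g k i ∈ D.K (v k))
    (hKE : ∀ (T : κ → ℕ) k, s k ≤ T k → D.KosEx (g k) (fun q => e (T - Pi.single k q)))
    {h₀ : P} (hN : ∀ t, D.Nul (e t) h₀) (hI : ∀ t, ∃ m, h₀ ^ m ∈ D.I (e t))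
    (hreg : ∀ k, ∃ i, ∀ x : Om ξ, sh ξ (D.ε (g k i)) * x = 0 → x = 0) (m : ℕ)
    (hm : ∀ k, s k ≤ m + 1) :
    MonoSys (almId D ξ h₀) s (fun k i => sh ξ (D.ε (g k i))) m (fun t => D.J ξ (e t)) ∧
    (∀ T : κ → ℕ, ∀ k, s k ≤ T k → KosNull (almId D ξ h₀) (fun i => sh ξ (D.ε (g k i)))
      (fun q => (D.J ξ (e (T - Pi.single k q)) : Submodule (Om ξ) (Om ξ)))) ∧
    D.J ξ (e 0) = ⊤ := by
  have hv : ∀ (T : κ → ℕ) (k : κ) (q : ℕ), q + 1 ≤ T k →
      v k * e (T - Pi.single k (q + 1)) = e (T - Pi.single k q) := by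
    intro T k q hq
    rw [he]
    congr 1
    ext j
    by_cases hj : j = k
    · subst hj; simp; omega
    · simp [hj]
  have hEW : ∀ (T : κ → ℕ) k, s k ≤ T k → D.KosExW (g k) (fun q => e (T - Pi.single k q)) := by
    intro T k hk
    exact (hKE T k hk).lift D (hg k) (fun q hq => hv T k q (by omega))
  have hKN : ∀ T : κ → ℕ, ∀ k, s k ≤ T k → KosNull (almId D ξ h₀) (fun i => sh ξ (D.ε (g k i)))
      (fun q => (D.J ξ (e (T - Pi.single k q)) : Submodule (Om ξ) (Om ξ))) := by
    intro T k hk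
    refine D.kosNull hξ (hg k) (fun q hq => hv T k q (by omega)) (hEW T k hk)
      (fun q _ => hN _) (fun q _ => hI _) ?_ ?_ le_rfl
    · rw [he]; exact hN _
    · rw [he]; exact hI _
  refine ⟨MonoSys.of_kosNull ?_ ?_ hKN hreg, hKN, by rw [he0]; exact D.J_one⟩
  · intro t k i x hx
    have := D.sh_mul_mem_J (hg k i) hx
    rwa [he] at this
  · intro t ht k x hx
    have hT : s k ≤ (t + Pi.single k 1 : κ → ℕ) k := by
      have := ht k
      have := hm k
      simp only [Pi.add_apply, Pi.single_eq_same]; omega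
    have hx' : x ∈ D.J ξ ((fun q => e (t + Pi.single k 1 - Pi.single k q)) 0) := by
      simpa using hx
    obtain ⟨a, ha, hxa⟩ := skoda_J D (hEW (t + Pi.single k 1) k hT) x hx'
    refine ⟨a, fun i => ?_, hxa⟩
    have := ha i
    simpa using this

end sys

end Crest.Agent.R188.AsmG
end

-- ▼ part R188/AsmG2

/-! # R188, assembly glue (helper83), part 2: sharp pairs in a `World` -/

set_option autoImplicit false

namespace Crest.Agent.R188.AsmG

open WittVector Crest.Agent.R188.Prf Crest.Agent.R188.Wit Crest.Agent.R188.Flg Crest.Agent.R188.Cmp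
open Crest.Agent.R188.Asm Crest.Agent.R183

universe u

section roots

/-- `B⁺` has `n`-th roots -/
theorem bPlus_exists_pow {B : Type u} [CommRing B] [IsDomain B] (n : ℕ) (hn : 0 < n)
    (c : Tri.BPlus B) : ∃ y : Tri.BPlus B, y ^ n = c := by
  obtain ⟨z, hz⟩ := IsAlgClosed.exists_pow_nat_eq (c : Tri.FB B) hn
  have hi : IsIntegral B z := by
    have h1 : IsIntegral B (z ^ n) := by rw [hz]; exact c.2
    exact h1.of_pow hn
  exact ⟨⟨z, hi⟩, Subtype.ext hz⟩

/-- compatible systems of `p`-power roots in `B⁺` -/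
theorem bPlus_exists_roots {B : Type u} [CommRing B] [IsDomain B] (p : ℕ) (hp : 0 < p)
    (c : Tri.BPlus B) : ∃ r : ℕ → Tri.BPlus B, r 0 = c ∧ ∀ n, r (n + 1) ^ p = r n := by
  choose f hf using fun c : Tri.BPlus B => bPlus_exists_pow p hp c
  refine ⟨fun n => f^[n] c, rfl, fun n => ?_⟩
  change (f^[n + 1] c) ^ p = f^[n] c
  rw [Function.iterate_succ_apply', hf]

end roots

section sharp

variable {p : ℕ} [hp : Fact p.Prime] {P : Type} [CommRing P] {h : IsPerf p P}
  {ξ : WittVector p P} {A : Type} [CommRing A] {ι : A →+* Om ξ}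

lemma sh_mul (x y : P) : sh ξ (x * y) = sh ξ x * sh ξ y := by
  unfold sh
  rw [map_mul, map_mul]

lemma sh_one : sh ξ (1 : P) = 1 := by
  unfold sh
  rw [map_one, map_one]

lemma SharpPair.mul {a a' : P} {r r' : ℕ → A} (h1 : SharpPair h ι a r) (h2 : SharpPair h ι a' r') :
    SharpPair h ι (a * a') (fun n => r n * r' n) := by
  refine ⟨fun n => by rw [mul_pow, h1.1, h2.1], fun n => ?_⟩
  rw [h.rtn_mul, sh_mul, h1.2, h2.2, map_mul]

lemma SharpPair.one : SharpPair h ι (1 : P) (fun _ => (1 : A)) := by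
  refine ⟨fun n => one_pow _, fun n => ?_⟩
  rw [map_one]
  have : h.rtn n (1 : P) = 1 := h.rtn_eq_of_pow (by rw [one_pow])
  rw [this, sh_one]

lemma SharpPair.prod {α : Type*} (s : Finset α) {a : α → P} {r : α → ℕ → A}
    (hs : ∀ i ∈ s, SharpPair h ι (a i) (r i)) :
    SharpPair h ι (∏ i ∈ s, a i) (fun n => ∏ i ∈ s, r i n) := by
  classical
  induction s using Finset.induction_on with
  | empty => simpa using SharpPair.one
  | insert i s hi ih =>
    have h1 := SharpPair.mul (hs i (Finset.mem_insert_self _ _))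
      (ih fun j hj => hs j (Finset.mem_insert_of_mem hj))
    simp only [Finset.prod_insert hi]
    exact h1

lemma SharpPair.sh_eq {a : P} {r : ℕ → A} (h1 : SharpPair h ι a r) : sh ξ a = ι (r 0) := by
  have := h1.2 0
  rwa [IsPerf.rtn_zero'] at this


end sharp

section world

variable {p : ℕ} [hp : Fact p.Prime] {k : Type} [Field k] [CharP k p] {b : ℕ}
  (W : World p k b)

attribute [local instance] World.ringP

/-- every element of `B⁺` is a sharp -/
theorem exists_sharpPair (c : BPlus p k b) : ∃ (a : W.P) (r : ℕ → BPlus p k b),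
    SharpPair W.perf W.ι a r ∧ r 0 = c := by
  obtain ⟨r, h0, h1⟩ := bPlus_exists_roots (B := BB p k b) p hp.out.pos c
  obtain ⟨a, ha⟩ := W.exists_sharp r h1
  exact ⟨a, r, ha, h0⟩

/-- sharp pairs for a family of elements of `B⁺` -/
structure SharpFam {κ : Type} (s : κ → ℕ) (c : ∀ j, Fin (s j) → BPlus p k b) where
  /-- the elements of `P` -/
  a : (Σ j, Fin (s j)) → W.P
  /-- the roots -/
  rr : (Σ j, Fin (s j)) → ℕ → BPlus p k b
  sharp : ∀ x, SharpPair W.perf W.ι (a x) (rr x)
  zero : ∀ x, rr x 0 = c x.1 x.2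

theorem nonempty_sharpFam {κ : Type} (s : κ → ℕ) (c : ∀ j, Fin (s j) → BPlus p k b) :
    Nonempty (SharpFam W s c) := by
  choose a r h1 h2 using fun x : (Σ j, Fin (s j)) => exists_sharpPair W (c x.1 x.2)
  exact ⟨⟨a, r, h1, h2⟩⟩

variable {W} in
lemma SharpFam.sh_a {κ : Type} {s : κ → ℕ} {c : ∀ j, Fin (s j) → BPlus p k b}
    (F : SharpFam W s c) (x : Σ j, Fin (s j)) : sh W.ξ (F.a x) = W.ι (c x.1 x.2) := by
  rw [SharpPair.sh_eq (F.sharp x), F.zero]

variable {W} in
/-- the product of one nonzero generator per block -/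
lemma SharpFam.prod {κ : Type} [Fintype κ] {s : κ → ℕ} {c : ∀ j, Fin (s j) → BPlus p k b}
    (F : SharpFam W s c) (i₀ : ∀ j, Fin (s j)) (hc : ∀ j, c j (i₀ j) ≠ 0) :
    SharpPair W.perf W.ι (∏ j, F.a ⟨j, i₀ j⟩) (fun n => ∏ j, F.rr ⟨j, i₀ j⟩ n) ∧
      (∏ j, F.rr ⟨j, i₀ j⟩ 0) ≠ 0 := by
  refine ⟨SharpPair.prod _ fun j _ => F.sharp _, ?_⟩
  rw [Finset.prod_ne_zero_iff]
  intro j _
  rw [F.zero]
  exact hc j

end world

end Crest.Agent.R188.AsmG
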