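import Crest.Agent.R188.UB1
import Crest.Agent.R188.PrfPerf
import Mathlib
import Crest.Agent.R188.Cmp2

-- ▼ part R188/UB2
section

set_option autoImplicit false
set_option linter.unusedSectionVars false
set_option linter.unusedVariables false

namespace Crest.Agent.R188.UB

open Finset

/-- nonnegative elements of `ℤ[1/p]`, inside `ℝ`. -/
def DD (p : ℕ) : AddSubmonoid ℝ where
  carrier := {x | ∃ n e : ℕ, x * (p : ℝ) ^ e = n}
  zero_mem' := ⟨0, 0, by simp⟩
  add_mem' := by
    rintro x y ⟨n, e, hx⟩ ⟨m, f, hy⟩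
    refine ⟨n * p ^ f + m * p ^ e, e + f, ?_⟩
    push_cast
    rw [← hx, ← hy, pow_add]
    ring

section DD

variable {p : ℕ}


lemma natCast_mem_DD (n : ℕ) : (n : ℝ) ∈ DD p := ⟨n, 0, by simp⟩

variable [hp : Fact p.Prime]

include hp in
lemma p_pos : (0 : ℝ) < p := by exact_mod_cast hp.out.pos

lemma DD_nonneg {x : ℝ} (hx : x ∈ DD p) : 0 ≤ x := by
  obtain ⟨n, e, h⟩ := hx
  have h1 : (0 : ℝ) < (p : ℝ) ^ e := pow_pos p_pos e
  have h2 : (0 : ℝ) ≤ x * (p : ℝ) ^ e := by rw [h]; positivity
  exact nonneg_of_mul_nonneg_left h2 h1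

lemma DD_sub {x y : ℝ} (hx : x ∈ DD p) (hy : y ∈ DD p) (h : y ≤ x) : x - y ∈ DD p := by
  obtain ⟨n, e, hx⟩ := hx
  obtain ⟨m, f, hy⟩ := hy
  have hle : m * p ^ e ≤ n * p ^ f := by
    have h1 : ((m * p ^ e : ℕ) : ℝ) ≤ ((n * p ^ f : ℕ) : ℝ) := by
      push_cast
      rw [← hx, ← hy]
      have h2 : (0 : ℝ) ≤ (p : ℝ) ^ e * (p : ℝ) ^ f := by
        have := p_pos (p := p)
        positivity
      nlinarith [mul_le_mul_of_nonneg_right h h2]
    exact_mod_cast h1
  refine ⟨n * p ^ f - m * p ^ e, e + f, ?_⟩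
  rw [Nat.cast_sub hle]
  push_cast
  rw [← hx, ← hy, pow_add]
  ring

lemma DD_mul_p_inv {x : ℝ} (hx : x ∈ DD p) : x / p ∈ DD p := by
  obtain ⟨n, e, hx⟩ := hx
  refine ⟨n, e + 1, ?_⟩
  have := p_pos (p := p)
  rw [← hx, pow_succ]
  field_simp

lemma DD_div_pow {x : ℝ} (hx : x ∈ DD p) (m : ℕ) : x / (p : ℝ) ^ m ∈ DD p := by
  induction m with
  | zero => simpa using hx
  | succ m ih =>
    have := DD_mul_p_inv ih
    rwa [div_div, ← pow_succ] at this

end DD

/-- exponents: functions on the generators of all blocks with values in `ℤ[1/p]_{≥ 0}`. -/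
abbrev Ex {κ : Type} (s : κ → ℕ) (p : ℕ) : Type := (Σ k, Fin (s k)) → DD p

section Ex

variable {κ : Type} {s : κ → ℕ} {p : ℕ}

/-- block degree -/
def deg (k : κ) : Ex s p →+ ℝ where
  toFun a := ∑ i : Fin (s k), (a ⟨k, i⟩ : ℝ)
  map_zero' := by simp
  map_add' a b := by simp [Finset.sum_add_distrib]

lemma deg_apply (k : κ) (a : Ex s p) : deg k a = ∑ i : Fin (s k), (a ⟨k, i⟩ : ℝ) := rfl

/-- exponents of degree `≥ ν`. -/
def Sν (ν : κ → ℝ) : Set (Ex s p) := {a | ∀ k, ν k ≤ deg k a}


variable [hp : Fact p.Prime]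

lemma deg_nonneg (k : κ) (a : Ex s p) : 0 ≤ deg k a := by
  rw [deg_apply]
  exact Finset.sum_nonneg fun i _ => DD_nonneg (a ⟨k, i⟩).2


lemma Sν_anti {ν μ : κ → ℝ} (h : ν ≤ μ) : (Sν μ : Set (Ex s p)) ⊆ Sν ν :=
  fun _ ha k => (h k).trans (ha k)

variable [DecidableEq κ]

/-- the exponent of the `i`-th generator of block `k` to the power `σ`. -/
def Eσ (σ : DD p) (k : κ) (i : Fin (s k)) : Ex s p := Pi.single ⟨k, i⟩ σ

lemma Eσ_same (σ : DD p) (k : κ) (i : Fin (s k)) : Eσ σ k i ⟨k, i⟩ = σ := by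
  simp [Eσ]

lemma Eσ_ne (σ : DD p) (k : κ) {i j : Fin (s k)} (h : j ≠ i) : Eσ σ k i ⟨k, j⟩ = 0 := by
  unfold Eσ
  rw [Pi.single_eq_of_ne]
  intro e
  apply h
  have := (Sigma.mk.inj_iff.1 e).2
  exact eq_of_heq this

lemma deg_Eσ_same (σ : DD p) (k : κ) (i : Fin (s k)) : deg k (Eσ σ k i) = σ := by
  rw [deg_apply, Finset.sum_eq_single_of_mem i (Finset.mem_univ i), Eσ_same]
  intro j _ hj
  rw [Eσ_ne σ k hj]; rfl

lemma deg_Eσ_ne (σ : DD p) {k k' : κ} (h : k' ≠ k) (i : Fin (s k)) : deg k' (Eσ σ k i) = 0 := by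
  rw [deg_apply]
  refine Finset.sum_eq_zero fun j _ => ?_
  unfold Eσ
  rw [Pi.single_eq_of_ne]; · rfl
  intro e
  exact h (Sigma.mk.inj_iff.1 e).1

lemma deg_Eσ (σ : DD p) (k k' : κ) (i : Fin (s k)) :
    deg k' (Eσ σ k i) = (Pi.single k (σ : ℝ) : κ → ℝ) k' := by
  by_cases h : k' = k
  · subst h; rw [deg_Eσ_same, Pi.single_eq_same]
  · rw [deg_Eσ_ne σ h, Pi.single_eq_of_ne h]

/-- the degrees of the strand: `T - q σ e_k`. -/
def nuq (T : κ → ℝ) (k : κ) (σ : ℝ) (q : ℕ) : κ → ℝ := T - (q : ℝ) • (Pi.single k σ : κ → ℝ)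

omit hp in
lemma nuq_apply (T : κ → ℝ) (k : κ) (σ : ℝ) (q : ℕ) (k' : κ) :
    nuq T k σ q k' = T k' - q * (Pi.single k σ : κ → ℝ) k' := rfl

omit hp in
lemma nuq_same (T : κ → ℝ) (k : κ) (σ : ℝ) (q : ℕ) : nuq T k σ q k = T k - q * σ := by
  rw [nuq_apply, Pi.single_eq_same]

omit hp in
lemma nuq_succ (T : κ → ℝ) (k : κ) (σ : ℝ) (q : ℕ) :
    nuq T k σ q = nuq T k σ (q + 1) + (Pi.single k σ : κ → ℝ) := by
  funext k'
  rw [Pi.add_apply, nuq_apply, nuq_apply]
  push_cast
  ring


/-- the chooser: the first generator with exponent `≥ σ`. -/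
def Rσ (σ : DD p) (k : κ) (i : Fin (s k)) (c : Ex s p) : Prop :=
  (σ : ℝ) ≤ c ⟨k, i⟩ ∧ ∀ j < i, (c ⟨k, j⟩ : ℝ) < σ

lemma sum_Eσ_apply (σ : DD p) (k : κ) (B : Finset (Fin (s k))) (i : Fin (s k)) (hi : i ∉ B) :
    (∑ j ∈ B, Eσ σ k j) ⟨k, i⟩ = 0 := by
  rw [Finset.sum_apply]
  refine Finset.sum_eq_zero fun j hj => ?_
  exact Eσ_ne σ k (fun e => hi (e ▸ hj))

lemma sum_Eσ_same (σ : DD p) (k : κ) (B : Finset (Fin (s k))) :
    deg k (∑ j ∈ B, Eσ σ k j) = B.card * σ := by
  rw [map_sum, Finset.sum_congr rfl (fun j _ => deg_Eσ_same σ k j), Finset.sum_const,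
    nsmul_eq_mul]

/-- the chooser exists. -/
lemma exists_chooser (σ : DD p) (k : κ) {T : ℝ} (hT0 : 0 < T) (hT : (s k : ℝ) * σ ≤ T)
    (c : Ex s p) (hc : T ≤ deg k c) : ∃! i, Rσ σ k i c := by
  have hex : ∃ i : Fin (s k), (σ : ℝ) ≤ c ⟨k, i⟩ := by
    by_contra hcon
    push Not at hcon
    rcases Nat.eq_zero_or_pos (s k) with h0 | h0
    · have : deg k c = 0 := by
        rw [deg_apply]
        have : IsEmpty (Fin (s k)) := by rw [h0]; infer_instance
        simp
      linarith
    · have : deg k c < ∑ _i : Fin (s k), (σ : ℝ) := by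
        rw [deg_apply]
        refine Finset.sum_lt_sum_of_nonempty ?_ fun i _ => hcon i
        exact ⟨⟨0, h0⟩, Finset.mem_univ _⟩
      rw [Finset.sum_const, Finset.card_univ, Fintype.card_fin, nsmul_eq_mul] at this
      linarith
  classical
  let F : Finset (Fin (s k)) := Finset.univ.filter fun i => (σ : ℝ) ≤ c ⟨k, i⟩
  have hF : F.Nonempty := by
    obtain ⟨i, hi⟩ := hex
    exact ⟨i, Finset.mem_filter.2 ⟨Finset.mem_univ _, hi⟩⟩
  refine ⟨F.min' hF, ⟨(Finset.mem_filter.1 (F.min'_mem hF)).2, fun j hj => ?_⟩, ?_⟩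
  · by_contra hcon
    push Not at hcon
    have : j ∈ F := Finset.mem_filter.2 ⟨Finset.mem_univ _, hcon⟩
    exact absurd (F.min'_le j this) (not_le.2 hj)
  · rintro i ⟨h1, h2⟩
    apply le_antisymm
    · by_contra hcon
      push Not at hcon
      have h3 := h2 _ hcon
      have h4 := (Finset.mem_filter.1 (F.min'_mem hF)).2
      linarith
    · exact F.min'_le i (Finset.mem_filter.2 ⟨Finset.mem_univ _, h1⟩)

/-- exact division by a generator. -/
lemma exists_div (σ : DD p) (k : κ) (i : Fin (s k)) (a : Ex s p) (h : (σ : ℝ) ≤ a ⟨k, i⟩) :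
    ∃ d, a = Eσ σ k i + d := by
  have hmem : (a ⟨k, i⟩ : ℝ) - σ ∈ DD p := DD_sub (a ⟨k, i⟩).2 σ.2 h
  classical
  refine ⟨Function.update a ⟨k, i⟩ ⟨_, hmem⟩, ?_⟩
  funext x
  rw [Pi.add_apply]
  by_cases hx : x = ⟨k, i⟩
  · subst hx
    rw [Eσ_same, Function.update_self]
    apply Subtype.ext
    rw [AddSubmonoid.coe_add]
    ring
  · rw [Function.update_of_ne hx]
    unfold Eσ
    rw [Pi.single_eq_of_ne hx, zero_add]

end Ex

/-! ### the Rees monoid -/

section NN

variable {κ : Type} (s : κ → ℕ) (p : ℕ)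

/-- the Rees monoid `{(a, ν) : 0 ≤ ν ≤ deg a}`. -/
def NN : AddSubmonoid (Ex s p × (κ → ℝ)) where
  carrier := {x | ∀ k, 0 ≤ x.2 k ∧ x.2 k ≤ deg k x.1}
  zero_mem' := by intro k; simp
  add_mem' := by
    intro x y hx hy k
    have h1 := hx k
    have h2 := hy k
    simp only [Prod.fst_add, Prod.snd_add, Pi.add_apply, map_add]
    constructor <;> linarith

variable {s p}


variable [hp : Fact p.Prime]

/-- `a ↦ (a, 0)` -/
def jN : Ex s p →+ NN s p where
  toFun a := ⟨(a, 0), fun k => ⟨le_rfl, deg_nonneg k a⟩⟩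
  map_zero' := rfl
  map_add' a b := Subtype.ext (Prod.ext rfl (by simp))

@[simp] lemma jN_fst (a : Ex s p) : (jN a).1.1 = a := rfl
@[simp] lemma jN_snd (a : Ex s p) : (jN a).1.2 = 0 := rfl

lemma DD_nsmul (n : ℕ) (x : DD p) : ((n • x : DD p) : ℝ) = n * x := by
  rw [← nsmul_eq_mul]; exact map_nsmul (DD p).subtype n x

lemma NN_nsmul (n : ℕ) (x : NN s p) : (n • x).1 = n • x.1 := map_nsmul (NN s p).subtype n x

lemma nsmul_bijective_Ex : Function.Bijective (fun a : Ex s p => p • a) := by
  have hp0 : (p : ℝ) ≠ 0 := (p_pos (p := p)).ne'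
  constructor
  · intro a b h
    funext x
    apply Subtype.ext
    have h1 : ((p • a x : DD p) : ℝ) = ((p • b x : DD p) : ℝ) :=
      congrArg (fun c : Ex s p => (c x : ℝ)) h
    rw [DD_nsmul, DD_nsmul] at h1
    exact mul_left_cancel₀ hp0 h1
  · intro a
    refine ⟨fun x => ⟨(a x : ℝ) / p, DD_mul_p_inv (a x).2⟩, ?_⟩
    funext x
    apply Subtype.ext
    show ((p • (⟨(a x : ℝ) / p, DD_mul_p_inv (a x).2⟩ : DD p) : DD p) : ℝ) = a x
    rw [DD_nsmul]
    field_simp

lemma nsmul_bijective_NN : Function.Bijective (fun a : NN s p => p • a) := by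
  have hp0 : (p : ℝ) ≠ 0 := (p_pos (p := p)).ne'
  constructor
  · intro x y h
    have h1 : (p • x).1 = (p • y).1 := congrArg Subtype.val h
    rw [NN_nsmul, NN_nsmul] at h1
    apply Subtype.ext
    refine Prod.ext (nsmul_bijective_Ex.1 (congrArg Prod.fst h1)) ?_
    funext k
    have h2 : (p • x.1.2) k = (p • y.1.2) k := congrFun (congrArg Prod.snd h1) k
    rw [Pi.smul_apply, Pi.smul_apply, nsmul_eq_mul, nsmul_eq_mul] at h2
    exact mul_left_cancel₀ hp0 h2
  · rintro ⟨⟨a, ν⟩, ha⟩
    obtain ⟨b, hb⟩ := nsmul_bijective_Ex.2 a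
    have hb' : p • b = a := hb
    refine ⟨⟨(b, fun k => ν k / p), fun k => ?_⟩, ?_⟩
    · have h1 := ha k
      simp only at h1
      rw [← hb', map_nsmul, nsmul_eq_mul] at h1
      have := p_pos (p := p)
      constructor
      · exact div_nonneg h1.1 this.le
      · show ν k / p ≤ deg k b
        rw [div_le_iff₀ this]
        linarith [h1.2]
    · apply Subtype.ext
      refine (NN_nsmul _ _).trans (Prod.ext hb' ?_)
      funext k
      show (p • (fun k => ν k / (p : ℝ))) k = ν k
      rw [Pi.smul_apply, nsmul_eq_mul]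
      field_simp

variable [DecidableEq κ]

/-- the generator `(σ e_{k,i}, σ e_k)` of the Rees monoid. -/
def EN (σ : DD p) (k : κ) (i : Fin (s k)) : NN s p :=
  ⟨(Eσ σ k i, Pi.single k (σ : ℝ)), fun k' => by
    simp only
    rw [deg_Eσ]
    refine ⟨?_, le_rfl⟩
    by_cases h : k' = k
    · subst h; rw [Pi.single_eq_same]; exact DD_nonneg σ.2
    · rw [Pi.single_eq_of_ne h]⟩

lemma EN_fst (σ : DD p) (k : κ) (i : Fin (s k)) : (EN σ k i).1.1 = Eσ σ k i := rfl
lemma EN_snd (σ : DD p) (k : κ) (i : Fin (s k)) : (EN σ k i).1.2 = Pi.single k (σ : ℝ) := rfl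

lemma sum_EN_fst (σ : DD p) (k : κ) (B : Finset (Fin (s k))) :
    (∑ j ∈ B, EN σ k j).1.1 = ∑ j ∈ B, Eσ σ k j := by
  rw [AddSubmonoid.coe_finsetSum, Prod.fst_sum]
  rfl

/-- the strand data of block `k` with step `σ` in the Rees monoid. -/
theorem strandDataN (σ : DD p) (k : κ) (T : κ → ℝ) (hT0 : 0 < T k)
    (hT : (s k : ℝ) * σ ≤ T k) :
    StrandData (M := NN s p) (EN σ k) (fun q => {x | x.1.2 = nuq T k σ q})
      (fun i x => Rσ σ k i x.1.1) where
  down i q x h := by
    show x.1.2 = _
    have h1 : (EN σ k i + x).1.2 = nuq T k σ q := h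
    rw [AddSubmonoid.coe_add, Prod.snd_add, EN_snd, nuq_succ, add_comm] at h1
    exact add_right_cancel h1
  div B i x hi hx h := by
    have hx' : x.1.2 = nuq T k σ B.card := hx
    have h1 : (σ : ℝ) ≤ (x.1.1 ⟨k, i⟩ : ℝ) := by
      have := h.1
      rw [AddSubmonoid.coe_add, Prod.fst_add, sum_EN_fst, Pi.add_apply, sum_Eσ_apply σ k B i hi,
        zero_add] at this
      exact this
    obtain ⟨d, hd⟩ := exists_div σ k i x.1.1 h1
    have hcard : (B.card : ℝ) + 1 ≤ s k := by
      have : (insert i B).card ≤ s k := by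
        have := Finset.card_le_univ (insert i B)
        rwa [Fintype.card_fin] at this
      rw [Finset.card_insert_of_notMem hi] at this
      exact_mod_cast this
    have hσ := DD_nonneg (p := p) σ.2
    refine ⟨⟨(d, nuq T k σ (B.card + 1)), fun k' => ?_⟩, ?_⟩
    · have h2 := x.2 k'
      rw [hx', nuq_succ, Pi.add_apply, hd, map_add, deg_Eσ] at h2
      refine ⟨?_, by simp only; linarith [h2.2]⟩
      by_cases hk : k' = k
      · subst hk
        simp only [nuq_same]
        push_cast
        nlinarith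
      · rw [Pi.single_eq_of_ne hk, add_zero] at h2
        exact h2.1
    · apply Subtype.ext
      rw [AddSubmonoid.coe_add]
      refine Prod.ext hd ?_
      have h3 : nuq T k (σ : ℝ) B.card =
          (Pi.single k (σ : ℝ) : κ → ℝ) + nuq T k σ (B.card + 1) := by
        rw [nuq_succ, add_comm]
      exact hx'.trans h3
  ex B x hx := by
    have hx' : x.1.2 = nuq T k σ B.card := hx
    have : T k ≤ deg k ((∑ j ∈ B, EN σ k j) + x).1.1 := by
      rw [AddSubmonoid.coe_add, Prod.fst_add, sum_EN_fst, map_add, sum_Eσ_same]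
      have h2 := (x.2 k).2
      rw [hx', nuq_same] at h2
      linarith
    exact exists_chooser σ k hT0 hT _ this

end NN

end Crest.Agent.R188.UB
end

-- ▼ part R188/PrfAdd
section

set_option autoImplicit false
set_option linter.unusedSectionVars false
set_option linter.unusedVariables false

namespace Crest.Agent.R188.Prf

open Function

universe u v w

variable {p : ℕ} [hp : Fact p.Prime]

lemma IsPerf.of_ringEquiv {R : Type u} [CommRing R] {S : Type v} [CommRing S] (h : IsPerf p R)
    (e : R ≃+* S) : IsPerf p S :=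
  h.of_surjective (e : R →+* S) e.surjective (fun x hx => by
    have h1 : e (x ^ p) = 0 := by rw [map_pow]; exact hx
    have h2 : x ^ p = 0 := by
      apply e.injective
      rw [h1, map_zero]
    rw [h.red x h2, map_zero])

/-- the additive monoid algebra of a commutative monoid on which multiplication by `p` is
bijective. -/
theorem IsPerf.addMonoidAlgebra {A : Type u} [CommRing A] (hA : IsPerf p A) (G : Type v)
    [AddCommMonoid G] (hG : Bijective fun g : G => p • g) : IsPerf p (AddMonoidAlgebra A G) := by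
  have h1 : Bijective fun g : Multiplicative G => g ^ p := hG
  exact (hA.monoidAlgebra (Multiplicative G) h1).of_ringEquiv
    (AddMonoidAlgebra.toMultiplicative A G).symm


lemma IsPerf.zmod : IsPerf p (ZMod p) := by
  haveI : PerfectRing (ZMod p) p := inferInstance
  exact IsPerf.of_perfectRing

end Crest.Agent.R188.Prf
end

-- ▼ part R188/PrfTI
section

set_option autoImplicit false
set_option linter.unusedSectionVars false
set_option linter.unusedVariables false

namespace Crest.Agent.R188.Prf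

open TensorProduct Function

universe u v v' v'' w w' w''

section Chase

variable {A : Type u} [CommRing A]
variable {M' : Type v'} {M : Type v} {M'' : Type v''}
variable [AddCommGroup M'] [Module A M'] [AddCommGroup M] [Module A M]
variable [AddCommGroup M''] [Module A M'']
variable {K : Type w'} {F : Type w} {N : Type w''}
variable [AddCommGroup K] [Module A K] [AddCommGroup F] [Module A F]
variable [AddCommGroup N] [Module A N]
variable {f : M' →ₗ[A] M} {g : M →ₗ[A] M''} {i : K →ₗ[A] F} {q : F →ₗ[A] N}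

/-- `lTensor` and `rTensor` commute, elementwise. -/
lemma comm_lr {X : Type v'} {Y : Type v} [AddCommGroup X] [Module A X] [AddCommGroup Y]
    [Module A Y] {Z : Type w'} {W : Type w} [AddCommGroup Z] [Module A Z]
    [AddCommGroup W] [Module A W] (a : X →ₗ[A] Y) (b : Z →ₗ[A] W) (t : X ⊗[A] Z) :
    a.rTensor W (b.lTensor X t) = b.lTensor Y (a.rTensor Z t) := by
  have := LinearMap.congr_fun (LinearMap.rTensor_comp_lTensor (f := a) (g := b)) t
  have h2 := LinearMap.congr_fun (LinearMap.lTensor_comp_rTensor (f := a) (g := b)) t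
  simp only [LinearMap.comp_apply] at this h2
  rw [this, h2]

/-- (a) extension: `Tor_1(M',N) = 0 = Tor_1(M'',N) ⟹ Tor_1(M,N) = 0`. -/
lemma chase_mid (hg : Surjective g) (hfg : Exact f g) (hf : Injective f) [Module.Flat A F]
    (h' : Injective (i.lTensor M')) (h'' : Injective (i.lTensor M'')) :
    Injective (i.lTensor M) := by
  rw [injective_iff_map_eq_zero] at h' h'' ⊢
  intro x hx
  have hx2 : g.rTensor K x = 0 := by
    apply h''
    rw [← comm_lr, hx, map_zero]
  obtain ⟨y, rfl⟩ := ((rTensor_exact K hfg hg) x).1 hx2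
  rw [← comm_lr] at hx
  have hfF : Injective (f.rTensor F) := Module.Flat.rTensor_preserves_injective_linearMap f hf
  rw [injective_iff_map_eq_zero] at hfF
  rw [h' y (hfF _ hx), map_zero]

/-- (b) `Tor_1(M,N) = 0` and `M' ⊗ N → M ⊗ N` injective `⟹ Tor_1(M'',N) = 0`. -/
lemma chase_quot (hg : Surjective g) (hfg : Exact f g) (hf : Injective f) [Module.Flat A F]
    (hq : Surjective q) (hiq : Exact i q)
    (h : Injective (i.lTensor M)) (hN : Injective (f.rTensor N)) :
    Injective (i.lTensor M'') := by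
  rw [injective_iff_map_eq_zero] at h hN ⊢
  intro x'' hx''
  obtain ⟨x, rfl⟩ := LinearMap.rTensor_surjective K hg x''
  rw [← comm_lr] at hx''
  obtain ⟨y', hy'⟩ := ((rTensor_exact F hfg hg) _).1 hx''
  have h1 : q.lTensor M' y' = 0 := by
    apply hN
    rw [comm_lr, hy']
    exact (lTensor_exact M hiq hq).apply_apply_eq_zero x
  obtain ⟨x', rfl⟩ := ((lTensor_exact M' hiq hq) y').1 h1
  rw [comm_lr] at hy'
  have h2 : f.rTensor K x' - x = 0 := by
    apply h
    rw [map_sub, hy', sub_self]
  rw [sub_eq_zero] at h2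
  rw [← h2]
  exact (rTensor_exact K hfg hg).apply_apply_eq_zero x'

/-- (c) `Tor_1(M,N) = 0` and `M' ⊗ K → M ⊗ K` injective (e.g. `Tor_2(M'',N) = 0`)
`⟹ Tor_1(M',N) = 0`. -/
lemma chase_sub (h : Injective (i.lTensor M)) (hK : Injective (f.rTensor K)) :
    Injective (i.lTensor M') := by
  rw [injective_iff_map_eq_zero] at h hK ⊢
  intro x hx
  apply hK
  apply h
  rw [← comm_lr, hx, map_zero]

/-- (d) `Tor_1(M'',N) = 0 ⟹ M' ⊗ N → M ⊗ N` injective. -/
lemma chase_inj (hg : Surjective g) (hfg : Exact f g) (hf : Injective f) [Module.Flat A F]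
    (hq : Surjective q) (hiq : Exact i q)
    (h'' : Injective (i.lTensor M'')) :
    Injective (f.rTensor N) := by
  rw [injective_iff_map_eq_zero] at h'' ⊢
  intro x' hx'
  obtain ⟨y', rfl⟩ := LinearMap.lTensor_surjective M' hq x'
  rw [comm_lr] at hx'
  obtain ⟨x, hx⟩ := ((lTensor_exact M hiq hq) _).1 hx'
  have h1 : g.rTensor K x = 0 := by
    apply h''
    rw [← comm_lr, hx]
    exact (rTensor_exact F hfg hg).apply_apply_eq_zero y'
  obtain ⟨x₁, rfl⟩ := ((rTensor_exact K hfg hg) x).1 h1
  rw [← comm_lr] at hx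
  have hfF : Injective (f.rTensor F) := Module.Flat.rTensor_preserves_injective_linearMap f hf
  rw [← hfF hx]
  exact (lTensor_exact M' hiq hq).apply_apply_eq_zero x₁

end Chase

section TI

variable (A : Type u) [CommRing A]

/-- the canonical free cover `N →₀ A` of `N` (a `def`, to keep instance problems away). -/
def Fr (N : Type u) : Type u := N →₀ A

noncomputable instance (N : Type u) : AddCommGroup (Fr A N) :=
  inferInstanceAs (AddCommGroup (N →₀ A))

noncomputable instance (N : Type u) : Module A (Fr A N) :=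
  inferInstanceAs (Module A (N →₀ A))

instance (N : Type u) : Module.Free A (Fr A N) :=
  inferInstanceAs (Module.Free A (N →₀ A))

/-- the covering map. -/
noncomputable def frπ (N : Type u) [AddCommGroup N] [Module A N] : Fr A N →ₗ[A] N :=
  Finsupp.linearCombination A (id : N → N)

lemma frπ_surjective (N : Type u) [AddCommGroup N] [Module A N] : Surjective (frπ A N) :=
  Finsupp.linearCombination_id_surjective A N

/-- the first syzygy of `N` for the canonical free cover. -/
def Syz (N : Type u) [AddCommGroup N] [Module A N] : Type u := LinearMap.ker (frπ A N)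

noncomputable instance (N : Type u) [AddCommGroup N] [Module A N] : AddCommGroup (Syz A N) :=
  inferInstanceAs (AddCommGroup (LinearMap.ker (frπ A N)))

noncomputable instance (N : Type u) [AddCommGroup N] [Module A N] : Module A (Syz A N) :=
  inferInstanceAs (Module A (LinearMap.ker (frπ A N)))

/-- the inclusion of the syzygy. -/
noncomputable def syzι (N : Type u) [AddCommGroup N] [Module A N] : Syz A N →ₗ[A] Fr A N :=
  (LinearMap.ker (frπ A N)).subtype

lemma syzι_injective (N : Type u) [AddCommGroup N] [Module A N] : Injective (syzι A N) :=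
  (LinearMap.ker (frπ A N)).injective_subtype

lemma syz_exact (N : Type u) [AddCommGroup N] [Module A N] : Exact (syzι A N) (frπ A N) :=
  LinearMap.exact_subtype_ker_map _

/-- `Tor_1^A(M,N) = 0`. -/
def T1 (M : Type v) [AddCommGroup M] [Module A M] (N : Type u) [AddCommGroup N] [Module A N] :
    Prop :=
  Injective ((syzι A N).lTensor M)

/-- `Tor_i^A(M,N) = 0` for `1 ≤ i ≤ n`. -/
def TIn (M : Type v) [AddCommGroup M] [Module A M] :
    ℕ → ∀ (N : Type u) [AddCommGroup N] [Module A N], Prop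
  | 0, _, _, _ => True
  | (n + 1), N, _, _ => T1 A M N ∧ TIn M n (Syz A N)

/-- `Tor_i^A(M,N) = 0` for all `i ≥ 1`. -/
def TI (M : Type v) [AddCommGroup M] [Module A M] (N : Type u) [AddCommGroup N] [Module A N] :
    Prop :=
  ∀ n, TIn A M n N

variable {A}

section

variable {M' : Type v'} {M : Type v} {M'' : Type v''}
variable [AddCommGroup M'] [Module A M'] [AddCommGroup M] [Module A M]
variable [AddCommGroup M''] [Module A M'']


lemma TI.t1 {N : Type u} [AddCommGroup N] [Module A N] (h : TI A M N) : T1 A M N := (h 1).1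





variable {f : M' →ₗ[A] M} {g : M →ₗ[A] M''}

/-- `Tor_1(M'',N) = 0` makes `M' ⊗ N → M ⊗ N` injective. -/
lemma T1.inj {N : Type u} [AddCommGroup N] [Module A N] (h : T1 A M'' N)
    (hg : Surjective g) (hfg : Exact f g) (hf : Injective f) : Injective (f.rTensor N) :=
  chase_inj hg hfg hf (frπ_surjective A N) (syz_exact A N) h

lemma T1.mid {N : Type u} [AddCommGroup N] [Module A N] (h' : T1 A M' N) (h'' : T1 A M'' N)
    (hg : Surjective g) (hfg : Exact f g) (hf : Injective f) : T1 A M N :=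
  chase_mid hg hfg hf h' h''

lemma T1.quot {N : Type u} [AddCommGroup N] [Module A N] (h : T1 A M N)
    (hg : Surjective g) (hfg : Exact f g) (hf : Injective f) (hN : Injective (f.rTensor N)) :
    T1 A M'' N :=
  chase_quot hg hfg hf (frπ_surjective A N) (syz_exact A N) h hN

lemma T1.sub {N : Type u} [AddCommGroup N] [Module A N] (h : T1 A M N)
    (hg : Surjective g) (hfg : Exact f g) (hf : Injective f) (h'' : T1 A M'' (Syz A N)) :
    T1 A M' N :=
  chase_sub h (h''.inj hg hfg hf)

/-- injectivity of `M' ⊗ N → M ⊗ N` passes to the syzygy. -/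
lemma inj_syz {N : Type u} [AddCommGroup N] [Module A N] (h' : T1 A M' N)
    (hf : Injective f) : Injective (f.rTensor (Syz A N)) := by
  have h1 : Injective ((syzι A N).lTensor M ∘ f.rTensor (Syz A N)) := by
    have h2 : ((syzι A N).lTensor M ∘ f.rTensor (Syz A N)) =
        (f.rTensor (Fr A N)) ∘ ((syzι A N).lTensor M') := by
      funext t
      simp only [Function.comp_apply]
      rw [comm_lr]
    rw [h2]
    exact (Module.Flat.rTensor_preserves_injective_linearMap f hf).comp h'
  exact h1.of_comp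

theorem TIn.mid {n : ℕ} : ∀ {N : Type u} [AddCommGroup N] [Module A N]
    (_ : TIn A M' n N) (_ : TIn A M'' n N)
    (_ : Surjective g) (_ : Exact f g) (_ : Injective f), TIn A M n N := by
  induction n with
  | zero => intros; trivial
  | succ n ih =>
    intro N _ _ h' h'' hg hfg hf
    exact ⟨h'.1.mid h''.1 hg hfg hf, ih h'.2 h''.2 hg hfg hf⟩

theorem TIn.quot {n : ℕ} : ∀ {N : Type u} [AddCommGroup N] [Module A N]
    (_ : TIn A M' n N) (_ : TIn A M (n + 1) N)
    (_ : Surjective g) (_ : Exact f g) (_ : Injective f) (_ : Injective (f.rTensor N)),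
    TIn A M'' (n + 1) N := by
  induction n with
  | zero =>
    intro N _ _ _ h hg hfg hf hN
    exact ⟨h.1.quot hg hfg hf hN, trivial⟩
  | succ n ih =>
    intro N _ _ h' h hg hfg hf hN
    exact ⟨h.1.quot hg hfg hf hN, ih h'.2 h.2 hg hfg hf (inj_syz h'.1 hf)⟩

theorem TIn.sub {n : ℕ} : ∀ {N : Type u} [AddCommGroup N] [Module A N]
    (_ : TIn A M n N) (_ : TIn A M'' (n + 1) N)
    (_ : Surjective g) (_ : Exact f g) (_ : Injective f), TIn A M' n N := by
  induction n with
  | zero => intros; trivial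
  | succ n ih =>
    intro N _ _ h h'' hg hfg hf
    exact ⟨h.1.sub hg hfg hf h''.2.1, ih h.2 h''.2 hg hfg hf⟩

theorem TI.mid {N : Type u} [AddCommGroup N] [Module A N] (h' : TI A M' N) (h'' : TI A M'' N)
    (hg : Surjective g) (hfg : Exact f g) (hf : Injective f) : TI A M N :=
  fun n => (h' n).mid (h'' n) hg hfg hf

theorem TI.quot {N : Type u} [AddCommGroup N] [Module A N] (h' : TI A M' N) (h : TI A M N)
    (hg : Surjective g) (hfg : Exact f g) (hf : Injective f) (hN : Injective (f.rTensor N)) :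
    TI A M'' N
  | 0 => trivial
  | (n + 1) => (h' n).quot (h (n + 1)) hg hfg hf hN

theorem TI.sub {N : Type u} [AddCommGroup N] [Module A N] (h : TI A M N) (h'' : TI A M'' N)
    (hg : Surjective g) (hfg : Exact f g) (hf : Injective f) : TI A M' N :=
  fun n => (h n).sub (h'' (n + 1)) hg hfg hf

theorem TI.inj {N : Type u} [AddCommGroup N] [Module A N] (h'' : TI A M'' N)
    (hg : Surjective g) (hfg : Exact f g) (hf : Injective f) : Injective (f.rTensor N) :=
  h''.t1.inj hg hfg hf

/-- flat modules are Tor-independent of everything. -/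
lemma T1_of_flat [Module.Flat A M] (N : Type u) [AddCommGroup N] [Module A N] : T1 A M N :=
  Module.Flat.lTensor_preserves_injective_linearMap _ (syzι_injective A N)

lemma TIn_of_flat [Module.Flat A M] (n : ℕ) : ∀ (N : Type u) [AddCommGroup N] [Module A N],
    TIn A M n N := by
  induction n with
  | zero => intros; trivial
  | succ n ih => intro N _ _; exact ⟨T1_of_flat N, ih _⟩

theorem TI_of_flat [Module.Flat A M] (N : Type u) [AddCommGroup N] [Module A N] : TI A M N :=
  fun n => TIn_of_flat n N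

/-- invariance under isomorphism in the first variable. -/
lemma T1.congr (e : M ≃ₗ[A] M') {N : Type u} [AddCommGroup N] [Module A N] (h : T1 A M N) :
    T1 A M' N := by
  unfold T1 at h ⊢
  have h2 : Injective ((e.symm.toLinearMap).rTensor (Syz A N)) :=
    (LinearEquiv.rTensor (Syz A N) e.symm).injective
  refine Injective.of_comp (f := (e.symm.toLinearMap).rTensor (Fr A N)) ?_
  have h3 : (e.symm.toLinearMap).rTensor (Fr A N) ∘ ((syzι A N).lTensor M') =
      ((syzι A N).lTensor M) ∘ ((e.symm.toLinearMap).rTensor (Syz A N)) := by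
    funext t
    simp only [Function.comp_apply]
    rw [comm_lr]
  rw [h3]
  exact h.comp h2

lemma TIn.congr (e : M ≃ₗ[A] M') {n : ℕ} : ∀ {N : Type u} [AddCommGroup N] [Module A N]
    (_ : TIn A M n N), TIn A M' n N := by
  induction n with
  | zero => intros; trivial
  | succ n ih => intro N _ _ h; exact ⟨h.1.congr e, ih h.2⟩

lemma TI.congr (e : M ≃ₗ[A] M') {N : Type u} [AddCommGroup N] [Module A N] (h : TI A M N) :
    TI A M' N := fun n => (h n).congr e

end

/-! ### symmetry -/

section Symm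

variable {M : Type u} [AddCommGroup M] [Module A M] {N : Type u} [AddCommGroup N] [Module A N]

lemma T1.symm (h : T1 A M N) : T1 A N M := by
  have h1 : Injective ((syzι A M).rTensor N) :=
    h.inj (frπ_surjective A M) (syz_exact A M) (syzι_injective A M)
  unfold T1
  have h3 : (syzι A M).lTensor N =
      (TensorProduct.comm A (Fr A M) N).toLinearMap ∘ₗ ((syzι A M).rTensor N) ∘ₗ
        (TensorProduct.comm A N (Syz A M)).toLinearMap := by
    ext; simp
  rw [h3]
  exact (TensorProduct.comm A (Fr A M) N).injective.comp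
    (h1.comp (TensorProduct.comm A N (Syz A M)).injective)

lemma TIn.symm {n : ℕ} : ∀ {M : Type u} [AddCommGroup M] [Module A M]
    {N : Type u} [AddCommGroup N] [Module A N], TIn A M n N → TIn A N n M := by
  induction n with
  | zero => intros; trivial
  | succ n ih =>
    intro M _ _ N _ _ h
    refine ⟨h.1.symm, ih ?_⟩
    exact TIn.sub (TIn_of_flat n N) h (frπ_surjective A M) (syz_exact A M)
      (syzι_injective A M)

theorem TI.symm (h : TI A M N) : TI A N M := fun n => (h n).symm

end Symm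

end TI

end Crest.Agent.R188.Prf
end

-- ▼ part R188/PrfColim
section

set_option autoImplicit false

namespace Crest.Agent.R188.Prf

open TensorProduct Function

universe u v v' w

variable {A : Type u} [CommRing A]

/-- `M` is the directed colimit of the `G i` (elementwise form, no functoriality of the
transition maps is needed). -/
structure DirColim (A : Type u) [CommRing A] {ι : Type w} [Preorder ι] (G : ι → Type v)
    [∀ i, AddCommGroup (G i)] [∀ i, Module A (G i)] (M : Type v') [AddCommGroup M] [Module A M]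
    where
  φ : ∀ i j, i ≤ j → G i →ₗ[A] G j
  c : ∀ i, G i →ₗ[A] M
  comp : ∀ i j (h : i ≤ j) (x : G i), c j (φ i j h x) = c i x
  surj : ∀ m : M, ∃ i x, c i x = m
  ker : ∀ i x, c i x = 0 → ∃ j, ∀ k (hk : i ≤ k), j ≤ k → φ i k hk x = 0

namespace DirColim

variable {ι : Type w} [Preorder ι] {G : ι → Type v}
  [∀ i, AddCommGroup (G i)] [∀ i, Module A (G i)] {M : Type v'} [AddCommGroup M] [Module A M]
  (D : DirColim A G M)

include D

lemma rTensor_comp (Q : Type u) [AddCommGroup Q] [Module A Q] (i j : ι) (h : i ≤ j)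
    (x : G i ⊗[A] Q) : (D.c j).rTensor Q ((D.φ i j h).rTensor Q x) = (D.c i).rTensor Q x := by
  rw [← LinearMap.rTensor_comp_apply]
  congr 2
  ext y
  exact D.comp i j h y

lemma rTensor_surj [IsDirectedOrder ι] [Nonempty ι] (Q : Type u) [AddCommGroup Q] [Module A Q]
    (z : M ⊗[A] Q) : ∃ i, ∃ x : G i ⊗[A] Q, (D.c i).rTensor Q x = z := by
  induction z using TensorProduct.induction_on with
  | zero => exact ⟨Classical.arbitrary ι, 0, map_zero _⟩
  | tmul m q =>
    obtain ⟨i, x, rfl⟩ := D.surj m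
    exact ⟨i, x ⊗ₜ q, by simp⟩
  | add a b ha hb =>
    obtain ⟨i, x, rfl⟩ := ha
    obtain ⟨j, y, rfl⟩ := hb
    obtain ⟨k, hik, hjk⟩ := exists_ge_ge i j
    refine ⟨k, (D.φ i k hik).rTensor Q x + (D.φ j k hjk).rTensor Q y, ?_⟩
    rw [map_add, D.rTensor_comp, D.rTensor_comp]

lemma rTensor_ker [IsDirectedOrder ι] (X : Type u) (i : ι) (w : G i ⊗[A] (X →₀ A))
    (hw : (D.c i).rTensor (X →₀ A) w = 0) :
    ∃ k, ∃ h : i ≤ k, (D.φ i k h).rTensor (X →₀ A) w = 0 := by
  classical
  have nat : ∀ {P : Type v} {P' : Type v'} [AddCommGroup P] [Module A P] [AddCommGroup P']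
      [Module A P'] (a : P →ₗ[A] P') (w : P ⊗[A] (X →₀ A)) (n : X),
      TensorProduct.finsuppScalarRight A A P' X (a.rTensor (X →₀ A) w) n =
        a (TensorProduct.finsuppScalarRight A A P X w n) := by
    intro P P' _ _ _ _ a w n
    induction w using TensorProduct.induction_on with
    | zero => simp
    | tmul m q => simp [TensorProduct.finsuppScalarRight_apply_tmul_apply]
    | add a b ha hb => simp only [map_add, Finsupp.add_apply, ha, hb]
  have nat' : ∀ {P : Type v} {P' : Type v} [AddCommGroup P] [Module A P] [AddCommGroup P']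
      [Module A P'] (a : P →ₗ[A] P') (w : P ⊗[A] (X →₀ A)) (n : X),
      TensorProduct.finsuppScalarRight A A P' X (a.rTensor (X →₀ A) w) n =
        a (TensorProduct.finsuppScalarRight A A P X w n) := by
    intro P P' _ _ _ _ a w n
    induction w using TensorProduct.induction_on with
    | zero => simp
    | tmul m q => simp [TensorProduct.finsuppScalarRight_apply_tmul_apply]
    | add a b ha hb => simp only [map_add, Finsupp.add_apply, ha, hb]
  set W := TensorProduct.finsuppScalarRight A A (G i) X w with hW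
  have h0 : ∀ n, D.c i (W n) = 0 := by
    intro n
    rw [hW, ← nat, hw, map_zero]
    rfl
  have h1 : ∀ n, ∃ j, ∀ k (hk : i ≤ k), j ≤ k → D.φ i k hk (W n) = 0 := fun n => D.ker i _ (h0 n)
  choose j hj using h1
  have h2 : ∃ k, i ≤ k ∧ ∀ n ∈ W.support, j n ≤ k := by
    have : ∀ s : Finset X, ∃ k, i ≤ k ∧ ∀ n ∈ s, j n ≤ k := by
      intro s
      induction s using Finset.induction with
      | empty => exact ⟨i, le_rfl, by simp⟩
      | insert a s _ ih =>
        obtain ⟨k, hk, hk2⟩ := ih
        obtain ⟨l, hl1, hl2⟩ := exists_ge_ge k (j a)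
        refine ⟨l, hk.trans hl1, fun n hn => ?_⟩
        rcases Finset.mem_insert.1 hn with rfl | hn
        · exact hl2
        · exact (hk2 n hn).trans hl1
    exact this _
  obtain ⟨k, hk, hk2⟩ := h2
  refine ⟨k, hk, ?_⟩
  apply (TensorProduct.finsuppScalarRight A A (G k) X).injective
  rw [map_zero]
  ext n
  rw [nat', ← hW]
  by_cases hn : n ∈ W.support
  · rw [hj n k hk (hk2 n hn)]; rfl
  · rw [Finsupp.notMem_support_iff.1 hn, map_zero]; rfl

theorem t1 [IsDirectedOrder ι] [Nonempty ι] {N : Type u} [AddCommGroup N] [Module A N]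
    (h : ∀ i, T1 A (G i) N) : T1 A M N := by
  unfold T1
  rw [injective_iff_map_eq_zero]
  intro z hz
  obtain ⟨i, x, rfl⟩ := D.rTensor_surj _ z
  rw [← comm_lr] at hz
  obtain ⟨k, hk, hk2⟩ := D.rTensor_ker N i _ hz
  have h1 : (syzι A N).lTensor (G k) ((D.φ i k hk).rTensor (Syz A N) x) = 0 := by
    rw [← comm_lr]; exact hk2
  have h2 : (D.φ i k hk).rTensor (Syz A N) x = 0 := by
    have := h k
    unfold T1 at this
    rw [injective_iff_map_eq_zero] at this
    exact this _ h1
  rw [← D.rTensor_comp _ i k hk, h2, map_zero]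

theorem tin [IsDirectedOrder ι] [Nonempty ι] {n : ℕ} :
    ∀ {N : Type u} [AddCommGroup N] [Module A N] (_ : ∀ i, TIn A (G i) n N), TIn A M n N := by
  induction n with
  | zero => intros; trivial
  | succ n ih => intro N _ _ h; exact ⟨D.t1 fun i => (h i).1, ih fun i => (h i).2⟩

theorem ti [IsDirectedOrder ι] [Nonempty ι] {N : Type u} [AddCommGroup N] [Module A N]
    (h : ∀ i, TI A (G i) N) : TI A M N := fun n => D.tin fun i => h i n

end DirColim

/-- quotients by a directed union of submodules. -/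
noncomputable def dirColimQuot {ι : Type w} [Preorder ι] [IsDirectedOrder ι] [Nonempty ι]
    {M : Type v} [AddCommGroup M] [Module A M]
    (S : ι → Submodule A M) (hS : Monotone S) (T : Submodule A M) (hT : T = ⨆ i, S i) :
    DirColim A (fun i => M ⧸ S i) (M ⧸ T) where
  φ i j h := Submodule.mapQ (S i) (S j) LinearMap.id (hS h)
  c i := Submodule.mapQ (S i) T LinearMap.id (hT ▸ le_iSup S i)
  comp i j h x := by
    obtain ⟨x, rfl⟩ := Submodule.mkQ_surjective _ x
    rfl
  surj m := by
    obtain ⟨x, rfl⟩ := Submodule.mkQ_surjective _ m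
    exact ⟨Classical.arbitrary ι, (S _).mkQ x, rfl⟩
  ker i x hx := by
    obtain ⟨x, rfl⟩ := Submodule.mkQ_surjective _ x
    have h1 : x ∈ T := by
      have : T.mkQ x = 0 := hx
      simpa using this
    rw [hT, Submodule.mem_iSup_of_directed S (hS.directed_le)] at h1
    obtain ⟨j, hj⟩ := h1
    refine ⟨j, fun k hk hjk => ?_⟩
    have : (S k).mkQ x = 0 := by simpa using hS hjk hj
    exact this

end Crest.Agent.R188.Prf
end

-- ▼ part R188/PrfMain
section

set_option autoImplicit false
set_option linter.unusedSectionVars false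

namespace Crest.Agent.R188.Prf

open TensorProduct Function

universe u v w

variable {p : ℕ} [hp : Fact p.Prime] {A : Type u} [CommRing A]

section Step

variable {B : Type v} [CommRing B] [Algebra A B]

/-- multiplication by `b` on an `A`-algebra. -/
noncomputable def mulR (A : Type u) [CommRing A] {B : Type v} [CommRing B] [Algebra A B] (b : B) :
    B →ₗ[A] B := LinearMap.mulRight A b

@[simp] lemma mulR_apply (b x : B) : mulR A b x = x * b := rfl

lemma rTensor_mulR {C : Type w} [CommRing C] [Algebra A C] (b : B) (x : B ⊗[A] C) :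
    (mulR A b).rTensor C x = x * (b ⊗ₜ 1) := by
  induction x using TensorProduct.induction_on with
  | zero => simp
  | tmul m c => simp
  | add x y hx hy => rw [map_add, hx, hy, add_mul]

/-- `(f^{1/p^∞})` is the colimit of copies of `B`. -/
noncomputable def dirColimPId (hB : IsPerf p B) (f : B) :
    DirColim A (fun _ : ℕ => B) (hB.pId f) where
  φ n m _ := mulR A (hB.rtn m f ^ (p ^ (m - n) - 1))
  c n := LinearMap.codRestrict ((hB.pId f).restrictScalars A) (mulR A (hB.rtn n f))
    (fun x => Ideal.mul_mem_left _ _ (hB.rtn_mem_pId n f))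
  comp n m hnm x := by
    apply Subtype.ext
    show x * hB.rtn m f ^ (p ^ (m - n) - 1) * hB.rtn m f = x * hB.rtn n f
    rw [mul_assoc, ← pow_succ, Nat.sub_add_cancel (pow_pos hp.out.pos _), hB.rtn_pow_of_le hnm]
  surj := by
    rintro ⟨m, hm⟩
    obtain ⟨n, b, rfl⟩ := hB.mem_pId.1 hm
    exact ⟨n, b, rfl⟩
  ker n x hx := by
    refine ⟨n + 1, fun k hk hnk => ?_⟩
    show x * hB.rtn k f ^ (p ^ (k - n) - 1) = 0
    have hx' : x * hB.rtn n f = 0 := congrArg Subtype.val hx
    refine hB.mul_rtn_pow_eq_zero ?_ hx'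
    have h1 : 1 < p ^ (k - n) := Nat.one_lt_pow (by omega) hp.out.one_lt
    omega

/-- `(f^{1/p^∞}) ⊗ C → B ⊗ C` is injective. -/
lemma pId_inj (hA : IsPerf p A) (hB : IsPerf p B) {C : Type u} [CommRing C] [Algebra A C]
    (hC : IsPerf p C) (f : B) :
    Injective (((hB.pId f).restrictScalars A).subtype.rTensor C) := by
  rw [injective_iff_map_eq_zero]
  intro z hz
  have hD : IsPerf p (B ⊗[A] C) := hA.tensor hB hC
  let D : DirColim A (fun _ : ℕ => B) ((hB.pId f).restrictScalars A) := dirColimPId hB f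
  obtain ⟨n, x, rfl⟩ := D.rTensor_surj C z
  have h1 : x * (hB.rtn n f ⊗ₜ[A] (1 : C)) = 0 := by
    rw [← rTensor_mulR, ← hz, ← LinearMap.rTensor_comp_apply]
    rfl
  have h2 : x * hD.rtn n (f ⊗ₜ[A] (1 : C)) = 0 := by
    rw [← h1]
    congr 1
    exact (hB.map_rtn hD (Algebra.TensorProduct.includeLeftRingHom (R := A) (A := B) (B := C))
      n f).symm
  have h3 := hD.mul_rtn_pow_eq_zero (k := n + 1) (j := p ^ (n + 1 - n) - 1)
    (by
      have h1 : 1 < p ^ (n + 1 - n) := Nat.one_lt_pow (by omega) hp.out.one_lt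
      omega) h2
  have h4 : (D.φ n (n + 1) (Nat.le_succ n)).rTensor C x = 0 := by
    show (mulR A (hB.rtn (n + 1) f ^ (p ^ (n + 1 - n) - 1))).rTensor C x = 0
    rw [rTensor_mulR, ← h3]
    congr 1
    rw [show (hD.rtn (n + 1) (f ⊗ₜ[A] (1 : C))) = (hB.rtn (n + 1) f) ⊗ₜ[A] (1 : C) from
      (hB.map_rtn hD (Algebra.TensorProduct.includeLeftRingHom (R := A) (A := B) (B := C))
      (n + 1) f).symm, Algebra.TensorProduct.tmul_pow, one_pow]
  rw [← D.rTensor_comp C n (n + 1) (Nat.le_succ n), h4, map_zero]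

/-- one step: killing `f^{1/p^∞}`. -/
theorem TI_step (hA : IsPerf p A) (hB : IsPerf p B) {C : Type u} [CommRing C] [Algebra A C]
    (hC : IsPerf p C) {B₂ : Type w} [CommRing B₂] [Algebra A B₂] (g : B →ₐ[A] B₂)
    (hg : Surjective g) (f : B) (hker : RingHom.ker g = hB.pId f) (h : TI A B C) :
    TI A B₂ C := by
  have h1 : TI A ((hB.pId f).restrictScalars A) C :=
    (dirColimPId (A := A) hB f : DirColim A (fun _ : ℕ => B) ((hB.pId f).restrictScalars A)).ti
      fun _ => h
  refine TI.quot (f := ((hB.pId f).restrictScalars A).subtype) (g := g.toLinearMap) h1 h hg ?_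
    (Submodule.injective_subtype _) (pId_inj hA hB hC f)
  intro x
  constructor
  · intro hx
    have : x ∈ RingHom.ker g := hx
    rw [hker] at this
    exact ⟨⟨x, this⟩, rfl⟩
  · rintro ⟨⟨y, hy⟩, rfl⟩
    have : y ∈ RingHom.ker g := by rw [hker]; exact hy
    exact this

end Step

section Main

variable {B : Type v} [CommRing B] [Algebra A B]

/-- the ideal generated by all `x^{1/p^n}`, `x ∈ s`. -/
noncomputable def sId (hB : IsPerf p B) (s : Set B) : Ideal B := ⨆ x ∈ s, hB.pId x

lemma sId_mono (hB : IsPerf p B) {s t : Set B} (hst : s ⊆ t) : sId hB s ≤ sId hB t :=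
  biSup_mono hst

lemma sId_insert (hB : IsPerf p B) (x : B) (s : Set B) :
    sId hB (insert x s) = hB.pId x ⊔ sId hB s := iSup_insert

lemma sId_empty (hB : IsPerf p B) : sId hB ∅ = ⊥ := by simp [sId]

lemma quot_sId (hB : IsPerf p B) (s : Finset B) : IsPerf p (B ⧸ sId hB (s : Set B)) := by
  classical
  induction s using Finset.induction with
  | empty =>
    rw [Finset.coe_empty, sId_empty]
    exact hB.quot ⊥ (fun x hx => by
      rw [Ideal.mem_bot] at hx ⊢
      exact hB.red x hx)
  | insert a s _ ih =>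
    rw [Finset.coe_insert]
    have hle : sId hB (s : Set B) ≤ sId hB (insert a (s : Set B)) :=
      sId_mono hB (Set.subset_insert _ _)
    refine hB.quot _ fun x hx => ?_
    have hk : ∀ y : B, y ∈ sId hB (insert a (s : Set B)) ↔
        Ideal.Quotient.mk (sId hB (s : Set B)) y ∈
          ih.pId (Ideal.Quotient.mk (sId hB (s : Set B)) a) := by
      intro y
      rw [← hB.pId_map ih, ← Ideal.mem_comap,
        Ideal.comap_map_of_surjective _ Ideal.Quotient.mk_surjective, sId_insert,
        ← RingHom.ker_eq_comap_bot, Ideal.mk_ker]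
    rw [hk] at hx ⊢
    rw [map_pow] at hx
    exact ih.pId_radical hx

theorem TI_quot_sId (hA : IsPerf p A) (hB : IsPerf p B) {C : Type u} [CommRing C] [Algebra A C]
    (hC : IsPerf p C) (h : TI A B C) (s : Finset B) : TI A (B ⧸ sId hB (s : Set B)) C := by
  classical
  induction s using Finset.induction with
  | empty =>
    rw [Finset.coe_empty, sId_empty]
    exact h.congr (AlgEquiv.quotientBot A B).symm.toLinearEquiv
  | insert a s _ ih =>
    rw [Finset.coe_insert]
    have hle : sId hB (s : Set B) ≤ sId hB (insert a (s : Set B)) :=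
      sId_mono hB (Set.subset_insert _ _)
    have hP := quot_sId hB s
    refine TI_step hA hP hC (Ideal.Quotient.factorₐ A hle) (Ideal.Quotient.factor_surjective hle)
      (Ideal.Quotient.mk _ a) ?_ ih
    have : RingHom.ker (Ideal.Quotient.factorₐ A hle) = RingHom.ker (Ideal.Quotient.factor hle) :=
      rfl
    rw [this, Ideal.Quotient.factor_ker, sId_insert, Ideal.map_sup, Ideal.map_quotient_self,
      sup_bot_eq, hB.pId_map hP]

/-- **Perfect rings are Tor-independent.** -/
theorem TI_perfect (hA : IsPerf p A) (hB : IsPerf p B) {C : Type u} [CommRing C] [Algebra A C]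
    (hC : IsPerf p C) : TI A B C := by
  classical
  let R := MonoidAlgebra A B
  have hR : IsPerf p R := hA.monoidAlgebra B
    ⟨fun x y hxy => hB.pow_inj hxy, fun x => ⟨hB.rt x, hB.rt_pow x⟩⟩
  let π : R →ₐ[A] B := MonoidAlgebra.lift A B B (MonoidHom.id B)
  have hπ : Surjective π := fun b =>
    ⟨MonoidAlgebra.single b 1, by
      show (MonoidAlgebra.lift A B B (MonoidHom.id B)) (MonoidAlgebra.single b 1) = b
      rw [MonoidAlgebra.lift_single, one_smul]; rfl⟩
  have hRC : TI A R C := TI_of_flat C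
  let I : Ideal R := RingHom.ker π
  have hI : ∀ x ∈ I, hR.pId x ≤ I := by
    intro x hx
    refine Ideal.span_le.2 ?_
    rintro _ ⟨n, rfl⟩
    show π.toRingHom (hR.rtn n x) = 0
    rw [hR.map_rtn hB]
    have : π.toRingHom x = 0 := hx
    rw [this, IsPerf.rtn_zero]
  let S : Finset I → Submodule A R := fun s =>
    (sId hR ((s.image Subtype.val : Finset R) : Set R)).restrictScalars A
  have hS : Monotone S := by
    intro s t hst
    exact sId_mono hR (Finset.coe_subset.2 (Finset.image_subset_image hst))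
  have hT : I.restrictScalars A = ⨆ s, S s := by
    apply le_antisymm
    · intro x hx
      have h1 : x ∈ S {⟨x, hx⟩} := by
        show x ∈ sId hR _
        simp only [Finset.image_singleton, Finset.coe_singleton, sId, Set.mem_singleton_iff,
          iSup_iSup_eq_left]
        exact hR.self_mem_pId x
      exact (le_iSup S _) h1
    · refine iSup_le fun s => ?_
      intro x hx
      have hx' : x ∈ sId hR ((s.image Subtype.val : Finset R) : Set R) := hx
      have h2 : sId hR ((s.image Subtype.val : Finset R) : Set R) ≤ I := by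
        refine iSup₂_le fun y hy => ?_
        simp only [Finset.coe_image, Set.mem_image, Finset.mem_coe, Subtype.exists,
          exists_and_right, exists_eq_right] at hy
        exact hI y hy.1
      exact h2 hx'
  have h1 : ∀ s, TI A (R ⧸ S s) C := fun s =>
    (TI_quot_sId hA hR hC hRC (s.image Subtype.val)).congr
      (Submodule.Quotient.restrictScalarsEquiv A _).symm
  have h2 : TI A (R ⧸ I.restrictScalars A) C := (dirColimQuot S hS _ hT).ti h1
  have h3 : I.restrictScalars A = LinearMap.ker π.toLinearMap := rfl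
  rw [h3] at h2
  exact h2.congr (LinearMap.quotKerEquivOfSurjective π.toLinearMap hπ)

end Main

end Crest.Agent.R188.Prf
end

-- ▼ part R188/PrfCx
section

set_option autoImplicit false
set_option linter.unusedSectionVars false
set_option linter.unusedVariables false

namespace Crest.Agent.R188.Prf

open TensorProduct Function

universe u v v' w

variable {A : Type u} [CommRing A]

/-! ### retracts and direct sums -/

section Retract

variable {M : Type v} [AddCommGroup M] [Module A M] {M' : Type v'} [AddCommGroup M'] [Module A M']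

lemma T1.retract {N : Type u} [AddCommGroup N] [Module A N] (h : T1 A M N)
    (s : M' →ₗ[A] M) (r : M →ₗ[A] M') (hrs : ∀ x, r (s x) = x) : T1 A M' N := by
  unfold T1 at h ⊢
  have h2 : Injective (s.rTensor (Syz A N)) := by
    refine Injective.of_comp (f := r.rTensor (Syz A N)) ?_
    have : (r.rTensor (Syz A N)) ∘ (s.rTensor (Syz A N)) = id := by
      funext t
      simp only [Function.comp_apply, id]
      rw [← LinearMap.rTensor_comp_apply]
      have : r ∘ₗ s = LinearMap.id := LinearMap.ext hrs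
      rw [this, LinearMap.rTensor_id, LinearMap.id_apply]
    rw [this]
    exact injective_id
  refine Injective.of_comp (f := s.rTensor (Fr A N)) ?_
  have h3 : s.rTensor (Fr A N) ∘ ((syzι A N).lTensor M') =
      ((syzι A N).lTensor M) ∘ (s.rTensor (Syz A N)) := by
    funext t
    simp only [Function.comp_apply]
    rw [comm_lr]
  rw [h3]
  exact h.comp h2

lemma TIn.retract {n : ℕ} (s : M' →ₗ[A] M) (r : M →ₗ[A] M') (hrs : ∀ x, r (s x) = x) :
    ∀ {N : Type u} [AddCommGroup N] [Module A N] (_ : TIn A M n N), TIn A M' n N := by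
  induction n with
  | zero => intros; trivial
  | succ n ih => intro N _ _ h; exact ⟨h.1.retract s r hrs, ih h.2⟩

/-- a direct summand (retract) of a Tor-independent module is Tor-independent. -/
theorem TI.retract {N : Type u} [AddCommGroup N] [Module A N] (h : TI A M N)
    (s : M' →ₗ[A] M) (r : M →ₗ[A] M') (hrs : ∀ x, r (s x) = x) : TI A M' N :=
  fun n => (h n).retract s r hrs

end Retract

section Prod

variable {M : Type v} [AddCommGroup M] [Module A M] {M' : Type v'} [AddCommGroup M'] [Module A M']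

theorem TI.prod {N : Type u} [AddCommGroup N] [Module A N] (h : TI A M N) (h' : TI A M' N) :
    TI A (M × M') N :=
  TI.mid (f := LinearMap.inl A M M') (g := LinearMap.snd A M M') h h'
    Prod.snd_surjective (LinearMap.exact_iff.2 (by
      rw [LinearMap.ker_snd])) LinearMap.inl_injective

lemma TI_subsingleton [Subsingleton M] (N : Type u) [AddCommGroup N] [Module A N] : TI A M N := by
  haveI : Module.Flat A M := Module.Flat.of_free
  exact TI_of_flat N

theorem TI.pi_fin {N : Type u} [AddCommGroup N] [Module A N] (h : TI A M N) (n : ℕ) :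
    TI A (Fin n → M) N := by
  induction n with
  | zero => exact TI_subsingleton N
  | succ n ih =>
    exact (h.prod ih).congr (Fin.consLinearEquiv A (fun _ : Fin (n + 1) => M))

theorem TI.pi {N : Type u} [AddCommGroup N] [Module A N] (h : TI A M N) (ι : Type w) [Finite ι] :
    TI A (ι → M) N := by
  obtain ⟨n, ⟨e⟩⟩ := Finite.exists_equiv_fin ι
  exact (h.pi_fin n).congr (LinearEquiv.funCongrLeft A M e)

end Prod

/-! ### exact complexes stay exact -/

section Cx

variable {C : ℕ → Type v} [∀ i, AddCommGroup (C i)] [∀ i, Module A (C i)]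
  (d : ∀ i, C (i + 1) →ₗ[A] C i)

/-- the map `C (i+2) → ker (d i)`. -/
def toKer (hd : ∀ i, Exact (d (i + 1)) (d i)) (i : ℕ) : C (i + 2) →ₗ[A] LinearMap.ker (d i) :=
  (d (i + 1)).codRestrict (LinearMap.ker (d i)) fun x => (hd i).apply_apply_eq_zero x

lemma toKer_surjective (hd : ∀ i, Exact (d (i + 1)) (d i)) (i : ℕ) :
    Surjective (toKer d hd i) := by
  rintro ⟨y, hy⟩
  obtain ⟨x, rfl⟩ := ((hd i) y).1 hy
  exact ⟨x, rfl⟩

lemma toKer_exact (hd : ∀ i, Exact (d (i + 1)) (d i)) (i : ℕ) :
    Exact (LinearMap.ker (d (i + 1))).subtype (toKer d hd i) := by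
  intro x
  constructor
  · intro hx
    exact ⟨⟨x, congrArg Subtype.val hx⟩, rfl⟩
  · rintro ⟨⟨y, hy⟩, rfl⟩
    exact Subtype.ext hy

/-- all the cycle modules are Tor-independent of `N`. -/
theorem TI_ker {N : Type u} [AddCommGroup N] [Module A N] (h : ∀ i, TI A (C i) N)
    (h0 : Surjective (d 0)) (hd : ∀ i, Exact (d (i + 1)) (d i)) (i : ℕ) :
    TI A (LinearMap.ker (d i)) N := by
  induction i with
  | zero =>
    exact (h 1).sub (f := (LinearMap.ker (d 0)).subtype) (g := d 0) (h 0) h0
      (LinearMap.exact_subtype_ker_map _) (Submodule.injective_subtype _)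
  | succ i ih =>
    exact (h (i + 2)).sub (f := (LinearMap.ker (d (i + 1))).subtype) (g := toKer d hd i) ih
      (toKer_surjective d hd i) (toKer_exact d hd i) (Submodule.injective_subtype _)

theorem ker_rTensor_injective {N : Type u} [AddCommGroup N] [Module A N]
    (h : ∀ i, TI A (C i) N) (h0 : Surjective (d 0)) (hd : ∀ i, Exact (d (i + 1)) (d i)) (i : ℕ) :
    Injective ((LinearMap.ker (d i)).subtype.rTensor N) := by
  cases i with
  | zero =>
    exact (h 0).inj h0 (LinearMap.exact_subtype_ker_map _) (Submodule.injective_subtype _)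
  | succ i =>
    exact (TI_ker d h h0 hd i).inj (toKer_surjective d hd i) (toKer_exact d hd i)
      (Submodule.injective_subtype _)

/-- **Consumer lemma.** An exact complex `… → C 2 → C 1 → C 0 → 0` of modules that are
Tor-independent of `N` stays exact after `⊗ N`. -/
theorem exact_rTensor {N : Type u} [AddCommGroup N] [Module A N] (h : ∀ i, TI A (C i) N)
    (h0 : Surjective (d 0)) (hd : ∀ i, Exact (d (i + 1)) (d i)) (i : ℕ) :
    Exact ((d (i + 1)).rTensor N) ((d i).rTensor N) := by
  have key : ∀ z : C (i + 1) ⊗[A] N, (d i).rTensor N z = 0 →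
      ∃ y, ((LinearMap.ker (d i)).subtype.rTensor N) y = z := by
    cases i with
    | zero =>
      intro z hz
      exact ((rTensor_exact N (LinearMap.exact_subtype_ker_map (d 0)) h0) z).1 hz
    | succ i =>
      intro z hz
      apply ((rTensor_exact N (toKer_exact d hd i) (toKer_surjective d hd i)) z).1
      apply ker_rTensor_injective d h h0 hd i
      rw [map_zero, ← hz, ← LinearMap.rTensor_comp_apply]
      rfl
  intro z
  constructor
  · intro hz
    obtain ⟨y, rfl⟩ := key z hz
    obtain ⟨x, rfl⟩ := LinearMap.rTensor_surjective N (toKer_surjective d hd i) y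
    refine ⟨x, ?_⟩
    rw [← LinearMap.rTensor_comp_apply]
    rfl
  · rintro ⟨x, rfl⟩
    rw [← LinearMap.rTensor_comp_apply]
    have : d i ∘ₗ d (i + 1) = 0 := LinearMap.ext fun y => (hd i).apply_apply_eq_zero y
    rw [this, LinearMap.rTensor_zero, LinearMap.zero_apply]

end Cx

/-! ### second variable, arbitrary flat presentations -/

section Second

variable {M : Type u} [AddCommGroup M] [Module A M]
variable {N' N N'' : Type u} [AddCommGroup N'] [Module A N'] [AddCommGroup N] [Module A N]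
  [AddCommGroup N''] [Module A N''] {f : N' →ₗ[A] N} {g : N →ₗ[A] N''}














end Second

end Crest.Agent.R188.Prf
end

-- ▼ part R188/UB3
section

set_option autoImplicit false
set_option linter.unusedSectionVars false
set_option linter.unusedVariables false

namespace Crest.Agent.R188.UB

open Finset TensorProduct
open Crest.Agent.R188.Prf

/-! ### fractional powers -/

section FP

variable {p : ℕ} [hp : Fact p.Prime] {P : Type} [CommRing P] (hP : IsPerf p P)

/-- `c ^ x` for `x ∈ ℤ[1/p]_{≥ 0}`. -/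
noncomputable def fp (c : P) (x : DD p) : P :=
  hP.rtn (x.2.choose_spec.choose) c ^ (x.2.choose)

lemma fp_eq (c : P) (x : DD p) (n e : ℕ) (h : (x : ℝ) * (p : ℝ) ^ e = n) :
    fp hP c x = hP.rtn e c ^ n := by
  unfold fp
  set n₀ := x.2.choose with hn
  set e₀ := x.2.choose_spec.choose with he
  have h₀ : (x : ℝ) * (p : ℝ) ^ e₀ = n₀ := x.2.choose_spec.choose_spec
  have hnat : n₀ * p ^ e = n * p ^ e₀ := by
    have : ((n₀ * p ^ e : ℕ) : ℝ) = ((n * p ^ e₀ : ℕ) : ℝ) := by
      push_cast
      rw [← h, ← h₀]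
      ring
    exact_mod_cast this
  rw [← hP.rtn_add_pow e₀ e c, ← pow_mul, mul_comm (p ^ e) n₀, hnat, ← hP.rtn_add_pow e e₀ c,
    ← pow_mul, mul_comm (p ^ e₀) n, add_comm]

lemma fp_zero (c : P) : fp hP c 0 = 1 := by
  rw [fp_eq hP c 0 0 0 (by simp), pow_zero]

lemma fp_add (c : P) (x y : DD p) : fp hP c (x + y) = fp hP c x * fp hP c y := by
  obtain ⟨n, e, hx⟩ := x.2
  obtain ⟨m, f, hy⟩ := y.2
  have h1 : (x : ℝ) * (p : ℝ) ^ (e + f) = ((n * p ^ f : ℕ) : ℝ) := by
    push_cast; rw [← hx, pow_add]; ring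
  have h2 : (y : ℝ) * (p : ℝ) ^ (e + f) = ((m * p ^ e : ℕ) : ℝ) := by
    push_cast; rw [← hy, pow_add]; ring
  have h3 : ((x + y : DD p) : ℝ) * (p : ℝ) ^ (e + f) = ((n * p ^ f + m * p ^ e : ℕ) : ℝ) := by
    rw [AddSubmonoid.coe_add, add_mul, h1, h2]
    push_cast
    ring
  rw [fp_eq hP c x _ _ h1, fp_eq hP c y _ _ h2, fp_eq hP c (x + y) _ _ h3, pow_add]

/-- the natural number `n` as an element of `DD p`. -/
def DD.nat (p : ℕ) (n : ℕ) : DD p := ⟨n, natCast_mem_DD n⟩

@[simp] lemma DD.nat_coe (n : ℕ) : ((DD.nat p n : DD p) : ℝ) = n := rfl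

lemma fp_nat (c : P) (n : ℕ) : fp hP c (DD.nat p n) = c ^ n := by
  rw [fp_eq hP c (DD.nat p n) n 0 (by simp)]
  simp


/-- `1 / p^n` as an element of `DD p`. -/
noncomputable def DD.inv (p : ℕ) [Fact p.Prime] (n : ℕ) : DD p :=
  ⟨1 / (p : ℝ) ^ n, DD_div_pow (natCast_mem_DD 1 |> fun h => by simpa using h) n⟩



end FP

/-! ### the rings -/

section Rings

variable {κ : Type} (s : κ → ℕ) (p : ℕ)

/-- the universal perfect monomial ring. -/
abbrev UU : Type := AddMonoidAlgebra (ZMod p) (Ex s p)

/-- its perfected multi-Rees algebra. -/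
abbrev RR : Type := AddMonoidAlgebra (ZMod p) (NN s p)

variable {s p}

/-- ring homs out of a monoid algebra over `ZMod p`. -/
noncomputable def mh {M R : Type*} [AddCommMonoid M] [CommRing R] (φ : ZMod p →+* R)
    (F : Multiplicative M →* R) : AddMonoidAlgebra (ZMod p) M →+* R :=
  AddMonoidAlgebra.liftNCRingHom φ F (fun _ _ => Commute.all _ _)

@[simp] lemma mh_single {M R : Type*} [AddCommMonoid M] [CommRing R] (φ : ZMod p →+* R)
    (F : Multiplicative M →* R) (a : M) (b : ZMod p) :
    mh φ F (AddMonoidAlgebra.single a b) = φ b * F (Multiplicative.ofAdd a) := by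
  unfold mh
  rw [AddMonoidAlgebra.liftNCRingHom_single]

lemma mh_ext {M R : Type*} [AddCommMonoid M] [CommRing R]
    {f g : AddMonoidAlgebra (ZMod p) M →+* R}
    (h : ∀ a, f (AddMonoidAlgebra.single a 1) = g (AddMonoidAlgebra.single a 1)) : f = g := by
  apply AddMonoidAlgebra.ringHom_ext'
  · exact Subsingleton.elim _ _
  · apply MonoidHom.ext
    intro a
    exact h _

variable [hp : Fact p.Prime]

noncomputable instance instAlgUR : Algebra (UU s p) (RR s p) :=
  (AddMonoidAlgebra.mapDomainRingHom (ZMod p) (jN (s := s) (p := p))).toAlgebra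

lemma algUR_single (a : Ex s p) (t : ZMod p) :
    algebraMap (UU s p) (RR s p) (AddMonoidAlgebra.single a t) =
      AddMonoidAlgebra.single (jN a) t := by
  show AddMonoidAlgebra.mapDomainRingHom (ZMod p) jN (AddMonoidAlgebra.single a t) = _
  simp

lemma isPerf_UU : IsPerf p (UU s p) := IsPerf.zmod.addMonoidAlgebra _ nsmul_bijective_Ex

lemma isPerf_RR : IsPerf p (RR s p) := IsPerf.zmod.addMonoidAlgebra _ nsmul_bijective_NN

end Rings

section PP

variable {κ : Type} [Fintype κ] {s : κ → ℕ} {p : ℕ} [hp : Fact p.Prime]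
  {P : Type} [CommRing P] [CharP P p]

/-- `g ^ a = ∏ g_{k,i} ^ a_{k,i}`. -/
noncomputable def gm (hP : IsPerf p P) (g : (Σ k, Fin (s k)) → P) :
    Multiplicative (Ex s p) →* P where
  toFun a := ∏ x, fp hP (g x) (a.toAdd x)
  map_one' := by
    refine Finset.prod_eq_one fun x _ => ?_
    exact fp_zero hP _
  map_mul' a b := by
    rw [← Finset.prod_mul_distrib]
    refine Finset.prod_congr rfl fun x _ => ?_
    exact fp_add hP _ _ _

/-- the monomial `g ^ a` -/
noncomputable def mono (hP : IsPerf p P) (g : (Σ k, Fin (s k)) → P) (a : Ex s p) : P :=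
  ∏ x, fp hP (g x) (a x)

lemma gm_apply (hP : IsPerf p P) (g : (Σ k, Fin (s k)) → P) (a : Ex s p) :
    gm hP g (Multiplicative.ofAdd a) = mono hP g a := rfl

lemma mono_zero (hP : IsPerf p P) (g : (Σ k, Fin (s k)) → P) : mono hP g 0 = 1 :=
  (gm hP g).map_one

lemma mono_add (hP : IsPerf p P) (g : (Σ k, Fin (s k)) → P) (a b : Ex s p) :
    mono hP g (a + b) = mono hP g a * mono hP g b :=
  (gm hP g).map_mul (Multiplicative.ofAdd a) (Multiplicative.ofAdd b)


lemma mono_Eσ [DecidableEq κ] (hP : IsPerf p P) (g : (Σ k, Fin (s k)) → P) (σ : DD p) (k : κ)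
    (i : Fin (s k)) : mono hP g (Eσ σ k i) = fp hP (g ⟨k, i⟩) σ := by
  unfold mono
  rw [Finset.prod_eq_single_of_mem (⟨k, i⟩ : Σ k, Fin (s k)) (Finset.mem_univ _)]
  · rw [Eσ_same]
  · intro x _ hx
    unfold Eσ
    rw [Pi.single_eq_of_ne hx, fp_zero]

/-- `P`, with its `UU`-algebra structure given by `g`. -/
def PP (hP : IsPerf p P) (g : (Σ k, Fin (s k)) → P) : Type := P

variable (hP : IsPerf p P) (g : (Σ k, Fin (s k)) → P)

instance : CommRing (PP hP g) := inferInstanceAs (CommRing P)

/-- the evaluation -/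
noncomputable def ev : UU s p →+* P := mh (ZMod.castHom dvd_rfl P) (gm hP g)

noncomputable instance instAlgUP : Algebra (UU s p) (PP hP g) := (ev hP g).toAlgebra

lemma ev_single (a : Ex s p) (t : ZMod p) :
    ev hP g (AddMonoidAlgebra.single a t) = ZMod.castHom dvd_rfl P t * mono hP g a := by
  unfold ev
  rw [mh_single, gm_apply]

lemma isPerf_PP : IsPerf p (PP hP g) := hP

/-- forget the degree -/
def fstN : NN s p →+ Ex s p where
  toFun x := x.1.1
  map_zero' := rfl
  map_add' _ _ := rfl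

/-- the evaluation on the Rees algebra -/
noncomputable def evR : RR s p →+* P :=
  mh (ZMod.castHom dvd_rfl P) ((gm hP g).comp (AddMonoidHom.toMultiplicative fstN))

lemma evR_single (x : NN s p) (t : ZMod p) :
    evR hP g (AddMonoidAlgebra.single x t) = ZMod.castHom dvd_rfl P t * mono hP g x.1.1 := by
  unfold evR
  rw [mh_single]
  rfl

/-- `evR` as an algebra hom -/
noncomputable def evRA : RR s p →ₐ[UU s p] PP hP g :=
  { evR hP g with
    commutes' := fun u => by
      have : (evR hP g).comp (algebraMap (UU s p) (RR s p)) = ev hP g := by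
        apply mh_ext
        intro a
        rw [RingHom.comp_apply, algUR_single, evR_single, ev_single]
        rfl
      exact congrArg (fun f : UU s p →+* P => f u) this }

/-- the perfected multi-Rees algebra of `P`. -/
def SS : Type := RR s p ⊗[UU s p] PP hP g

noncomputable instance : CommRing (SS hP g) :=
  inferInstanceAs (CommRing (RR s p ⊗[UU s p] PP hP g))

noncomputable instance : Algebra (UU s p) (SS hP g) :=
  inferInstanceAs (Algebra (UU s p) (RR s p ⊗[UU s p] PP hP g))

/-- pure tensors -/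
noncomputable def tm (r : RR s p) (c : P) : SS hP g :=
  (r ⊗ₜ[UU s p] (show PP hP g from c) : RR s p ⊗[UU s p] PP hP g)

lemma tm_mul (r r' : RR s p) (c c' : P) :
    tm hP g r c * tm hP g r' c' = tm hP g (r * r') (c * c') :=
  Algebra.TensorProduct.tmul_mul_tmul (R := UU s p) (A := RR s p) (B := PP hP g) r r' c c'


@[elab_as_elim]
lemma SS_induction {motive : SS hP g → Prop} (z : SS hP g) (h0 : motive 0)
    (ht : ∀ (x : NN s p) (t : ZMod p) (c : P), motive (tm hP g (AddMonoidAlgebra.single x t) c))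
    (ha : ∀ x y, motive x → motive y → motive (x + y)) : motive z := by
  refine TensorProduct.induction_on (motive := motive) z h0 ?_ (fun x y hx hy => ha x y hx hy)
  intro r c
  have hr : r = r.coeff.sum fun g a => AddMonoidAlgebra.single g a :=
    (AddMonoidAlgebra.sum_coeff_single r).symm
  rw [hr]
  unfold Finsupp.sum
  rw [TensorProduct.sum_tmul]
  refine Finset.sum_induction _ motive (fun x y hx hy => ha x y hx hy) h0 ?_
  intro x _
  exact ht x _ c

lemma isPerf_SS : IsPerf p (SS hP g) :=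
  IsPerf.tensor (A := UU s p) (B := RR s p) (C := PP hP g) isPerf_UU isPerf_RR (isPerf_PP hP g)

/-- the coaction target -/
abbrev SS' : Type := AddMonoidAlgebra (SS hP g) (κ → ℝ)

lemma isPerf_SS' : IsPerf p (SS' hP g) := by
  apply (isPerf_SS hP g).addMonoidAlgebra
  have hp0 : (p : ℝ) ≠ 0 := (p_pos (p := p)).ne'
  constructor
  · intro a b h
    funext x
    have h1 : (p • a) x = (p • b) x := congrFun h x
    rw [Pi.smul_apply, Pi.smul_apply, nsmul_eq_mul, nsmul_eq_mul] at h1
    exact mul_left_cancel₀ hp0 h1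
  · intro a
    refine ⟨fun x => a x / p, ?_⟩
    funext x
    show (p • (fun x => a x / (p : ℝ))) x = a x
    rw [Pi.smul_apply, nsmul_eq_mul]
    field_simp

/-- constants -/
noncomputable def iSS : P →+* SS hP g :=
  (Algebra.TensorProduct.includeRight : PP hP g →ₐ[UU s p] RR s p ⊗[UU s p] PP hP g).toRingHom

/-- augmentation -/
noncomputable def εSS : SS hP g →+* P :=
  (Algebra.TensorProduct.productMap (evRA hP g) (AlgHom.id (UU s p) (PP hP g))).toRingHom

lemma iSS_apply (c : P) : iSS hP g c = tm hP g 1 c := rfl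

lemma εSS_tm (r : RR s p) (c : P) : εSS hP g (tm hP g r c) = evR hP g r * c := rfl

/-- degree zero elements of `SS'` -/
noncomputable def ιSS : SS hP g →+* SS' hP g := AddMonoidAlgebra.singleZeroRingHom

lemma ιSS_apply (z : SS hP g) : ιSS hP g z = AddMonoidAlgebra.single 0 z := rfl

/-- the multiplicative map `x ↦ u^{ν} (T^x ⊗ 1)` -/
noncomputable def Fρ : Multiplicative (NN s p) →* SS' hP g where
  toFun x := AddMonoidAlgebra.single (x.toAdd.1.2) (tm hP g (AddMonoidAlgebra.single x.toAdd 1) 1)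
  map_one' := rfl
  map_mul' x y := by
    rw [AddMonoidAlgebra.single_mul_single, tm_mul, AddMonoidAlgebra.single_mul_single, one_mul,
      one_mul]
    rfl

/-- left inclusion -/
noncomputable def incL : RR s p →+* SS hP g :=
  (Algebra.TensorProduct.includeLeftRingHom : RR s p →+* RR s p ⊗[UU s p] PP hP g)

lemma incL_apply (r : RR s p) : incL hP g r = tm hP g r 1 := rfl

/-- the coaction on `RR` -/
noncomputable def ρR : RR s p →+* SS' hP g :=
  mh (R := SS' hP g) (((ιSS hP g).comp (incL hP g)).comp AddMonoidAlgebra.singleZeroRingHom)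
    (Fρ hP g)

lemma ρR_single (x : NN s p) (t : ZMod p) :
    ρR hP g (AddMonoidAlgebra.single x t) = AddMonoidAlgebra.single (x.1.2)
      (tm hP g (AddMonoidAlgebra.single x t) 1) := by
  unfold ρR
  rw [mh_single]
  show AddMonoidAlgebra.single 0 (tm hP g (AddMonoidAlgebra.single 0 t) 1) *
    AddMonoidAlgebra.single (x.1.2) (tm hP g (AddMonoidAlgebra.single x 1) 1) = _
  rw [AddMonoidAlgebra.single_mul_single, tm_mul,
    AddMonoidAlgebra.single_mul_single, zero_add, zero_add, mul_one, mul_one]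

lemma algUSS_single (a : Ex s p) :
    algebraMap (UU s p) (SS' hP g) (AddMonoidAlgebra.single a 1) =
      AddMonoidAlgebra.single 0 (tm hP g (AddMonoidAlgebra.single (jN a) 1) 1) := by
  have h1 : algebraMap (UU s p) (SS' hP g) (AddMonoidAlgebra.single a 1) =
    AddMonoidAlgebra.single 0 (algebraMap (UU s p) (SS hP g) (AddMonoidAlgebra.single a 1)) := rfl
  have h2 : algebraMap (UU s p) (SS hP g) (AddMonoidAlgebra.single a 1) =
    tm hP g (algebraMap (UU s p) (RR s p) (AddMonoidAlgebra.single a 1)) 1 := rfl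
  rw [h1, h2, algUR_single]

/-- `ρR` as an algebra hom -/
noncomputable def ρRA : RR s p →ₐ[UU s p] SS' hP g :=
  { ρR hP g with
    commutes' := fun u => by
      have : (ρR hP g).comp (algebraMap (UU s p) (RR s p)) = algebraMap (UU s p) (SS' hP g) := by
        apply mh_ext (R := SS' hP g)
        intro a
        rw [RingHom.comp_apply, algUR_single, ρR_single, algUSS_single]
        rfl
      exact congrArg (fun f : UU s p →+* SS' hP g => f u) this }

/-- right inclusion as an algebra hom -/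
noncomputable def incRA : PP hP g →ₐ[UU s p] SS hP g :=
  (Algebra.TensorProduct.includeRight : PP hP g →ₐ[UU s p] RR s p ⊗[UU s p] PP hP g)

/-- constants, as an algebra hom -/
noncomputable def ρPA : PP hP g →ₐ[UU s p] SS' hP g :=
  (AddMonoidAlgebra.singleZeroAlgHom : SS hP g →ₐ[UU s p] SS' hP g).comp (incRA hP g)

/-- the coaction -/
noncomputable def ρSS : SS hP g →+* SS' hP g :=
  (Algebra.TensorProduct.productMap (ρRA hP g) (ρPA hP g)).toRingHom

lemma ρSS_tm (x : NN s p) (t : ZMod p) (c : P) :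
    ρSS hP g (tm hP g (AddMonoidAlgebra.single x t) c) =
      AddMonoidAlgebra.single (x.1.2) (tm hP g (AddMonoidAlgebra.single x t) c) := by
  have h1 : ρSS hP g (tm hP g (AddMonoidAlgebra.single x t) c) =
    ρR hP g (AddMonoidAlgebra.single x t) * AddMonoidAlgebra.single 0 (tm hP g 1 c) := rfl
  rw [h1, ρR_single, AddMonoidAlgebra.single_mul_single, tm_mul, add_zero, mul_one, one_mul]

/-- the graded data. -/
noncomputable def D : Cmp.GD p P (SS hP g) (SS' hP g) where
  hP := hP
  hS := isPerf_SS hP g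
  hS' := isPerf_SS' hP g
  i := iSS hP g
  ε := εSS hP g
  ι := ιSS hP g
  ρ := ρSS hP g
  εi a := by
    rw [iSS_apply, εSS_tm, map_one, one_mul]
  ρi a := by
    have h1 : (1 : RR s p) = AddMonoidAlgebra.single 0 1 := rfl
    rw [iSS_apply, ιSS_apply, h1, ρSS_tm]
    rfl

end PP

end Crest.Agent.R188.UB
end

-- ▼ part R188/UB4
section

set_option autoImplicit false
set_option linter.unusedSectionVars false
set_option linter.unusedVariables false

namespace Crest.Agent.R188.UB

open Finset TensorProduct Function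
open Crest.Agent.R188.Prf Crest.Agent.R188.Flg Crest.Agent.R188.Cmp Crest.Agent.R188.Wit

section Proj

variable {κ : Type} {s : κ → ℕ} {p : ℕ} [hp : Fact p.Prime]

/-- the projector of `RR` onto degree `ν`, as a `UU`-linear map. -/
noncomputable def πν (ν : κ → ℝ) : RR s p →ₗ[UU s p] RR s p where
  toFun := filt (fun x : NN s p => x.1.2 = ν)
  map_add' := filt_add _
  map_smul' u r := by
    rw [RingHom.id_apply]
    induction u using AddMonoidAlgebra.induction_linear with
    | zero => rw [zero_smul, zero_smul, filt_zero]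
    | add u v hu hv => rw [add_smul, add_smul, filt_add, hu, hv]
    | single a t =>
      rw [Algebra.smul_def, Algebra.smul_def, algUR_single]
      have h1 : (AddMonoidAlgebra.single (jN a) t : RR s p) =
          t • AddMonoidAlgebra.single (jN a) 1 := by
        rw [AddMonoidAlgebra.smul_single]; simp
      rw [h1, smul_mul_assoc, smul_mul_assoc, filt_smul, filt_single_mul]
      congr 3
      funext b
      rw [AddSubmonoid.coe_add, Prod.snd_add, jN_snd, zero_add]

lemma πν_apply (ν : κ → ℝ) (r : RR s p) : πν ν r = filt (fun x : NN s p => x.1.2 = ν) r := rfl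

open Classical in
lemma coeff_πν (ν : κ → ℝ) (r : RR s p) (a : NN s p) :
    (πν ν r).coeff a = if a.1.2 = ν then r.coeff a else 0 := by
  rw [πν_apply, coeff_filt]

lemma πν_idem (ν : κ → ℝ) (r : RR s p) : πν ν (πν ν r) = πν ν r := by
  classical
  ext a
  rw [coeff_πν, coeff_πν]
  split_ifs <;> rfl

lemma πν_eq_self_iff (ν : κ → ℝ) (r : RR s p) :
    πν ν r = r ↔ r ∈ sup (ZMod p) {x : NN s p | x.1.2 = ν} := by
  classical
  constructor
  · intro h a ha
    by_contra hc
    have hc' : ¬ a.1.2 = ν := hc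
    apply ha
    rw [← h, coeff_πν, if_neg hc']
  · intro h
    ext a
    rw [coeff_πν]
    by_cases ha : r.coeff a = 0
    · rw [ha, ite_self]
    · have : a.1.2 = ν := h a ha
      rw [if_pos this]

variable [DecidableEq κ]

lemma πν_EN_mul (σ : DD p) (k : κ) (i : Fin (s k)) (T : κ → ℝ) (q : ℕ) {r : RR s p}
    (hr : πν (nuq T k σ (q + 1)) r = r) :
    πν (nuq T k σ q) (AddMonoidAlgebra.single (EN σ k i) 1 * r) =
      AddMonoidAlgebra.single (EN σ k i) 1 * r := by
  rw [πν_apply, filt_single_mul]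
  conv_rhs => rw [← hr]
  rw [πν_apply]
  congr 2
  funext b
  rw [AddSubmonoid.coe_add, Prod.snd_add, EN_snd, nuq_succ, add_comm]
  apply propext
  constructor
  · intro h; exact add_right_cancel h
  · intro h; rw [h]

end Proj

section Cx

variable {κ : Type} [DecidableEq κ] (s : κ → ℕ) {p : ℕ} [hp : Fact p.Prime]

/-- the ambient module -/
abbrev AA (s : κ → ℕ) (p : ℕ) (k : κ) : Type := Finset (Fin (s k)) → RR s p

variable (σ : DD p) (k : κ) (T : κ → ℝ)

/-- the Koszul elements of `RR` -/
noncomputable def Θ (i : Fin (s k)) : RR s p :=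
  AddMonoidAlgebra.single (EN σ k i) 1

/-- the projector onto the `q`-th term. -/
noncomputable def rr (q : ℕ) : AA s p k →ₗ[UU s p] AA s p k where
  toFun f B := if B.card = q then πν (nuq T k σ q) (f B) else 0
  map_add' f f' := by
    funext B
    simp only [Pi.add_apply]
    split_ifs
    · rw [map_add]
    · rw [add_zero]
  map_smul' u f := by
    funext B
    simp only [Pi.smul_apply, RingHom.id_apply]
    split_ifs
    · rw [map_smul]
    · rw [smul_zero]

lemma rr_apply (q : ℕ) (f : AA s p k) (B : Finset (Fin (s k))) :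
    rr s σ k T q f B = if B.card = q then πν (nuq T k σ q) (f B) else 0 := rfl

lemma rr_idem (q : ℕ) (f : AA s p k) : rr s σ k T q (rr s σ k T q f) = rr s σ k T q f := by
  funext B
  rw [rr_apply, rr_apply]
  split_ifs
  · rw [πν_idem]
  · rfl

/-- the `q`-th term of the strand, as a `UU`-submodule. -/
noncomputable def CC (q : ℕ) : Submodule (UU s p) (AA s p k) where
  carrier := {f | rr s σ k T q f = f}
  zero_mem' := map_zero _
  add_mem' := by
    intro f f' hf hf'
    simp only [Set.mem_ofPred_eq] at *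
    rw [map_add, hf, hf']
  smul_mem' := by
    intro c f hf
    simp only [Set.mem_ofPred_eq] at *
    rw [map_smul, hf]

lemma mem_CC {q : ℕ} {f : AA s p k} : f ∈ CC s σ k T q ↔ rr s σ k T q f = f := Iff.rfl

lemma mem_CC_iff {q : ℕ} {f : AA s p k} : f ∈ CC s σ k T q ↔
    (∀ B, πν (nuq T k σ q) (f B) = f B) ∧ ∀ B, B.card ≠ q → f B = 0 := by
  rw [mem_CC]
  constructor
  · intro h
    have h2 : ∀ B, B.card ≠ q → f B = 0 := by
      intro B hB
      rw [← h, rr_apply, if_neg hB]
    refine ⟨fun B => ?_, h2⟩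
    by_cases hB : B.card = q
    · have := congrFun h B
      rwa [rr_apply, if_pos hB] at this
    · rw [h2 B hB, map_zero]
  · rintro ⟨h1, h2⟩
    funext B
    rw [rr_apply]
    split_ifs with hB
    · exact h1 B
    · exact (h2 B hB).symm

/-- retraction onto the `q`-th term -/
noncomputable def rC (q : ℕ) : AA s p k →ₗ[UU s p] CC s σ k T q :=
  (rr s σ k T q).codRestrict _ fun f => rr_idem s σ k T q f

lemma rC_subtype (q : ℕ) (x : CC s σ k T q) : rC s σ k T q ((CC s σ k T q).subtype x) = x :=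
  Subtype.ext x.2

lemma subtype_comp_rC (q : ℕ) : (CC s σ k T q).subtype ∘ₗ rC s σ k T q = rr s σ k T q := rfl

/-- the Koszul differential, `UU`-linear -/
noncomputable def dA : AA s p k →ₗ[UU s p] AA s p k :=
  (kD (Θ s σ k) : AA s p k →ₗ[RR s p] AA s p k).restrictScalars (UU s p)

lemma dA_apply (f : AA s p k) : dA s σ k f = kD (Θ s σ k) f := rfl

lemma dA_mem {q : ℕ} {f : AA s p k} (hf : f ∈ CC s σ k T (q + 1)) :
    dA s σ k f ∈ CC s σ k T q := by
  rw [mem_CC_iff] at *
  refine ⟨fun B => ?_, fun B hB => ?_⟩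
  · rw [dA_apply, kD_apply, map_sum]
    refine Finset.sum_congr rfl fun i _ => ?_
    rw [smul_eq_mul, mul_assoc]
    have h1 := πν_EN_mul σ k i T q (hf.1 (insert i B))
    have h2 : πν (nuq T k σ q) (Θ s σ k i * f (insert i B)) = Θ s σ k i * f (insert i B) := h1
    unfold sg
    rcases neg_one_pow_eq_or (RR s p) (B.filter (· < i)).card with h | h
    · rw [h, one_mul, h2]
    · rw [h, neg_one_mul, map_neg, h2]
  · rw [dA_apply, kD_apply]
    refine Finset.sum_eq_zero fun i hi => ?_
    rw [Finset.mem_compl] at hi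
    rw [hf.2 _ (by rw [Finset.card_insert_of_notMem hi]; omega), smul_zero]

/-- the differential of the strand -/
noncomputable def dC (q : ℕ) : CC s σ k T (q + 1) →ₗ[UU s p] CC s σ k T q :=
  ((dA s σ k).comp (CC s σ k T (q + 1)).subtype).codRestrict _ fun f => dA_mem s σ k T f.2

lemma subtype_comp_dC (q : ℕ) :
    (CC s σ k T q).subtype ∘ₗ dC s σ k T q = dA s σ k ∘ₗ (CC s σ k T (q + 1)).subtype := rfl

variable {s σ k T}

/-- exactness over `UU`, elementwise. -/
lemma exact_aux (hT0 : 0 < T k) (hT : (s k : ℝ) * σ ≤ T k) (q : ℕ) (f : AA s p k)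
    (hf : f ∈ CC s σ k T q) (hd : dA s σ k f = 0) :
    ∃ f' ∈ CC s σ k T (q + 1), dA s σ k f' = f := by
  rw [mem_CC_iff] at hf
  obtain ⟨f', h1, h2, h3⟩ := (strandDataN σ k T hT0 hT).exact (k := ZMod p) q f
    (fun B => (πν_eq_self_iff _ _).1 (hf.1 B)) hf.2 hd
  exact ⟨f', (mem_CC_iff s σ k T).2 ⟨fun B => (πν_eq_self_iff _ _).2 (h1 B), h2⟩, h3⟩

lemma dC_surjective (hT0 : 0 < T k) (hT : (s k : ℝ) * σ ≤ T k) :
    Surjective (dC s σ k T 0) := by
  rintro ⟨f, hf⟩
  have hd : dA s σ k f = 0 := by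
    funext B
    rw [dA_apply, kD_apply]
    refine Finset.sum_eq_zero fun i hi => ?_
    rw [Finset.mem_compl] at hi
    rw [((mem_CC_iff s σ k T).1 hf).2 _ (by rw [Finset.card_insert_of_notMem hi]; omega), smul_zero]
  obtain ⟨f', h1, h2⟩ := exact_aux hT0 hT 0 f hf hd
  exact ⟨⟨f', h1⟩, Subtype.ext h2⟩

lemma dC_exact (hT0 : 0 < T k) (hT : (s k : ℝ) * σ ≤ T k) (q : ℕ) :
    Exact (dC s σ k T (q + 1)) (dC s σ k T q) := by
  rintro ⟨f, hf⟩
  constructor
  · intro h
    have hd : dA s σ k f = 0 := congrArg Subtype.val h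
    obtain ⟨f', h1, h2⟩ := exact_aux hT0 hT (q + 1) f hf hd
    exact ⟨⟨f', h1⟩, Subtype.ext h2⟩
  · rintro ⟨⟨f', hf'⟩, h⟩
    rw [← h]
    exact Subtype.ext (kD_kD (Θ s σ k) f')

end Cx

section Tensor

variable {κ : Type} [Fintype κ] {s : κ → ℕ} {p : ℕ} [hp : Fact p.Prime]
  {P : Type} [CommRing P] [CharP P p] (hP : IsPerf p P) (g : (Σ k, Fin (s k)) → P)

/-- the projector of `SS` onto degree `ν`. -/
noncomputable def PiS (ν : κ → ℝ) : SS hP g →+ SS hP g :=
  (((πν ν).rTensor (PP hP g)).toAddMonoidHom :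
    RR s p ⊗[UU s p] PP hP g →+ RR s p ⊗[UU s p] PP hP g)

lemma PiS_eq (ν : κ → ℝ) (z : SS hP g) : PiS hP g ν z = (πν ν).rTensor (PP hP g) z := rfl

lemma PiS_tm (ν : κ → ℝ) (r : RR s p) (c : P) :
    PiS hP g ν (tm hP g r c) = tm hP g (πν ν r) c := rfl

lemma tm_zero (c : P) : tm hP g 0 c = 0 :=
  TensorProduct.zero_tmul (R := UU s p) (RR s p) (show PP hP g from c)

lemma πν_single_pos (ν : κ → ℝ) {x : NN s p} (h : x.1.2 = ν) (t : ZMod p) :
    πν ν (AddMonoidAlgebra.single x t : RR s p) = AddMonoidAlgebra.single x t :=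
  filt_single_pos (fun x : NN s p => x.1.2 = ν) h t

lemma πν_single_neg (ν : κ → ℝ) {x : NN s p} (h : ¬ x.1.2 = ν) (t : ZMod p) :
    πν ν (AddMonoidAlgebra.single x t : RR s p) = 0 :=
  filt_single_neg (fun x : NN s p => x.1.2 = ν) h t

lemma coeff_ρSS (ν : κ → ℝ) (z : SS hP g) : (ρSS hP g z).coeff ν = PiS hP g ν z := by
  classical
  induction z using SS_induction with
  | h0 => rw [map_zero, map_zero]; rfl
  | ha x y hx hy =>
    rw [map_add, AddMonoidAlgebra.coeff_add, Finsupp.add_apply, hx, hy, map_add]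
  | ht x t c =>
    rw [ρSS_tm, PiS_tm, AddMonoidAlgebra.coeff_single, Finsupp.single_apply]
    by_cases h : x.1.2 = ν
    · rw [if_pos h, πν_single_pos ν h]
    · rw [if_neg h, πν_single_neg ν h, tm_zero]

lemma ρSS_PiS (ν : κ → ℝ) (z : SS hP g) :
    ρSS hP g (PiS hP g ν z) = AddMonoidAlgebra.single ν (PiS hP g ν z) := by
  classical
  induction z using SS_induction with
  | h0 => rw [map_zero, map_zero, AddMonoidAlgebra.single_zero]
  | ha x y hx hy =>
    rw [map_add, map_add, hx, hy, AddMonoidAlgebra.single_add]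
  | ht x t c =>
    rw [PiS_tm]
    by_cases h : x.1.2 = ν
    · rw [πν_single_pos ν h, ρSS_tm, h]
    · rw [πν_single_neg ν h, tm_zero, map_zero, AddMonoidAlgebra.single_zero]

/-- the degree `ν` element of `SS'` -/
noncomputable abbrev eν (ν : κ → ℝ) : SS' hP g := AddMonoidAlgebra.single ν 1

lemma mem_K_iff (ν : κ → ℝ) (z : SS hP g) : z ∈ (D hP g).K (eν hP g ν) ↔ PiS hP g ν z = z := by
  have h0 : z ∈ (D hP g).K (eν hP g ν) ↔ ρSS hP g z = AddMonoidAlgebra.single ν z := by
    have : z ∈ (D hP g).K (eν hP g ν) ↔ ρSS hP g z =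
      AddMonoidAlgebra.single ν 1 * AddMonoidAlgebra.single 0 z := Iff.rfl
    rw [this, AddMonoidAlgebra.single_mul_single, add_zero, one_mul]
  rw [h0]
  constructor
  · intro h
    rw [← coeff_ρSS, h, AddMonoidAlgebra.coeff_single, Finsupp.single_eq_same]
  · intro h
    conv_lhs => rw [← h]
    rw [ρSS_PiS, h]

lemma tm_mem_K (x : NN s p) (t : ZMod p) (c : P) :
    tm hP g (AddMonoidAlgebra.single x t) c ∈ (D hP g).K (eν hP g x.1.2) := by
  rw [mem_K_iff, PiS_tm, πν_single_pos _ rfl]

variable [DecidableEq κ]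

lemma TI_CC (σ : DD p) (k : κ) (T : κ → ℝ) (q : ℕ) :
    TI (UU s p) (CC s σ k T q) (PP hP g) := by
  have h1 : TI (UU s p) (RR s p) (PP hP g) := TI_perfect isPerf_UU isPerf_RR (isPerf_PP hP g)
  have h2 : TI (UU s p) (AA s p k) (PP hP g) := TI.pi h1 (Finset (Fin (s k)))
  exact TI.retract h2 (CC s σ k T q).subtype (rC s σ k T q) (rC_subtype s σ k T q)

variable (s p)

/-- evaluation at `B` -/
noncomputable def pB (k : κ) (B : Finset (Fin (s k))) : AA s p k →ₗ[UU s p] RR s p :=
  LinearMap.proj B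

/-- the delta function at `B` -/
noncomputable def sB (k : κ) (B : Finset (Fin (s k))) : RR s p →ₗ[UU s p] AA s p k :=
  LinearMap.single (UU s p) (fun _ : Finset (Fin (s k)) => RR s p) B

lemma pB_sB_same (k : κ) (B : Finset (Fin (s k))) :
    pB s p k B ∘ₗ sB s p k B = LinearMap.id := by
  apply LinearMap.ext
  intro x
  show (Pi.single B x : AA s p k) B = _
  rw [Pi.single_eq_same]; rfl

lemma pB_sB_ne (k : κ) {B B' : Finset (Fin (s k))} (h : B' ≠ B) :
    pB s p k B' ∘ₗ sB s p k B = 0 := by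
  apply LinearMap.ext
  intro x
  show (Pi.single B x : AA s p k) B' = _
  rw [Pi.single_eq_of_ne h]; rfl

lemma sum_sB_pB (k : κ) : ∑ B, sB s p k B ∘ₗ pB s p k B = LinearMap.id := by
  classical
  apply LinearMap.ext
  intro f
  rw [LinearMap.sum_apply]
  funext B
  rw [Finset.sum_apply, Finset.sum_eq_single_of_mem B (Finset.mem_univ B)]
  · show (Pi.single B (f B) : AA s p k) B = f B
    rw [Pi.single_eq_same]
  · intro B' _ h
    show (Pi.single B' (f B') : AA s p k) B = 0
    rw [Pi.single_eq_of_ne (Ne.symm h)]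

variable {s p}

lemma rTensor_sum' {k : κ} {X : Type} [AddCommGroup X] [Module (UU s p) X]
    {Y : Type} [AddCommGroup Y] [Module (UU s p) Y] {ι : Type} (t : Finset ι)
    (F : ι → (X →ₗ[UU s p] Y)) (z : X ⊗[UU s p] PP hP g) :
    (∑ i ∈ t, F i).rTensor (PP hP g) z = ∑ i ∈ t, (F i).rTensor (PP hP g) z := by
  have := congrArg (fun G => G z) (map_sum (LinearMap.rTensorHom (PP hP g)) F t)
  simpa only [LinearMap.sum_apply, LinearMap.coe_rTensorHom] using this

lemma sum_rTensor (k : κ) (z : AA s p k ⊗[UU s p] PP hP g) :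
    ∑ B, (sB s p k B).rTensor (PP hP g) ((pB s p k B).rTensor (PP hP g) z) = z := by
  have h1 := rTensor_sum' hP g (k := k) Finset.univ (fun B => sB s p k B ∘ₗ pB s p k B) z
  rw [sum_sB_pB, LinearMap.rTensor_id, LinearMap.id_apply] at h1
  simp only [LinearMap.rTensor_comp_apply] at h1
  exact h1.symm

lemma rTensor_ext (k : κ) {z : AA s p k ⊗[UU s p] PP hP g}
    (h : ∀ B, (pB s p k B).rTensor (PP hP g) z = 0) : z = 0 := by
  rw [← sum_rTensor hP g k z]
  refine Finset.sum_eq_zero fun B _ => ?_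
  rw [h, map_zero]

/-- evaluation at `B`, tensored -/
noncomputable def pT (k : κ) (B : Finset (Fin (s k))) :
    AA s p k ⊗[UU s p] PP hP g →+ SS hP g :=
  (((pB s p k B).rTensor (PP hP g)).toAddMonoidHom :
    AA s p k ⊗[UU s p] PP hP g →+ RR s p ⊗[UU s p] PP hP g)

/-- the delta function at `B`, tensored -/
noncomputable def sT (k : κ) (B : Finset (Fin (s k))) :
    SS hP g →+ AA s p k ⊗[UU s p] PP hP g :=
  (((sB s p k B).rTensor (PP hP g)).toAddMonoidHom :
    RR s p ⊗[UU s p] PP hP g →+ AA s p k ⊗[UU s p] PP hP g)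

lemma pT_ext (k : κ) {z : AA s p k ⊗[UU s p] PP hP g} (h : ∀ B, pT hP g k B z = 0) : z = 0 :=
  rTensor_ext hP g k h

lemma pT_sT_same (k : κ) (B : Finset (Fin (s k))) (x : SS hP g) :
    pT hP g k B (sT hP g k B x) = x := by
  show (pB s p k B).rTensor (PP hP g) ((sB s p k B).rTensor (PP hP g) x) = x
  rw [← LinearMap.rTensor_comp_apply, pB_sB_same, LinearMap.rTensor_id]; rfl

lemma pT_sT_ne (k : κ) {B B' : Finset (Fin (s k))} (h : B' ≠ B) (x : SS hP g) :
    pT hP g k B' (sT hP g k B x) = 0 := by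
  show (pB s p k B').rTensor (PP hP g) ((sB s p k B).rTensor (PP hP g) x) = 0
  rw [← LinearMap.rTensor_comp_apply, pB_sB_ne s p k h, LinearMap.rTensor_zero]; rfl

/-- multiplication by `r ⊗ 1` -/
noncomputable def mT (r : RR s p) : SS hP g →+ SS hP g :=
  ((((LinearMap.mul (UU s p) (RR s p) r).rTensor (PP hP g)).toAddMonoidHom :
    RR s p ⊗[UU s p] PP hP g →+ RR s p ⊗[UU s p] PP hP g))

lemma mT_eq (r : RR s p) (z : SS hP g) : mT hP g r z = tm hP g r 1 * z := by
  induction z using SS_induction with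
  | h0 => rw [map_zero, mul_zero]
  | ha x y hx hy => rw [map_add, hx, hy, mul_add]
  | ht x t c =>
    rw [tm_mul, one_mul]
    rfl

/-- the Koszul elements of `SS` -/
noncomputable def ΘS (σ : DD p) (k : κ) (i : Fin (s k)) : SS hP g := tm hP g (Θ s σ k i) 1

lemma pT_dA (σ : DD p) (k : κ) (z : AA s p k ⊗[UU s p] PP hP g) (B : Finset (Fin (s k))) :
    pT hP g k B ((dA s σ k).rTensor (PP hP g) z) =
      kD (ΘS hP g σ k) (fun B' => pT hP g k B' z) B := by
  have h1 : pB s p k B ∘ₗ dA s σ k = ∑ i ∈ Bᶜ,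
      (LinearMap.mul (UU s p) (RR s p) (sg (RR s p) i B * Θ s σ k i)) ∘ₗ pB s p k (insert i B) := by
    apply LinearMap.ext
    intro f
    rw [LinearMap.sum_apply]
    rfl
  have h2 : pT hP g k B ((dA s σ k).rTensor (PP hP g) z) = ∑ i ∈ Bᶜ,
      mT hP g (sg (RR s p) i B * Θ s σ k i) (pT hP g k (insert i B) z) := by
    show (pB s p k B).rTensor (PP hP g) ((dA s σ k).rTensor (PP hP g) z) = _
    rw [← LinearMap.rTensor_comp_apply, h1, rTensor_sum' hP g (k := k)]
    refine Finset.sum_congr rfl fun i _ => ?_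
    rw [LinearMap.rTensor_comp_apply]
    rfl
  rw [h2, kD_apply]
  refine Finset.sum_congr rfl fun i _ => ?_
  rw [mT_eq, smul_eq_mul]
  have h3 : tm hP g (sg (RR s p) i B * Θ s σ k i) 1 = sg (SS hP g) i B * ΘS hP g σ k i := by
    unfold ΘS sg
    rw [← incL_apply, ← incL_apply, map_mul, map_pow, map_neg, map_one]
  rw [h3]

/-- **Exactness of the Koszul strand over `P`.** -/
theorem kosEx {σ : DD p} {k : κ} {T : κ → ℝ} (hT0 : 0 < T k) (hT : (s k : ℝ) * σ ≤ T k) :
    (D hP g).KosEx (ΘS hP g σ k) (fun q => eν hP g (nuq T k σ q)) := by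
  classical
  intro q F hF hd
  -- lift to the tensor product
  set z : AA s p k ⊗[UU s p] PP hP g := ∑ B, sT hP g k B (F B) with hz
  have hzB : ∀ B, pT hP g k B z = F B := by
    intro B
    rw [hz, map_sum, Finset.sum_eq_single_of_mem B (Finset.mem_univ B)]
    · exact pT_sT_same hP g k B _
    · intro B' _ h
      exact pT_sT_ne hP g k (Ne.symm h) _
  have hcycle : (dA s σ k).rTensor (PP hP g) z = 0 := by
    apply pT_ext
    intro B
    have h2 : (fun B' => pT hP g k B' z) = F := funext hzB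
    rw [pT_dA, h2, hd]
    rfl
  have hrz : (rr s σ k T q).rTensor (PP hP g) z = z := by
    rw [← sub_eq_zero]
    apply pT_ext
    intro B
    rw [map_sub, hzB]
    by_cases hB : B.card = q
    · have h1 : pB s p k B ∘ₗ rr s σ k T q = πν (nuq T k σ q) ∘ₗ pB s p k B := by
        apply LinearMap.ext
        intro f
        show rr s σ k T q f B = πν (nuq T k σ q) (f B)
        rw [rr_apply, if_pos hB]
      have h2 : pT hP g k B ((rr s σ k T q).rTensor (PP hP g) z) =
          PiS hP g (nuq T k σ q) (pT hP g k B z) := by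
        show (pB s p k B).rTensor (PP hP g) ((rr s σ k T q).rTensor (PP hP g) z) =
          (πν (nuq T k σ q)).rTensor (PP hP g) ((pB s p k B).rTensor (PP hP g) z)
        rw [← LinearMap.rTensor_comp_apply, h1, LinearMap.rTensor_comp_apply]
      rw [h2, hzB, (mem_K_iff hP g _ _).1 (hF.1 B), sub_self]
    · have h1 : pB s p k B ∘ₗ rr s σ k T q = 0 := by
        apply LinearMap.ext
        intro f
        show rr s σ k T q f B = 0
        rw [rr_apply, if_neg hB]
      have h2 : pT hP g k B ((rr s σ k T q).rTensor (PP hP g) z) = 0 := by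
        show (pB s p k B).rTensor (PP hP g) ((rr s σ k T q).rTensor (PP hP g) z) = 0
        rw [← LinearMap.rTensor_comp_apply, h1, LinearMap.rTensor_zero]
        rfl
      rw [h2, hF.2 B hB, sub_zero]
  -- restrict to the `q`-th term
  set zq : CC s σ k T q ⊗[UU s p] PP hP g := (rC s σ k T q).rTensor (PP hP g) z with hzq
  have hzq2 : (CC s σ k T q).subtype.rTensor (PP hP g) zq = z := by
    rw [hzq, ← LinearMap.rTensor_comp_apply, subtype_comp_rC, hrz]
  have hw : ∃ w, (dC s σ k T q).rTensor (PP hP g) w = zq := by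
    cases q with
    | zero => exact LinearMap.rTensor_surjective (PP hP g) (dC_surjective hT0 hT) zq
    | succ j =>
      have hex := exact_rTensor (A := UU s p) (C := fun q => CC s σ k T q) (dC s σ k T)
        (N := PP hP g) (fun i => TI_CC hP g σ k T i) (dC_surjective hT0 hT) (dC_exact hT0 hT) j
      apply (hex zq).1
      -- injectivity of the inclusion
      have hinj : Injective ((CC s σ k T j).subtype.rTensor (PP hP g)) := by
        have h1 : rC s σ k T j ∘ₗ (CC s σ k T j).subtype = LinearMap.id :=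
          LinearMap.ext (rC_subtype s σ k T j)
        refine Injective.of_comp (f := (rC s σ k T j).rTensor (PP hP g)) ?_
        have : (rC s σ k T j).rTensor (PP hP g) ∘ ((CC s σ k T j).subtype.rTensor (PP hP g)) =
            id := by
          funext t
          rw [Function.comp_apply, ← LinearMap.rTensor_comp_apply, h1, LinearMap.rTensor_id]
          rfl
        rw [this]
        exact injective_id
      apply hinj
      rw [map_zero, ← LinearMap.rTensor_comp_apply, subtype_comp_dC, LinearMap.rTensor_comp_apply,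
        hzq2, hcycle]
  obtain ⟨w, hw⟩ := hw
  set y : AA s p k ⊗[UU s p] PP hP g := (CC s σ k T (q + 1)).subtype.rTensor (PP hP g) w with hy
  refine ⟨fun B => pT hP g k B y, ⟨fun B => ?_, fun B hB => ?_⟩, ?_⟩
  · rw [mem_K_iff]
    show (πν (nuq T k σ (q + 1))).rTensor (PP hP g) ((pB s p k B).rTensor (PP hP g) y) =
      (pB s p k B).rTensor (PP hP g) y
    rw [hy, ← LinearMap.rTensor_comp_apply, ← LinearMap.rTensor_comp_apply,
      ← LinearMap.rTensor_comp_apply]
    congr 2
    apply LinearMap.ext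
    rintro ⟨f, hf⟩
    exact ((mem_CC_iff s σ k T).1 hf).1 B
  · show (pB s p k B).rTensor (PP hP g) y = 0
    rw [hy, ← LinearMap.rTensor_comp_apply]
    have : pB s p k B ∘ₗ (CC s σ k T (q + 1)).subtype = 0 := by
      apply LinearMap.ext
      rintro ⟨f, hf⟩
      exact ((mem_CC_iff s σ k T).1 hf).2 B hB
    rw [this, LinearMap.rTensor_zero]
    rfl
  · funext B
    rw [← pT_dA, hy, ← LinearMap.rTensor_comp_apply (PP hP g) (dA s σ k), ← subtype_comp_dC,
      LinearMap.rTensor_comp_apply, hw, hzq2]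
    exact hzB B

end Tensor

end Crest.Agent.R188.UB
end

-- ▼ part R188/UB5

set_option autoImplicit false
set_option linter.unusedSectionVars false
set_option linter.unusedVariables false

namespace Crest.Agent.R188.UB

open Finset TensorProduct Function
open Crest.Agent.R188.Prf Crest.Agent.R188.Flg Crest.Agent.R188.Cmp Crest.Agent.R188.Wit

/-! ### generic: almost exact Koszul complexes on the ideals `D.I` of `P` -/

section Gen

variable {p : ℕ} [hp : Fact p.Prime] {P S S' : Type*}
  [CommRing P] [CommRing S] [CommRing S'] (D : GD p P S S') {s : ℕ}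

/-- the Koszul complex on the ideals `I(e q)` of `P` is almost exact. -/
theorem kosNullP {g : Fin s → S} {e : ℕ → S'} {v : S'} (hg : ∀ i, g i ∈ D.K v)
    (hv : ∀ q < s, v * e (q + 1) = e q) (h : D.KosEx g e) {h₀ : P}
    (hN : ∀ q ≤ s, D.Nul (e q) h₀) (hN' : D.Nul (v * e 0) h₀) :
    KosNull (Ideal.span (Set.range fun n => D.hP.rtn n h₀)) (fun i => D.ε (g i))
      (fun q => (D.I (e q) : Submodule P P)) := by
  classical
  intro q f hf hf0 a ha
  by_cases hqs : s < q
  · have hf00 : f = 0 := by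
      funext B
      apply hf.2
      have := Finset.card_le_univ B
      rw [Fintype.card_fin] at this
      omega
    exact ⟨0, zero_mem _, by rw [hf00, map_zero, smul_zero]⟩
  have key : ∀ n, ∃ f' ∈ kK (fun q => (D.I (e q) : Submodule P P)) s (q + 1),
      kD (fun i => D.ε (g i)) f' = D.hP.rtn n h₀ • f := by
    intro n
    have hl : ∀ B, ∃ y, y ∈ D.K (e q) ∧ D.ε y = f B ∧ (B.card ≠ q → y = 0) := by
      intro B
      by_cases hB : B.card = q
      · obtain ⟨y, hy, hy2⟩ := D.mem_I.1 (hf.1 B)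
        exact ⟨y, hy, hy2, fun h => absurd hB h⟩
      · exact ⟨0, zero_mem _, by rw [map_zero, hf.2 B hB], fun _ => rfl⟩
    choose F hF1 hF2 hF3 using hl
    have hεF : (fun B => D.ε (F B)) = f := by funext B; exact hF2 B
    have hker : ∀ B, D.ε (kD g F B) = 0 := by
      intro B
      rw [kD_map, hεF, hf0]; rfl
    have hmem : ∀ B, kD g F B ∈ D.K (v * e q) := by
      intro B
      rw [kD_apply]
      refine sum_mem fun i _ => ?_
      have h1 : g i * F (insert i B) ∈ D.K (v * e q) := mul_mem_Gr (hg i) (hF1 _)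
      unfold sg
      rcases neg_one_pow_eq_or S (B.filter (· < i)).card with h | h
      · rw [h, one_mul]; exact h1
      · rw [h, neg_one_mul, neg_smul]; exact neg_mem h1
    have hNq : D.Nul (v * e q) h₀ := by
      cases q with
      | zero => exact hN'
      | succ q => rw [hv q (by omega)]; exact hN q (by omega)
    set t := D.i (D.hP.rtn n h₀) with ht
    have hc : kD g (fun B => t * F B) = 0 := by
      rw [kD_mul]
      funext B
      exact hNq _ (hmem B) (hker B) n
    obtain ⟨F', hF', hF'2⟩ := h q (fun B => t * F B)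
      ⟨fun B => D.i_mul_mem _ (hF1 B), fun B hB => by
        show t * F B = 0
        rw [hF3 B hB, mul_zero]⟩ hc
    refine ⟨fun B => D.ε (F' B), ⟨fun B => D.mem_I.2 ⟨F' B, hF'.1 B, rfl⟩, fun B hB => by
      show D.ε (F' B) = 0
      rw [hF'.2 B hB, map_zero]⟩, ?_⟩
    rw [← kD_comp_map]
    funext B
    have h3 : kD g F' B = t * F B := congrFun hF'2 B
    show D.ε (kD g F' B) = _
    rw [h3, map_mul, hF2, ht, D.εi]
    rfl
  refine Submodule.span_induction (p := fun a _ => ∃ f' ∈ kK (fun q => (D.I (e q) :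
    Submodule P P)) s (q + 1), kD (fun i => D.ε (g i)) f' = a • f)
    ?_ ?_ ?_ ?_ ha
  · rintro _ ⟨n, rfl⟩
    exact key n
  · exact ⟨0, zero_mem _, by rw [map_zero, zero_smul]⟩
  · rintro a b _ _ ⟨fa, hfa, ha⟩ ⟨fb, hfb, hb⟩
    exact ⟨fa + fb, add_mem hfa hfb, by rw [map_add, ha, hb, add_smul]⟩
  · rintro c a _ ⟨fa, hfa, ha⟩
    exact ⟨c • fa, Submodule.smul_mem _ _ hfa, by rw [map_smul, ha, smul_smul, smul_eq_mul]⟩

end Gen

section Main

variable {κ : Type} [Fintype κ] {s : κ → ℕ} {p : ℕ} [hp : Fact p.Prime]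
  {P : Type} [CommRing P] [CharP P p] (hP : IsPerf p P) (g : (Σ k, Fin (s k)) → P)

/-! ### degrees -/

lemma eν_zero : eν hP g (0 : κ → ℝ) = 1 := rfl

lemma eν_add (ν μ : κ → ℝ) : eν hP g (ν + μ) = eν hP g ν * eν hP g μ := by
  rw [AddMonoidAlgebra.single_mul_single, one_mul]

lemma eν_pow (ν : κ → ℝ) (n : ℕ) : eν hP g ν ^ n = eν hP g (n • ν) := by
  induction n with
  | zero => rw [pow_zero, zero_smul, eν_zero]
  | succ n ih => rw [pow_succ, ih, succ_nsmul, eν_add]

/-- only nonnegative degrees occur. -/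
lemma K_eq_zero_of_neg {ν : κ → ℝ} {k : κ} (hk : ν k < 0) {z : SS hP g}
    (hz : z ∈ (D hP g).K (eν hP g ν)) : z = 0 := by
  rw [mem_K_iff] at hz
  rw [← hz]
  have : (πν ν : RR s p →ₗ[UU s p] RR s p) = 0 := by
    classical
    apply LinearMap.ext
    intro r
    apply AddMonoidAlgebra.coeff_injective
    ext a
    rw [coeff_πν, if_neg]
    · rfl
    · intro h
      have := (a.2 k).1
      rw [h] at this
      linarith
  rw [PiS_eq, this, LinearMap.rTensor_zero]
  rfl

/-- induction for elements of degree `ν`. -/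
lemma K_induction {ν : κ → ℝ} {motive : SS hP g → Prop} {z : SS hP g}
    (hz : z ∈ (D hP g).K (eν hP g ν)) (h0 : motive 0)
    (ht : ∀ (x : NN s p) (t : ZMod p) (c : P), x.1.2 = ν →
      motive (tm hP g (AddMonoidAlgebra.single x t) c))
    (ha : ∀ x y, motive x → motive y → motive (x + y)) : motive z := by
  rw [mem_K_iff] at hz
  rw [← hz]
  clear hz
  induction z using SS_induction with
  | h0 => rw [map_zero]; exact h0
  | ha x y hx hy => rw [map_add]; exact ha _ _ hx hy
  | ht x t c =>
    rw [PiS_tm]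
    by_cases h : x.1.2 = ν
    · rw [πν_single_pos ν h]; exact ht x t c h
    · rw [πν_single_neg ν h, tm_zero]; exact h0

/-! ### the monomial ideals -/


/-- `D.I (eν ν)` is the ideal spanned by the monomials of degree `≥ ν`. -/
theorem I_eq_span {ν : κ → ℝ} (hν : 0 ≤ ν) :
    (D hP g).I (eν hP g ν) = Ideal.span (mono hP g '' Sν ν) := by
  apply le_antisymm
  · rintro _ ⟨z, hz, rfl⟩
    refine K_induction hP g (ν := ν) (motive := fun z => (D hP g).ε z ∈ Ideal.span (mono hP g '' Sν ν))
      hz ?_ ?_ ?_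
    · rw [map_zero]; exact zero_mem _
    · intro x t c hx
      show εSS hP g (tm hP g (AddMonoidAlgebra.single x t) c) ∈ _
      rw [εSS_tm, evR_single]
      refine Ideal.mul_mem_right _ _ (Ideal.mul_mem_left _ _ (Ideal.subset_span ⟨x.1.1, ?_, rfl⟩))
      intro k
      rw [← hx]
      exact (x.2 k).2
    · intro x y hx hy
      rw [map_add]; exact add_mem hx hy
  · rw [Ideal.span_le]
    rintro _ ⟨a, ha, rfl⟩
    let x : NN s p := ⟨(a, ν), fun k => ⟨hν k, ha k⟩⟩
    refine ⟨tm hP g (AddMonoidAlgebra.single x 1) 1, tm_mem_K hP g x 1 1, ?_⟩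
    show εSS hP g (tm hP g (AddMonoidAlgebra.single x 1) 1) = _
    rw [εSS_tm, evR_single, map_one, one_mul, mul_one]

lemma mono_mem_I {ν : κ → ℝ} (hν : 0 ≤ ν) {a : Ex s p} (ha : a ∈ Sν ν) :
    mono hP g a ∈ (D hP g).I (eν hP g ν) := by
  rw [I_eq_span hP g hν]
  exact Ideal.subset_span ⟨a, ha, rfl⟩

lemma I_anti {ν μ : κ → ℝ} (hν : 0 ≤ ν) (h : ν ≤ μ) :
    (D hP g).I (eν hP g μ) ≤ (D hP g).I (eν hP g ν) := by
  rw [I_eq_span hP g hν, I_eq_span hP g (hν.trans h)]
  exact Ideal.span_mono (Set.image_mono (Sν_anti h))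

/-! ### choices of one generator per block -/

/-- the exponent `x · e_c`, `c` a choice of one generator in each block. -/
noncomputable def Ec [DecidableEq κ] (c : ∀ k, Fin (s k)) (x : DD p) : Ex s p :=
  ∑ k, Eσ x k (c k)

/-- the product of the chosen generators. -/
noncomputable def hc (c : ∀ k, Fin (s k)) : P := ∏ k, g ⟨k, c k⟩

variable [DecidableEq κ]

lemma deg_Ec (c : ∀ k, Fin (s k)) (x : DD p) (k : κ) : deg k (Ec c x) = x := by
  unfold Ec
  rw [map_sum, Finset.sum_eq_single_of_mem k (Finset.mem_univ k), deg_Eσ_same]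
  intro k' _ h
  rw [deg_Eσ_ne x (Ne.symm h)]

lemma mono_sum {ι : Type} (t : Finset ι) (F : ι → Ex s p) :
    mono hP g (∑ i ∈ t, F i) = ∏ i ∈ t, mono hP g (F i) := by
  classical
  induction t using Finset.induction with
  | empty => rw [Finset.sum_empty, Finset.prod_empty, mono_zero]
  | insert a t ha ih => rw [Finset.sum_insert ha, Finset.prod_insert ha, mono_add, ih]

lemma mono_Ec (c : ∀ k, Fin (s k)) (x : DD p) : mono hP g (Ec c x) = ∏ k, fp hP (g ⟨k, c k⟩) x := by
  unfold Ec
  rw [mono_sum]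
  exact Finset.prod_congr rfl fun k _ => mono_Eσ hP g x k (c k)

lemma mono_Ec_nat (c : ∀ k, Fin (s k)) (n : ℕ) :
    mono hP g (Ec c (DD.nat p n)) = hc g c ^ n := by
  rw [mono_Ec]
  unfold hc
  rw [← Finset.prod_pow]
  exact Finset.prod_congr rfl fun k _ => fp_nat hP _ n

lemma pow_hc_mem_I (c : ∀ k, Fin (s k)) {ν : κ → ℝ} (hν : 0 ≤ ν) {n : ℕ} (hn : ∀ k, ν k ≤ n) :
    hc g c ^ n ∈ (D hP g).I (eν hP g ν) := by
  rw [← mono_Ec_nat hP g c n]
  apply mono_mem_I hP g hν
  intro k
  rw [deg_Ec]
  exact hn k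

lemma exists_pow_hc_mem_I (c : ∀ k, Fin (s k)) {ν : κ → ℝ} (hν : 0 ≤ ν) :
    ∃ n, hc g c ^ n ∈ (D hP g).I (eν hP g ν) := by
  have : ∃ n : ℕ, ∀ k, ν k ≤ n := by
    obtain ⟨n, hn⟩ := exists_nat_ge (∑ k, ν k)
    refine ⟨n, fun k => le_trans ?_ hn⟩
    exact Finset.single_le_sum (fun k _ => hν k) (Finset.mem_univ k)
  obtain ⟨n, hn⟩ := this
  exact ⟨n, pow_hc_mem_I hP g c hν hn⟩

/-- multiplication by a monomial of degree `≥ ν` factors `K(ν) → P`. -/
lemma key_nul (ν : κ → ℝ) (hν : 0 ≤ ν) (a : Ex s p) (ha : a ∈ Sν ν) {z : SS hP g}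
    (hz : z ∈ (D hP g).K (eν hP g ν)) :
    iSS hP g (mono hP g a) * z =
      tm hP g (AddMonoidAlgebra.single (⟨(a, ν), fun k => ⟨hν k, ha k⟩⟩ : NN s p) 1) 1 *
        iSS hP g (εSS hP g z) := by
  refine K_induction hP g (ν := ν) (motive := fun z => iSS hP g (mono hP g a) * z =
      tm hP g (AddMonoidAlgebra.single (⟨(a, ν), fun k => ⟨hν k, ha k⟩⟩ : NN s p) 1) 1 *
        iSS hP g (εSS hP g z)) hz ?_ ?_ ?_
  · rw [map_zero, map_zero, mul_zero, mul_zero]
  · intro x t c hx
    rw [εSS_tm, iSS_apply, iSS_apply, tm_mul, tm_mul, one_mul, one_mul, mul_one]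
    -- both sides equal `T^{a + x} ⊗ c`
    have h1 : tm hP g (AddMonoidAlgebra.single x t) (mono hP g a * c) =
        tm hP g (algebraMap (UU s p) (RR s p) (AddMonoidAlgebra.single a 1) *
          AddMonoidAlgebra.single x t) c := by
      have h2 := TensorProduct.smul_tmul (R := UU s p) (AddMonoidAlgebra.single a 1 : UU s p)
        (AddMonoidAlgebra.single x t : RR s p) (show PP hP g from c)
      have h3 : (AddMonoidAlgebra.single a 1 : UU s p) • (show PP hP g from c) =
          (show PP hP g from mono hP g a * c) := by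
        show ev hP g (AddMonoidAlgebra.single a 1) * c = mono hP g a * c
        rw [ev_single, map_one, one_mul]
      rw [h3, Algebra.smul_def] at h2
      exact h2.symm
    have h4 : tm hP g (AddMonoidAlgebra.single (⟨(a, ν), fun k => ⟨hν k, ha k⟩⟩ : NN s p) 1)
        (evR hP g (AddMonoidAlgebra.single x t) * c) =
        tm hP g (algebraMap (UU s p) (RR s p) (AddMonoidAlgebra.single x.1.1 t) *
          AddMonoidAlgebra.single (⟨(a, ν), fun k => ⟨hν k, ha k⟩⟩ : NN s p) 1) c := by
      have h2 := TensorProduct.smul_tmul (R := UU s p) (AddMonoidAlgebra.single x.1.1 t : UU s p)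
        (AddMonoidAlgebra.single (⟨(a, ν), fun k => ⟨hν k, ha k⟩⟩ : NN s p) 1 : RR s p)
        (show PP hP g from c)
      have h3 : (AddMonoidAlgebra.single x.1.1 t : UU s p) • (show PP hP g from c) =
          (show PP hP g from evR hP g (AddMonoidAlgebra.single x t) * c) := by
        show ev hP g (AddMonoidAlgebra.single x.1.1 t) * c =
          evR hP g (AddMonoidAlgebra.single x t) * c
        rw [ev_single, evR_single]
      rw [h3, Algebra.smul_def] at h2
      exact h2.symm
    rw [h1, h4, algUR_single, algUR_single, AddMonoidAlgebra.single_mul_single,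
      AddMonoidAlgebra.single_mul_single, one_mul, mul_one]
    congr 2
    apply Subtype.ext
    rw [AddSubmonoid.coe_add, AddSubmonoid.coe_add]
    refine Prod.ext ?_ ?_
    · show a + x.1.1 = x.1.1 + a
      exact add_comm _ _
    · show (0 : κ → ℝ) + x.1.2 = 0 + ν
      rw [hx]
  · intro x y hx hy
    rw [mul_add, hx, hy, map_add, map_add, mul_add]

/-- **`Nul`**: the kernel of `K(ν) → P` is killed by all `h^{1/p^n}`, `h` a product of one
generator per block. -/
theorem nul (ν : κ → ℝ) (c : ∀ k, Fin (s k)) : (D hP g).Nul (eν hP g ν) (hc g c) := by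
  intro z hz hz0 n
  by_cases hν : 0 ≤ ν
  · obtain ⟨m, hm⟩ : ∃ n : ℕ, ∀ k, ν k ≤ n := by
      obtain ⟨n, hn⟩ := exists_nat_ge (∑ k, ν k)
      refine ⟨n, fun k => le_trans ?_ hn⟩
      exact Finset.single_le_sum (fun k _ => hν k) (Finset.mem_univ k)
    have ha : Ec c (DD.nat p m) ∈ (Sν ν : Set (Ex s p)) := by
      intro k
      rw [deg_Ec]; exact hm k
    have h1 := key_nul hP g ν hν _ ha hz
    have h0 : εSS hP g z = 0 := hz0
    rw [h0, map_zero, mul_zero, mono_Ec_nat, map_pow] at h1
    have h2 : z * (iSS hP g (hc g c)) ^ m = 0 := by rw [mul_comm]; exact h1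
    have h3 := (isPerf_SS hP g).pow_torsion h2 n
    rw [← hP.map_rtn (isPerf_SS hP g) (iSS hP g)] at h3
    rw [mul_comm]
    exact h3
  · have : ∃ k, ν k < 0 := by
      by_contra hcon
      push Not at hcon
      exact hν hcon
    obtain ⟨k, hk⟩ := this
    rw [K_eq_zero_of_neg hP g hk hz, mul_zero]

/-! ### the strands -/

lemma ΘS_mem (σ : DD p) (k : κ) (i : Fin (s k)) :
    ΘS hP g σ k i ∈ (D hP g).K (eν hP g (Pi.single k (σ : ℝ))) :=
  tm_mem_K hP g (EN σ k i) 1 1

lemma ε_ΘS (σ : DD p) (k : κ) (i : Fin (s k)) :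
    (D hP g).ε (ΘS hP g σ k i) = fp hP (g ⟨k, i⟩) σ := by
  show εSS hP g (tm hP g (AddMonoidAlgebra.single (EN σ k i) 1) 1) = _
  rw [εSS_tm, evR_single, map_one, one_mul, mul_one, EN_fst, mono_Eσ]



/-- real degree vector of a natural one. -/
def toR (t : κ → ℕ) : κ → ℝ := fun k => t k

omit [Fintype κ] in
lemma toR_add (t t' : κ → ℕ) : toR (t + t') = toR t + toR t' := by
  funext k; simp [toR]

omit [Fintype κ] in
lemma toR_single (k : κ) (n : ℕ) : toR (Pi.single k n : κ → ℕ) = Pi.single k (n : ℝ) := by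
  funext k'
  by_cases h : k' = k
  · subst h; simp [toR]
  · simp [toR, h]

lemma toR_nonneg (t : κ → ℕ) : 0 ≤ toR t := fun k => Nat.cast_nonneg _

/-- the strand in natural-number degrees, in the form of `AsmG.monoSys_J`. -/
theorem kosEx_nat {k : κ} (T : κ → ℕ) (hs : 0 < s k) (hT : s k ≤ T k) :
    (D hP g).KosEx (ΘS hP g (DD.nat p 1) k) (fun q => eν hP g (toR (T - Pi.single k q))) := by
  have hq : ∀ q, q ≤ s k → toR (T - Pi.single k q) = nuq (toR T) k ((DD.nat p 1 : DD p) : ℝ) q := by
    intro q hq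
    funext k'
    rw [nuq_apply]
    by_cases h : k' = k
    · subst h
      simp only [toR, Pi.sub_apply, Pi.single_eq_same, DD.nat_coe]
      rw [Nat.cast_sub (hq.trans hT)]
      push_cast; ring
    · simp [toR, h]
  have hT' : 0 < toR T k := by
    unfold toR
    exact_mod_cast lt_of_lt_of_le hs hT
  have hT'' : (s k : ℝ) * ((DD.nat p 1 : DD p) : ℝ) ≤ toR T k := by
    rw [DD.nat_coe]
    simp only [toR, Nat.cast_one, mul_one]
    exact_mod_cast hT
  intro q F hF hd
  by_cases hqs : s k < q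
  · have : F = 0 := hF.eq_zero hqs
    exact ⟨0, SuppIn.zero _ _, by rw [this, map_zero]⟩
  · simp only at hF
    rw [hq q (by omega)] at hF
    obtain ⟨F', hF', hd'⟩ := kosEx hP g hT' hT'' q F hF hd
    by_cases hqs' : s k < q + 1
    · have : F' = 0 := hF'.eq_zero hqs'
      rw [this] at hd'
      exact ⟨0, SuppIn.zero _ _, hd'⟩
    · refine ⟨F', ?_, hd'⟩
      simp only
      rw [hq (q + 1) (by omega)]
      exact hF'

lemma eν_toR_zero : eν hP g (toR (0 : κ → ℕ)) = 1 := by
  have : toR (0 : κ → ℕ) = 0 := by funext k; simp [toR]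
  rw [this, eν_zero]

lemma eν_toR_single (t : κ → ℕ) (k : κ) :
    eν hP g (Pi.single k ((DD.nat p 1 : DD p) : ℝ)) * eν hP g (toR t) =
      eν hP g (toR (t + Pi.single k 1)) := by
  rw [← eν_add, toR_add, toR_single, DD.nat_coe, add_comm]

lemma ε_ΘS_one (k : κ) (i : Fin (s k)) :
    (D hP g).ε (ΘS hP g (DD.nat p 1) k i) = g ⟨k, i⟩ := by
  rw [ε_ΘS, fp_nat, pow_one]

end Main

end Crest.Agent.R188.UB
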