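import Mathlib
import Crest.Agent.R188.FlgFilt
import Crest.Agent.R188.UB5
import Crest.Agent.R188.AsmG2
import Crest.Agent.R188.Asm3

-- ▼ part R188/FlgEx
section

/-! # R188, block (F): existence of flags

Commuting endomorphisms of a finite dimensional vector space over an algebraically closed field
have a common flag.
-/

set_option autoImplicit false

namespace Crest.Agent.R188.Flg

open Finset

section field

variable {K : Type*} [Field K] [IsAlgClosed K] {W : Type*} [AddCommGroup W] [Module K W]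
  [FiniteDimensional K W] {ι : Type*} (T : ι → Module.End K W)


/-- span of the first `k` vectors -/
def sp (K : Type*) [Field K] {W : Type*} [AddCommGroup W] [Module K W] (w : ℕ → W) (k : ℕ) :
    Submodule K W := Submodule.span K (w '' Set.Iio k)







end field

end Crest.Agent.R188.Flg
end

-- ▼ part R188/FlgEx3
section

/-! # R188, blocks (F)+(G): flags over `Ω` and the module `V = Ω^r` over `Ω ⊗_B S`. -/

set_option autoImplicit false

namespace Crest.Agent.R188.Flg

open Finset Matrix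
open scoped TensorProduct

universe u

section minors

variable {O : Type*} [CommRing O] {r : ℕ} (l : ℕ → Fin r → O)

/-- if all `k`-minors of the first `k` rows vanish, so do the `(k+1)`-minors -/
lemma mu_succ_eq_zero {k : ℕ} (h : ∀ τ : Fin k → Fin r, mu l k τ = 0) (τ : Fin (k + 1) → Fin r) :
    mu l (k + 1) τ = 0 := by
  rw [← ev_uv_self]
  have : uv l k τ = 0 := by
    unfold uv
    refine Finset.sum_eq_zero fun j _ => ?_
    rw [h, mul_zero, zero_smul]
  rw [this, ev_zero]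

lemma exists_mu_ne_zero (hdet : Matrix.det (Matrix.of fun i j : Fin r => l i j) ≠ 0) (k : ℕ)
    (hk : k ≤ r) : ∃ τ : Fin k → Fin r, mu l k τ ≠ 0 := by
  induction hk using Nat.decreasingInduction with
  | self => exact ⟨id, hdet⟩
  | of_succ k hk ih =>
    by_contra hcon
    push Not at hcon
    obtain ⟨τ, hτ⟩ := ih
    exact hτ (mu_succ_eq_zero l hcon τ)

lemma mu_map {Ω : Type*} [CommRing Ω] (f : O →+* Ω) (k : ℕ) (τ : Fin k → Fin r) :
    mu (fun k c => f (l k c)) k τ = f (mu l k τ) := by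
  unfold mu
  rw [RingHom.map_det]
  rfl

/-- every `k`-minor ideal contains the determinant, in a form for `Fin (r+1)`-blocks -/
lemma exists_flagG_ne_zero (hdet : Matrix.det (Matrix.of fun i j : Fin r => l i j) ≠ 0)
    (k : Fin (r + 1)) : ∃ i : Fin (flagS r k), flagG l k i ≠ 0 := by
  obtain ⟨τ, hτ⟩ := exists_mu_ne_zero l hdet k.val (by omega)
  refine ⟨Fintype.equivFin (Fin k.val → Fin r) τ, ?_⟩
  unfold flagG
  rwa [Equiv.symm_apply_apply]

lemma flagG_map {Ω : Type*} [CommRing Ω] (f : O →+* Ω) (k : Fin (r + 1)) (i : Fin (flagS r k)) :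
    flagG (fun k c => f (l k c)) k i = f (flagG l k i) := mu_map l f _ _

end minors

section transfer

variable {B O Ω S A : Type u} [CommRing B] [CommRing O] [CommRing Ω] [CommRing S] [CommRing A]
  [Algebra B O] [Algebra O Ω] [Algebra B Ω] [IsScalarTower B O Ω] [Algebra B S] [Algebra Ω A]
  {r : ℕ} {ρ : S →ₐ[B] Matrix (Fin r) (Fin r) B} {l : ℕ → Fin r → O} {γ : ℕ → (S →ₐ[B] O)}
  {V : Type u} [AddCommGroup V] [Module Ω V] [Module A V] [IsScalarTower Ω A V]
  (b : V ≃ₗ[Ω] (Fin r → Ω)) (σ : S →+* A) (γ' : ℕ → (A →ₐ[Ω] Ω))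




end transfer

section concrete

variable {B Ω S : Type u} [CommRing B] [CommRing Ω] [CommRing S] [Algebra B Ω] [Algebra B S]
  {r : ℕ}

/-- the representation of `Ω ⊗_B S` on `Ω^r` -/
noncomputable def matRep (Ω : Type u) [CommRing Ω] [Algebra B Ω]
    (ρ : S →ₐ[B] Matrix (Fin r) (Fin r) B) :
    (Ω ⊗[B] S) →ₐ[Ω] Matrix (Fin r) (Fin r) Ω :=
  Algebra.TensorProduct.lift (Algebra.ofId Ω _)
    (((Algebra.ofId B Ω).mapMatrix (m := Fin r)).comp ρ) (fun _ _ => Algebra.commutes _ _)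


/-- `Ω^r` with the action of `Ω ⊗_B S` through `ρ` -/
def VO (Ω : Type u) [CommRing Ω] [Algebra B Ω] (_ρ : S →ₐ[B] Matrix (Fin r) (Fin r) B) : Type u :=
  Fin r → Ω

variable (ρ : S →ₐ[B] Matrix (Fin r) (Fin r) B)

instance : AddCommGroup (VO Ω ρ) := inferInstanceAs (AddCommGroup (Fin r → Ω))
instance : Module Ω (VO Ω ρ) := inferInstanceAs (Module Ω (Fin r → Ω))

noncomputable instance : Module (Ω ⊗[B] S) (VO Ω ρ) :=
  Module.compHom (Fin r → Ω)
    (((Matrix.toLinAlgEquiv' (R := Ω) (n := Fin r)).toAlgHom.comp (matRep Ω ρ)) :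
      (Ω ⊗[B] S) →+* Module.End Ω (Fin r → Ω))

/-- the identity `VO Ω ρ = Ω^r` -/
def VO.b : VO Ω ρ ≃ₗ[Ω] (Fin r → Ω) := LinearEquiv.refl Ω (Fin r → Ω)

lemma VO.smul_def (a : Ω ⊗[B] S) (x : VO Ω ρ) :
    VO.b ρ (a • x) = matRep Ω ρ a *ᵥ VO.b ρ x := rfl

instance : IsScalarTower Ω (Ω ⊗[B] S) (VO Ω ρ) where
  smul_assoc ω a x := by
    apply (VO.b ρ).injective
    rw [VO.smul_def, map_smul, map_smul, VO.smul_def, Matrix.smul_mulVec]



variable {O : Type u} [CommRing O] [Algebra B O] [Algebra O Ω] [IsScalarTower B O Ω]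



end concrete


end Crest.Agent.R188.Flg
end

-- ▼ part R188/AsmU1

/-!
# R188, assembly (helper985): the `MonoSys` half of `Asm.Twist`

For a matrix `L` of rows over `B⁺` with nonzero determinant, sharps `F.a` of the minors, and the
monomial ideals `I T` of `P` (`UB3.D`): the ideals `JI W (I T)` form a `MonoSys`.
-/

set_option autoImplicit false
set_option linter.unusedSectionVars false
set_option linter.unusedVariables false
set_option linter.style.haveILetI false

namespace Crest.Agent.R188.AsmU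

open WittVector Crest.Agent.R183 Crest.Agent.R188.Prf Crest.Agent.R188.Wit Crest.Agent.R188.Flg
open Crest.Agent.R188.Cmp Crest.Agent.R188.Asm Crest.Agent.R188.AsmG Crest.Agent.R188.UB

attribute [local instance] World.ringP

variable {p : ℕ} [hp : Fact p.Prime] {k : Type} [Field k] [CharP k p] {b : ℕ} (W : World p k b)

lemma World.nontrivial_P : Nontrivial W.P := by
  by_contra h
  rw [not_nontrivial_iff_subsingleton] at h
  apply W.L_ne_zero
  haveI : Subsingleton (W.P ⧸ Ideal.span (Set.range W.t)) :=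
    (Ideal.Quotient.mk_surjective (I := Ideal.span (Set.range W.t))).subsingleton
  exact (LP W.Λ).L_subsingleton

instance World.charP : CharP W.P p := by
  haveI := World.nontrivial_P W
  exact (CharP.charP_iff_prime_eq_zero hp.out).2 W.perf.p_zero

section IT

variable {κ : Type} [Fintype κ] [DecidableEq κ] {s : κ → ℕ} (g : (Σ k, Fin (s k)) → W.P)

/-- the monomial ideal `I T ⊆ P`, `T` natural -/
noncomputable def IT (T : κ → ℕ) : Ideal W.P :=
  (UB.D W.perf g).I (eν W.perf g (toR T))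


lemma convex_IT (T : κ → ℕ) : Digit.Convex p (IT W g T) := (UB.D W.perf g).I_convex _

lemma exists_pow_mem_IT (i₀ : ∀ j, Fin (s j)) (T : κ → ℕ) :
    ∃ m, hc g i₀ ^ m ∈ IT W g T := exists_pow_hc_mem_I W.perf g i₀ (toR_nonneg T)

/-- the `MonoSys` of the ideals `JI W (IT W g T)`. -/
theorem monoSys_IT (i₀ : ∀ j, Fin (s j)) (hs : ∀ j, 0 < s j)
    (hreg : ∀ j, ∀ x : Om W.ξ, sh W.ξ (g ⟨j, i₀ j⟩) * x = 0 → x = 0) (m : ℕ)
    (hm : ∀ j, s j ≤ m + 1) :
    MonoSys (aI W (hc g i₀)) s (fun j i => sh W.ξ (g ⟨j, i⟩)) m (fun T => JI W (IT W g T)) := by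
  have h := (monoSys_J (UB.D W.perf g) (ξ := W.ξ) (π := W.π)
    (fun j i => ΘS W.perf g (DD.nat p 1) j i)
    (fun j => eν W.perf g (Pi.single j ((DD.nat p 1 : DD p) : ℝ)))
    (fun T => eν W.perf g (toR T)) W.dist (eν_toR_zero W.perf g)
    (fun t j => eν_toR_single W.perf g t j) (fun j i => ΘS_mem W.perf g (DD.nat p 1) j i)
    (fun T j hT => kosEx_nat W.perf g T (hs j) hT) (h₀ := hc g i₀)
    (fun t => nul W.perf g _ i₀) (fun t => exists_pow_hc_mem_I W.perf g i₀ (toR_nonneg t))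
    (fun j => ⟨i₀ j, ?_⟩) m hm).1
  · simp only [ε_ΘS_one] at h
    exact h
  · rw [ε_ΘS_one]
    exact hreg j

end IT

section flag

variable {r : ℕ} (L : Matrix (Fin r) (Fin r) (BPlus p k b))

/-- the minors of `L` in `B⁺` -/
noncomputable def minors : ∀ j, Fin (flagS r j) → BPlus p k b :=
  flagG (Tri.rows (BPlus p k b) L)


lemma flagG_rows (j : Fin (r + 1)) (i : Fin (flagS r j)) :
    flagG (Tri.rows (Om W.ξ) L) j i = W.ι (minors L j i) := by
  have h1 : (Tri.rows (Om W.ξ) L) = fun k' c => W.ι (Tri.rows (BPlus p k b) L k' c) := by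
    funext k' c
    unfold Tri.rows
    split_ifs
    · rfl
    · rw [map_zero]
  rw [h1, flagG_map]
  rfl

lemma exists_minors_ne_zero (hL : L.det ≠ 0) (j : Fin (r + 1)) : ∃ i, minors L j i ≠ 0 := by
  refine exists_flagG_ne_zero _ ?_ j
  have : (Matrix.of fun i j : Fin r => Tri.rows (BPlus p k b) L i j) = L := by
    ext i j
    simp [Tri.rows]
  rwa [this]

lemma flagS_pos (hr : 0 < r) (j : Fin (r + 1)) : 0 < flagS r j := by
  haveI : Nonempty (Fin r) := ⟨⟨0, hr⟩⟩
  exact Fintype.card_pos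

/-- a bound for the number of minors -/
def mB' (r : ℕ) : ℕ := Finset.univ.sup (flagS r)

lemma flagS_le (j : Fin (r + 1)) : flagS r j ≤ mB' r + 1 :=
  (Finset.le_sup (f := flagS r) (Finset.mem_univ j)).trans (Nat.le_succ _)

/-- **the `MonoSys` half of `Twist`**: everything but `growth` and `fin` of `Good`. -/
theorem twist_aux (hr : 0 < r) (hL : L.det ≠ 0) (F : SharpFam W (flagS r) (minors L))
    (i₀ : ∀ j, Fin (flagS r j)) (hi₀ : ∀ j, minors L j (i₀ j) ≠ 0) :
    SharpPair W.perf W.ι (hc F.a i₀) (fun n => ∏ j, F.rr ⟨j, i₀ j⟩ n) ∧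
    (∏ j, F.rr ⟨j, i₀ j⟩ 0) ≠ 0 ∧
    MonoSys (aI W (hc F.a i₀)) (flagS r) (flagG (Tri.rows (Om W.ξ) L)) (mB' r)
      (fun T => JI W (IT W F.a T)) := by
  obtain ⟨h1, h2⟩ := F.prod i₀ hi₀
  refine ⟨h1, h2, ?_⟩
  have h3 : flagG (Tri.rows (Om W.ξ) L) = fun j i => sh W.ξ (F.a ⟨j, i⟩) := by
    funext j i
    rw [flagG_rows, F.sh_a]
  rw [h3]
  refine monoSys_IT W F.a i₀ (flagS_pos hr) (fun j x hx => ?_) _ flagS_le
  rw [F.sh_a] at hx
  exact W.reg_ι _ (hi₀ j) x hx

/-- **`Twist` from the remaining parts of `Good`.** -/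
theorem twist_of_good (hG : ∀ (r : ℕ) (_ : 0 < r) (L : Matrix (Fin r) (Fin r) (BPlus p k b))
    (_ : L.det ≠ 0) (F : SharpFam W (flagS r) (minors L)) (i₀ : ∀ j, Fin (flagS r j))
    (_ : ∀ j, minors L j (i₀ j) ≠ 0) (T : Fin (r + 1) → ℕ),
      Good W (hc F.a i₀) (IT W F.a T)) : Twist W := by
  intro r hr L hL
  obtain ⟨F⟩ := nonempty_sharpFam W (flagS r) (minors L)
  choose i₀ hi₀ using exists_minors_ne_zero L hL
  obtain ⟨h1, h2, h3⟩ := twist_aux W L hr hL F i₀ hi₀
  exact ⟨_, _, h1, h2, IT W F.a, mB' r, h3, fun T => hG r hr L hL F i₀ hi₀ T⟩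

end flag

end Crest.Agent.R188.AsmU
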