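import Crest.Agent.R183.AddLen

-- ▼ part R188/ChiBasic
section

set_option autoImplicit false

namespace Crest.Agent.R188.Chi

open scoped ENNReal
open Crest.Agent.R183

universe u v

section cx

variable {A : Type u} [CommRing A]
variable {C : ℕ → Type v} [∀ i, AddCommGroup (C i)] [∀ i, Module A (C i)]
variable (d : ∀ i, C (i + 1) →ₗ[A] C i)

/-- `d` is a complex -/
def IsCx : Prop := ∀ i (x : C (i + 2)), d i (d (i + 1) x) = 0

/-- cycles -/
def Z : ∀ i, Submodule A (C i)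
  | 0 => ⊤
  | (i + 1) => LinearMap.ker (d i)

/-- boundaries -/
def B (i : ℕ) : Submodule A (C i) := LinearMap.range (d i)

/-- homology of the complex `d` in degree `i` -/
abbrev H (i : ℕ) : Type v := ↥(Z d i) ⧸ (B d i).comap (Z d i).subtype

variable {d}

variable (d) in
lemma mem_Z_zero (x : C 0) : x ∈ Z d 0 := Submodule.mem_top

lemma mem_Z_succ {i : ℕ} {x : C (i + 1)} : x ∈ Z d (i + 1) ↔ d i x = 0 := Iff.rfl

lemma mem_B {i : ℕ} {x : C i} : x ∈ B d i ↔ ∃ y, d i y = x := Iff.rfl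

lemma IsCx.B_le_Z (hd : IsCx d) (i : ℕ) : B d i ≤ Z d i := by
  rintro x ⟨y, rfl⟩
  cases i with
  | zero => exact mem_Z_zero d _
  | succ i => exact hd i y

variable (d) in
/-- class of a cycle -/
def cls (i : ℕ) : ↥(Z d i) →ₗ[A] H d i := Submodule.mkQ _

lemma cls_surjective (i : ℕ) : Function.Surjective (cls d i) := Submodule.mkQ_surjective _

lemma cls_eq_zero_iff {i : ℕ} (z : ↥(Z d i)) : cls d i z = 0 ↔ (z : C i) ∈ B d i := by
  unfold cls
  rw [← LinearMap.mem_ker, Submodule.ker_mkQ]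
  rfl

end cx

section functoriality

variable {A : Type u} [CommRing A]
variable {C C' C'' : ℕ → Type v} [∀ i, AddCommGroup (C i)] [∀ i, Module A (C i)]
  [∀ i, AddCommGroup (C' i)] [∀ i, Module A (C' i)]
  [∀ i, AddCommGroup (C'' i)] [∀ i, Module A (C'' i)]
variable {d : ∀ i, C (i + 1) →ₗ[A] C i} {d' : ∀ i, C' (i + 1) →ₗ[A] C' i}
  {d'' : ∀ i, C'' (i + 1) →ₗ[A] C'' i}

/-- chain maps -/
def IsMap (d : ∀ i, C (i + 1) →ₗ[A] C i) (d' : ∀ i, C' (i + 1) →ₗ[A] C' i)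
    (f : ∀ i, C i →ₗ[A] C' i) : Prop := ∀ i x, f i (d i x) = d' i (f (i + 1) x)

lemma IsMap.Z_le {f : ∀ i, C i →ₗ[A] C' i} (hf : IsMap d d' f) (i : ℕ) :
    Z d i ≤ (Z d' i).comap (f i) := by
  intro x hx
  cases i with
  | zero => exact Submodule.mem_top
  | succ i =>
    rw [Submodule.mem_comap, mem_Z_succ, ← hf i x, mem_Z_succ.1 hx, map_zero]

/-- the induced map on cycles -/
def Zmap {f : ∀ i, C i →ₗ[A] C' i} (hf : IsMap d d' f) (i : ℕ) : ↥(Z d i) →ₗ[A] ↥(Z d' i) :=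
  (f i).restrict (hf.Z_le i)

@[simp] lemma Zmap_coe {f : ∀ i, C i →ₗ[A] C' i} (hf : IsMap d d' f) (i : ℕ) (z : ↥(Z d i)) :
    ((Zmap hf i z : ↥(Z d' i)) : C' i) = f i z := rfl

/-- the induced map on homology -/
def Hmap {f : ∀ i, C i →ₗ[A] C' i} (hf : IsMap d d' f) (i : ℕ) : H d i →ₗ[A] H d' i :=
  Submodule.mapQ _ _ (Zmap hf i) (by
    rintro z ⟨y, hy⟩
    exact ⟨f (i + 1) y, by rw [← hf i y, hy]; rfl⟩)

@[simp] lemma Hmap_cls {f : ∀ i, C i →ₗ[A] C' i} (hf : IsMap d d' f) (i : ℕ) (z : ↥(Z d i)) :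
    Hmap hf i (cls d i z) = cls d' i (Zmap hf i z) := rfl

lemma IsMap.comp {f : ∀ i, C i →ₗ[A] C' i} {g : ∀ i, C' i →ₗ[A] C'' i} (hf : IsMap d d' f)
    (hg : IsMap d' d'' g) : IsMap d d'' (fun i => g i ∘ₗ f i) := fun i x => by
  simp only [LinearMap.comp_apply]; rw [hf, hg]

lemma IsMap.id : IsMap d d (fun _ => LinearMap.id) := fun _ _ => rfl

lemma Hmap_comp {f : ∀ i, C i →ₗ[A] C' i} {g : ∀ i, C' i →ₗ[A] C'' i} (hf : IsMap d d' f)
    (hg : IsMap d' d'' g) (i : ℕ) (x : H d i) :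
    Hmap (hf.comp hg) i x = Hmap hg i (Hmap hf i x) := by
  obtain ⟨z, rfl⟩ := cls_surjective i x
  rfl

lemma Hmap_id (i : ℕ) (x : H d i) : Hmap (IsMap.id (d := d)) i x = x := by
  obtain ⟨z, rfl⟩ := cls_surjective i x
  rfl

lemma Hmap_congr {f g : ∀ i, C i →ₗ[A] C' i} (hf : IsMap d d' f) (hg : IsMap d d' g)
    (h : f = g) (i : ℕ) (x : H d i) : Hmap hf i x = Hmap hg i x := by
  subst h; rfl

/-- two chain maps are homotopic -/
def Htpy (d : ∀ i, C (i + 1) →ₗ[A] C i) (d' : ∀ i, C' (i + 1) →ₗ[A] C' i)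
    (f g : ∀ i, C i →ₗ[A] C' i) (s : ∀ i, C i →ₗ[A] C' (i + 1)) : Prop :=
  (∀ x, f 0 x - g 0 x = d' 0 (s 0 x)) ∧
    ∀ i x, f (i + 1) x - g (i + 1) x = d' (i + 1) (s (i + 1) x) + s i (d i x)

lemma Hmap_eq_of_htpy {f g : ∀ i, C i →ₗ[A] C' i} (hf : IsMap d d' f) (hg : IsMap d d' g)
    {s : ∀ i, C i →ₗ[A] C' (i + 1)} (hs : Htpy d d' f g s) (i : ℕ) (x : H d i) :
    Hmap hf i x = Hmap hg i x := by
  obtain ⟨z, rfl⟩ := cls_surjective i x
  rw [Hmap_cls, Hmap_cls, ← sub_eq_zero, ← map_sub, cls_eq_zero_iff]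
  cases i with
  | zero => exact ⟨s 0 z, (hs.1 z).symm⟩
  | succ i =>
    refine ⟨s (i + 1) z, ?_⟩
    have := hs.2 i (z : C (i + 1))
    rw [mem_Z_succ.1 z.2, map_zero, add_zero] at this
    exact this.symm

/-- homotopy equivalences give isomorphisms on homology -/
def Hequiv {f : ∀ i, C i →ₗ[A] C' i} {g : ∀ i, C' i →ₗ[A] C i} (hf : IsMap d d' f)
    (hg : IsMap d' d g) {s : ∀ i, C i →ₗ[A] C (i + 1)} {t : ∀ i, C' i →ₗ[A] C' (i + 1)}
    (hs : Htpy d d (fun i => g i ∘ₗ f i) (fun _ => LinearMap.id) s)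
    (ht : Htpy d' d' (fun i => f i ∘ₗ g i) (fun _ => LinearMap.id) t) (i : ℕ) :
    H d i ≃ₗ[A] H d' i :=
  LinearEquiv.ofLinearMap (Hmap hf i) (Hmap hg i)
    (LinearMap.ext fun x => by
      simp only [LinearMap.comp_apply, LinearMap.id_apply]
      rw [← Hmap_comp hg hf, Hmap_eq_of_htpy (hg.comp hf) IsMap.id ht, Hmap_id])
    (LinearMap.ext fun x => by
      simp only [LinearMap.comp_apply, LinearMap.id_apply]
      rw [← Hmap_comp hf hg, Hmap_eq_of_htpy (hf.comp hg) IsMap.id hs, Hmap_id])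

/-- isomorphisms of complexes -/
def Hiso (e : ∀ i, C i ≃ₗ[A] C' i) (he : IsMap d d' (fun i => (e i : C i →ₗ[A] C' i))) (i : ℕ) :
    H d i ≃ₗ[A] H d' i :=
  have he' : IsMap d' d (fun i => ((e i).symm : C' i →ₗ[A] C i)) := fun i x => by
    apply (e i).injective
    have := he i ((e (i + 1)).symm x)
    simp only [LinearEquiv.coe_coe] at this ⊢
    rw [(e i).apply_symm_apply, this, (e (i + 1)).apply_symm_apply]
  LinearEquiv.ofLinearMap (Hmap he i) (Hmap he' i)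
    (LinearMap.ext fun x => by
      simp only [LinearMap.comp_apply, LinearMap.id_apply]
      rw [← Hmap_comp he' he, Hmap_congr (he'.comp he) IsMap.id (by ext i x; simp), Hmap_id])
    (LinearMap.ext fun x => by
      simp only [LinearMap.comp_apply, LinearMap.id_apply]
      rw [← Hmap_comp he he', Hmap_congr (he.comp he') IsMap.id (by ext i x; simp), Hmap_id])

/-- if `a` is null-homotopic on `C` then `a` kills the homology -/
lemma smul_H_eq_zero (a : A) {s : ∀ i, C i →ₗ[A] C (i + 1)}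
    (hs : Htpy d d (fun i => a • (LinearMap.id : C i →ₗ[A] C i)) (fun _ => 0) s) (i : ℕ)
    (x : H d i) : a • x = 0 := by
  have h1 : IsMap d d (fun i => a • (LinearMap.id : C i →ₗ[A] C i)) := fun i x => by simp
  have h0 : IsMap d d (fun i => (0 : C i →ₗ[A] C i)) := fun i x => by simp
  have := Hmap_eq_of_htpy h1 h0 hs i x
  obtain ⟨z, rfl⟩ := cls_surjective i x
  rw [Hmap_cls, Hmap_cls] at this
  rw [← map_smul]
  have e1 : Zmap h1 i z = a • z := by ext; simp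
  have e0 : Zmap h0 i z = 0 := by ext; simp
  rw [e1, e0, map_zero] at this
  exact this

end functoriality

end Crest.Agent.R188.Chi
end

-- ▼ part R188/ChiLES
section

set_option autoImplicit false

namespace Crest.Agent.R188.Chi

open scoped ENNReal
open Crest.Agent.R183

universe u v

variable {A : Type u} [CommRing A]
variable {C C' C'' : ℕ → Type v} [∀ i, AddCommGroup (C i)] [∀ i, Module A (C i)]
  [∀ i, AddCommGroup (C' i)] [∀ i, Module A (C' i)]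
  [∀ i, AddCommGroup (C'' i)] [∀ i, Module A (C'' i)]
variable {d : ∀ i, C (i + 1) →ₗ[A] C i} {d' : ∀ i, C' (i + 1) →ₗ[A] C' i}
  {d'' : ∀ i, C'' (i + 1) →ₗ[A] C'' i}

/-- short exact sequence of complexes `0 → C' → C → C'' → 0` -/
structure SES (d' : ∀ i, C' (i + 1) →ₗ[A] C' i) (d : ∀ i, C (i + 1) →ₗ[A] C i)
    (d'' : ∀ i, C'' (i + 1) →ₗ[A] C'' i) (f : ∀ i, C' i →ₗ[A] C i) (g : ∀ i, C i →ₗ[A] C'' i) :
    Prop where
  cf : IsMap d' d f
  cg : IsMap d d'' g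
  inj : ∀ i, Function.Injective (f i)
  surj : ∀ i, Function.Surjective (g i)
  exact : ∀ i, Function.Exact (f i) (g i)

variable {f : ∀ i, C' i →ₗ[A] C i} {g : ∀ i, C i →ₗ[A] C'' i}

namespace SES

/-- exactness in the middle -/
lemma exact_mid (hd : IsCx d) (S : SES d' d d'' f g) (i : ℕ) :
    Function.Exact (Hmap S.cf i) (Hmap S.cg i) := by
  intro x
  obtain ⟨z, rfl⟩ := cls_surjective i x
  rw [Hmap_cls, cls_eq_zero_iff, Zmap_coe]
  constructor
  · rintro ⟨y'', hy⟩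
    obtain ⟨y, rfl⟩ := S.surj (i + 1) y''
    rw [← S.cg i y] at hy
    obtain ⟨w, hw⟩ := (S.exact i ((z : C i) - d i y)).1 (by rw [map_sub, hy, sub_self])
    have hwZ : w ∈ Z d' i := by
      cases i with
      | zero => exact mem_Z_zero d' _
      | succ i =>
        rw [mem_Z_succ]
        apply S.inj i
        rw [S.cf i w, hw, map_sub, mem_Z_succ.1 z.2, hd i y, map_zero, sub_self]
    refine ⟨cls d' i ⟨w, hwZ⟩, ?_⟩
    rw [Hmap_cls, ← sub_eq_zero, ← map_sub, cls_eq_zero_iff]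
    refine ⟨-y, ?_⟩
    simp only [map_neg, AddSubgroupClass.coe_sub, Zmap_coe, hw]
    abel
  · rintro ⟨x', hx'⟩
    obtain ⟨z', rfl⟩ := cls_surjective i x'
    rw [Hmap_cls, ← sub_eq_zero, ← map_sub, cls_eq_zero_iff] at hx'
    obtain ⟨y, hy⟩ := hx'
    refine ⟨-g (i + 1) y, ?_⟩
    rw [map_neg, ← S.cg i y, hy]
    simp only [AddSubgroupClass.coe_sub, Zmap_coe, map_sub]
    rw [(S.exact i _).2 ⟨_, rfl⟩, zero_sub, neg_neg]

/-- the module of elements of `C (i+1)` whose image in `C''` is a cycle -/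
def W (S : SES d' d d'' f g) (i : ℕ) : Submodule A (C (i + 1)) :=
  LinearMap.ker (d'' i ∘ₗ g (i + 1))

lemma mem_W (S : SES d' d d'' f g) {i : ℕ} {c : C (i + 1)} :
    c ∈ S.W i ↔ g i (d i c) = 0 := by
  unfold W; rw [LinearMap.mem_ker, LinearMap.comp_apply, ← S.cg i c]

/-- `c ↦ f⁻¹ (d c)` on `W` -/
noncomputable def lift (S : SES d' d d'' f g) (i : ℕ) : ↥(S.W i) →ₗ[A] C' i :=
  (LinearEquiv.ofInjective (f i) (S.inj i)).symm.toLinearMap ∘ₗ
    LinearMap.codRestrict (LinearMap.range (f i)) (d i ∘ₗ (S.W i).subtype)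
      (fun c => (S.exact i _).1 (S.mem_W.1 c.2))

lemma f_lift (S : SES d' d d'' f g) (i : ℕ) (c : ↥(S.W i)) : f i (S.lift i c) = d i c := by
  have := (LinearEquiv.ofInjective (f i) (S.inj i)).apply_symm_apply
    (LinearMap.codRestrict (LinearMap.range (f i)) (d i ∘ₗ (S.W i).subtype)
      (fun c => (S.exact i _).1 (S.mem_W.1 c.2)) c)
  exact congrArg Subtype.val this

lemma lift_mem_Z (hd : IsCx d) (S : SES d' d d'' f g) (i : ℕ) (c : ↥(S.W i)) :
    S.lift i c ∈ Z d' i := by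
  cases i with
  | zero => exact mem_Z_zero d' _
  | succ i =>
    rw [mem_Z_succ]
    apply S.inj i
    rw [S.cf i, f_lift, hd i, map_zero]

/-- `W → H (C') i` -/
noncomputable def toK (hd : IsCx d) (S : SES d' d d'' f g) (i : ℕ) : ↥(S.W i) →ₗ[A] H d' i :=
  cls d' i ∘ₗ LinearMap.codRestrict (Z d' i) (S.lift i) (fun c => S.lift_mem_Z hd i c)

lemma range_toK (hd : IsCx d) (S : SES d' d d'' f g) (i : ℕ) :
    LinearMap.range (S.toK hd i) = LinearMap.ker (Hmap S.cf i) := by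
  ext x
  constructor
  · rintro ⟨c, rfl⟩
    rw [LinearMap.mem_ker]
    unfold toK
    rw [LinearMap.comp_apply, Hmap_cls, cls_eq_zero_iff]
    exact ⟨c, by simp [f_lift]⟩
  · intro hx
    obtain ⟨z, rfl⟩ := cls_surjective i x
    rw [LinearMap.mem_ker, Hmap_cls, cls_eq_zero_iff] at hx
    obtain ⟨c, hc⟩ := hx
    have hcW : c ∈ S.W i := by
      rw [mem_W, hc, Zmap_coe]
      exact (S.exact i _).2 ⟨_, rfl⟩
    refine ⟨⟨c, hcW⟩, ?_⟩
    unfold toK
    rw [LinearMap.comp_apply]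
    congr 1
    ext
    apply S.inj i
    simp only [LinearMap.codRestrict_apply, f_lift]
    exact hc

lemma ker_toK (hd : IsCx d) (S : SES d' d d'' f g) (i : ℕ) :
    LinearMap.ker (S.toK hd i) =
      (Z d (i + 1) ⊔ LinearMap.range (f (i + 1))).comap (S.W i).subtype := by
  ext c
  rw [LinearMap.mem_ker]
  unfold toK
  rw [LinearMap.comp_apply, cls_eq_zero_iff, Submodule.mem_comap]
  simp only [LinearMap.codRestrict_apply, Submodule.subtype_apply]
  constructor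
  · rintro ⟨y, hy⟩
    have h1 : d i c = d i (f (i + 1) y) := by rw [← S.f_lift i c, ← hy, S.cf i y]
    rw [Submodule.mem_sup]
    refine ⟨(c : C (i + 1)) - f (i + 1) y, ?_, f (i + 1) y, ⟨y, rfl⟩, by abel⟩
    rw [mem_Z_succ, map_sub, h1, sub_self]
  · intro h
    rw [Submodule.mem_sup] at h
    obtain ⟨z, hz, _, ⟨y, rfl⟩, hzy⟩ := h
    refine ⟨y, ?_⟩
    apply S.inj i
    rw [S.cf i y, f_lift, ← hzy, map_add, mem_Z_succ.1 hz, zero_add]

/-- `W → Z (C'') (i+1)` -/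
def toZ (S : SES d' d d'' f g) (i : ℕ) : ↥(S.W i) →ₗ[A] ↥(Z d'' (i + 1)) :=
  LinearMap.codRestrict (Z d'' (i + 1)) (g (i + 1) ∘ₗ (S.W i).subtype)
    (fun c => by
      have := c.2
      rw [mem_W, S.cg i] at this
      exact this)

lemma toZ_coe (S : SES d' d d'' f g) (i : ℕ) (c : ↥(S.W i)) :
    ((S.toZ i c : ↥(Z d'' (i + 1))) : C'' (i + 1)) = g (i + 1) (c : C (i + 1)) := rfl

/-- `W → H (C'') (i+1) / image` -/
noncomputable def toQ (S : SES d' d d'' f g) (i : ℕ) :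
    ↥(S.W i) →ₗ[A] (H d'' (i + 1) ⧸ LinearMap.range (Hmap S.cg (i + 1))) :=
  Submodule.mkQ _ ∘ₗ cls d'' (i + 1) ∘ₗ S.toZ i

lemma toQ_surjective (S : SES d' d d'' f g) (i : ℕ) : Function.Surjective (S.toQ i) := by
  intro q
  obtain ⟨x, rfl⟩ := Submodule.mkQ_surjective _ q
  obtain ⟨z, rfl⟩ := cls_surjective (i + 1) x
  obtain ⟨c, hc⟩ := S.surj (i + 1) z
  have hcW : c ∈ S.W i := by
    rw [mem_W, S.cg i, hc]; exact z.2
  refine ⟨⟨c, hcW⟩, ?_⟩
  unfold toQ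
  simp only [LinearMap.comp_apply]
  congr 2
  ext
  exact hc

lemma ker_toQ (hd : IsCx d) (S : SES d' d d'' f g) (i : ℕ) :
    LinearMap.ker (S.toQ i) =
      (Z d (i + 1) ⊔ LinearMap.range (f (i + 1))).comap (S.W i).subtype := by
  ext c
  rw [LinearMap.mem_ker]
  unfold toQ
  simp only [LinearMap.comp_apply]
  rw [← LinearMap.mem_ker, Submodule.ker_mkQ, Submodule.mem_comap]
  simp only [Submodule.subtype_apply]
  constructor
  · rintro ⟨x, hx⟩
    obtain ⟨z, rfl⟩ := cls_surjective (i + 1) x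
    rw [Hmap_cls, ← sub_eq_zero, ← map_sub, cls_eq_zero_iff] at hx
    obtain ⟨y'', hy⟩ := hx
    obtain ⟨y, rfl⟩ := S.surj (i + 2) y''
    rw [← S.cg (i + 1) y] at hy
    rw [AddSubgroupClass.coe_sub, Zmap_coe, toZ_coe] at hy
    obtain ⟨w, hw⟩ := (S.exact (i + 1) ((c : C (i + 1)) - (z - d (i + 1) y))).1 (by
      rw [map_sub, map_sub, hy]; abel)
    rw [Submodule.mem_sup]
    refine ⟨(z : C (i + 1)) - d (i + 1) y, ?_, f (i + 1) w, ⟨w, rfl⟩, by rw [hw]; abel⟩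
    rw [mem_Z_succ, map_sub, mem_Z_succ.1 z.2, hd i y, sub_zero]
  · intro h
    rw [Submodule.mem_sup] at h
    obtain ⟨z, hz, _, ⟨y, rfl⟩, hzy⟩ := h
    refine ⟨cls d (i + 1) ⟨z, hz⟩, ?_⟩
    rw [Hmap_cls]
    congr 1
    ext
    rw [Zmap_coe, toZ_coe, ← hzy, map_add, (S.exact (i + 1) _).2 ⟨_, rfl⟩, add_zero]

/-- the snake isomorphism `coker (H_{i+1} C → H_{i+1} C'') ≃ ker (H_i C' → H_i C)` -/
noncomputable def snake (hd : IsCx d) (S : SES d' d d'' f g) (i : ℕ) :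
    (H d'' (i + 1) ⧸ LinearMap.range (Hmap S.cg (i + 1))) ≃ₗ[A]
      ↥(LinearMap.ker (Hmap S.cf i)) :=
  ((S.toQ i).quotKerEquivOfSurjective (S.toQ_surjective i)).symm ≪≫ₗ
    Submodule.quotEquivOfEq _ _ ((S.ker_toQ hd i).trans (S.ker_toK hd i).symm) ≪≫ₗ
    (S.toK hd i).quotKerEquivRange ≪≫ₗ
    LinearEquiv.ofEq _ _ (S.range_toK hd i)

/-- in degree `0` the map to the quotient complex is onto -/
lemma surj_zero (S : SES d' d d'' f g) : Function.Surjective (Hmap S.cg 0) := by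
  intro x
  obtain ⟨z, rfl⟩ := cls_surjective 0 x
  obtain ⟨c, hc⟩ := S.surj 0 z
  exact ⟨cls d 0 ⟨c, mem_Z_zero d c⟩, by rw [Hmap_cls]; congr 1; ext; exact hc⟩

end SES

end Crest.Agent.R188.Chi
end

-- ▼ part R188/ChiAdd

set_option autoImplicit false

namespace Crest.Agent.R188.Chi

open scoped ENNReal
open Crest.Agent.R183

universe u v

variable {A : Type u} [CommRing A] (Λ : AddLen.{u, v} A)
variable {C C' C'' : ℕ → Type v} [∀ i, AddCommGroup (C i)] [∀ i, Module A (C i)]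
  [∀ i, AddCommGroup (C' i)] [∀ i, Module A (C' i)]
  [∀ i, AddCommGroup (C'' i)] [∀ i, Module A (C'' i)]

/-- length of the `i`-th homology -/
noncomputable def h (d : ∀ i, C (i + 1) →ₗ[A] C i) (i : ℕ) : ℝ≥0∞ := Λ.L (H d i)

/-- the Euler characteristic of `H_0, …, H_{N-1}` -/
noncomputable def chi (d : ∀ i, C (i + 1) →ₗ[A] C i) (N : ℕ) : ℝ :=
  ∑ i ∈ Finset.range N, (-1) ^ i * (h Λ d i).toReal

variable {d : ∀ i, C (i + 1) →ₗ[A] C i} {d' : ∀ i, C' (i + 1) →ₗ[A] C' i}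
  {d'' : ∀ i, C'' (i + 1) →ₗ[A] C'' i}
variable {f : ∀ i, C' i →ₗ[A] C i} {g : ∀ i, C i →ₗ[A] C'' i}

lemma h_le (d : ∀ i, C (i + 1) →ₗ[A] C i) (i : ℕ) : h Λ d i ≤ Λ.L (C i) :=
  (Λ.L_quotient_le _).trans (Λ.L_submodule_le _)


lemma h_eq_zero_of_subsingleton (d : ∀ i, C (i + 1) →ₗ[A] C i) (i : ℕ) [Subsingleton (C i)] :
    h Λ d i = 0 :=
  le_antisymm ((h_le Λ d i).trans (Λ.L_subsingleton).le) zero_le

lemma chi_zero (d : ∀ i, C (i + 1) →ₗ[A] C i) : chi Λ d 0 = 0 := by simp [chi]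

lemma chi_succ (d : ∀ i, C (i + 1) →ₗ[A] C i) (N : ℕ) :
    chi Λ d (N + 1) = chi Λ d N + (-1) ^ N * (h Λ d N).toReal := by
  unfold chi; rw [Finset.sum_range_succ]

lemma chi_eq_of_le {N N' : ℕ} (hN : N ≤ N') (h0 : ∀ i, N ≤ i → i < N' → h Λ d i = 0) :
    chi Λ d N' = chi Λ d N := by
  unfold chi
  refine (Finset.sum_subset (Finset.range_mono hN) fun i hi hi' => ?_).symm
  rw [Finset.mem_range] at hi hi'
  rw [h0 i (not_lt.1 hi') hi]; simp

lemma chi_congr {N : ℕ} (hh : ∀ i < N, h Λ d i = h Λ d' i) : chi Λ d N = chi Λ d' N := by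
  unfold chi
  exact Finset.sum_congr rfl fun i hi => by rw [hh i (Finset.mem_range.1 hi)]

namespace SES

/-- length of the kernel of `H_i C' → H_i C` -/
noncomputable def k (S : SES d' d d'' f g) (i : ℕ) : ℝ≥0∞ :=
  Λ.L ↥(LinearMap.ker (Hmap S.cf i))

lemma k_le_left (S : SES d' d d'' f g) (i : ℕ) : S.k Λ i ≤ h Λ d' i := Λ.L_submodule_le _

lemma k_eq (hd : IsCx d) (S : SES d' d d'' f g) (i : ℕ) :
    S.k Λ i = Λ.L (H d'' (i + 1) ⧸ LinearMap.range (Hmap S.cg (i + 1))) :=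
  (Λ.L_congr (S.snake hd i)).symm

lemma k_le_right (hd : IsCx d) (S : SES d' d d'' f g) (i : ℕ) :
    S.k Λ i ≤ h Λ d'' (i + 1) := by
  rw [S.k_eq Λ hd]; exact Λ.L_quotient_le _

lemma h_left (S : SES d' d d'' f g) (i : ℕ) :
    h Λ d' i = S.k Λ i + Λ.L ↥(LinearMap.range (Hmap S.cf i)) :=
  Λ.L_ker_add_range (Hmap S.cf i)

lemma h_mid (hd : IsCx d) (S : SES d' d d'' f g) (i : ℕ) :
    h Λ d i = Λ.L ↥(LinearMap.range (Hmap S.cf i)) + Λ.L ↥(LinearMap.range (Hmap S.cg i)) := by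
  have e : LinearMap.ker (Hmap S.cg i) = LinearMap.range (Hmap S.cf i) :=
    LinearMap.exact_iff.1 (S.exact_mid hd i)
  rw [← e]
  exact Λ.L_ker_add_range (Hmap S.cg i)

lemma h_right_zero (S : SES d' d d'' f g) :
    h Λ d'' 0 = Λ.L ↥(LinearMap.range (Hmap S.cg 0)) := by
  have e : LinearMap.range (Hmap S.cg 0) = ⊤ := LinearMap.range_eq_top.2 S.surj_zero
  rw [e]
  exact (Λ.L_congr (Submodule.topEquiv (R := A) (M := H d'' 0))).symm

lemma h_right_succ (hd : IsCx d) (S : SES d' d d'' f g) (i : ℕ) :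
    h Λ d'' (i + 1) = Λ.L ↥(LinearMap.range (Hmap S.cg (i + 1))) + S.k Λ i := by
  rw [S.k_eq Λ hd]
  exact Λ.L_eq_add_quotient _

/-- the basic identity in degree 0 -/
lemma key_zero (hd : IsCx d) (S : SES d' d d'' f g) :
    h Λ d' 0 + h Λ d'' 0 = h Λ d 0 + S.k Λ 0 := by
  rw [S.h_left Λ 0, S.h_right_zero Λ, S.h_mid Λ hd 0]; ring

/-- the basic identity in positive degrees -/
lemma key_succ (hd : IsCx d) (S : SES d' d d'' f g) (i : ℕ) :
    h Λ d' (i + 1) + h Λ d'' (i + 1) = h Λ d (i + 1) + S.k Λ (i + 1) + S.k Λ i := by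
  rw [S.h_left Λ (i + 1), S.h_right_succ Λ hd i, S.h_mid Λ hd (i + 1)]; ring

lemma h_mid_le (hd : IsCx d) (S : SES d' d d'' f g) (i : ℕ) :
    h Λ d i ≤ h Λ d' i + h Λ d'' i := by
  cases i with
  | zero => rw [S.key_zero Λ hd]; exact le_self_add
  | succ i => rw [S.key_succ Λ hd, add_assoc]; exact le_self_add

lemma h_left_le (hd : IsCx d) (S : SES d' d d'' f g) (i : ℕ) :
    h Λ d' i ≤ h Λ d i + h Λ d'' (i + 1) := by
  rw [S.h_left Λ i, S.h_mid Λ hd i, add_comm]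
  exact add_le_add le_self_add (S.k_le_right Λ hd i)

lemma h_right_le_succ (hd : IsCx d) (S : SES d' d d'' f g) (i : ℕ) :
    h Λ d'' (i + 1) ≤ h Λ d (i + 1) + h Λ d' i := by
  rw [S.h_right_succ Λ hd i, S.h_mid Λ hd (i + 1)]
  exact add_le_add le_add_self (S.k_le_left Λ i)

lemma h_right_le_zero (hd : IsCx d) (S : SES d' d d'' f g) : h Λ d'' 0 ≤ h Λ d 0 := by
  rw [S.h_right_zero Λ, S.h_mid Λ hd 0]; exact le_add_self

lemma h_mid_ne_top (hd : IsCx d) (S : SES d' d d'' f g) {i : ℕ} (h1 : h Λ d' i ≠ ⊤)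
    (h2 : h Λ d'' i ≠ ⊤) : h Λ d i ≠ ⊤ :=
  ne_top_of_le_ne_top (ENNReal.add_ne_top.2 ⟨h1, h2⟩) (S.h_mid_le Λ hd i)

lemma h_left_ne_top (hd : IsCx d) (S : SES d' d d'' f g) {i : ℕ} (h1 : h Λ d i ≠ ⊤)
    (h2 : h Λ d'' (i + 1) ≠ ⊤) : h Λ d' i ≠ ⊤ :=
  ne_top_of_le_ne_top (ENNReal.add_ne_top.2 ⟨h1, h2⟩) (S.h_left_le Λ hd i)


/-- additivity of the truncated Euler characteristic, with the error term -/
lemma chi_add_error (hd : IsCx d) (S : SES d' d d'' f g) (N : ℕ)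
    (h1 : ∀ i ≤ N, h Λ d' i ≠ ⊤) (h2 : ∀ i ≤ N, h Λ d'' i ≠ ⊤) :
    chi Λ d' (N + 1) + chi Λ d'' (N + 1) =
      chi Λ d (N + 1) + (-1) ^ N * (S.k Λ N).toReal := by
  have hm : ∀ i ≤ N, h Λ d i ≠ ⊤ := fun i hi => S.h_mid_ne_top Λ hd (h1 i hi) (h2 i hi)
  have hk : ∀ i ≤ N, S.k Λ i ≠ ⊤ := fun i hi => ne_top_of_le_ne_top (h1 i hi) (S.k_le_left Λ i)
  induction N with
  | zero =>
    simp only [chi_succ, chi_zero]
    have := congrArg ENNReal.toReal (S.key_zero Λ hd)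
    rw [ENNReal.toReal_add (h1 0 le_rfl) (h2 0 le_rfl),
      ENNReal.toReal_add (hm 0 le_rfl) (hk 0 le_rfl)] at this
    simp only [pow_zero, one_mul, zero_add]
    linarith
  | succ N ih =>
    have ih' := ih (fun i hi => h1 i (hi.trans (Nat.le_succ N)))
      (fun i hi => h2 i (hi.trans (Nat.le_succ N))) (fun i hi => hm i (hi.trans (Nat.le_succ N)))
      (fun i hi => hk i (hi.trans (Nat.le_succ N)))
    rw [chi_succ Λ d' (N + 1), chi_succ Λ d'' (N + 1), chi_succ Λ d (N + 1)]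
    have := congrArg ENNReal.toReal (S.key_succ Λ hd N)
    rw [ENNReal.toReal_add (h1 _ le_rfl) (h2 _ le_rfl),
      ENNReal.toReal_add (ENNReal.add_ne_top.2 ⟨hm _ le_rfl, hk _ le_rfl⟩) (hk N (Nat.le_succ N)),
      ENNReal.toReal_add (hm _ le_rfl) (hk _ le_rfl)] at this
    have e : ((-1 : ℝ)) ^ (N + 1) = - (-1) ^ N := by rw [pow_succ]; ring
    rw [e]
    linear_combination ih' - (-1 : ℝ) ^ N * this

/-- additivity of the Euler characteristic -/
theorem chi_add (hd : IsCx d) (S : SES d' d d'' f g) (N : ℕ)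
    (h1 : ∀ i < N, h Λ d' i ≠ ⊤) (h2 : ∀ i < N, h Λ d'' i ≠ ⊤)
    (h0 : h Λ d'' N = 0) :
    chi Λ d N = chi Λ d' N + chi Λ d'' N := by
  cases N with
  | zero => simp [chi_zero]
  | succ N =>
    have hk : S.k Λ N = 0 := le_antisymm ((S.k_le_right Λ hd N).trans h0.le) zero_le
    have := S.chi_add_error Λ hd N (fun i hi => h1 i (Nat.lt_succ_of_le hi))
      (fun i hi => h2 i (Nat.lt_succ_of_le hi))
    rw [hk] at this
    simpa using this.symm


end SES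

end Crest.Agent.R188.Chi
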