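/-
R188, block (A3): homology, lengths and Euler characteristics of `F ⊗_R X` for a complex of finite
free `R`-modules given by matrices (`MCx R` of R183/Res1, helper969) and a module `X` over `R` and
over `A` (the length `Λ` lives on `A`-modules).   helper876
-/
import Crest.Agent.R183.Res5
import Crest.Agent.R188.ChiAdd

set_option autoImplicit false
set_option linter.unusedSectionVars false

namespace Crest.Agent.R188.Chi

open scoped ENNReal
open Crest.Agent.R183 Crest.Agent.R183.Res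

universe u v w

section basic

variable {R : Type w} [CommRing R] {A : Type u} [CommRing A] (Λ : AddLen.{u, v} A)

section defs

variable (F : MCx R) (A) (X : Type v) [AddCommGroup X] [Module A X] [Module R X]
  [SMulCommClass R A X]

/-- homology `H_i(F ⊗_R X)` as an `A`-module -/
abbrev HX (i : ℕ) : Type v := H (C := fun n => F.ι n → X) (F.dA A X) i

variable {A}

/-- length of `H_i(F ⊗_R X)` -/
noncomputable def hX (i : ℕ) : ℝ≥0∞ := h Λ (C := fun n => F.ι n → X) (F.dA A X) i

/-- Euler characteristic of `H_i(F ⊗_R X)`, `i < N` -/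
noncomputable def chiX (N : ℕ) : ℝ := chi Λ (C := fun n => F.ι n → X) (F.dA A X) N

variable (A) in
lemma isCx_dA : IsCx (C := fun n => F.ι n → X) (F.dA A X) := fun i x => F.dM_dM i x

lemma hX_eq (i : ℕ) : hX Λ F X i = Λ.L (HX A F X i) := rfl

lemma chiX_eq (N : ℕ) : chiX Λ F X N = ∑ i ∈ Finset.range N, (-1) ^ i * (hX Λ F X i).toReal := rfl



lemma hX_eq_zero_of_isEmpty (i : ℕ) (hi : IsEmpty (F.ι i)) : hX Λ F X i = 0 := by
  have : Subsingleton (F.ι i → X) := ⟨fun a b => funext fun j => (hi.false j).elim⟩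
  exact h_eq_zero_of_subsingleton Λ (C := fun n => F.ι n → X) (F.dA A X) i

lemma hX_eq_zero_of_len {D : ℕ} (hF : F.Len D) {i : ℕ} (hi : D < i) : hX Λ F X i = 0 :=
  hX_eq_zero_of_isEmpty Λ F X i (hF i hi)

lemma hX_subsingleton [Subsingleton X] (i : ℕ) : hX Λ F X i = 0 :=
  h_eq_zero_of_subsingleton Λ (C := fun n => F.ι n → X) (F.dA A X) i

lemma chiX_eq_of_len {D : ℕ} (hF : F.Len D) {N : ℕ} (hN : D < N) :
    chiX Λ F X N = chiX Λ F X (D + 1) :=
  chi_eq_of_le Λ hN fun _ hi _ => hX_eq_zero_of_len Λ F X hF hi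

end defs

section functoriality

variable {X Y Z : Type v} [AddCommGroup X] [Module A X] [Module R X] [SMulCommClass R A X]
  [AddCommGroup Y] [Module A Y] [Module R Y] [SMulCommClass R A Y]
  [AddCommGroup Z] [Module A Z] [Module R Z] [SMulCommClass R A Z]

/-- `f` is also `R`-linear -/
def RLin (R : Type w) [CommRing R] {A : Type u} [CommRing A]
    {X Y : Type v} [AddCommGroup X] [Module A X] [Module R X]
    [AddCommGroup Y] [Module A Y] [Module R Y] (f : X →ₗ[A] Y) : Prop :=
  ∀ (r : R) (x : X), f (r • x) = r • f x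

lemma RLin.of_tower [Algebra R A] [IsScalarTower R A X] [IsScalarTower R A Y] (f : X →ₗ[A] Y) :
    RLin R f := fun r x => by
  rw [← algebraMap_smul A r x, map_smul, algebraMap_smul]

/-- the chain map `F ⊗ X → F ⊗ Y` -/
def pmap (F : MCx R) (f : X →ₗ[A] Y) (i : ℕ) : (F.ι i → X) →ₗ[A] (F.ι i → Y) := post (F.ι i) f

@[simp] lemma pmap_apply (F : MCx R) (f : X →ₗ[A] Y) (i : ℕ) (v : F.ι i → X) (a : F.ι i) :
    pmap F f i v a = f (v a) := rfl

lemma isMap_pmap (F : MCx R) {f : X →ₗ[A] Y} (hf : RLin R f) :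
    IsMap (C := fun n => F.ι n → X) (C' := fun n => F.ι n → Y) (F.dA A X) (F.dA A Y)
      (pmap F f) := by
  intro i v
  funext a
  rw [pmap_apply, MCx.dA_apply, MCx.dA_apply]
  show f (∑ b, F.d i a b • v b) = ∑ b, F.d i a b • f (v b)
  rw [map_sum]
  exact Finset.sum_congr rfl fun b _ => hf _ _

/-- `H_i(F ⊗ X) ≃ H_i(F ⊗ Y)` for isomorphic `X, Y` -/
def HXcongr (F : MCx R) (e : X ≃ₗ[A] Y) (he : RLin R (e : X →ₗ[A] Y)) (i : ℕ) :
    HX A F X i ≃ₗ[A] HX A F Y i :=
  Hiso (C := fun n => F.ι n → X) (C' := fun n => F.ι n → Y)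
    (fun i => LinearEquiv.piCongrRight (fun _ : F.ι i => e)) (isMap_pmap F he) i

lemma hX_congr (F : MCx R) (e : X ≃ₗ[A] Y) (he : RLin R (e : X →ₗ[A] Y)) (i : ℕ) :
    hX Λ F X i = hX Λ F Y i := Λ.L_congr (HXcongr F e he i)

lemma chiX_congr (F : MCx R) (e : X ≃ₗ[A] Y) (he : RLin R (e : X →ₗ[A] Y)) (N : ℕ) :
    chiX Λ F X N = chiX Λ F Y N :=
  chi_congr Λ (C := fun n => F.ι n → X) (C' := fun n => F.ι n → Y)
    fun i _ => hX_congr Λ F e he i

/-- a short exact sequence of modules gives a short exact sequence of complexes -/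
lemma sesX (F : MCx R) {f : X →ₗ[A] Y} {g : Y →ₗ[A] Z} (hf : RLin R f) (hg : RLin R g)
    (inj : Function.Injective f) (surj : Function.Surjective g) (ex : Function.Exact f g) :
    SES (C' := fun n => F.ι n → X) (C := fun n => F.ι n → Y) (C'' := fun n => F.ι n → Z)
      (F.dA A X) (F.dA A Y) (F.dA A Z) (pmap F f) (pmap F g) where
  cf := isMap_pmap F hf
  cg := isMap_pmap F hg
  inj i := post_injective _ inj
  surj i := post_surjective _ surj
  exact i := by
    intro v
    constructor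
    · intro hv
      have : ∀ a, ∃ x, f x = v a := fun a => (ex (v a)).1 (congrFun hv a)
      choose x hx using this
      exact ⟨x, funext hx⟩
    · rintro ⟨x, rfl⟩
      funext a
      exact (ex _).2 ⟨x a, rfl⟩

variable {f : X →ₗ[A] Y} {g : Y →ₗ[A] Z}

lemma hX_mid_le (F : MCx R) (hf : RLin R f) (hg : RLin R g)
    (inj : Function.Injective f) (surj : Function.Surjective g) (ex : Function.Exact f g) (i : ℕ) :
    hX Λ F Y i ≤ hX Λ F X i + hX Λ F Z i :=
  (sesX F hf hg inj surj ex).h_mid_le Λ (isCx_dA A F Y) i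

lemma hX_left_le (F : MCx R) (hf : RLin R f) (hg : RLin R g)
    (inj : Function.Injective f) (surj : Function.Surjective g) (ex : Function.Exact f g) (i : ℕ) :
    hX Λ F X i ≤ hX Λ F Y i + hX Λ F Z (i + 1) :=
  (sesX F hf hg inj surj ex).h_left_le Λ (isCx_dA A F Y) i

lemma hX_right_le_succ (F : MCx R) (hf : RLin R f) (hg : RLin R g)
    (inj : Function.Injective f) (surj : Function.Surjective g) (ex : Function.Exact f g) (i : ℕ) :
    hX Λ F Z (i + 1) ≤ hX Λ F Y (i + 1) + hX Λ F X i :=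
  (sesX F hf hg inj surj ex).h_right_le_succ Λ (isCx_dA A F Y) i

lemma hX_right_le_zero (F : MCx R) (hf : RLin R f) (hg : RLin R g)
    (inj : Function.Injective f) (surj : Function.Surjective g) (ex : Function.Exact f g) :
    hX Λ F Z 0 ≤ hX Λ F Y 0 :=
  (sesX F hf hg inj surj ex).h_right_le_zero Λ (isCx_dA A F Y)

/-- additivity of the Euler characteristic in the coefficient module -/
theorem chiX_add (F : MCx R) (hf : RLin R f) (hg : RLin R g)
    (inj : Function.Injective f) (surj : Function.Surjective g) (ex : Function.Exact f g)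
    (N : ℕ) (h1 : ∀ i < N, hX Λ F X i ≠ ⊤) (h2 : ∀ i < N, hX Λ F Z i ≠ ⊤) (h0 : hX Λ F Z N = 0) :
    chiX Λ F Y N = chiX Λ F X N + chiX Λ F Z N :=
  (sesX F hf hg inj surj ex).chi_add Λ (isCx_dA A F Y) N h1 h2 h0

/-- additivity for a complex of length `≤ D` -/
theorem chiX_add_of_len (F : MCx R) {D : ℕ} (hF : F.Len D) (hf : RLin R f) (hg : RLin R g)
    (inj : Function.Injective f) (surj : Function.Surjective g) (ex : Function.Exact f g)
    {N : ℕ} (hN : D < N) (h1 : ∀ i ≤ D, hX Λ F X i ≠ ⊤) (h2 : ∀ i ≤ D, hX Λ F Z i ≠ ⊤) :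
    chiX Λ F Y N = chiX Λ F X N + chiX Λ F Z N := by
  rw [chiX_eq_of_len Λ F Y hF hN, chiX_eq_of_len Λ F X hF hN, chiX_eq_of_len Λ F Z hF hN]
  exact chiX_add Λ F hf hg inj surj ex (D + 1) (fun i hi => h1 i (Nat.lt_succ_iff.1 hi))
    (fun i hi => h2 i (Nat.lt_succ_iff.1 hi)) (hX_eq_zero_of_len Λ F Z hF (Nat.lt_succ_self D))

end functoriality

end basic

section finiteEuler

variable {A : Type u} [CommRing A] (Λ : AddLen.{u, v} A)
variable {C : ℕ → Type v} [∀ i, AddCommGroup (C i)] [∀ i, Module A (C i)]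






end finiteEuler

section finiteEulerX

variable {R : Type w} [CommRing R] {A : Type u} [CommRing A] (Λ : AddLen.{u, v} A)


end finiteEulerX

end Crest.Agent.R188.Chi
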