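/-
R188 (Serre positivity), block (A2c), part 7: complete intersections are finite free over power
series rings; the syzygy induction.   helper622
-/
import Mathlib
import Crest.Agent.R188.Noe6
import Crest.Agent.R183.CohenNoether

set_option autoImplicit false

namespace Crest.Agent.R188.Noe

open IsLocalRing RingTheory.Sequence Pointwise Crest.Agent.R183.Cohen

universe u v w

section complete

/-- A quotient of a precomplete module is precomplete. -/
theorem isPrecomplete_of_surjective {A : Type u} [CommRing A] (I : Ideal A) {M : Type v}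
    {N : Type w} [AddCommGroup M] [Module A M] [AddCommGroup N] [Module A N] [IsPrecomplete I M]
    (f : M →ₗ[A] N) (hf : Function.Surjective f) : IsPrecomplete I N := by
  rw [← AdicCompletion.of_surjective_iff]
  intro y
  obtain ⟨z, rfl⟩ := AdicCompletion.map_surjective I hf y
  obtain ⟨x, rfl⟩ := AdicCompletion.of_surjective I M z
  exact ⟨f x, (AdicCompletion.map_of I f x).symm⟩

/-- A quotient of a complete Noetherian local ring is complete. -/
theorem isAdicComplete_quotient {R : Type u} [CommRing R] [IsLocalRing R] [IsNoetherianRing R]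
    [IsAdicComplete (maximalIdeal R) R] (J : Ideal R) [IsLocalRing (R ⧸ J)] :
    IsAdicComplete (maximalIdeal (R ⧸ J)) (R ⧸ J) := by
  have h1 : (maximalIdeal R).map (algebraMap R (R ⧸ J)) = maximalIdeal (R ⧸ J) :=
    IsLocalRing.map_maximalIdeal_of_surjective _ Ideal.Quotient.mk_surjective
  have h2 : IsPrecomplete (maximalIdeal R) (R ⧸ J) :=
    isPrecomplete_of_surjective _ (Submodule.mkQ J) (Submodule.mkQ_surjective J)
  have h3 : IsPrecomplete (maximalIdeal (R ⧸ J)) (R ⧸ J) := by
    rw [← h1]
    exact IsPrecomplete.map_algebraMap_iff.2 h2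
  exact { h3 with toIsHausdorff := inferInstance }

end complete

section free

variable {B : Type u} [CommRing B] [IsRegularLocalRing B] {R : Type v} [CommRing R] [IsLocalRing R]
  [IsNoetherianRing R] [Algebra B R] {M : Type w} [AddCommGroup M] [Module R M] [Module B M]
  [IsScalarTower B R M]

/-- **CM modules which are finite over a regular local ring of the same dimension are free.** -/
theorem free_of_CM (hloc : (maximalIdeal B).map (algebraMap B R) ≤ maximalIdeal R) {n : ℕ}
    (hn : ringKrullDim B = (n : ℕ)) [Module.Finite R M] [Module.Finite B M] (hM : CM R n M)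
    (h0 : ringKrullDim (R ⧸ (Module.annihilator R M ⊔ (maximalIdeal B).map (algebraMap B R))) ≤ 0) :
    Module.Free B M := by
  classical
  have hsp : (maximalIdeal B).spanFinrank = n := by
    have := (isRegularLocalRing_iff B).1 inferInstance
    rw [hn] at this
    exact_mod_cast this
  obtain ⟨t, ht, hts⟩ := Submodule.FG.exists_span_finset_card_eq_spanFinrank
    (IsNoetherian.noetherian (maximalIdeal B))
  rw [hsp] at ht
  have hl : Ideal.ofList t.toList = maximalIdeal B := by
    rw [← hts, Ideal.ofList]
    congr 1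
    ext x
    simp
  have hlen : t.toList.length = n := by rw [Finset.length_toList, ht]
  have hmem : ∀ r ∈ t.toList, r ∈ maximalIdeal B := fun r hr => by
    rw [← hl]; exact Ideal.subset_span hr
  have hmem' : ∀ r ∈ t.toList.map (algebraMap B R), r ∈ maximalIdeal R := by
    intro r hr
    obtain ⟨s, hs, rfl⟩ := List.mem_map.1 hr
    exact hloc (Ideal.mem_map_of_mem _ (hmem s hs))
  have hl' : Ideal.ofList (t.toList.map (algebraMap B R)) =
      (maximalIdeal B).map (algebraMap B R) := by
    rw [← Ideal.map_ofList, hl]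
  have hlen' : (t.toList.map (algebraMap B R)).length = n := by rw [List.length_map, hlen]
  obtain ⟨h1, -⟩ := CM.regular_of_dim_le (t.toList.map (algebraMap B R)) hmem' 0 M
    (by rw [hlen', zero_add]; exact hM) (by
      rw [supportDim_quotient_smul_top, hl']
      exact_mod_cast h0)
  rw [isWeaklyRegular_map_algebraMap_iff] at h1
  exact free_of_dep hn ⟨t.toList, hlen, hmem, h1⟩

end free

section ring

variable {Λ : Type u} [CommRing Λ] [IsRegularLocalRing Λ] {R : Type v} [CommRing R] [IsLocalRing R]
  [IsNoetherianRing R] [IsAdicComplete (maximalIdeal R) R]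

omit [IsNoetherianRing R] in
theorem map_maximalIdeal_mvPS (φ : Λ →+* R) {b : ℕ} (t : Fin b → R)
    (ht : ∀ i, t i ∈ maximalIdeal R) :
    (maximalIdeal (MvPowerSeries (Fin b) Λ)).map (psEval (maximalIdeal R) φ t ht) =
      (maximalIdeal Λ).map φ ⊔ Ideal.span (Set.range t) := by
  rw [maximalIdeal_mvPowerSeries, Ideal.map_sup, Ideal.map_map, Ideal.map_span]
  congr 1
  · congr 1
    ext a
    rw [RingHom.comp_apply, psEval_C]
  · congr 1
    rw [← Set.range_comp]
    congr 1
    funext i
    exact psEval_X _ _ _ ht i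

/-- **Main normalisation theorem.**  `Λ` a regular complete local ring, `Λ → R` local with finite
residue field extension, `R` complete, `R/J` Cohen-Macaulay of dimension `dim Λ + b`, and `t` a
sequence of length `b` such that `J + m_Λ R + (t)` is primary to the maximal ideal.  Then `R/J` is
finite and free over `Λ[[X]] → R`, `X ↦ t`. -/
theorem noe_main [IsPrecomplete (maximalIdeal Λ) Λ] {b n : ℕ}
    (hn : ringKrullDim Λ + (b : ℕ) = (n : ℕ)) (φ : Λ →+* R) (hφ : IsLocalHom φ)
    (hres : ((residue R).comp φ).Finite) (t : Fin b → R) (ht : ∀ i, t i ∈ maximalIdeal R)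
    (J : Ideal R) (hJ : J ≤ maximalIdeal R) (hCM : CM R n (R ⧸ J)) {c : ℕ}
    (hc : maximalIdeal R ^ c ≤ J ⊔ (maximalIdeal Λ).map φ ⊔ Ideal.span (Set.range t))
    [Algebra (MvPowerSeries (Fin b) Λ) R]
    (halg : algebraMap (MvPowerSeries (Fin b) Λ) R = psEval (maximalIdeal R) φ t ht) :
    Module.Finite (MvPowerSeries (Fin b) Λ) (R ⧸ J) ∧
      Module.Free (MvPowerSeries (Fin b) Λ) (R ⧸ J) ∧
      Function.Injective (algebraMap (MvPowerSeries (Fin b) Λ) (R ⧸ J)) := by
  have hdomΛ : IsDomain Λ := isDomain_of_regular Λ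
  have hBreg : IsRegularLocalRing (MvPowerSeries (Fin b) Λ) := isRegularLocalRing_mvPowerSeries b
  have hne : J ≠ ⊤ := fun h => (maximalIdeal.isMaximal R).ne_top (top_le_iff.1 (h ▸ hJ))
  have hnt : Nontrivial (R ⧸ J) := Ideal.Quotient.nontrivial_iff.2 hne
  have hlocS : IsLocalRing (R ⧸ J) :=
    IsLocalRing.of_surjective' (Ideal.Quotient.mk _) Ideal.Quotient.mk_surjective
  have hcomp : IsAdicComplete (maximalIdeal (R ⧸ J)) (R ⧸ J) := isAdicComplete_quotient J
  have hmk : IsLocalHom (Ideal.Quotient.mk J) :=
    IsLocalHom.of_surjective _ Ideal.Quotient.mk_surjective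
  have hmS : (maximalIdeal R).map (Ideal.Quotient.mk J) = maximalIdeal (R ⧸ J) :=
    IsLocalRing.map_maximalIdeal_of_surjective _ Ideal.Quotient.mk_surjective
  let φ' : Λ →+* R ⧸ J := (Ideal.Quotient.mk J).comp φ
  have hφ' : IsLocalHom φ' := RingHom.isLocalHom_comp _ _
  let t' : Fin b → R ⧸ J := fun i => Ideal.Quotient.mk J (t i)
  have ht' : ∀ i, t' i ∈ maximalIdeal (R ⧸ J) := fun i => by
    rw [← hmS]; exact Ideal.mem_map_of_mem _ (ht i)
  have hres' : ((residue (R ⧸ J)).comp φ').Finite := by
    have h1 : (residue (R ⧸ J)).comp φ' =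
        (ResidueField.map (Ideal.Quotient.mk J)).comp ((residue R).comp φ) := by
      ext x; rfl
    rw [h1]
    refine RingHom.Finite.comp (RingHom.Finite.of_surjective _ ?_) hres
    intro y
    obtain ⟨y, rfl⟩ := residue_surjective y
    obtain ⟨y, rfl⟩ := Ideal.Quotient.mk_surjective y
    exact ⟨residue R y, rfl⟩
  have hc' : maximalIdeal (R ⧸ J) ^ c ≤ (maximalIdeal Λ).map φ' ⊔ Ideal.span (Set.range t') := by
    have h1 := Ideal.map_mono (f := Ideal.Quotient.mk J) hc
    rw [Ideal.map_pow, hmS, Ideal.map_sup, Ideal.map_sup, Ideal.map_quotient_self, bot_sup_eq,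
      Ideal.map_map, Ideal.map_span, ← Set.range_comp] at h1
    exact h1
  have hcompat : algebraMap (MvPowerSeries (Fin b) Λ) (R ⧸ J) =
      psEval (maximalIdeal (R ⧸ J)) φ' t' ht' := by
    have h1 : algebraMap (MvPowerSeries (Fin b) Λ) (R ⧸ J) =
        (Ideal.Quotient.mk J).comp (algebraMap (MvPowerSeries (Fin b) Λ) R) := rfl
    rw [h1]
    apply eq_psEval
    · intro a
      rw [RingHom.comp_apply, halg, psEval_C]
      rfl
    · intro i
      rw [RingHom.comp_apply, halg, psEval_X]
  have hdimS : ringKrullDim (R ⧸ J) = (n : ℕ) := by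
    rw [← Module.supportDim_quotient_eq_ringKrullDim, hCM.dim]
  have hfin : Module.Finite (MvPowerSeries (Fin b) Λ) (R ⧸ J) := by
    have h1 := psEval_finite φ' t' hφ' hres' ht' c hc'
    rw [← hcompat] at h1
    exact RingHom.finite_algebraMap.1 h1
  refine ⟨hfin, ?_, ?_⟩
  · refine free_of_CM (R := R) ?_ (by rw [ringKrullDim_mvPowerSeries]; exact hn) hCM ?_
    · rw [halg, map_maximalIdeal_mvPS, sup_le_iff, Ideal.span_le]
      constructor
      · rw [Ideal.map_le_iff_le_comap]
        exact ((local_hom_TFAE φ).out 0 3).1 hφ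
      · rintro _ ⟨i, rfl⟩
        exact ht i
    · rw [halg, map_maximalIdeal_mvPS, Ideal.annihilator_quotient, ← sup_assoc]
      exact ringKrullDim_le_zero_of_pow_le hc
  · rw [hcompat]
    exact psEval_injective φ' t' hφ' hres' ht' c hc' (by rw [hn, hdimS])

end ring

section cases

variable {R : Type v} [CommRing R] [IsLocalRing R] [IsNoetherianRing R]
  [IsAdicComplete (maximalIdeal R) R]

/-- **Mixed characteristic version**: `C` a Cohen ring. -/
theorem noe_mixed {p : ℕ} {C : Type u} [CommRing C] [IsLocalRing C] (hC : IsCohen p C)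
    (g : C →+* R) (hg : IsLocalHom g) (hres : ((residue R).comp g).Finite) {b : ℕ}
    (J : Ideal R) (hJ : J ≤ maximalIdeal R) (hCM : CM R (b + 1) (R ⧸ J))
    (t : Fin b → R) (ht : ∀ i, t i ∈ maximalIdeal R) {c : ℕ}
    (hc : maximalIdeal R ^ c ≤ J ⊔ Ideal.span {(p : R)} ⊔ Ideal.span (Set.range t))
    [Algebra (MvPowerSeries (Fin b) C) R]
    (halg : algebraMap (MvPowerSeries (Fin b) C) R = psEval (maximalIdeal R) g t ht) :
    Module.Finite (MvPowerSeries (Fin b) C) (R ⧸ J) ∧
      Module.Free (MvPowerSeries (Fin b) C) (R ⧸ J) ∧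
      Function.Injective (algebraMap (MvPowerSeries (Fin b) C) (R ⧸ J)) := by
  have := hC.isDVR_dom
  have := hC.isRegularLocalRing
  have hcomp : IsAdicComplete (maximalIdeal C) C := hC.complete
  have hpre : IsPrecomplete (maximalIdeal C) C := hcomp.toIsPrecomplete
  have hmap : (maximalIdeal C).map g = Ideal.span {(p : R)} := by
    rw [hC.maximalIdeal_eq, Ideal.map_span, Set.image_singleton, map_natCast]
  refine noe_main (n := b + 1) ?_ g hg hres t ht J hJ hCM (c := c) (by rw [hmap]; exact hc) halg
  rw [hC.ringKrullDim_eq]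
  push_cast
  rw [add_comm]

omit [IsAdicComplete (maximalIdeal R) R] in
/-- existence of the parameters, mixed characteristic. -/
theorem exists_sop_mixed' {b p : ℕ} {J : Ideal R} (hJ : J ≤ maximalIdeal R)
    (hp : (p : R) ∈ maximalIdeal R)
    (hpJ : ringKrullDim (R ⧸ (J ⊔ Ideal.span {(p : R)})) ≤ (b : ℕ)) :
    ∃ t : Fin b → R, (∀ i, t i ∈ maximalIdeal R) ∧
      ∃ c, maximalIdeal R ^ c ≤ J ⊔ Ideal.span {(p : R)} ⊔ Ideal.span (Set.range t) :=
  exists_sop (sup_le hJ (by rwa [Ideal.span_singleton_le_iff_mem])) hpJ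


end cases

section syz

/-- **Depth of syzygies** over a ring `S` which is finite free over a regular local ring `B`. -/
theorem dep_ker {B : Type u} [CommRing B] [IsRegularLocalRing B] {n : ℕ}
    (hn : ringKrullDim B = (n : ℕ)) {S : Type v} [CommRing S] [Algebra B S] [Module.Finite B S]
    [Module.Free B S] {L : Type v} [AddCommGroup L] [Module S L] [Module B L] [IsScalarTower B S L]
    {r i : ℕ} (hi : i < n) (f : (Fin r → S) →ₗ[S] L) (hf : Function.Surjective f)
    (hL : Dep B i L) : Dep B (i + 1) (LinearMap.ker f) := by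
  have hF : Dep B n (Fin r → S) := dep_of_free hn
  have hF' : Dep B (i + 1) (Fin r → S) := hF.mono hi
  exact Dep.ker i ((LinearMap.ker f).subtype.restrictScalars B) (f.restrictScalars B)
    (Submodule.subtype_injective _) hf (by
      intro x
      exact ⟨fun hx => ⟨⟨x, hx⟩, rfl⟩, by rintro ⟨y, rfl⟩; exact y.2⟩) hF' hL

/-- **Syzygy induction.**  `S` finite free over the regular local ring `B`.  A property of finite
`S`-modules which holds for the modules which are free over `B` and which passes from the kernel
of `S^r → L` to `L` holds for all finite `S`-modules. -/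
theorem syz_induction {B : Type u} [CommRing B] [IsRegularLocalRing B] 
    {S : Type v} [CommRing S] [IsNoetherianRing S] [Algebra B S] [Module.Finite B S]
    [Module.Free B S]
    (P : ∀ (L : Type v) [AddCommGroup L] [Module S L], Prop)
    (hfree : ∀ (L : Type v) [AddCommGroup L] [Module S L] [Module B L] [IsScalarTower B S L]
      [Module.Finite S L], Module.Free B L → P L)
    (hstep : ∀ (L : Type v) [AddCommGroup L] [Module S L] [Module.Finite S L] (r : ℕ)
      (f : (Fin r → S) →ₗ[S] L), Function.Surjective f → P (LinearMap.ker f) → P L)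
    (L : Type v) [AddCommGroup L] [Module S L] [Module.Finite S L] : P L := by
  obtain ⟨n, hn⟩ : ∃ n : ℕ, ringKrullDim B = n :=
    ⟨_, ((isRegularLocalRing_iff B).1 inferInstance).symm⟩
  have key : ∀ (j i : ℕ), i + j = n → ∀ (L : Type v) [AddCommGroup L] [Module S L] [Module B L]
      [IsScalarTower B S L] [Module.Finite S L], Dep B i L → P L := by
    intro j
    induction j with
    | zero =>
      intro i hi L _ _ _ _ _ hL
      have : Module.Finite B L := Module.Finite.trans S L
      have hL' : Dep B n L := by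
        have : i = n := by omega
        rwa [this] at hL
      exact hfree L (free_of_dep hn hL')
    | succ j ih =>
      intro i hi L _ _ _ _ _ hL
      obtain ⟨r, f, hf⟩ := Module.Finite.exists_fin' S L
      refine hstep L r f hf (ih (i + 1) (by omega) (LinearMap.ker f) ?_)
      exact dep_ker hn (by omega) f hf hL
  let _ : Module B L := Module.compHom L (algebraMap B S)
  have : IsScalarTower B S L := IsScalarTower.of_algebraMap_smul fun _ _ => rfl
  exact key n 0 (by omega) L Dep.zero

end syz

end Crest.Agent.R188.Noe
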