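/-
R188 (Serre positivity), block (A6), part E1: the recursive Euler characteristic
`e [] W = length W`, `e (q :: l) W = e l (W/qW) - e l (0 :_W q)` of a finite module over a
Noetherian local ring: additivity, and positivity (Serre).      helper702
-/
import Mathlib
import Crest.Agent.R183.HSLech

set_option autoImplicit false
set_option linter.unusedSectionVars false

namespace Crest.Agent.R188.Eq

open IsLocalRing Module Function
open scoped Pointwise

universe u v

variable {A : Type u} [CommRing A]

/-- the recursive Euler characteristic -/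
noncomputable def e : List A → ∀ (W : Type v) [AddCommGroup W] [Module A W], ℤ
  | [], W, _, _ => ((Module.length A W).toNat : ℤ)
  | (q :: l), W, _, _ => e l (QuotSMulTop q W) - e l (Submodule.torsionBy A W q)

section congr

variable {W W' : Type v} [AddCommGroup W] [Module A W] [AddCommGroup W'] [Module A W']

/-- `(0 :_W q)` is functorial -/
def torMap (q : A) (f : W →ₗ[A] W') : Submodule.torsionBy A W q →ₗ[A] Submodule.torsionBy A W' q :=
  f.restrict (fun x hx => by
    rw [Submodule.mem_torsionBy_iff] at hx ⊢
    rw [← map_smul, hx, map_zero])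

@[simp] lemma torMap_coe (q : A) (f : W →ₗ[A] W') (x : Submodule.torsionBy A W q) :
    (torMap q f x : W') = f x := rfl

/-- `(0 :_W q)` is functorial -/
def torEquiv (q : A) (f : W ≃ₗ[A] W') :
    Submodule.torsionBy A W q ≃ₗ[A] Submodule.torsionBy A W' q :=
  LinearEquiv.ofLinearMap (torMap q f.toLinearMap) (torMap q f.symm.toLinearMap)
    (by ext x; simp) (by ext x; simp)

end congr

theorem e_congr : ∀ (l : List A) {W W' : Type v} [AddCommGroup W] [Module A W] [AddCommGroup W']
    [Module A W'] (_ : W ≃ₗ[A] W'), e l W = e l W'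
  | [], W, W', _, _, _, _, f => by simp [e, f.length_eq]
  | (q :: l), W, W', _, _, _, _, f => by
    rw [e, e, e_congr l (QuotSMulTop.congr q f), e_congr l (torEquiv q f)]

theorem e_subsingleton : ∀ (l : List A) (W : Type v) [AddCommGroup W] [Module A W]
    [Subsingleton W], e l W = 0
  | [], W, _, _, _ => by simp [e, Module.length_eq_zero]
  | (q :: l), W, _, _, _ => by
    have : Subsingleton (QuotSMulTop q W) := (Submodule.mkQ_surjective _).subsingleton
    rw [e, e_subsingleton l, e_subsingleton l, sub_zero]

variable [IsLocalRing A] 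

/-- `W` is finitely generated and `m^n ≤ Ann W + (l)` for some `n`. -/
def Good (l : List A) (W : Type v) [AddCommGroup W] [Module A W] : Prop :=
  Module.Finite A W ∧ ∃ n, maximalIdeal A ^ n ≤ Module.annihilator A W ⊔ Ideal.ofList l

variable [IsNoetherianRing A]

section good

variable {W W' : Type v} [AddCommGroup W] [Module A W] [AddCommGroup W'] [Module A W']
  {l : List A}

theorem Good.of_injective (h : Good l W') (f : W →ₗ[A] W') (hf : Injective f) : Good l W := by
  obtain ⟨h1, n, hn⟩ := h
  exact ⟨Module.Finite.of_injective f hf, n, hn.trans (sup_le_sup_right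
    (f.annihilator_le_of_injective hf) _)⟩

theorem Good.of_surjective (h : Good l W) (f : W →ₗ[A] W') (hf : Surjective f) : Good l W' := by
  obtain ⟨h1, n, hn⟩ := h
  exact ⟨Module.Finite.of_surjective f hf, n, hn.trans (sup_le_sup_right
    (f.annihilator_le_of_surjective hf) _)⟩

theorem Good.congr (h : Good l W) (f : W ≃ₗ[A] W') : Good l W' :=
  h.of_surjective f.toLinearMap f.surjective

/-- a module killed by `q` which is good for `q :: l` is good for `l` -/
theorem Good.of_cons {q : A} (h : Good (q :: l) W) (hq : ∀ x : W, q • x = 0) : Good l W := by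
  obtain ⟨h1, n, hn⟩ := h
  refine ⟨h1, n, hn.trans ?_⟩
  rw [Ideal.ofList_cons, ← sup_assoc]
  refine sup_le_sup_right (sup_le le_rfl ?_) _
  rw [Ideal.span_singleton_le_iff_mem, Module.mem_annihilator]
  exact hq

theorem Good.quot {q : A} (h : Good (q :: l) W) : Good l (QuotSMulTop q W) := by
  refine (h.of_surjective (Submodule.mkQ _) (Submodule.mkQ_surjective _)).of_cons fun x => ?_
  exact Module.mem_annihilator.1 (QuotSMulTop.mem_annihilator W q) x

theorem Good.tor {q : A} (h : Good (q :: l) W) : Good l (Submodule.torsionBy A W q) := by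
  refine (h.of_injective (Submodule.subtype _) (Submodule.subtype_injective _)).of_cons fun x => ?_
  exact Submodule.smul_torsionBy _ _

theorem Good.length_ne_top (h : Good ([] : List A) W) : Module.length A W ≠ ⊤ := by
  obtain ⟨h1, n, hn⟩ := h
  rw [Ideal.ofList_nil, sup_bot_eq] at hn
  have h2 := R183.HS.length_ne_top_of_pow_le hn
  obtain ⟨k, f, hf⟩ := Module.Finite.exists_fin' A W
  have h3 := R183.M.lenQ_le_card_mul k f hf (Module.annihilator A W)
  rw [R183.HS.lenQ_self] at h3
  have h4 : R183.M.lenQ (Module.annihilator A W) W = Module.length A W := by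
    unfold R183.M.lenQ
    exact (Submodule.quotEquivOfEqBot _ (by
      rw [eq_bot_iff, Submodule.smul_le]
      intro r hr x _
      rw [Module.mem_annihilator.1 hr x]
      exact zero_mem _)).length_eq
  rw [← h4]
  exact ne_top_of_le_ne_top (WithTop.mul_ne_top (ENat.natCast_ne_top k) h2) h3

end good

/-- the six term exact sequence -/
theorem snake_exists (q : A) {W' W W'' : Type v} [AddCommGroup W'] [Module A W'] [AddCommGroup W]
    [Module A W] [AddCommGroup W''] [Module A W''] (f : W' →ₗ[A] W) (g : W →ₗ[A] W'')
    (hf : Injective f) (hg : Surjective g) (h : Exact f g) :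
    ∃ δ : Submodule.torsionBy A W'' q →ₗ[A] QuotSMulTop q W',
      Injective (torMap q f) ∧ Exact (torMap q f) (torMap q g) ∧ Exact (torMap q g) δ ∧
      Exact δ (QuotSMulTop.map q f) ∧ Exact (QuotSMulTop.map q f) (QuotSMulTop.map q g) ∧
      Surjective (QuotSMulTop.map q g) := by
  have hi : ∀ (V : Type v) [AddCommGroup V] [Module A V],
      Exact (Submodule.subtype (Submodule.torsionBy A V q)) (LinearMap.lsmul A V q) := by
    intro V _ _ x
    constructor
    · intro hx
      exact ⟨⟨x, hx⟩, rfl⟩
    · rintro ⟨y, rfl⟩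
      exact y.2
  have hp : ∀ (V : Type v) [AddCommGroup V] [Module A V],
      Exact (LinearMap.lsmul A V q) (Submodule.mkQ (q • (⊤ : Submodule A V))) := by
    intro V _ _ x
    rw [← LinearMap.mem_ker, Submodule.ker_mkQ, Submodule.mem_smul_pointwise_iff_exists]
    constructor
    · rintro ⟨y, _, hy⟩
      exact ⟨y, hy⟩
    · rintro ⟨y, hy⟩
      exact ⟨y, Submodule.mem_top, hy⟩
  have c1 : f.comp (LinearMap.lsmul A W' q) = (LinearMap.lsmul A W q).comp f := by
    ext x; simp
  have c2 : g.comp (LinearMap.lsmul A W q) = (LinearMap.lsmul A W'' q).comp g := by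
    ext x; simp
  refine ⟨SnakeLemma.δ' (LinearMap.lsmul A W' q) (LinearMap.lsmul A W q) (LinearMap.lsmul A W'' q)
    f g h f g h c1 c2 (Submodule.subtype _) (hi W'') (Submodule.mkQ _) (hp W') hg hf,
    ?_, ?_, ?_, ?_, ?_, ?_⟩
  · intro x y hxy
    apply Subtype.ext
    exact hf (congrArg Subtype.val hxy)
  · intro x
    constructor
    · intro hx
      obtain ⟨y, hy⟩ := (h x).1 (congrArg Subtype.val hx)
      refine ⟨⟨y, ?_⟩, Subtype.ext hy⟩
      rw [Submodule.mem_torsionBy_iff]
      apply hf
      rw [map_smul, hy, map_zero]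
      exact x.2
    · rintro ⟨y, rfl⟩
      apply Subtype.ext
      exact h.apply_apply_eq_zero _
  · exact SnakeLemma.exact_δ'_right _ _ _ _ _ _ _ _ _ _ _ (Submodule.subtype _) (hi W) _ (hi W'')
      _ (hp W') hg hf (torMap q g) (by ext x; rfl) (Submodule.subtype_injective _)
  · exact SnakeLemma.exact_δ'_left _ _ _ _ _ _ _ _ _ _ _ _ (hi W'')
      _ (hp W') (Submodule.mkQ _) (hp W) hg hf (QuotSMulTop.map q f) (by ext x; rfl)
      (Submodule.mkQ_surjective _)
  · exact QuotSMulTop.map_exact q h hg
  · exact QuotSMulTop.map_surjective q hg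

/-- additivity of `e l` on short exact sequences (used as an induction hypothesis) -/
def IsAdd (l : List A) : Prop :=
  ∀ (W' W W'' : Type v) [AddCommGroup W'] [Module A W'] [AddCommGroup W]
    [Module A W] [AddCommGroup W''] [Module A W''] (f : W' →ₗ[A] W) (g : W →ₗ[A] W'')
    (_ : Injective f) (_ : Surjective g) (_ : Exact f g) (_ : Good l W),
    e l W = e l W' + e l W''

theorem IsAdd.range {l : List A} (hl : IsAdd.{u, v} l) {W' W W'' : Type v} [AddCommGroup W']
    [Module A W'] [AddCommGroup W] [Module A W] [AddCommGroup W''] [Module A W'']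
    (f : W' →ₗ[A] W) (g : W →ₗ[A] W'') (h : Exact f g) (hW : Good l W) :
    e l W = e l (LinearMap.range f) + e l (LinearMap.range g) := by
  refine hl _ _ _ (Submodule.subtype _) g.rangeRestrict (Submodule.subtype_injective _)
    g.surjective_rangeRestrict ?_ hW
  intro x
  rw [← LinearMap.mem_ker, LinearMap.ker_rangeRestrict, LinearMap.mem_ker, h x]
  simp

theorem e_add_isAdd : ∀ (l : List A), IsAdd.{u, v} l
  | [] => by
    intro W' W W'' _ _ _ _ _ _ f g hf hg h hW
    have h1 := hW.length_ne_top
    have h2 := (hW.of_injective f hf).length_ne_top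
    have h3 := (hW.of_surjective g hg).length_ne_top
    rw [e, e, e, Module.length_eq_add_of_exact f g hf hg h, ENat.toNat_add h2 h3]
    push_cast
    rfl
  | (q :: l) => by
    intro W' W W'' _ _ _ _ _ _ f g hf hg h hW
    have ih : IsAdd.{u, v} l := e_add_isAdd l
    obtain ⟨δ, h1, h2, h3, h4, h5, h6⟩ := snake_exists q f g hf hg h
    have hW' : Good (q :: l) W' := hW.of_injective f hf
    have hW'' : Good (q :: l) W'' := hW.of_surjective g hg
    have e1 : e l (Submodule.torsionBy A W' q) = e l (LinearMap.range (torMap q f)) :=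
      e_congr l (LinearEquiv.ofInjective _ h1)
    have e2 := ih.range _ _ h2 hW.tor
    have e3 := ih.range _ _ h3 hW''.tor
    have e4 := ih.range _ _ h4 hW'.quot
    have e5 := ih.range _ _ h5 hW.quot
    have e6 : e l (LinearMap.range (QuotSMulTop.map q g)) = e l (QuotSMulTop q W'') := by
      refine e_congr l ?_
      exact (LinearEquiv.ofEq _ _ (LinearMap.range_eq_top.2 h6)).trans Submodule.topEquiv
    rw [e, e, e]
    omega

theorem e_add (l : List A) {W' W W'' : Type v} [AddCommGroup W'] [Module A W'] [AddCommGroup W]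
    [Module A W] [AddCommGroup W''] [Module A W''] (f : W' →ₗ[A] W) (g : W →ₗ[A] W'')
    (hf : Injective f) (hg : Surjective g) (h : Exact f g) (hW : Good l W) :
    e l W = e l W' + e l W'' := e_add_isAdd l _ _ _ f g hf hg h hW

theorem e_range (l : List A) {W' W W'' : Type v} [AddCommGroup W']
    [Module A W'] [AddCommGroup W] [Module A W] [AddCommGroup W''] [Module A W'']
    (f : W' →ₗ[A] W) (g : W →ₗ[A] W'') (h : Exact f g) (hW : Good l W) :
    e l W = e l (LinearMap.range f) + e l (LinearMap.range g) :=
  IsAdd.range (e_add_isAdd l) f g h hW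

/-- `e (q :: l)` vanishes on modules killed by `q`. -/
theorem e_cons_of_smul_eq_zero (q : A) (l : List A) (W : Type v) [AddCommGroup W] [Module A W]
    (hq : ∀ x : W, q • x = 0) : e (q :: l) W = 0 := by
  have h1 : e l (QuotSMulTop q W) = e l W := by
    refine e_congr l (Submodule.quotEquivOfEqBot _ ?_)
    rw [eq_bot_iff]
    rintro _ ⟨x, _, rfl⟩
    exact (Submodule.mem_bot A).2 (hq x)
  have h2 : e l (Submodule.torsionBy A W q) = e l W := by
    refine e_congr l ((LinearEquiv.ofEq _ _ ?_).trans Submodule.topEquiv)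
    rw [eq_top_iff]
    intro x _
    exact hq x
  rw [e, h1, h2, sub_self]

/-- `e (q :: l)` vanishes on modules killed by a power of `q`. -/
theorem e_cons_of_pow (q : A) (l : List A) (n : ℕ) : ∀ (W : Type v) [AddCommGroup W] [Module A W]
    (_ : ∀ x : W, q ^ n • x = 0) (_ : Good (q :: l) W), e (q :: l) W = 0 := by
  induction n with
  | zero =>
    intro W _ _ h _
    have : Subsingleton W := ⟨fun x y => by
      rw [← one_smul A x, ← one_smul A y, ← pow_zero q, h, h]⟩
    exact e_subsingleton _ W
  | succ n ih =>
    intro W _ _ h hW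
    rw [e_add (q :: l) (Submodule.torsionBy A W q).subtype (Submodule.torsionBy A W q).mkQ
      (Submodule.subtype_injective _) (Submodule.mkQ_surjective _)
      (LinearMap.exact_subtype_mkQ _) hW]
    rw [e_cons_of_smul_eq_zero q l (Submodule.torsionBy A W q)
      (fun x => Submodule.smul_torsionBy _ _), zero_add]
    refine ih _ ?_ (hW.of_surjective _ (Submodule.mkQ_surjective _))
    intro x
    obtain ⟨y, rfl⟩ := Submodule.mkQ_surjective _ x
    rw [← map_smul, ← LinearMap.mem_ker, Submodule.ker_mkQ, Submodule.mem_torsionBy_iff, smul_smul,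
      ← pow_succ']
    exact h y

section dim

variable {W' W W'' : Type v} [AddCommGroup W'] [Module A W'] [AddCommGroup W] [Module A W]
  [AddCommGroup W''] [Module A W'']

omit [IsLocalRing A] [IsNoetherianRing A] in
theorem supportDim_le_of_mem_support (h : ∀ x ∈ Module.support A W, x ∈ Module.support A W' ∨
    x ∈ Module.support A W'') :
    Module.supportDim A W ≤ max (Module.supportDim A W') (Module.supportDim A W'') := by
  unfold Module.supportDim Order.krullDim
  refine iSup_le fun p => ?_
  have hp : ∀ i, p.head ≤ p i := fun i => p.monotone (Fin.zero_le i)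
  rcases h _ p.head.2 with h0 | h0
  · refine le_trans ?_ (le_max_left _ _)
    let q : LTSeries (Module.support A W') :=
      { length := p.length
        toFun := fun i => ⟨(p i).1, Module.mem_support_mono (hp i) h0⟩
        step := fun i => p.step i }
    exact le_iSup (fun q : LTSeries (Module.support A W') => (q.length : WithBot ℕ∞)) q
  · refine le_trans ?_ (le_max_right _ _)
    let q : LTSeries (Module.support A W'') :=
      { length := p.length
        toFun := fun i => ⟨(p i).1, Module.mem_support_mono (hp i) h0⟩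
        step := fun i => p.step i }
    exact le_iSup (fun q : LTSeries (Module.support A W'') => (q.length : WithBot ℕ∞)) q

omit [IsLocalRing A] [IsNoetherianRing A] in
theorem supportDim_le_of_exact (f : W' →ₗ[A] W) (g : W →ₗ[A] W'')
    (hf : Injective f) (hg : Surjective g) (h : Exact f g) :
    Module.supportDim A W ≤ max (Module.supportDim A W') (Module.supportDim A W'') := by
  refine supportDim_le_of_mem_support fun x hx => ?_
  rwa [Module.support_of_exact h hf hg] at hx

theorem Good.supportDim_le : ∀ (l : List A) (_ : ∀ a ∈ l, a ∈ maximalIdeal A) {W : Type v}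
    [AddCommGroup W] [Module A W] (_ : Good l W), Module.supportDim A W ≤ (l.length : ℕ)
  | [], _, W, _, _, h => by
    obtain ⟨h1, n, hn⟩ := h
    rw [Ideal.ofList_nil, sup_bot_eq] at hn
    have h2 : ∀ x ∈ Module.support A W, x = closedPoint A := by
      intro x hx
      rw [Module.mem_support_iff_of_finite] at hx
      have h3 : maximalIdeal A ≤ x.asIdeal := x.2.le_of_pow_le (hn.trans hx)
      exact PrimeSpectrum.ext ((IsLocalRing.maximalIdeal.isMaximal A).eq_of_le x.2.ne_top h3).symm
    have : Subsingleton (Module.support A W) :=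
      ⟨fun x y => Subtype.ext ((h2 _ x.2).trans (h2 _ y.2).symm)⟩
    exact Order.krullDim_nonpos_of_subsingleton
  | (q :: l), hl, W, _, _, h => by
    have := h.1
    refine (Module.supportDim_le_supportDim_quotSMulTop_succ (hl q (by simp))).trans ?_
    have h1 := Good.supportDim_le l (fun a ha => hl a (by simp [ha])) h.quot
    rw [List.length_cons]
    push_cast
    exact add_le_add_left h1 1

end dim

theorem exists_torsionBy_stable (q : A) (W : Type v) [AddCommGroup W] [Module A W]
    [Module.Finite A W] :
    ∃ n : ℕ, Submodule.torsionBy A W (q ^ (n + 1)) ≤ Submodule.torsionBy A W (q ^ n) := by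
  let f : ℕ →o Submodule A W :=
    { toFun := fun n => Submodule.torsionBy A W (q ^ n)
      monotone' := monotone_nat_of_le_succ fun n x hx => by
        rw [Submodule.mem_torsionBy_iff] at hx ⊢
        rw [pow_succ', mul_smul, hx, smul_zero] }
  obtain ⟨n, hn⟩ := monotone_stabilizes_iff_noetherian.2 (inferInstance : IsNoetherian A W) f
  exact ⟨n, (hn (n + 1) (Nat.le_succ n)).ge⟩

/-- **Serre**: `e l W ≥ 0`, with `> 0` iff `dim W = |l|`. -/
theorem e_serre : ∀ (l : List A) (_ : ∀ a ∈ l, a ∈ maximalIdeal A) (W : Type v) [AddCommGroup W]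
    [Module A W] (_ : Good l W),
    0 ≤ e l W ∧ (0 < e l W ↔ Module.supportDim A W = (l.length : ℕ))
  | [], hl, W, _, _, h => by
    have h1 := h.length_ne_top
    refine ⟨by simp [e], ?_⟩
    rw [e, List.length_nil]
    rcases subsingleton_or_nontrivial W with hW | hW
    · rw [Module.supportDim_eq_bot_of_subsingleton, Module.length_eq_zero]
      simp
    · have h2 : Module.supportDim A W = 0 := by
        refine le_antisymm (h.supportDim_le _ hl) ?_
        have : Nonempty (Module.support A W) :=
          Module.nonempty_support_of_nontrivial.to_subtype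
        exact Order.krullDim_nonneg
      rw [h2]
      simp only [Nat.cast_pos, Nat.cast_zero, iff_true]
      refine ENat.toNat_pos (fun h => ?_) h1
      rw [Module.length_eq_zero_iff] at h
      exact not_subsingleton W h
  | (q :: l), hl, W, _, _, h => by
    have hfin := h.1
    obtain ⟨n, hn⟩ := exists_torsionBy_stable q W
    have hl' : ∀ a ∈ l, a ∈ maximalIdeal A := fun a ha => hl a (by simp [ha])
    have hq : q ∈ maximalIdeal A := hl q (by simp)
    let Γ := Submodule.torsionBy A W (q ^ n)
    have hΓ : Good (q :: l) Γ := h.of_injective Γ.subtype Γ.subtype_injective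
    have hV : Good (q :: l) (W ⧸ Γ) := h.of_surjective Γ.mkQ Γ.mkQ_surjective
    have hsum := e_add (q :: l) Γ.subtype Γ.mkQ Γ.subtype_injective Γ.mkQ_surjective
      (LinearMap.exact_subtype_mkQ Γ) h
    have hΓ0 : e (q :: l) Γ = 0 := e_cons_of_pow q l n Γ (fun x => Submodule.smul_torsionBy _ _) hΓ
    have hreg : IsSMulRegular (W ⧸ Γ) q := by
      refine IsSMulRegular.of_right_eq_zero_of_smul fun x hx => ?_
      obtain ⟨y, rfl⟩ := Γ.mkQ_surjective x
      rw [← map_smul, ← LinearMap.mem_ker, Submodule.ker_mkQ, Submodule.mem_torsionBy_iff,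
        smul_smul, ← pow_succ] at hx
      rw [← LinearMap.mem_ker, Submodule.ker_mkQ]
      exact hn hx
    have htor : Subsingleton (Submodule.torsionBy A (W ⧸ Γ) q) := by
      refine ⟨fun x y => Subtype.ext ?_⟩
      have h0 : ∀ z : Submodule.torsionBy A (W ⧸ Γ) q, (z : W ⧸ Γ) = 0 := fun z =>
        isSMulRegular_iff_right_eq_zero_of_smul.1 hreg _ z.2
      rw [h0 x, h0 y]
    have hV2 : e (q :: l) (W ⧸ Γ) = e l (QuotSMulTop q (W ⧸ Γ)) := by
      rw [e, e_subsingleton l (Submodule.torsionBy A (W ⧸ Γ) q), sub_zero]
    obtain ⟨ih1, ih2⟩ := e_serre l hl' (QuotSMulTop q (W ⧸ Γ)) hV.quot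
    have hfin' := hV.1
    have hdim : Module.supportDim A (QuotSMulTop q (W ⧸ Γ)) + 1 = Module.supportDim A (W ⧸ Γ) :=
      Module.supportDim_quotSMulTop_succ_eq_supportDim hreg hq
    rw [hsum, hΓ0, zero_add, hV2]
    refine ⟨ih1, ih2.trans ?_⟩
    have hΓdim : Module.supportDim A Γ ≤ (l.length : ℕ) := by
      refine Good.supportDim_le l hl' ⟨hΓ.1, ?_⟩
      obtain ⟨_, N, hN⟩ := hΓ
      obtain ⟨t, ht⟩ := Ideal.exists_radical_pow_le_of_fg
        (Module.annihilator A Γ ⊔ Ideal.ofList l) (IsNoetherian.noetherian _)
      refine ⟨N * t, ?_⟩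
      rw [pow_mul]
      refine (Ideal.pow_right_mono (hN.trans ?_) t).trans ht
      rw [Ideal.ofList_cons]
      refine sup_le (le_sup_left.trans Ideal.le_radical) (sup_le ?_
        (le_sup_right.trans Ideal.le_radical))
      rw [Ideal.span_singleton_le_iff_mem]
      refine ⟨n, Ideal.mem_sup_left ?_⟩
      rw [Module.mem_annihilator]
      exact fun x => Submodule.smul_torsionBy _ _
    have h1 := supportDim_le_of_exact Γ.subtype Γ.mkQ Γ.subtype_injective Γ.mkQ_surjective
      (LinearMap.exact_subtype_mkQ Γ)
    have h2 := Module.supportDim_le_of_surjective Γ.mkQ Γ.mkQ_surjective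
    have h3 := h.supportDim_le _ hl
    rw [← hdim] at h1 h2
    rw [List.length_cons] at h3 ⊢
    revert h1 h2 h3 hΓdim
    generalize Module.supportDim A (QuotSMulTop q (W ⧸ Γ)) = a
    generalize Module.supportDim A Γ = c
    generalize Module.supportDim A W = d
    generalize l.length = L
    intro hc h1 h2 h3
    push_cast at *
    constructor
    · rintro rfl
      exact le_antisymm h3 h2
    · rintro rfl
      rcases le_max_iff.1 h1 with h4 | h4
      · have h5 := h4.trans hc
        have h6 : ((L + 1 : ℕ) : ℕ∞) ≤ (L : ℕ) := by exact_mod_cast h5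
        have h7 : L + 1 ≤ L := by exact_mod_cast h6
        omega
      · have h5 : a + 1 = (L : WithBot ℕ∞) + 1 := le_antisymm h2 h4
        cases a with
        | bot => exact absurd h5 (by simp [WithBot.bot_add]; exact (WithBot.coe_ne_bot (a := ((L + 1 : ℕ) : ℕ∞))).symm)
        | coe a =>
          have h6 : a + 1 = (L : ℕ∞) + 1 := by exact_mod_cast h5
          have h7 : a = (L : ℕ∞) := by
            exact (ENat.add_left_injective_of_ne_top (by simp)) h6
          rw [h7]; rfl

end Crest.Agent.R188.Eq
private theorem rz_65174000ed : type_of% @_root_.Crest.Agent.R188.Eq.e.eq_def := @_root_.Crest.Agent.R188.Eq.e.eq_def -- L22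
private theorem rz_8004a37066 : type_of% @_root_.Crest.Agent.R188.Eq.e.eq_1 := @_root_.Crest.Agent.R188.Eq.e.eq_1 -- L22
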