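import Crest.Agent.R188.ChiLift
import Crest.Agent.R188.Eq1
import Crest.Agent.R188.ChiRes
import Mathlib
import Crest.Agent.R227.LTComplete
import Crest.Agent.R188.Str0
import Crest.Agent.R183.CohenNoether
import Crest.Agent.R183.CohenWitt
import Crest.Agent.R183.G10
import Crest.Agent.R188.Eq5
import Crest.Agent.R183.G11
import Crest.Agent.R188.ChiLen
import Crest.Agent.R188.Noe6
import Crest.Agent.R188.Top2
import Crest.Agent.R188.Asm1

-- ▼ part R188/ChiTheta
section

set_option autoImplicit false
set_option linter.unusedSectionVars false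

namespace Crest.Agent.R188.Chi

open scoped ENNReal
open Crest.Agent.R183 Crest.Agent.R183.Res

universe u v w w' v₂ v₃

section shift

variable {R : Type w} [CommRing R]

/-- index types of the shifted complex -/
def shι (ι : ℕ → Type) : ℕ → Type
  | 0 => Empty
  | (n + 1) => ι n

instance shFin (ι : ℕ → Type) [h : ∀ n, Fintype (ι n)] : ∀ n, Fintype (shι ι n)
  | 0 => inferInstanceAs (Fintype Empty)
  | (n + 1) => h n

instance shDec (ι : ℕ → Type) [h : ∀ n, DecidableEq (ι n)] : ∀ n, DecidableEq (shι ι n)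
  | 0 => inferInstanceAs (DecidableEq Empty)
  | (n + 1) => h n

/-- differentials of the shifted complex -/
def shd (F : MCx R) : ∀ n, Matrix (shι F.ι n) (shι F.ι (n + 1)) R
  | 0 => (0 : Matrix Empty (F.ι 0) R)
  | (n + 1) => -(F.d n)

/-- the shifted complex `F[-1]` -/
def shift (F : MCx R) : MCx R where
  ι := shι F.ι
  fin := fun n => shFin F.ι n
  dec := fun n => shDec F.ι n
  d := shd F
  dd := by
    intro n
    cases n with
    | zero =>
      show (0 : Matrix Empty (F.ι 0) R) * (-(F.d 0)) = 0
      rw [Matrix.zero_mul]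
    | succ k =>
      show (-(F.d k)) * (-(F.d (k + 1))) = 0
      rw [Matrix.neg_mul, Matrix.mul_neg, F.dd, neg_zero, neg_zero]

variable {A : Type u} [CommRing A] (Λ : AddLen.{u, v} A)
variable (F : MCx R) (X : Type v) [AddCommGroup X] [Module A X] [Module R X] [SMulCommClass R A X]

lemma hX_shift_zero : hX Λ (shift F) X 0 = 0 :=
  hX_eq_zero_of_isEmpty Λ (shift F) X 0 (inferInstanceAs (IsEmpty Empty))

lemma Z_shift (n : ℕ) : Z (C := fun n => (shift F).ι n → X) ((shift F).dA A X) (n + 1) =
    (Z (C := fun n => F.ι n → X) (F.dA A X) n : Submodule A (F.ι n → X)) := by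
  ext (v : F.ι n → X)
  cases n with
  | zero =>
    constructor
    · intro _
      exact mem_Z_zero (C := fun n => F.ι n → X) (F.dA A X) v
    · intro _
      refine (mem_Z_succ (C := fun n => (shift F).ι n → X) (i := 0)).2 ?_
      funext a
      exact Empty.elim a
  | succ n =>
    show act X (-(F.d n)) v = 0 ↔ act X (F.d n) v = 0
    rw [act_neg, neg_eq_zero]

lemma B_shift (n : ℕ) : B (C := fun n => (shift F).ι n → X) ((shift F).dA A X) (n + 1) =
    (B (C := fun n => F.ι n → X) (F.dA A X) n : Submodule A (F.ι n → X)) := by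
  ext (v : F.ι n → X)
  constructor
  · rintro ⟨w, hw⟩
    refine ⟨-w, ?_⟩
    have h1 : act X (-(F.d n)) (show F.ι (n + 1) → X from w) = v := hw
    show act X (F.d n) (-(show F.ι (n + 1) → X from w)) = v
    rw [map_neg, ← act_neg, h1]
  · rintro ⟨w, hw⟩
    refine ⟨-(show F.ι (n + 1) → X from w), ?_⟩
    have h1 : act X (F.d n) (show F.ι (n + 1) → X from w) = v := hw
    show act X (-(F.d n)) (-(show F.ι (n + 1) → X from w)) = v
    rw [act_neg, map_neg, neg_neg, h1]

/-- `H_{n+1}(F[-1] ⊗ X) = H_n(F ⊗ X)` -/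
lemma hX_shift_succ (n : ℕ) : hX Λ (shift F) X (n + 1) = hX Λ F X n := by
  refine Λ.L_congr ?_
  refine Submodule.Quotient.equiv _ _ (LinearEquiv.ofEq _ _ (Z_shift F X n)) ?_
  ext ⟨v, hv⟩
  constructor
  · rintro ⟨⟨w, hw⟩, h1, h2⟩
    have h3 : w ∈ B (C := fun n => (shift F).ι n → X) ((shift F).dA A X) (n + 1) := h1
    rw [B_shift] at h3
    have h4 : w = v := congrArg Subtype.val h2
    show v ∈ B (C := fun n => F.ι n → X) (F.dA A X) n
    rw [← h4]; exact h3
  · intro h1
    have h3 : v ∈ B (C := fun n => F.ι n → X) (F.dA A X) n := h1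
    refine ⟨⟨v, by rw [Z_shift]; exact hv⟩, ?_, rfl⟩
    show v ∈ B (C := fun n => (shift F).ι n → X) ((shift F).dA A X) (n + 1)
    rw [B_shift]; exact h3

end shift

section ses

variable {S : Type w} [CommRing S] {R : Type w'} [CommRing R] {φ : S →+* R} {F : MCx R} {E : S}
  (L : MLift φ F E)
variable (A : Type u) [CommRing A]
variable {X : Type v} [AddCommGroup X] [Module R X] [Module S X] [Module A X]
  [SMulCommClass R A X] [SMulCommClass S A X]

/-- inclusion of the shifted complex -/
def shinc (L : MLift φ F E) : ∀ n, ((shift F).ι n → X) →ₗ[A] (L.tcone.ι n → X)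
  | 0 => 0
  | (n + 1) =>
    { toFun := fun (y : F.ι n → X) => (Sum.elim 0 y : F.ι (n + 1) ⊕ F.ι n → X)
      map_add' := fun x y => by
        funext a
        rcases a with a | a
        · exact (add_zero (0 : X)).symm
        · rfl
      map_smul' := fun r x => by
        funext a
        rcases a with a | a
        · exact (smul_zero r).symm
        · rfl }

variable {A}

lemma act_map_eq (hX : ∀ (s : S) (x : X), s • x = φ s • x) {ι κ : Type} [Fintype κ]
    (D : Matrix ι κ S) (v : κ → X) : act X D v = act X (D.map φ) v := by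
  funext a
  show ∑ b, D a b • v b = ∑ b, φ (D a b) • v b
  exact Finset.sum_congr rfl fun b _ => hX _ _

/-- `0 → (F ⊗ X)[-1] → G ⊗ X → F ⊗ X → 0` -/
theorem sesTheta (hX : ∀ (s : S) (x : X), s • x = φ s • x) (hE : φ E = 0) :
    SES (C' := fun n => (shift F).ι n → X) (C := fun n => L.tcone.ι n → X)
      (C'' := fun n => F.ι n → X) ((shift F).dA A X) (L.tcone.dA A X) (F.dA A X)
      (shinc A L) (tproj L (LinearMap.id : X →ₗ[A] X)) where
  cf n y := by
    have hE0 : ∀ x : X, E • x = 0 := fun x => by rw [hX, hE, zero_smul]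
    cases n with
    | zero =>
      have h := tcone_dM_zero L X (Sum.elim 0 (show F.ι 0 → X from y))
      show (0 : F.ι 0 → X) = L.tcone.dM X 0 (Sum.elim 0 (show F.ι 0 → X from y))
      rw [h]
      show (0 : F.ι 0 → X) = act X (L.D 0) 0 + E • (show F.ι 0 → X from y)
      rw [map_zero, zero_add]
      funext a
      exact (hE0 _).symm
    | succ n =>
      have h := tcone_dM_succ L X n (Sum.elim 0 (show F.ι (n + 1) → X from y))
      show (Sum.elim 0 (act X (-(F.d n)) (show F.ι (n + 1) → X from y)) :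
        F.ι (n + 1) ⊕ F.ι n → X) =
        L.tcone.dM X (n + 1) (Sum.elim 0 (show F.ι (n + 1) → X from y))
      rw [h]
      show _ = Sum.elim (act X (L.D (n + 1)) 0 + E • (show F.ι (n + 1) → X from y))
        (-(act X (L.C n) 0) - act X (L.D n) (show F.ι (n + 1) → X from y))
      rw [map_zero, map_zero, zero_add, neg_zero, zero_sub, act_neg, act_map_eq hX (L.D n), L.map_D]
      congr 1
      funext a
      exact (hE0 _).symm
  cg n z := by
    have hE0 : ∀ x : X, E • x = 0 := fun x => by rw [hX, hE, zero_smul]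
    cases n with
    | zero =>
      have h := tcone_dM_zero L X z
      show L.tcone.dM X 0 z = act X (F.d 0) (fun a => z (Sum.inl a))
      rw [h, act_map_eq hX (L.D 0), L.map_D]
      have : E • (fun a => z (Sum.inr a) : F.ι 0 → X) = 0 := by
        funext a; exact hE0 _
      rw [this, add_zero]
    | succ n =>
      have h := tcone_dM_succ L X n z
      show (fun a => (L.tcone.dM X (n + 1) z) (Sum.inl a)) =
        act X (F.d (n + 1)) (fun a => z (Sum.inl a))
      rw [h]
      show act X (L.D (n + 1)) (fun a => z (Sum.inl a)) + E • (fun a => z (Sum.inr a)) = _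
      rw [act_map_eq hX (L.D (n + 1)), L.map_D]
      have : E • (fun a => z (Sum.inr a) : F.ι (n + 1) → X) = 0 := by
        funext a; exact hE0 _
      rw [this, add_zero]
  inj n := by
    cases n with
    | zero =>
      intro x y _
      funext a
      exact a.elim
    | succ n =>
      intro x y h
      funext a
      exact congrFun h (Sum.inr a)
  surj n := by
    cases n with
    | zero => intro x; exact ⟨x, rfl⟩
    | succ n =>
      intro x
      exact ⟨(Sum.elim (show F.ι (n + 1) → X from x) 0 : F.ι (n + 1) ⊕ F.ι n → X), rfl⟩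
  exact n := by
    cases n with
    | zero =>
      intro x
      constructor
      · intro h
        refine ⟨(fun a => a.elim : Empty → X), ?_⟩
        exact h.symm
      · rintro ⟨y, rfl⟩
        rfl
    | succ n =>
      intro x
      constructor
      · intro h
        refine ⟨(fun a => x (Sum.inr a) : F.ι n → X), ?_⟩
        funext a
        rcases a with a | a
        · exact (congrFun h a).symm
        · rfl
      · rintro ⟨y, rfl⟩
        rfl

variable (Λ : AddLen.{u, v} A)

/-- finiteness over `R` from finiteness over `S` -/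
theorem hX_ne_top_theta (hX' : ∀ (s : S) (x : X), s • x = φ s • x) (hE : φ E = 0)
    (hfin : ∀ i, hX Λ L.tcone X i ≠ ⊤) (i : ℕ) : hX Λ F X i ≠ ⊤ := by
  have hS := sesTheta (A := A) L hX' hE
  induction i using Nat.strong_induction_on with
  | _ i ih =>
    cases i with
    | zero =>
      exact ne_top_of_le_ne_top (hfin 0) (hS.h_right_le_zero Λ (isCx_dA A L.tcone X))
    | succ i =>
      refine ne_top_of_le_ne_top (ENNReal.add_ne_top.2 ⟨hfin (i + 1), ?_⟩)
        (hS.h_right_le_succ Λ (isCx_dA A L.tcone X) i)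
      cases i with
      | zero =>
        have : hX Λ (shift F) X 0 = 0 := hX_shift_zero Λ F X
        exact ne_of_eq_of_ne this ENNReal.zero_ne_top
      | succ i =>
        have h1 : hX Λ (shift F) X (i + 1) = hX Λ F X i := hX_shift_succ Λ F X i
        exact ne_of_eq_of_ne h1 (ih i (by omega))

/-- **theta**: `χ_S(M, X) = (-1)^{N+1} (h_{N+1} - h_N)` if `H_{N+1}(G ⊗ X)` is null -/
theorem chiX_theta (hX' : ∀ (s : S) (x : X), s • x = φ s • x) (hE : φ E = 0)
    (hfin : ∀ i, hX Λ L.tcone X i ≠ ⊤) (N : ℕ) (hN : hX Λ L.tcone X (N + 1) = 0) :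
    chiX Λ L.tcone X (N + 2) =
      (-1) ^ (N + 1) * ((hX Λ F X (N + 1)).toReal - (hX Λ F X N).toReal) := by
  have hS := sesTheta (A := A) L hX' hE
  have hF := hX_ne_top_theta L Λ hX' hE hfin
  have hsh : ∀ i, hX Λ (shift F) X i ≠ ⊤ := by
    intro i
    cases i with
    | zero => rw [hX_shift_zero]; exact ENNReal.zero_ne_top
    | succ i => rw [hX_shift_succ]; exact hF i
  have herr := hS.chi_add_error Λ (isCx_dA A L.tcone X) (N + 1) (fun i _ => hsh i)
    (fun i _ => hF i)
  have e1 : ∀ n, chiX Λ (shift F) X (n + 1) = - chiX Λ F X n := by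
    intro n
    induction n with
    | zero =>
      rw [chiX_eq, chiX_eq, Finset.sum_range_one, hX_shift_zero]; simp
    | succ n ih =>
      have a1 : chiX Λ (shift F) X (n + 2) = chiX Λ (shift F) X (n + 1) +
        (-1) ^ (n + 1) * (hX Λ (shift F) X (n + 1)).toReal := by
        rw [chiX_eq, chiX_eq, Finset.sum_range_succ _ (n + 1)]
      have a2 : chiX Λ F X (n + 1) = chiX Λ F X n + (-1) ^ n * (hX Λ F X n).toReal := by
        rw [chiX_eq, chiX_eq, Finset.sum_range_succ _ n]
      rw [a1, a2, ih, hX_shift_succ, pow_succ]; ring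
  have e2 : chiX Λ F X (N + 2) = chiX Λ F X (N + 1) + (-1) ^ (N + 1) *
      (hX Λ F X (N + 1)).toReal := by
    rw [chiX_eq, chiX_eq, Finset.sum_range_succ _ (N + 1)]
  -- the kernel `k (N+1)` is everything
  have hk : hS.k Λ (N + 1) = hX Λ F X N := by
    have h1 := hS.h_left Λ (N + 1)
    have h2 := hS.h_mid Λ (isCx_dA A L.tcone X) (N + 1)
    have h3 : h Λ (C := fun n => L.tcone.ι n → X) (L.tcone.dA A X) (N + 1) = 0 := hN
    rw [h3] at h2
    have h4 := (add_eq_zero.1 h2.symm).1
    rw [h4, add_zero] at h1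
    rw [← h1]
    exact hX_shift_succ Λ F X N
  have herr' : chiX Λ (shift F) X (N + 2) + chiX Λ F X (N + 2) =
      chiX Λ L.tcone X (N + 2) + (-1) ^ (N + 1) * (hS.k Λ (N + 1)).toReal := herr
  rw [e1 (N + 1), e2, hk] at herr'
  linear_combination -herr'

variable {M : Type v₂} [AddCommGroup M] [Module R M] [Module S M]

end ses

section final

variable {S : Type w} [CommRing S] {R : Type w} [CommRing R] {φ : S →+* R} {F : MCx R} {E : S}
variable {A : Type u} [CommRing A] (Λ : AddLen.{u, v} A)
variable {X : Type v} [AddCommGroup X] [Module R X] [Module S X] [Module A X]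
  [SMulCommClass R A X] [SMulCommClass S A X]
variable {M : Type v₂} [AddCommGroup M] [Module R M] [Module S M]

/-- theta for an arbitrary resolution `G` of `M` over `S` of finite length and a resolution `F` over
`R = S/E`: `χ_S(M, X) = (-1)^{N+1} (h_{N+1} - h_N)` for every `N ≥ D`. -/
theorem chiX_theta' (hφ : Function.Surjective φ) (hker : RingHom.ker φ = Ideal.span {E})
    (hE : E ∈ nonZeroDivisors S) {ε : (F.ι 0 → R) →ₗ[R] M} (hF : IsRes F ε)
    (hM : ∀ (s : S) (m : M), s • m = φ s • m) {G : MCx S} {εG : (G.ι 0 → S) →ₗ[S] M}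
    (hG : IsRes G εG) (hX' : ∀ (s : S) (x : X), s • x = φ s • x)
    (hfin : ∀ i, hX Λ G X i ≠ ⊤) {D : ℕ} (hD : ∀ i, D < i → hX Λ G X i = 0) (N : ℕ) (hN : D ≤ N) :
    chiX Λ G X (D + 1) =
      (-1) ^ (N + 1) * ((hX Λ F X (N + 1)).toReal - (hX Λ F X N).toReal) ∧
      ∀ i, hX Λ F X i ≠ ⊤ := by
  obtain ⟨L⟩ := exists_mlift (F := F) hφ hker hE
  have hφE : φ E = 0 := by
    have : E ∈ RingHom.ker φ := by rw [hker]; exact Ideal.mem_span_singleton_self E
    exact this
  have heq : ∀ i, hX Λ G X i = hX Λ L.tcone X i := fun i =>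
    hX_eq_of_isRes Λ hG (isRes_tcone L hφ hker hE hF hM) (LinearEquiv.refl S M) X i
  have hfin' : ∀ i, hX Λ L.tcone X i ≠ ⊤ := fun i => heq i ▸ hfin i
  refine ⟨?_, hX_ne_top_theta L Λ hX' hφE hfin'⟩
  rw [← chiX_theta L Λ hX' hφE hfin' N (by rw [← heq]; exact hD _ (by omega))]
  have e1 : chiX Λ G X (N + 2) = chiX Λ L.tcone X (N + 2) := by
    rw [chiX_eq, chiX_eq]
    exact Finset.sum_congr rfl fun i _ => by rw [heq]
  rw [← e1]
  exact (chi_eq_of_le Λ (by omega) fun i hi _ => hD i (by omega)).symm

end final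

section two

variable {S₁ S₂ R : Type w} [CommRing S₁] [CommRing S₂] [CommRing R]
  {φ₁ : S₁ →+* R} {φ₂ : S₂ →+* R} {E₁ : S₁} {E₂ : S₂}
variable {A : Type u} [CommRing A] (Λ : AddLen.{u, v} A)
variable {X : Type v} [AddCommGroup X] [Module R X] [Module S₁ X] [Module S₂ X] [Module A X]
  [SMulCommClass R A X] [SMulCommClass S₁ A X] [SMulCommClass S₂ A X]
variable {M : Type v₂} [AddCommGroup M] [Module R M] [Module S₁ M] [Module S₂ M]

/-- **Hochster's theta**: if `R = S₁/E₁ = S₂/E₂`, the Euler characteristics of two `R`-modules over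
`S₁` and over `S₂` agree. -/
theorem chiX_eq_of_two {F : MCx R} {ε : (F.ι 0 → R) →ₗ[R] M} (hF : IsRes F ε)
    (hφ₁ : Function.Surjective φ₁) (hker₁ : RingHom.ker φ₁ = Ideal.span {E₁})
    (hE₁ : E₁ ∈ nonZeroDivisors S₁) (hM₁ : ∀ (s : S₁) (m : M), s • m = φ₁ s • m)
    (hX₁ : ∀ (s : S₁) (x : X), s • x = φ₁ s • x)
    {G₁ : MCx S₁} {ε₁ : (G₁.ι 0 → S₁) →ₗ[S₁] M} (hG₁ : IsRes G₁ ε₁)
    (hfin₁ : ∀ i, hX Λ G₁ X i ≠ ⊤) {D₁ : ℕ} (hD₁ : ∀ i, D₁ < i → hX Λ G₁ X i = 0)
    (hφ₂ : Function.Surjective φ₂) (hker₂ : RingHom.ker φ₂ = Ideal.span {E₂})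
    (hE₂ : E₂ ∈ nonZeroDivisors S₂) (hM₂ : ∀ (s : S₂) (m : M), s • m = φ₂ s • m)
    (hX₂ : ∀ (s : S₂) (x : X), s • x = φ₂ s • x)
    {G₂ : MCx S₂} {ε₂ : (G₂.ι 0 → S₂) →ₗ[S₂] M} (hG₂ : IsRes G₂ ε₂)
    (hfin₂ : ∀ i, hX Λ G₂ X i ≠ ⊤) {D₂ : ℕ} (hD₂ : ∀ i, D₂ < i → hX Λ G₂ X i = 0) :
    chiX Λ G₁ X (D₁ + 1) = chiX Λ G₂ X (D₂ + 1) := by
  rw [(chiX_theta' Λ hφ₁ hker₁ hE₁ hF hM₁ hG₁ hX₁ hfin₁ hD₁ (max D₁ D₂) (le_max_left _ _)).1,
    (chiX_theta' Λ hφ₂ hker₂ hE₂ hF hM₂ hG₂ hX₂ hfin₂ hD₂ (max D₁ D₂) (le_max_right _ _)).1]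

end two

end Crest.Agent.R188.Chi
end

-- ▼ part R188/Eq2
section

set_option autoImplicit false
set_option linter.unusedSectionVars false

namespace Crest.Agent.R188.Eq

open IsLocalRing Module Function
open scoped Pointwise
open Crest.Agent.R183 Crest.Agent.R183.Res Crest.Agent.R188.Chi

universe u v w

section step

variable {R : Type w} [CommRing R] {A : Type u} [CommRing A] [Algebra R A] (F : MCx R)
variable {V : Type v} [AddCommGroup V] [Module A V] [Module R V] [IsScalarTower R A V]

lemma exact_lsmul_mkQ (q : A) (V : Type v) [AddCommGroup V] [Module A V] :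
    Exact (LinearMap.lsmul A V q) (Submodule.mkQ (q • (⊤ : Submodule A V))) := by
  intro x
  rw [← LinearMap.mem_ker, Submodule.ker_mkQ, Submodule.mem_smul_pointwise_iff_exists]
  constructor
  · rintro ⟨y, _, hy⟩
    exact ⟨y, hy⟩
  · rintro ⟨y, hy⟩
    exact ⟨y, Submodule.mem_top, hy⟩

theorem sesQ (q : A) (hq : IsSMulRegular V q) :
    SES (C' := fun n => F.ι n → V) (C := fun n => F.ι n → V)
      (C'' := fun n => F.ι n → QuotSMulTop q V)
      (F.dA A V) (F.dA A V) (F.dA A (QuotSMulTop q V)) (pmap F (LinearMap.lsmul A V q))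
      (pmap F (Submodule.mkQ (q • (⊤ : Submodule A V)))) :=
  sesX F (RLin.of_tower _) (RLin.of_tower _) hq (Submodule.mkQ_surjective _)
    (exact_lsmul_mkQ q V)

theorem Hmap_lsmul (q : A) (hq : IsSMulRegular V q) (i : ℕ) (x : HX A F V i) :
    Hmap (sesQ F q hq).cf i x = q • x := by
  obtain ⟨z, rfl⟩ := cls_surjective i x
  rw [Hmap_cls, ← map_smul]
  congr 1

theorem ker_Hmap_mkQ (q : A) (hq : IsSMulRegular V q) (i : ℕ) :
    LinearMap.ker (Hmap (sesQ F q hq).cg i) = q • (⊤ : Submodule A (HX A F V i)) := by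
  ext x
  rw [LinearMap.mem_ker, (sesQ F q hq).exact_mid (isCx_dA A F V) i x,
    Submodule.mem_smul_pointwise_iff_exists]
  constructor
  · rintro ⟨y, hy⟩
    exact ⟨y, Submodule.mem_top, by rw [← hy, Hmap_lsmul F q hq]⟩
  · rintro ⟨y, _, hy⟩
    exact ⟨y, by rw [← hy, Hmap_lsmul F q hq]⟩

/-- `H_i(V)/q ≃ image of H_i(V) in H_i(V/q)` -/
noncomputable def quotEquivRange (q : A) (hq : IsSMulRegular V q) (i : ℕ) :
    QuotSMulTop q (HX A F V i) ≃ₗ[A] LinearMap.range (Hmap (sesQ F q hq).cg i) :=
  (Submodule.quotEquivOfEq _ _ (ker_Hmap_mkQ F q hq i).symm).trans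
    (LinearMap.quotKerEquivRange _)

/-- `H_{i+1}(V/q) / image ≃ (0 : q)` in `H_i(V)` -/
noncomputable def quotRangeEquiv (q : A) (hq : IsSMulRegular V q) (i : ℕ) :
    (HX A F (QuotSMulTop q V) (i + 1) ⧸ LinearMap.range (Hmap (sesQ F q hq).cg (i + 1))) ≃ₗ[A]
      Submodule.torsionBy A (HX A F V i) q :=
  ((sesQ F q hq).snake (isCx_dA A F V) i).trans (LinearEquiv.ofEq _ _ (by
    ext x
    rw [LinearMap.mem_ker, Hmap_lsmul F q hq, Submodule.mem_torsionBy_iff]))

noncomputable def H0Equiv (q : A) (hq : IsSMulRegular V q) :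
    QuotSMulTop q (HX A F V 0) ≃ₗ[A] HX A F (QuotSMulTop q V) 0 :=
  (quotEquivRange F q hq 0).trans ((LinearEquiv.ofEq _ _
    (LinearMap.range_eq_top.2 (sesQ F q hq).surj_zero)).trans Submodule.topEquiv)

theorem subsingleton_succ (q : A) (hq : IsSMulRegular V q) (i : ℕ)
    (h1 : Subsingleton (HX A F V i)) (h2 : Subsingleton (HX A F V (i + 1))) :
    Subsingleton (HX A F (QuotSMulTop q V) (i + 1)) := by
  have h3 : Subsingleton (QuotSMulTop q (HX A F V (i + 1))) :=
    (Submodule.mkQ_surjective _).subsingleton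
  have h4 := (quotEquivRange F q hq (i + 1)).symm.injective.subsingleton
  have h5 := (quotRangeEquiv F q hq i).injective.subsingleton
  rw [Submodule.Quotient.subsingleton_iff] at h5
  rw [h5] at h4
  exact (Submodule.topEquiv (R := A)).symm.injective.subsingleton

end step

section chain

variable {R : Type w} [CommRing R] {A : Type u} [CommRing A] [IsLocalRing A] [IsNoetherianRing A]
  [Algebra R A] (F : MCx R)

theorem Good.of_exact {l : List A} {W' W W'' : Type v} [AddCommGroup W'] [Module A W']
    [AddCommGroup W] [Module A W] [AddCommGroup W''] [Module A W''] (f : W' →ₗ[A] W)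
    (g : W →ₗ[A] W'') (h : Exact f g) (h1 : Good l W') (h2 : Good l W'')
    (hW : Module.Finite A W) : Good l W := by
  obtain ⟨_, n1, hn1⟩ := h1
  obtain ⟨_, n2, hn2⟩ := h2
  refine ⟨hW, n1 + n2, ?_⟩
  rw [pow_add]
  refine (Ideal.mul_mono hn1 hn2).trans ?_
  rw [Ideal.sup_mul, Ideal.mul_sup, Ideal.mul_sup]
  refine sup_le (sup_le ?_ (le_sup_of_le_right Ideal.mul_le_right))
    (sup_le (le_sup_of_le_right Ideal.mul_le_left) (le_sup_of_le_right Ideal.mul_le_left))
  refine le_sup_of_le_left (Ideal.mul_le.2 fun a ha b hb => ?_)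
  rw [Module.mem_annihilator] at ha hb ⊢
  intro x
  have h3 : g (b • x) = 0 := by rw [map_smul, hb]
  obtain ⟨y, hy⟩ := (h _).1 h3
  rw [mul_smul, ← hy, ← map_smul, ha, map_zero]

variable {V : Type v} [AddCommGroup V] [Module A V] [Module R V] [IsScalarTower R A V]

instance finite_HX [Module.Finite A V] (i : ℕ) : Module.Finite A (HX A F V i) := by
  have : IsNoetherian A (F.ι i → V) := inferInstance
  infer_instance

/-- alternating sum of `e l (H_i(F ⊗ V))`, `i < N` -/
noncomputable def ee (l : List A) (V : Type v) [AddCommGroup V] [Module A V] [Module R V]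
    [IsScalarTower R A V] (N : ℕ) : ℤ :=
  ∑ i ∈ Finset.range N, (-1) ^ i * e l (HX A F V i)

theorem good_quot (q : A) (hq : IsSMulRegular V q) [Module.Finite A V] (l : List A)
    (hg : ∀ i, Good (q :: l) (HX A F V i)) (i : ℕ) : Good l (HX A F (QuotSMulTop q V) i) := by
  cases i with
  | zero => exact (hg 0).quot.congr (H0Equiv F q hq)
  | succ i =>
    refine Good.of_exact (Submodule.subtype _) (Submodule.mkQ _) (LinearMap.exact_subtype_mkQ _)
      ((hg (i + 1)).quot.congr (quotEquivRange F q hq (i + 1)))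
      ((hg i).tor.congr (quotRangeEquiv F q hq i).symm) inferInstance

theorem ee_step (q : A) (hq : IsSMulRegular V q) [Module.Finite A V] (l : List A)
    (hg : ∀ i, Good (q :: l) (HX A F V i)) (N : ℕ) :
    ee F l (QuotSMulTop q V) (N + 1) =
      ee F (q :: l) V (N + 1) + (-1) ^ N * e l (Submodule.torsionBy A (HX A F V N) q) := by
  have h0 : e l (HX A F (QuotSMulTop q V) 0) = e l (QuotSMulTop q (HX A F V 0)) :=
    (e_congr l (H0Equiv F q hq)).symm
  have h1 : ∀ i, e l (HX A F (QuotSMulTop q V) (i + 1)) =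
      e l (QuotSMulTop q (HX A F V (i + 1))) + e l (Submodule.torsionBy A (HX A F V i) q) := by
    intro i
    rw [e_add l (Submodule.subtype _) (Submodule.mkQ _) (Submodule.subtype_injective _)
      (Submodule.mkQ_surjective (LinearMap.range (Hmap (sesQ F q hq).cg (i + 1))))
      (LinearMap.exact_subtype_mkQ _) (good_quot F q hq l hg (i + 1)),
      e_congr l (quotEquivRange F q hq (i + 1)), e_congr l (quotRangeEquiv F q hq i)]
  induction N with
  | zero =>
    simp only [ee, zero_add, Finset.range_one, Finset.sum_singleton, pow_zero, one_mul, h0, e]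
    ring
  | succ N ih =>
    unfold ee at ih ⊢
    rw [Finset.sum_range_succ, ih, Finset.sum_range_succ _ (N + 1), h1 N, e]
    ring

theorem quotSMulTop_congr_chain (q : A) (l : List A) :
    Nonempty ((V ⧸ (Ideal.ofList (q :: l) • ⊤ : Submodule A V)) ≃ₗ[A]
      (QuotSMulTop q V ⧸ (Ideal.ofList l • ⊤ : Submodule A (QuotSMulTop q V)))) :=
  ⟨Submodule.quotOfListConsSMulTopEquivQuotSMulTopInner V q l⟩

theorem ee_nil (V : Type v) [AddCommGroup V] [Module A V] [Module R V]
    [IsScalarTower R A V] (N : ℕ) :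
    ee F ([] : List A) V N =
      ∑ i ∈ Finset.range N, (-1) ^ i * ((Module.length A (HX A F V i)).toNat : ℤ) := rfl

theorem ee_congr (l : List A) {V V' : Type v} [AddCommGroup V] [Module A V] [Module R V]
    [IsScalarTower R A V] [AddCommGroup V'] [Module A V'] [Module R V']
    [IsScalarTower R A V'] (φ : V ≃ₗ[A] V') (N : ℕ) : ee F l V N = ee F l V' N := by
  unfold ee
  refine Finset.sum_congr rfl fun i _ => ?_
  rw [e_congr l (HXcongr F φ (RLin.of_tower _) i)]

/-- **Chain lemma.** -/
theorem chain : ∀ (l : List A) (V : Type v) [AddCommGroup V] [Module A V] [Module R V]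
    [IsScalarTower R A V] [Module.Finite A V] (_ : RingTheory.Sequence.IsWeaklyRegular V l)
    (_ : ∀ i, Good l (HX A F V i)) (k : ℕ) (_ : ∀ i, k ≤ i → Subsingleton (HX A F V i)) (N : ℕ)
    (_ : k + l.length ≤ N),
    ee F l V N = ee F ([] : List A) (V ⧸ (Ideal.ofList l • ⊤ : Submodule A V)) N ∧
    (∀ i, Good ([] : List A) (HX A F (V ⧸ (Ideal.ofList l • ⊤ : Submodule A V)) i)) ∧
    ∀ i, k + l.length ≤ i →
      Subsingleton (HX A F (V ⧸ (Ideal.ofList l • ⊤ : Submodule A V)) i)
  | [], V, _, _, _, _, _, _, hg, k, hk, N, hN => by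
    have φ : V ≃ₗ[A] (V ⧸ (Ideal.ofList ([] : List A) • ⊤ : Submodule A V)) :=
      (Submodule.quotEquivOfEqBot _ (by simp)).symm
    refine ⟨ee_congr F [] φ N, fun i => ?_, fun i hi => ?_⟩
    · exact (hg i).congr (HXcongr F φ (RLin.of_tower _) i)
    · have := hk i (by simpa using hi)
      exact (HXcongr F φ (RLin.of_tower _) i).symm.injective.subsingleton
  | (q :: l), V, _, _, _, _, _, hr, hg, k, hk, N, hN => by
    rw [RingTheory.Sequence.isWeaklyRegular_cons_iff] at hr
    obtain ⟨hq, hr⟩ := hr
    have hN' : k + 1 + l.length ≤ N := by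
      rw [List.length_cons] at hN; omega
    have hk' : ∀ i, k + 1 ≤ i → Subsingleton (HX A F (QuotSMulTop q V) i) := by
      intro i hi
      obtain ⟨j, rfl⟩ := Nat.exists_eq_add_of_le' (by omega : 1 ≤ i)
      exact subsingleton_succ F q hq j (hk j (by omega)) (hk (j + 1) (by omega))
    obtain ⟨h1, h2, h3⟩ := chain l (QuotSMulTop q V) hr (good_quot F q hq l hg) (k + 1) hk' N hN'
    obtain ⟨φ⟩ := quotSMulTop_congr_chain (V := V) q l
    obtain ⟨M, rfl⟩ := Nat.exists_eq_add_of_le' (by omega : 1 ≤ N)
    have h4 := ee_step F q hq l hg M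
    have h5 : e l (Submodule.torsionBy A (HX A F V M) q) = 0 := by
      have := hk M (by omega)
      have : Subsingleton (Submodule.torsionBy A (HX A F V M) q) := by
        exact (Submodule.subtype_injective _).subsingleton
      exact e_subsingleton l _
    rw [h5, mul_zero, add_zero] at h4
    refine ⟨?_, fun i => ?_, fun i hi => ?_⟩
    · rw [← h4, h1]
      exact ee_congr F [] φ.symm (M + 1)
    · exact (h2 i).congr (HXcongr F φ.symm (RLin.of_tower _) i)
    · have := h3 i (by rw [List.length_cons] at hi; omega)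
      exact (HXcongr F φ (RLin.of_tower _) i).injective.subsingleton

end chain

end Crest.Agent.R188.Eq
end

-- ▼ part R188/Eq3
section

set_option autoImplicit false

namespace Crest.Agent.R188.Eq

universe u v w

/-- products of copies of a Noetherian ring are flat -/
theorem flat_pi (R : Type u) [CommRing R] [IsNoetherianRing R] (S : Type v) :
    Module.Flat R (S → R) := by
  rw [Module.Flat.iff_forall_isTrivialRelation]
  intro l f x hfx
  let Z : Submodule R (Fin l → R) :=
    LinearMap.ker (∑ i, f i • (LinearMap.proj i : (Fin l → R) →ₗ[R] R))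
  have hZ : ∀ v, v ∈ Z ↔ ∑ i, f i * v i = 0 := by
    intro v
    rw [LinearMap.mem_ker]
    simp [LinearMap.sum_apply]
  obtain ⟨m, a, ha⟩ := Submodule.fg_iff_exists_fin_generating_family.1 (IsNoetherian.noetherian Z)
  have h1 : ∀ s : S, ∃ c : Fin m → R, ∑ j, c j • a j = fun i => x i s := by
    intro s
    have h2 : (fun i => x i s) ∈ Z := by
      rw [hZ]
      have := congrFun hfx s
      simpa using this
    rw [← ha] at h2
    exact (Submodule.mem_span_range_iff_exists_fun R).1 h2
  choose c hc using h1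
  refine ⟨m, fun i j => a j i, fun j s => c s j, fun i => ?_, fun j => ?_⟩
  · funext s
    have := congrFun (hc s) i
    rw [Finset.sum_apply] at this ⊢
    rw [← this]
    refine Finset.sum_congr rfl fun j _ => ?_
    simp [mul_comm]
  · rw [← hZ, ← ha]
    exact Submodule.subset_span ⟨j, rfl⟩

section

variable (k : Type u) [Field k] (σ : Type v) (X : Type w) [CommRing X] [Algebra k X]

open MvPowerSeries

theorem smul_eq_map_mul (r : MvPowerSeries σ k) (f : MvPowerSeries σ X) :
    r • f = MvPowerSeries.map (algebraMap k X) r * f := by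
  rw [Algebra.smul_def]
  rfl

variable {k σ X}

omit [Field k] [CommRing X] [Algebra k X] in
/-- the power series with given coefficients -/
def ofc (g : (σ →₀ ℕ) → X) : MvPowerSeries σ X := g

omit [Algebra k X] in
lemma coeff_ofc (g : (σ →₀ ℕ) → X) (e : σ →₀ ℕ) : coeff e (ofc g) = g e := rfl

/-- a `k`-linear map applied to all coefficients is `k[[x]]`-linear -/
noncomputable def coeffwise (φ : X →ₗ[k] k) :
    MvPowerSeries σ X →ₗ[MvPowerSeries σ k] MvPowerSeries σ k where
  toFun f := ofc fun e => φ (coeff e f)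
  map_add' f g := by
    ext e
    rw [map_add, coeff_ofc, coeff_ofc, coeff_ofc, map_add, map_add]
  map_smul' r f := by
    classical
    ext e
    rw [RingHom.id_apply, coeff_ofc, smul_eq_map_mul, smul_eq_mul, coeff_mul, coeff_mul, map_sum]
    refine Finset.sum_congr rfl fun p _ => ?_
    rw [coeff_map, ← Algebra.smul_def, map_smul, smul_eq_mul, coeff_ofc]

theorem flat_mvPowerSeries [Finite σ] : Module.Flat (MvPowerSeries σ k) (MvPowerSeries σ X) := by
  classical
  let S := Module.Basis.ofVectorSpaceIndex k X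
  let b : Module.Basis S k X := Module.Basis.ofVectorSpace k X
  let φ : X →ₗ[k] (S → k) := LinearMap.pi fun s => b.coord s
  have hφ : LinearMap.ker φ = ⊥ := by
    rw [LinearMap.ker_eq_bot]
    intro x y hxy
    refine b.ext_elem fun s => ?_
    exact congrFun hxy s
  obtain ⟨ρ, hρ⟩ := φ.exists_leftInverse_of_injective hφ
  have : Module.Flat (MvPowerSeries σ k) (S → MvPowerSeries σ k) := flat_pi _ _
  let i : MvPowerSeries σ X →ₗ[MvPowerSeries σ k] (S → MvPowerSeries σ k) :=
    LinearMap.pi fun s => coeffwise (b.coord s)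
  let r : (S → MvPowerSeries σ k) →ₗ[MvPowerSeries σ k] MvPowerSeries σ X :=
    { toFun := fun g => ofc fun e => ρ fun s => coeff e (g s)
      map_add' := fun f g => by
        ext e
        rw [map_add, coeff_ofc, coeff_ofc, coeff_ofc, ← map_add]
        congr 1
      map_smul' := fun t f => by
        ext e
        rw [RingHom.id_apply, smul_eq_map_mul, coeff_mul, coeff_ofc]
        have h1 : (fun s => coeff e ((t • f) s)) =
            ∑ p ∈ Finset.HasAntidiagonal.antidiagonal e, coeff p.1 t • (fun s => coeff p.2 (f s)) := by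
          funext s
          rw [Finset.sum_apply, Pi.smul_apply, smul_eq_mul, coeff_mul]
          rfl
        rw [h1, map_sum]
        refine Finset.sum_congr rfl fun p _ => ?_
        rw [coeff_map, ← Algebra.smul_def, map_smul, coeff_ofc] }
  refine Module.Flat.of_retract i r ?_
  ext f e
  have h2 := LinearMap.congr_fun hρ (coeff e f)
  exact h2

end

end Crest.Agent.R188.Eq
end

-- ▼ part R188/Eq4
section

set_option autoImplicit false
set_option linter.unusedSectionVars false

namespace Crest.Agent.R188.Eq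

open IsLocalRing
open scoped Pointwise

universe u v w

section one

variable {S : Type u} [CommRing S] [IsLocalRing S]

lemma distinguished (s : S) (hs : s ∈ maximalIdeal S) :
    (Polynomial.X - Polynomial.C s).IsDistinguishedAt (maximalIdeal S) where
  monic := Polynomial.monic_X_sub_C s
  mem := by
    intro n hn
    rw [Polynomial.natDegree_X_sub_C] at hn
    obtain rfl : n = 0 := by omega
    simp [hs]

lemma coe_X_sub_C (s : S) : ((Polynomial.X - Polynomial.C s : Polynomial S) : PowerSeries S) =
    PowerSeries.X - PowerSeries.C s := by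
  simp

theorem exists_ev1 [IsAdicComplete (maximalIdeal S) S] (s : S) (hs : s ∈ maximalIdeal S) :
    ∃ ρ : PowerSeries S →+* S, (∀ a, ρ (PowerSeries.C a) = a) ∧ ρ PowerSeries.X = s ∧
      RingHom.ker ρ = Ideal.span {PowerSeries.X - PowerSeries.C s} := by
  have H := distinguished s hs
  let ρ : PowerSeries S →+* S := ((Polynomial.quotientSpanXSubCAlgEquiv s).toRingHom.comp
    H.algEquivQuotient.symm.toRingEquiv.toRingHom).comp (Ideal.Quotient.mk _)
  have hC : ∀ a, ρ (PowerSeries.C a) = a := by
    intro a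
    have h1 : (Ideal.Quotient.mk (Ideal.span
      {((Polynomial.X - Polynomial.C s : Polynomial S) : PowerSeries S)})) (PowerSeries.C a) =
      algebraMap S _ a := rfl
    show (Polynomial.quotientSpanXSubCAlgEquiv s) (H.algEquivQuotient.symm
      (Ideal.Quotient.mk _ (PowerSeries.C a))) = a
    rw [h1, AlgEquiv.commutes, AlgEquiv.commutes]
    rfl
  have hk : RingHom.ker ρ = Ideal.span {PowerSeries.X - PowerSeries.C s} := by
    ext f
    rw [RingHom.mem_ker, ← coe_X_sub_C, ← Ideal.Quotient.eq_zero_iff_mem]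
    show (Polynomial.quotientSpanXSubCAlgEquiv s) (H.algEquivQuotient.symm
      (Ideal.Quotient.mk _ f)) = 0 ↔ _
    rw [EmbeddingLike.map_eq_zero_iff, EmbeddingLike.map_eq_zero_iff]
  refine ⟨ρ, hC, ?_, hk⟩
  have h2 : ρ (PowerSeries.X - PowerSeries.C s) = 0 := by
    rw [← RingHom.mem_ker, hk]
    exact Ideal.mem_span_singleton_self _
  rw [map_sub, hC, sub_eq_zero] at h2
  exact h2

theorem regular1 [IsAdicComplete (maximalIdeal S) S] (s : S) (hs : s ∈ maximalIdeal S)
    (f : PowerSeries S) (hf : (PowerSeries.X - PowerSeries.C s) * f = 0) : f = 0 := by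
  have H := distinguished s hs
  have h1 : (PowerSeries.IsWeierstrassDivisorAt
      ((Polynomial.X - Polynomial.C s : Polynomial S) : PowerSeries S) (maximalIdeal S)) :=
    H.isWeierstrassDivisorAt'
  refine (h1.eq_zero_of_mul_eq (q := f) (r := 0) ?_ ?_).1
  · rw [Polynomial.degree_zero]
    exact WithBot.bot_lt_coe _
  · rw [coe_X_sub_C, hf]
    simp

end one

section many

variable (X : Type u) [CommRing X] [IsLocalRing X]

open MvPowerSeries

/-- the sequence `x_i - c_i` -/
noncomputable def qs {n : ℕ} (c : Fin n → X) : List (MvPowerSeries (Fin n) X) :=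
  List.ofFn fun i => MvPowerSeries.X i - MvPowerSeries.C (c i)

variable [IsAdicComplete (maximalIdeal X) X]

theorem exists_ev : ∀ (n : ℕ) (c : Fin n → X) (_ : ∀ i, c i ∈ maximalIdeal X),
    RingTheory.Sequence.IsWeaklyRegular (MvPowerSeries (Fin n) X) (qs X c) ∧
    ∃ ρ : MvPowerSeries (Fin n) X →+* X, (∀ a, ρ (MvPowerSeries.C a) = a) ∧
      (∀ i, ρ (MvPowerSeries.X i) = c i) ∧ RingHom.ker ρ = Ideal.ofList (qs X c)
  | 0, c, _ => by
    refine ⟨by simp [qs], MvPowerSeries.constantCoeff, by simp, fun i => i.elim0, ?_⟩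
    rw [qs, List.ofFn_zero, Ideal.ofList_nil, ← RingHom.injective_iff_ker_eq_bot]
    exact (MvPowerSeries.isEmptyEquiv (σ := Fin 0) (R := X)).injective
  | (n + 1), c, hc => by
    obtain ⟨ih1, ρ', hC', hX', hk'⟩ := exists_ev n (fun i => c i.succ) (fun i => hc i.succ)
    have hcomp : IsAdicComplete (maximalIdeal (MvPowerSeries (Fin n) X))
      (MvPowerSeries (Fin n) X) := R227.isAdicComplete_maximalIdeal_mv
    have hs : MvPowerSeries.C (c 0) ∈ maximalIdeal (MvPowerSeries (Fin n) X) := by
      rw [R227.maximalIdeal_mv, R227.mem_idIX_iff]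
      simpa using hc 0
    obtain ⟨ρ1, hC1, hX1, hk1⟩ := exists_ev1 _ hs
    let E := MvPowerSeries.finSuccEquiv X n
    let ρ0 : MvPowerSeries (Fin (n + 1)) X →+* MvPowerSeries (Fin n) X :=
      ρ1.comp E.toRingEquiv.toRingHom
    have hC0 : ∀ a, ρ0 (MvPowerSeries.C a) = MvPowerSeries.C a := by
      intro a
      show ρ1 (MvPowerSeries.finSuccEquiv X n (MvPowerSeries.C a)) = _
      rw [MvPowerSeries.finSuccEquiv_C, hC1]
    have hX0 : ∀ i : Fin n, ρ0 (MvPowerSeries.X i.succ) = MvPowerSeries.X i := by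
      intro i
      show ρ1 (MvPowerSeries.finSuccEquiv X n (MvPowerSeries.X i.succ)) = _
      rw [MvPowerSeries.finSuccEquiv_X_succ, hC1]
    have hX00 : ρ0 (MvPowerSeries.X 0) = MvPowerSeries.C (c 0) := by
      show ρ1 (MvPowerSeries.finSuccEquiv X n (MvPowerSeries.X 0)) = _
      rw [MvPowerSeries.finSuccEquiv_X_zero, hX1]
    have hEq0 : E (MvPowerSeries.X 0 - MvPowerSeries.C (c 0)) =
        PowerSeries.X - PowerSeries.C (MvPowerSeries.C (c 0)) := by
      rw [map_sub, MvPowerSeries.finSuccEquiv_X_zero, MvPowerSeries.finSuccEquiv_C]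
    have hk0 : RingHom.ker ρ0 = Ideal.span {MvPowerSeries.X 0 - MvPowerSeries.C (c 0)} := by
      ext f
      rw [RingHom.mem_ker]
      show ρ1 (E f) = 0 ↔ _
      rw [← RingHom.mem_ker, hk1, ← hEq0, Ideal.mem_span_singleton, Ideal.mem_span_singleton]
      exact map_dvd_iff E
    have hsurj0 : Function.Surjective ρ0 := by
      intro g
      refine ⟨E.symm (PowerSeries.C g), ?_⟩
      show ρ1 (E (E.symm (PowerSeries.C g))) = g
      rw [AlgEquiv.apply_symm_apply, hC1]
    have hlist : qs X c = (MvPowerSeries.X 0 - MvPowerSeries.C (c 0)) ::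
        List.ofFn fun i : Fin n => MvPowerSeries.X i.succ - MvPowerSeries.C (c i.succ) := by
      rw [qs, List.ofFn_succ]
    let _ : Algebra (MvPowerSeries (Fin (n + 1)) X) (MvPowerSeries (Fin n) X) := ρ0.toAlgebra
    let L : MvPowerSeries (Fin (n + 1)) X →ₗ[MvPowerSeries (Fin (n + 1)) X]
      MvPowerSeries (Fin n) X := Algebra.linearMap _ _
    have hL : LinearMap.ker L = (MvPowerSeries.X 0 - MvPowerSeries.C (c 0) :
        MvPowerSeries (Fin (n + 1)) X) •
        (⊤ : Submodule (MvPowerSeries (Fin (n + 1)) X) (MvPowerSeries (Fin (n + 1)) X)) := by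
      ext f
      rw [Submodule.mem_smul_pointwise_iff_exists, LinearMap.mem_ker]
      show ρ0 f = 0 ↔ _
      rw [← RingHom.mem_ker, hk0, Ideal.mem_span_singleton]
      constructor
      · rintro ⟨g, rfl⟩
        exact ⟨g, trivial, rfl⟩
      · rintro ⟨g, _, rfl⟩
        exact ⟨g, rfl⟩
    let eL := (Submodule.quotEquivOfEq _ _ hL.symm).trans
      (L.quotKerEquivOfSurjective hsurj0)
    refine ⟨?_, ρ'.comp ρ0, fun a => ?_, fun i => ?_, ?_⟩
    · rw [hlist, RingTheory.Sequence.isWeaklyRegular_cons_iff]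
      refine ⟨IsSMulRegular.of_right_eq_zero_of_smul fun f hf => ?_, ?_⟩
      · apply E.injective
        rw [map_zero]
        apply regular1 _ hs
        rw [← hEq0, ← map_mul, ← smul_eq_mul, hf, map_zero]
      · refine ((AddEquiv.isWeaklyRegular_congr (e := eL.toAddEquiv)
          (bs := qs X fun i => c i.succ) ?_).2 ih1)
        rw [qs, List.forall₂_iff_get]
        refine ⟨by simp, fun i h1 h2 x => ?_⟩
        simp only [List.get_ofFn]
        show eL (_ • x) = _ • eL x
        rw [map_smul, Algebra.smul_def]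
        congr 1
        show ρ0 _ = _
        rw [map_sub, hX0, hC0]
        rfl
    · rw [RingHom.comp_apply, hC0, hC']
    · rw [RingHom.comp_apply]
      refine Fin.cases ?_ (fun j => ?_) i
      · rw [hX00, hC']
      · rw [hX0, hX']
    · have h1 : RingHom.ker (ρ'.comp ρ0) = (RingHom.ker ρ').comap ρ0 := by
        ext f; simp [RingHom.mem_ker]
      have h2 : Ideal.ofList (qs X fun i => c i.succ) =
          (Ideal.ofList (List.ofFn fun i : Fin n =>
            MvPowerSeries.X i.succ - MvPowerSeries.C (c i.succ))).map ρ0 := by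
        rw [Ideal.map_ofList, List.map_ofFn, qs]
        congr 1
        congr 1
        funext i
        rw [Function.comp_apply, map_sub, hX0, hC0]
      rw [h1, hk', h2, Ideal.comap_map_of_surjective' _ hsurj0, hk0, hlist, Ideal.ofList_cons,
        sup_comm]

end many

end Crest.Agent.R188.Eq
end

-- ▼ part R188/Str1
section

/-!
# R188, block A2 (helper645): Cohen structure of complete regular local rings
-/

set_option autoImplicit false

namespace Crest.Agent.R188.Str

open Ideal IsLocalRing MvPowerSeries Crest.Agent.R183.Cohen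

universe u

section Surj

variable {σ Λ S : Type*} [Finite σ] [CommRing Λ] [IsLocalRing Λ] [CommRing S] [IsLocalRing S]
  [IsNoetherianRing S] [IsAdicComplete (maximalIdeal S) S] (φ : Λ →+* S) (t : σ → S)

/-- **Surjectivity of evaluation**: if `Λ → S` is surjective on residue fields and `t` together with
the maximal ideal of `Λ` generates the maximal ideal of `S`, then `Λ[[x]] → S` is surjective. -/
theorem psEval_surjective [IsPrecomplete (maximalIdeal Λ) Λ] (hφ : IsLocalHom φ)
    (hres : Function.Surjective ((residue S).comp φ)) (ht : ∀ i, t i ∈ maximalIdeal S)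
    (hc : maximalIdeal S ≤ (maximalIdeal Λ).map φ ⊔ span (Set.range t)) :
    Function.Surjective (psEval (maximalIdeal S) φ t ht) := by
  let P := MvPowerSeries σ Λ
  let ev : P →+* S := psEval (maximalIdeal S) φ t ht
  let _ : Algebra P S := ev.toAlgebra
  have hfin : Module.Finite P S :=
    psEval_finite φ t hφ (RingHom.Finite.of_surjective _ hres) ht 1 (by rw [pow_one]; exact hc)
  have hφm : (maximalIdeal Λ).map φ ≤ maximalIdeal S := by
    rw [Ideal.map_le_iff_le_comap]
    exact ((local_hom_TFAE φ).out 0 3).1 hφ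
  have hmap : maximalIdeal S ≤ (maximalIdeal P).map ev := by
    refine hc.trans (sup_le ?_ ?_)
    · have h1 : (maximalIdeal Λ).map φ = ((maximalIdeal Λ).map (C : Λ →+* P)).map ev := by
        rw [Ideal.map_map]
        congr 1
        ext a
        exact (psEval_C _ _ _ ht a).symm
      rw [h1]
      apply Ideal.map_mono
      rw [maximalIdeal_mvPowerSeries]
      exact le_sup_left
    · rw [span_le]
      rintro _ ⟨i, rfl⟩
      have h1 : ev (X i) = t i := psEval_X _ _ _ ht i
      rw [← h1]
      apply Ideal.mem_map_of_mem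
      rw [maximalIdeal_mvPowerSeries]
      exact Ideal.mem_sup_right (subset_span ⟨i, rfl⟩)
  -- Nakayama
  have htop : (⊤ : Submodule P S) ≤ Submodule.span P {(1 : S)} ⊔ (maximalIdeal P) • ⊤ := by
    intro s _
    obtain ⟨a, ha⟩ := hres (residue S s)
    have h1 : s - φ a ∈ maximalIdeal S := by
      rw [← residue_eq_zero_iff, map_sub, sub_eq_zero]
      exact ha.symm
    have h2 : s = φ a + (s - φ a) := by ring
    rw [h2]
    refine Submodule.add_mem_sup ?_ ?_
    · refine Submodule.mem_span_singleton.2 ⟨C a, ?_⟩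
      rw [Algebra.smul_def, mul_one]
      exact psEval_C _ _ _ ht a
    · rw [Ideal.smul_top_eq_map]
      exact hmap h1
  have h3 : Submodule.span P {(1 : S)} = ⊤ := by
    have h4 := Submodule.le_of_le_smul_of_le_jacobson_bot (I := maximalIdeal P)
      (N := Submodule.span P {(1 : S)}) (N' := ⊤) Module.Finite.fg_top
      (IsLocalRing.maximalIdeal_le_jacobson _) htop
    exact top_le_iff.1 h4
  intro s
  have h5 : s ∈ Submodule.span P {(1 : S)} := by rw [h3]; trivial
  obtain ⟨f, hf⟩ := Submodule.mem_span_singleton.1 h5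
  refine ⟨f, ?_⟩
  rw [Algebra.smul_def, mul_one] at hf
  exact hf

end Surj

section EqualChar

/-- **Equal characteristic**: a complete regular local ring with a coefficient field is a power
series ring. -/
theorem psEval_bijective_of_field {k : Type*} [Field k] {S : Type*} [CommRing S]
    [IsRegularLocalRing S] [IsAdicComplete (maximalIdeal S) S] (σ : k →+* S)
    (hσ : Function.Surjective ((residue S).comp σ)) {d : ℕ} (hd : ringKrullDim S = (d : ℕ))
    (t : Fin d → S) (ht : ∀ i, t i ∈ maximalIdeal S) (hspan : span (Set.range t) = maximalIdeal S) :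
    Function.Bijective (psEval (maximalIdeal S) σ t ht) := by
  have hbot : maximalIdeal k = ⊥ := IsLocalRing.maximalIdeal_eq_bot
  have hpre : IsPrecomplete (maximalIdeal k) k := by
    rw [hbot]; infer_instance
  refine ⟨(noether_equal σ (RingHom.Finite.of_surjective _ hσ) hd t ht (c := 1)
    (by rw [pow_one, hspan])).1, ?_⟩
  exact psEval_surjective σ t inferInstance hσ ht (by rw [hspan]; exact le_sup_right)

end EqualChar

section Mixed

variable {p : ℕ} {C₀ : Type*} [CommRing C₀] [IsLocalRing C₀]

theorem notMem_sq_of_sub (hC : IsCohen p C₀) {d : ℕ} {f : MvPowerSeries (Fin d) C₀}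
    (hf : f ∈ span (Set.range (X : Fin d → MvPowerSeries (Fin d) C₀))) :
    (C (p : C₀) : MvPowerSeries (Fin d) C₀) - f ∉
      maximalIdeal (MvPowerSeries (Fin d) C₀) ^ 2 := by
  have := hC.isDVR_dom
  intro hE
  let P := MvPowerSeries (Fin d) C₀
  let cc : P →+* C₀ := constantCoeff
  have hsurj : Function.Surjective cc := fun a => ⟨C a, constantCoeff_C a⟩
  have h1 : cc ((C (p : C₀) : P) - f) ∈ maximalIdeal C₀ ^ 2 := by
    rw [← Str.map_maximalIdeal_of_surjective cc hsurj, ← Ideal.map_pow]
    exact Ideal.mem_map_of_mem _ hE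
  have h2 : cc f = 0 := by
    have h3 : span (Set.range (X : Fin d → MvPowerSeries (Fin d) C₀)) ≤ RingHom.ker cc := by
      rw [span_le]
      rintro _ ⟨i, rfl⟩
      exact constantCoeff_X i
    exact h3 hf
  rw [map_sub, h2, sub_zero] at h1
  have h3 : cc (C (p : C₀) : P) = p := constantCoeff_C _
  rw [h3, hC.maximalIdeal_eq, Ideal.span_singleton_pow, Ideal.mem_span_singleton] at h1
  obtain ⟨b, hb⟩ := h1
  have hp0 := hC.natCast_ne_zero
  have h4 : (p : C₀) * (1 - p * b) = 0 := by
    rw [mul_sub, mul_one, sub_eq_zero]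
    calc (p : C₀) = (p : C₀) ^ 2 * b := hb
      _ = p * (p * b) := by ring
  rcases mul_eq_zero.1 h4 with h | h
  · exact hp0 h
  · have h5 : IsUnit (p : C₀) := IsUnit.of_mul_eq_one b (sub_eq_zero.1 h).symm
    have h6 : (p : C₀) ∈ maximalIdeal C₀ := by
      rw [hC.maximalIdeal_eq]; exact Ideal.mem_span_singleton_self _
    exact (mem_maximalIdeal _).1 h6 h5

/-- **Mixed characteristic**: a complete regular local ring of residue characteristic `p` with
coefficient ring `C₀` is the quotient of a power series ring by an element `p - f`, `f ∈ (x)`. -/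
theorem ker_psEval_mixed (hC : IsCohen p C₀) {S : Type*} [CommRing S]
    [IsRegularLocalRing S] [IsAdicComplete (maximalIdeal S) S] (g : C₀ →+* S) (hg : IsLocalHom g)
    (hres : Function.Surjective ((residue S).comp g)) {d : ℕ} (hd : ringKrullDim S = (d : ℕ))
    (t : Fin d → S) (ht : ∀ i, t i ∈ maximalIdeal S) (hspan : span (Set.range t) = maximalIdeal S) :
    Function.Surjective (psEval (maximalIdeal S) g t ht) ∧
    ∃ f ∈ span (Set.range (X : Fin d → MvPowerSeries (Fin d) C₀)),
      RingHom.ker (psEval (maximalIdeal S) g t ht) = span {C (p : C₀) - f} := by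
  have := hC.isDVR_dom
  have := hC.isNoetherianRing
  have := hC.isRegularLocalRing
  have hcomp : IsAdicComplete (maximalIdeal C₀) C₀ := hC.complete
  have hpre : IsPrecomplete (maximalIdeal C₀) C₀ := hcomp.toIsPrecomplete
  have hsurj : Function.Surjective (psEval (maximalIdeal S) g t ht) :=
    psEval_surjective g t hg hres ht (by rw [hspan]; exact le_sup_right)
  refine ⟨hsurj, ?_⟩
  let P := MvPowerSeries (Fin d) C₀
  let ev : P →+* S := psEval (maximalIdeal S) g t ht
  have hpm : (p : S) ∈ maximalIdeal S := by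
    have h1 : (p : C₀) ∈ maximalIdeal C₀ := by
      rw [hC.maximalIdeal_eq]; exact Ideal.mem_span_singleton_self _
    have h0 : maximalIdeal C₀ ≤ (maximalIdeal S).comap g := ((local_hom_TFAE g).out 0 3).1 hg
    have h2 := h0 h1
    rw [Ideal.mem_comap, map_natCast] at h2
    exact h2
  rw [← hspan] at hpm
  obtain ⟨c, hc⟩ := (Ideal.mem_span_range_iff_exists_fun).1 hpm
  choose γ hγ using fun i => hsurj (c i)
  let f : P := ∑ i, γ i * X i
  have hf : f ∈ span (Set.range (X : Fin d → P)) :=
    (Ideal.mem_span_range_iff_exists_fun).2 ⟨γ, rfl⟩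
  refine ⟨f, hf, ?_⟩
  have hevf : ev f = (p : S) := by
    simp only [f, map_sum, map_mul]
    rw [← hc]
    refine Finset.sum_congr rfl fun i _ => ?_
    congr 1
    · exact hγ i
    · exact psEval_X _ _ _ ht i
  have hevE : ev (C (p : C₀) - f) = 0 := by
    rw [map_sub, hevf, sub_eq_zero]
    have h1 : ev (C (p : C₀)) = g p := psEval_C _ _ _ ht _
    rw [h1, map_natCast]
  have hEm : (C (p : C₀) : P) - f ∈ maximalIdeal P := by
    rw [maximalIdeal_mvPowerSeries]
    refine sub_mem (Ideal.mem_sup_left (Ideal.mem_map_of_mem _ ?_)) (Ideal.mem_sup_right hf)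
    rw [hC.maximalIdeal_eq]; exact Ideal.mem_span_singleton_self _
  have hdP : ringKrullDim P = (d + 1 : ℕ) := by
    rw [ringKrullDim_mvPowerSeries, hC.ringKrullDim_eq]
    push_cast
    ring
  obtain ⟨hreg, hdim⟩ := regular_quotient_of_notMem_sq hdP _ hEm (notMem_sq_of_sub hC hf)
  have hdom : IsDomain (P ⧸ span {(C (p : C₀) : P) - f}) := isDomain_of_isRegularLocalRing _
  have hle : span {(C (p : C₀) : P) - f} ≤ RingHom.ker ev := by
    rw [Ideal.span_singleton_le_iff_mem]
    exact hevE
  refine le_antisymm ?_ hle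
  -- injectivity of `P / (E) → S`
  let q : P ⧸ span {(C (p : C₀) : P) - f} →+* S := Ideal.Quotient.lift _ ev (fun a ha => hle ha)
  have hq : Function.Surjective q := by
    intro s
    obtain ⟨a, rfl⟩ := hsurj s
    exact ⟨Ideal.Quotient.mk _ a, rfl⟩
  let _ : Algebra (P ⧸ span {(C (p : C₀) : P) - f}) S := q.toAlgebra
  have hint : Algebra.IsIntegral (P ⧸ span {(C (p : C₀) : P) - f}) S :=
    (algebraMap _ S).isIntegral_of_surjective hq |> fun h => ⟨h⟩
  have hinj := injective_of_isIntegral_of_ringKrullDim_le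
    (A := P ⧸ span {(C (p : C₀) : P) - f}) (S := S) ringKrullDim_lt_top.ne
    (by rw [hdim, hd])
  intro a ha
  rw [← Ideal.Quotient.eq_zero_iff_mem]
  apply hinj
  rw [map_zero]
  exact ha

end Mixed

end Crest.Agent.R188.Str
end

-- ▼ part R188/Str2
section

/-!
# R188, blocks A1 + A2 (helper645): reduction to complete regular local rings with algebraically
closed residue field, and their explicit form
-/

set_option autoImplicit false

namespace Crest.Agent.R188.Str

open Ideal IsLocalRing MvPowerSeries Crest.Agent.R183.Cohen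

universe u v

/-- A flat local extension `S` of a regular local ring `R` with `m_R S = m_S` is regular. -/
theorem isRegularLocalRing_of_flat (R : Type u) (S : Type v) [CommRing R] [IsRegularLocalRing R]
    [CommRing S] [IsLocalRing S] [IsNoetherianRing S] [Algebra R S] [Module.Flat R S]
    (hm : (maximalIdeal R).map (algebraMap R S) = maximalIdeal S) :
    IsRegularLocalRing S ∧ ringKrullDim S = ringKrullDim R := by
  have hdim := Crest.Agent.R183.G.ringKrullDim_eq_of_map_maximalIdeal hm
  have h1 := IsRegularLocalRing.spanFinrank_maximalIdeal (R := R)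
  obtain ⟨t, ht⟩ := exists_generators R h1.symm
  have h2 : span (Set.range fun i => algebraMap R S (t i)) = maximalIdeal S := by
    have h3 : (span (Set.range t)).map (algebraMap R S) = maximalIdeal S := by rw [ht, hm]
    rw [← h3, Ideal.map_span, ← Set.range_comp]
    rfl
  refine ⟨(isRegularLocalRing_of_span _ h2 ?_).1, hdim⟩
  rw [hdim, h1]

/-- **(A1)** Every regular local ring `R` has a flat local extension `S` with `m_R S = m_S` which is
complete regular local with algebraically closed residue field. -/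
theorem exists_gonflement_regular (R : Type u) [CommRing R] [IsRegularLocalRing R] :
    ∃ (S : Type u) (_ : CommRing S) (_ : IsRegularLocalRing S) (_ : Algebra R S),
      IsAdicComplete (maximalIdeal S) S ∧ IsAlgClosed (ResidueField S) ∧ Module.Flat R S ∧
      (maximalIdeal R).map (algebraMap R S) = maximalIdeal S ∧
      ringKrullDim S = ringKrullDim R := by
  obtain ⟨S, _, _, _, _, hc, e, hflat, hm, -⟩ :=
    Crest.Agent.R183.G.exists_gonflement R (AlgebraicClosure (ResidueField R))
  obtain ⟨hreg, hdim⟩ := isRegularLocalRing_of_flat R S hm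
  exact ⟨S, inferInstance, hreg, inferInstance, hc, IsAlgClosed.of_ringEquiv _ _ e.symm, hflat,
    hm, hdim⟩

section Structure

variable (S : Type u) [CommRing S] [IsRegularLocalRing S]
  [IsAdicComplete (maximalIdeal S) S]

/-- **(A2b)** equal characteristic: `S ≃ k[[x_1, …, x_d]]` with `x_i ↦ t_i`, for every regular
system of parameters `t`. -/
theorem exists_equiv_of_equalChar
    (h : CharZero (ResidueField S) ∨ ∃ p : ℕ, p.Prime ∧ (p : S) = 0) {d : ℕ}
    (hd : ringKrullDim S = (d : ℕ)) (t : Fin d → S) (hspan : span (Set.range t) = maximalIdeal S) :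
    ∃ e : MvPowerSeries (Fin d) (ResidueField S) ≃+* S,
      (∀ i, e (X i) = t i) ∧ ∀ a, residue S (e (C a)) = a := by
  have hσ : ∃ σ : ResidueField S →+* S, ∀ x, residue S (σ x) = x := by
    rcases h with h | ⟨p, hp, hp0⟩
    · exact exists_coefficientField_charZero' S h
    · have : Fact p.Prime := ⟨hp⟩
      exact exists_coefficientField_charP p S hp0
  obtain ⟨σ, hσ⟩ := hσ
  have ht : ∀ i, t i ∈ maximalIdeal S := fun i => hspan ▸ subset_span ⟨i, rfl⟩
  have hbij := psEval_bijective_of_field σ (fun x => ⟨x, hσ x⟩) hd t ht hspan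
  refine ⟨RingEquiv.ofBijective _ hbij, fun i => psEval_X _ _ _ ht i, fun a => ?_⟩
  have h1 : RingEquiv.ofBijective _ hbij (C a) = σ a := psEval_C _ _ _ ht a
  rw [h1, hσ]

/-- **(A2a)** mixed characteristic, perfect residue field: `S = W(k)[[x_1, …, x_d]] / (p - f)` with
`f ∈ (x_1, …, x_d)` and `x_i ↦ t_i`, for every regular system of parameters `t`. Here `K` is the
residue field, given with an isomorphism `e`. -/
theorem exists_surjective_of_perfect (p : ℕ) [Fact p.Prime] (hp : (p : S) ∈ maximalIdeal S)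
    {K : Type v} [Field K] [CharP K p] [PerfectRing K p] (e : K ≃+* ResidueField S) {d : ℕ}
    (hd : ringKrullDim S = (d : ℕ)) (t : Fin d → S) (hspan : span (Set.range t) = maximalIdeal S) :
    ∃ π : MvPowerSeries (Fin d) (WittVector p K) →+* S, Function.Surjective π ∧
      (∀ i, π (X i) = t i) ∧
      (∀ a, residue S (π (C a)) = e (WittVector.constantCoeff a)) ∧
      ∃ f ∈ span (Set.range (X : Fin d → MvPowerSeries (Fin d) (WittVector p K))),
        RingHom.ker π = span {C (p : WittVector p K) - f} := by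
  have hC := isCohen_witt p K
  obtain ⟨g, hg⟩ := hC.exists_lift_residue (S := S) hp (e.toRingHom.comp WittVector.constantCoeff)
  have hgr : ∀ a, residue S (g a) = e (WittVector.constantCoeff a) := fun a =>
    RingHom.congr_fun hg a
  have hcsurj : Function.Surjective (WittVector.constantCoeff : WittVector p K →+* K) := by
    intro a
    refine ⟨WittVector.teichmuller p a, ?_⟩
    rw [WittVector.constantCoeff_apply, WittVector.teichmuller_coeff_zero]
  have hloc : IsLocalHom g := by
    refine ⟨fun a ha => ?_⟩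
    by_contra hcon
    have h1 : a ∈ maximalIdeal (WittVector p K) := (mem_maximalIdeal _).2 hcon
    rw [hC.maximalIdeal_eq, Ideal.mem_span_singleton] at h1
    obtain ⟨b, rfl⟩ := h1
    rw [map_mul, map_natCast] at ha
    exact (mem_maximalIdeal _).1 (Ideal.mul_mem_right _ _ hp) ha
  have hres : Function.Surjective ((residue S).comp g) := by
    rw [hg]
    exact e.surjective.comp hcsurj
  have ht : ∀ i, t i ∈ maximalIdeal S := fun i => hspan ▸ subset_span ⟨i, rfl⟩
  obtain ⟨hsurj, f, hf, hker⟩ := ker_psEval_mixed hC g hloc hres hd t ht hspan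
  refine ⟨psEval (maximalIdeal S) g t ht, hsurj, fun i => psEval_X _ _ _ ht i, fun a => ?_,
    f, hf, hker⟩
  rw [psEval_C, hgr]

/-- The dichotomy. -/
theorem charP_or_charZero (S : Type u) [CommRing S] [IsLocalRing S] :
    CharZero (ResidueField S) ∨ ∃ p : ℕ, p.Prime ∧ CharP (ResidueField S) p ∧
      (p : S) ∈ maximalIdeal S := by
  obtain ⟨p, hp⟩ := CharP.exists (ResidueField S)
  rcases CharP.char_is_prime_or_zero (ResidueField S) p with h | h
  · right
    refine ⟨p, h, hp, ?_⟩
    rw [← residue_eq_zero_iff, map_natCast]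
    exact CharP.cast_eq_zero _ p
  · left
    subst h
    exact CharP.charP_to_charZero _

/-- **Structure of complete regular local rings with algebraically closed residue field.** -/
theorem structure_of_isAlgClosed [IsAlgClosed (ResidueField S)] {d : ℕ}
    (hd : ringKrullDim S = (d : ℕ)) (t : Fin d → S) (hspan : span (Set.range t) = maximalIdeal S) :
    (∃ e : MvPowerSeries (Fin d) (ResidueField S) ≃+* S,
      (∀ i, e (X i) = t i) ∧ ∀ a, residue S (e (C a)) = a) ∨
    ∃ (p : ℕ) (_ : Fact p.Prime) (_ : CharP (ResidueField S) p), (p : S) ≠ 0 ∧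
      ∃ π : MvPowerSeries (Fin d) (WittVector p (ResidueField S)) →+* S, Function.Surjective π ∧
      (∀ i, π (X i) = t i) ∧
      (∀ a, residue S (π (C a)) = WittVector.constantCoeff a) ∧
      ∃ f ∈ span (Set.range (X : Fin d → MvPowerSeries (Fin d) (WittVector p (ResidueField S)))),
        RingHom.ker π = span {C (p : WittVector p (ResidueField S)) - f} := by
  rcases charP_or_charZero S with h | ⟨p, hp, hchar, hpm⟩
  · left
    exact exists_equiv_of_equalChar S (Or.inl h) hd t hspan
  · by_cases hp0 : (p : S) = 0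
    · left
      exact exists_equiv_of_equalChar S (Or.inr ⟨p, hp, hp0⟩) hd t hspan
    · right
      have : Fact p.Prime := ⟨hp⟩
      refine ⟨p, inferInstance, hchar, hp0, ?_⟩
      exact exists_surjective_of_perfect S p hpm (RingEquiv.refl _) hd t hspan

end Structure

end Crest.Agent.R188.Str
end

-- ▼ part R188/Str3
section

/-!
# R188, block A1 (helper645): transport of the hypotheses of S0288 along `R → S` flat local with
`m_R S = m_S`
-/

set_option autoImplicit false

namespace Crest.Agent.R188.Str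

open Ideal IsLocalRing TensorProduct

universe u v w

section ann

variable (R : Type u) (S : Type v) [CommRing R] [CommRing S] [Algebra R S] [Module.Flat R S]
  (M : Type w) [AddCommGroup M] [Module R M] [Module.Finite R M]

/-- The annihilator of a finite module commutes with flat base change. -/
theorem annihilator_baseChange :
    Module.annihilator S (S ⊗[R] M) = (Module.annihilator R M).map (algebraMap R S) := by
  apply le_antisymm
  · intro s hs
    rw [Module.mem_annihilator] at hs
    obtain ⟨n, m, hm⟩ := Module.Finite.exists_fin (R := R) (M := M)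
    let φ : R →ₗ[R] (Fin n → M) := LinearMap.pi fun i => LinearMap.toSpanSingleton R M (m i)
    have hφ : ∀ r i, φ r i = r • m i := fun r i => rfl
    have hex : Function.Exact (Submodule.subtype (Module.annihilator R M)) φ := by
      intro r
      constructor
      · intro hr
        refine ⟨⟨r, ?_⟩, rfl⟩
        rw [Module.mem_annihilator]
        intro x
        have hx : x ∈ Submodule.span R (Set.range m) := by rw [hm]; trivial
        refine Submodule.span_induction (p := fun x _ => r • x = 0) ?_ ?_ ?_ ?_ hx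
        · rintro _ ⟨i, rfl⟩
          rw [← hφ, hr]; rfl
        · exact smul_zero r
        · intro x y _ _ hx hy
          rw [smul_add, hx, hy, add_zero]
        · intro a x _ hx
          rw [smul_comm, hx, smul_zero]
      · rintro ⟨r, rfl⟩
        funext i
        rw [hφ]
        exact Module.mem_annihilator.1 r.2 _
    have hexS := Module.Flat.lTensor_exact S hex
    have h1 : (φ.lTensor S) (s ⊗ₜ (1 : R)) = 0 := by
      apply (TensorProduct.piRight R S S (fun _ : Fin n => M)).injective
      rw [map_zero, LinearMap.lTensor_tmul]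
      funext i
      rw [TensorProduct.piRight_apply, TensorProduct.piRightHom_tmul]
      have h2 := hs ((1 : S) ⊗ₜ[R] m i)
      rw [TensorProduct.smul_tmul', smul_eq_mul, mul_one] at h2
      change s ⊗ₜ[R] (φ 1 i) = 0
      rw [hφ, one_smul]
      exact h2
    obtain ⟨z, hz⟩ := (hexS _).1 h1
    have h3 : ∀ z : S ⊗[R] ↥(Module.annihilator R M),
        TensorProduct.rid R S ((Submodule.subtype (Module.annihilator R M)).lTensor S z) ∈
          (Module.annihilator R M).map (algebraMap R S) := by
      intro z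
      induction z using TensorProduct.induction_on with
      | zero => rw [map_zero, map_zero]; exact Ideal.zero_mem _
      | add x y hx hy => rw [map_add, map_add]; exact add_mem hx hy
      | tmul t a =>
        rw [LinearMap.lTensor_tmul, TensorProduct.rid_tmul, Algebra.smul_def]
        exact Ideal.mul_mem_right _ _ (Ideal.mem_map_of_mem _ a.2)
    have h4 := h3 z
    rw [hz, TensorProduct.rid_tmul, one_smul] at h4
    exact h4
  · rw [Ideal.map_le_iff_le_comap]
    intro r hr
    rw [Ideal.mem_comap, Module.mem_annihilator]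
    intro x
    induction x using TensorProduct.induction_on with
    | zero => exact smul_zero _
    | add x y hx hy => rw [smul_add, hx, hy, add_zero]
    | tmul s m =>
      rw [algebraMap_smul, ← TensorProduct.tmul_smul, Module.mem_annihilator.1 hr,
        TensorProduct.tmul_zero]

end ann

section dim

variable (R : Type u) (S : Type v) [CommRing R] [CommRing S] [Algebra R S] [Module.Flat R S]
  [IsLocalRing R] [IsNoetherianRing R] [IsLocalRing S] [IsNoetherianRing S]
  (hm : (maximalIdeal R).map (algebraMap R S) = maximalIdeal S)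

include hm

/-- `dim S / I S = dim R / I`. -/
theorem ringKrullDim_quotient_map (I : Ideal R) :
    ringKrullDim (S ⧸ I.map (algebraMap R S)) = ringKrullDim (R ⧸ I) := by
  by_cases hI : I = ⊤
  · subst hI
    have h1 : Subsingleton (R ⧸ (⊤ : Ideal R)) := Ideal.Quotient.subsingleton_iff.2 rfl
    have h2 : Subsingleton (S ⧸ (⊤ : Ideal R).map (algebraMap R S)) :=
      Ideal.Quotient.subsingleton_iff.2 (Ideal.map_top _)
    rw [ringKrullDim_eq_bot_of_subsingleton, ringKrullDim_eq_bot_of_subsingleton]
  · have hIm : I ≤ maximalIdeal R := le_maximalIdeal hI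
    have hIS : I.map (algebraMap R S) ≤ maximalIdeal S := hm ▸ Ideal.map_mono hIm
    have := isLocalRing_quotient hIm
    have := isLocalRing_quotient hIS
    have hflat : Module.Flat (R ⧸ I) (S ⧸ I.map (algebraMap R S)) := by
      have h1 : Module.Flat (R ⧸ I) ((R ⧸ I) ⊗[R] S) := inferInstance
      exact Module.Flat.of_linearEquiv
        (Algebra.TensorProduct.quotIdealMapEquivQuotTensor S I).toLinearEquiv
    have hm' : (maximalIdeal (R ⧸ I)).map (algebraMap (R ⧸ I) (S ⧸ I.map (algebraMap R S))) =
        maximalIdeal (S ⧸ I.map (algebraMap R S)) := by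
      rw [← Str.map_maximalIdeal_of_surjective (Ideal.Quotient.mk I) Ideal.Quotient.mk_surjective,
        ← Str.map_maximalIdeal_of_surjective (Ideal.Quotient.mk (I.map (algebraMap R S)))
          Ideal.Quotient.mk_surjective, ← hm, Ideal.map_map, Ideal.map_map]
      congr 1
    exact Crest.Agent.R183.G.ringKrullDim_eq_of_map_maximalIdeal hm'

variable (M : Type w) [AddCommGroup M] [Module R M] [Module.Finite R M]

theorem supportDim_baseChange :
    Module.supportDim S (S ⊗[R] M) = Module.supportDim R M := by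
  rw [Module.supportDim_eq_ringKrullDim_quotient_annihilator,
    Module.supportDim_eq_ringKrullDim_quotient_annihilator, annihilator_baseChange,
    ringKrullDim_quotient_map R S hm]

omit [IsNoetherianRing R] [IsNoetherianRing S] [Module.Finite R M] in
theorem length_baseChange_eq :
    Module.length S (S ⊗[R] M) = Module.length R M := by
  have := Crest.Agent.R183.G.isLocalHom_of_map_maximalIdeal hm
  rw [IsLocalRing.length_baseChange R S M, hm,
    Crest.Agent.R183.G.length_quotient_maximalIdeal, mul_one]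

omit [IsNoetherianRing R] [IsNoetherianRing S] [Module.Finite R M] in
theorem isFiniteLength_baseChange (h : IsFiniteLength R M) : IsFiniteLength S (S ⊗[R] M) := by
  rw [← Module.length_ne_top_iff] at h ⊢
  rwa [length_baseChange_eq R S hm]

omit [IsNoetherianRing R] [IsNoetherianRing S] [Module.Finite R M] in
theorem nontrivial_baseChange [Nontrivial M] : Nontrivial (S ⊗[R] M) := by
  have := Crest.Agent.R183.G.isLocalHom_of_map_maximalIdeal hm
  have : Module.FaithfullyFlat R S := Module.FaithfullyFlat.of_flat_of_isLocalHom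
  exact Module.FaithfullyFlat.lTensor_nontrivial R S M

variable (N : Type*) [AddCommGroup N] [Module R N]

omit [IsNoetherianRing R] [IsNoetherianRing S] [Module.Finite R M] in
theorem isFiniteLength_tensor_baseChange (h : IsFiniteLength R (M ⊗[R] N)) :
    IsFiniteLength S ((S ⊗[R] M) ⊗[S] (S ⊗[R] N)) := by
  have h1 := isFiniteLength_baseChange R S hm (M ⊗[R] N) h
  rw [← Module.length_ne_top_iff] at h1 ⊢
  rwa [← (TensorProduct.AlgebraTensorModule.distribBaseChange R S M N).length_eq]

end dim

end Crest.Agent.R188.Str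
end

-- ▼ part R188/Eq6
section

set_option autoImplicit false
set_option linter.unusedSectionVars false

namespace Crest.Agent.R188.Eq

open IsLocalRing Module Function TensorProduct
open scoped Pointwise
open Crest.Agent.R183 Crest.Agent.R183.Res Crest.Agent.R188.Chi

universe u v w

section dim

variable (R : Type u) (S : Type v) [CommRing R] [CommRing S] [Algebra R S] [Module.Flat R S]
  [IsLocalRing R] [IsNoetherianRing R] [IsLocalRing S] [IsNoetherianRing S]

theorem ringKrullDim_eq_add (h : (maximalIdeal R).map (algebraMap R S) ≤ maximalIdeal S) :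
    ringKrullDim S = ringKrullDim R + ringKrullDim (S ⧸ (maximalIdeal R).map (algebraMap R S)) := by
  have h1 : IsLocalHom (algebraMap R S) :=
    ((IsLocalRing.local_hom_TFAE (algebraMap R S)).out 0 2).mpr h
  have h2 : (maximalIdeal S).LiesOver (maximalIdeal R) :=
    ⟨(IsLocalRing.maximalIdeal_comap (algebraMap R S)).symm⟩
  have h3 := Str.isLocalRing_quotient h
  rw [← IsLocalRing.maximalIdeal_height_eq_ringKrullDim (R := S),
    ← IsLocalRing.maximalIdeal_height_eq_ringKrullDim (R := R),
    ← IsLocalRing.maximalIdeal_height_eq_ringKrullDim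
      (R := S ⧸ (maximalIdeal R).map (algebraMap R S)),
    Ideal.height_eq_height_add_of_liesOver_of_hasGoingDown (maximalIdeal R) (maximalIdeal S),
    Str.map_maximalIdeal_of_surjective _ Ideal.Quotient.mk_surjective]
  rfl

theorem ringKrullDim_quotient_eq_add (h : (maximalIdeal R).map (algebraMap R S) ≤ maximalIdeal S)
    (I : Ideal R) (hI : I ≤ maximalIdeal R) :
    ringKrullDim (S ⧸ I.map (algebraMap R S)) = ringKrullDim (R ⧸ I) +
      ringKrullDim (S ⧸ (maximalIdeal R).map (algebraMap R S)) := by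
  have hIS : I.map (algebraMap R S) ≤ maximalIdeal S := (Ideal.map_mono hI).trans h
  have := Str.isLocalRing_quotient hI
  have := Str.isLocalRing_quotient hIS
  have hflat : Module.Flat (R ⧸ I) (S ⧸ I.map (algebraMap R S)) := by
    have h1 : Module.Flat (R ⧸ I) ((R ⧸ I) ⊗[R] S) := inferInstance
    exact Module.Flat.of_linearEquiv
      (Algebra.TensorProduct.quotIdealMapEquivQuotTensor S I).toLinearEquiv
  have hmap : (maximalIdeal (R ⧸ I)).map (algebraMap (R ⧸ I) (S ⧸ I.map (algebraMap R S))) =
      ((maximalIdeal R).map (algebraMap R S)).map (Ideal.Quotient.mk (I.map (algebraMap R S))) := by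
    rw [← Str.map_maximalIdeal_of_surjective (Ideal.Quotient.mk I) Ideal.Quotient.mk_surjective,
      Ideal.map_map, Ideal.map_map]
    congr 1
  have hle : (maximalIdeal (R ⧸ I)).map (algebraMap (R ⧸ I) (S ⧸ I.map (algebraMap R S))) ≤
      maximalIdeal (S ⧸ I.map (algebraMap R S)) := by
    rw [hmap, ← Str.map_maximalIdeal_of_surjective _
      (Ideal.Quotient.mk_surjective (I := I.map (algebraMap R S)))]
    exact Ideal.map_mono h
  rw [ringKrullDim_eq_add (R ⧸ I) (S ⧸ I.map (algebraMap R S)) hle, hmap]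
  congr 1
  exact ringKrullDim_eq_of_ringEquiv (DoubleQuot.quotQuotEquivQuotOfLE (Ideal.map_mono hI))

end dim

section homext

open MvPowerSeries

theorem mv_hom_ext {σ : Type v} [Finite σ] {k : Type u} [CommRing k] {Y : Type w} [CommRing Y]
    (I : Ideal Y) [IsHausdorff I Y] (f g : MvPowerSeries σ k →+* Y)
    (hC : ∀ a, f (C a) = g (C a)) (hX : ∀ i, f (X i) = g (X i)) (hI : ∀ i, f (X i) ∈ I) :
    f = g := by
  have hfI : ∀ (N : ℕ) (s : MvPowerSeries σ k), s ∈ R227.idX σ k ^ N → f s ∈ I ^ N := by
    intro N s hs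
    have h1 : (R227.idX σ k).map f ≤ I := by
      rw [Ideal.map_span, Ideal.span_le]
      rintro _ ⟨_, ⟨i, rfl⟩, rfl⟩
      exact hI i
    have h2 : f s ∈ ((R227.idX σ k) ^ N).map f := Ideal.mem_map_of_mem f hs
    rw [Ideal.map_pow] at h2
    exact Ideal.pow_right_mono h1 N h2
  have hgI : ∀ (N : ℕ) (s : MvPowerSeries σ k), s ∈ R227.idX σ k ^ N → g s ∈ I ^ N := by
    intro N s hs
    have h1 : (R227.idX σ k).map g ≤ I := by
      rw [Ideal.map_span, Ideal.span_le]
      rintro _ ⟨_, ⟨i, rfl⟩, rfl⟩
      rw [← hX]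
      exact hI i
    have h2 : g s ∈ ((R227.idX σ k) ^ N).map g := Ideal.mem_map_of_mem g hs
    rw [Ideal.map_pow] at h2
    exact Ideal.pow_right_mono h1 N h2
  have hpoly : ∀ p : MvPolynomial σ k, f (p : MvPowerSeries σ k) = g (p : MvPowerSeries σ k) := by
    intro p
    induction p using MvPolynomial.induction_on with
    | C a => simpa using hC a
    | add p q hp hq => rw [MvPolynomial.coe_add, map_add, map_add, hp, hq]
    | mul_X p i hp => rw [MvPolynomial.coe_mul, map_mul, map_mul, hp, MvPolynomial.coe_X, hX]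
  ext r
  rw [← sub_eq_zero]
  apply (inferInstance : IsHausdorff I Y).haus'
  intro N
  rw [SModEq.zero, smul_eq_mul, Ideal.mul_top]
  have h3 : r - ((truncTotal N r : MvPolynomial σ k) : MvPowerSeries σ k) ∈ R227.idX σ k ^ N := by
    refine R227.mem_powX_of_coeff N _ fun e he => ?_
    rw [map_sub, MvPolynomial.coeff_coe, coeff_truncTotal _ he, sub_self]
  have h4 : f r - g r = f (r - ((truncTotal N r : MvPolynomial σ k) : MvPowerSeries σ k)) -
      g (r - ((truncTotal N r : MvPolynomial σ k) : MvPowerSeries σ k)) := by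
    rw [map_sub, map_sub, hpoly]
    ring
  rw [h4]
  exact Ideal.sub_mem _ (hfI N _ h3) (hgI N _ h3)

end homext

section setup

open MvPowerSeries

variable {k : Type u} [Field k] {d : ℕ}

theorem maximalIdeal_eq_idX :
    maximalIdeal (MvPowerSeries (Fin d) k) = R227.idX (Fin d) k := by
  rw [R227.maximalIdeal_mv, R227.idIX, IsLocalRing.maximalIdeal_eq_bot, Ideal.map_bot, bot_sup_eq]

theorem complete_k : IsAdicComplete (maximalIdeal (MvPowerSeries (Fin d) k))
    (MvPowerSeries (Fin d) k) := by
  have : IsAdicComplete (maximalIdeal k) k := by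
    rw [IsLocalRing.maximalIdeal_eq_bot]
    infer_instance
  exact R227.isAdicComplete_maximalIdeal_mv

variable {Y : Type u} [CommRing Y] [Algebra k Y] [IsLocalRing Y]

theorem complete_Y (π : MvPowerSeries (Fin d) k →ₐ[k] Y) (hπ : Surjective π) :
    IsAdicComplete (maximalIdeal Y) Y := by
  let _ : Algebra (MvPowerSeries (Fin d) k) Y := π.toRingHom.toAlgebra
  have hfin : Module.Finite (MvPowerSeries (Fin d) k) Y :=
    Module.Finite.of_surjective (Algebra.linearMap _ _) hπ
  have hk := complete_k (k := k) (d := d)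
  exact R183.G.isAdicComplete_of_finite (MvPowerSeries (Fin d) k) Y

theorem exists_diagonal (π : MvPowerSeries (Fin d) k →ₐ[k] Y) (hπ : Surjective π) :
    ∃ (l : List (MvPowerSeries (Fin d) Y)) (ρ : MvPowerSeries (Fin d) Y →+* Y),
      (∀ a ∈ l, a ∈ maximalIdeal (MvPowerSeries (Fin d) Y)) ∧ l.length = d ∧
      RingTheory.Sequence.IsWeaklyRegular (MvPowerSeries (Fin d) Y) l ∧
      (∀ r : MvPowerSeries (Fin d) k,
        ρ (algebraMap (MvPowerSeries (Fin d) k) (MvPowerSeries (Fin d) Y) r) = π r) ∧
      RingHom.ker ρ = Ideal.ofList l ∧ Surjective ρ := by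
  have hY := complete_Y π hπ
  let c : Fin d → Y := fun i => π (X i)
  have hc : ∀ i, c i ∈ maximalIdeal Y := by
    intro i
    rw [← Str.map_maximalIdeal_of_surjective (π : MvPowerSeries (Fin d) k →+* Y) hπ]
    refine Ideal.mem_map_of_mem _ ?_
    rw [maximalIdeal_eq_idX]
    exact Ideal.subset_span ⟨i, rfl⟩
  obtain ⟨h1, ρ, hC, hXρ, hker⟩ := exists_ev Y d c hc
  refine ⟨qs _ c, ρ, ?_, by simp [qs], h1, ?_, hker, fun x => ⟨C x, hC x⟩⟩
  · intro a ha
    rw [qs, List.mem_ofFn] at ha
    obtain ⟨i, rfl⟩ := ha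
    rw [R227.maximalIdeal_mv, R227.mem_idIX_iff, map_sub, constantCoeff_X, constantCoeff_C,
      zero_sub]
    exact neg_mem (hc i)
  · have h2 : ρ.comp (algebraMap (MvPowerSeries (Fin d) k) (MvPowerSeries (Fin d) Y)) =
        (π : MvPowerSeries (Fin d) k →+* Y) := by
      refine mv_hom_ext (maximalIdeal Y) _ _ ?_ ?_ ?_
      · intro a
        rw [RingHom.comp_apply, algebraMap_apply'', map_C, hC]
        exact (π.commutes a).symm
      · intro i
        rw [RingHom.comp_apply, algebraMap_apply'', map_X, hXρ]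
        rfl
      · intro i
        rw [RingHom.comp_apply, algebraMap_apply'', map_X, hXρ]
        exact hc i
    intro r
    exact congrFun (congrArg DFunLike.coe h2) r

omit [IsLocalRing Y] in
theorem dim_fibre :
    ringKrullDim (MvPowerSeries (Fin d) Y ⧸ (maximalIdeal (MvPowerSeries (Fin d) k)).map
      (algebraMap (MvPowerSeries (Fin d) k) (MvPowerSeries (Fin d) Y))) = ringKrullDim Y := by
  have h1 : (maximalIdeal (MvPowerSeries (Fin d) k)).map
      (algebraMap (MvPowerSeries (Fin d) k) (MvPowerSeries (Fin d) Y)) =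
      RingHom.ker (constantCoeff : MvPowerSeries (Fin d) Y →+* Y) := by
    rw [maximalIdeal_eq_idX, Ideal.map_span]
    apply le_antisymm
    · rw [Ideal.span_le]
      rintro _ ⟨_, ⟨i, rfl⟩, rfl⟩
      rw [algebraMap_apply'', map_X]
      simp [RingHom.mem_ker]
    · intro f hf
      have h2 : f ∈ R227.idX (Fin d) Y ^ 1 := by
        refine R227.mem_powX_of_coeff 1 _ fun e he => ?_
        have : e = 0 := by
          rw [← Finsupp.degree_eq_zero_iff]
          omega
        rw [this]
        exact hf
      rw [pow_one] at h2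
      refine Ideal.span_mono ?_ h2
      rintro _ ⟨i, rfl⟩
      exact ⟨X i, ⟨i, rfl⟩, by rw [algebraMap_apply'', map_X]⟩
  rw [h1]
  refine ringKrullDim_eq_of_ringEquiv (RingHom.quotientKerEquivOfSurjective ?_)
  intro y
  exact ⟨C y, by simp⟩

end setup

end Crest.Agent.R188.Eq
end

-- ▼ part R188/Eq7
section

set_option autoImplicit false
set_option linter.unusedSectionVars false

namespace Crest.Agent.R188.Eq

open IsLocalRing Module Function TensorProduct
open scoped Pointwise
open Crest.Agent.R183 Crest.Agent.R183.Res Crest.Agent.R188.Chi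

universe u v w

theorem Good.of_subsingleton {A : Type u} [CommRing A] [IsLocalRing A] (l : List A) (W : Type v)
    [AddCommGroup W] [Module A W] [Subsingleton W] : Good l W := by
  refine ⟨inferInstance, 0, ?_⟩
  refine le_sup_of_le_left ?_
  intro a _
  rw [Module.mem_annihilator]
  intro x
  exact Subsingleton.elim _ _

variable {k : Type u} [Field k] {d : ℕ}
variable {Y : Type u} [CommRing Y] [Algebra k Y] [IsLocalRing Y]

local notation "RR" => MvPowerSeries (Fin d) k
local notation "AA" => MvPowerSeries (Fin d) Y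

theorem supportDim_baseChange_A [IsNoetherianRing Y]
    (N : Type u) [AddCommGroup N] [Module RR N] [Module.Finite RR N] :
    Module.supportDim AA (AA ⊗[RR] N) = Module.supportDim RR N + ringKrullDim Y := by
  have hflat : Module.Flat RR AA := flat_mvPowerSeries
  rcases subsingleton_or_nontrivial N with hN | hN
  · have : Subsingleton (AA ⊗[RR] N) := inferInstance
    rw [Module.supportDim_eq_bot_of_subsingleton, Module.supportDim_eq_bot_of_subsingleton,
      WithBot.bot_add]
  · have hann : Module.annihilator RR N ≤ maximalIdeal RR := by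
      refine IsLocalRing.le_maximalIdeal fun h => ?_
      rw [Module.annihilator_eq_top_iff] at h
      exact not_subsingleton N h
    have hle : (maximalIdeal RR).map (algebraMap RR AA) ≤ maximalIdeal AA := by
      rw [maximalIdeal_eq_idX, Ideal.map_span, Ideal.span_le]
      rintro _ ⟨_, ⟨i, rfl⟩, rfl⟩
      rw [MvPowerSeries.algebraMap_apply'', MvPowerSeries.map_X, SetLike.mem_coe,
        R227.maximalIdeal_mv, R227.mem_idIX_iff]
      simp
    rw [Module.supportDim_eq_ringKrullDim_quotient_annihilator,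
      Module.supportDim_eq_ringKrullDim_quotient_annihilator, Str.annihilator_baseChange,
      ringKrullDim_quotient_eq_add _ _ hle _ hann, dim_fibre]

theorem good_tensor (π : RR →ₐ[k] Y) (hπ : Surjective π)
    (N : Type u) [AddCommGroup N] [Module RR N] [Module.Finite RR N]
    (l : List AA) (ρ : AA →+* Y)
    (hρ : ∀ r : RR, ρ (algebraMap RR AA r) = π r)
    (hker : RingHom.ker ρ = Ideal.ofList l) (hsurj : Surjective ρ)
    (hfin : ∃ n, maximalIdeal RR ^ n ≤ Module.annihilator RR N ⊔ RingHom.ker π) :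
    Good l (AA ⊗[RR] N) := by
  have hflat : Module.Flat RR AA := flat_mvPowerSeries
  obtain ⟨n, hn⟩ := hfin
  refine ⟨inferInstance, n, ?_⟩
  have h1 : ρ.comp (algebraMap RR AA) = (π : RR →+* Y) := RingHom.ext hρ
  rw [Str.annihilator_baseChange, ← hker, ← Ideal.comap_map_of_surjective' _ hsurj,
    ← Ideal.map_le_iff_le_comap, Ideal.map_pow, Str.map_maximalIdeal_of_surjective ρ hsurj,
    Ideal.map_map, h1, ← Str.map_maximalIdeal_of_surjective (π : RR →+* Y) hπ, ← Ideal.map_pow]
  refine (Ideal.map_mono hn).trans ?_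
  rw [Ideal.map_sup, sup_le_iff]
  refine ⟨le_rfl, ?_⟩
  rw [Ideal.map_le_iff_le_comap]
  intro x hx
  rw [Ideal.mem_comap]
  have : (π : RR →+* Y) x = 0 := hx
  rw [this]
  exact Ideal.zero_mem _

/-- `A/(l)` as an `R`-module -/
theorem exists_quot_equiv (π : RR →ₐ[k] Y) (hπ : Surjective π)
    (l : List AA) (ρ : AA →+* Y)
    (hρ : ∀ r : RR, ρ (algebraMap RR AA r) = π r)
    (hker : RingHom.ker ρ = Ideal.ofList l) :
    Nonempty ((AA ⧸ (Ideal.ofList l • ⊤ : Submodule AA AA)) ≃ₗ[RR] (RR ⧸ RingHom.ker π)) := by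
  let f : RR →ₗ[RR] (AA ⧸ (Ideal.ofList l • ⊤ : Submodule AA AA)) :=
    ((Submodule.mkQ (Ideal.ofList l • ⊤ : Submodule AA AA)).restrictScalars RR) ∘ₗ
      (Algebra.linearMap RR AA)
  have hf : ∀ r, f r = Submodule.mkQ (Ideal.ofList l • ⊤ : Submodule AA AA) (algebraMap RR AA r) :=
    fun r => rfl
  have htop : (Ideal.ofList l • ⊤ : Submodule AA AA) = RingHom.ker ρ := by
    rw [hker, smul_eq_mul, Ideal.mul_top]
  have hk : LinearMap.ker f = RingHom.ker π := by
    ext r
    rw [LinearMap.mem_ker, hf, ← LinearMap.mem_ker, Submodule.ker_mkQ, htop, RingHom.mem_ker,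
      RingHom.mem_ker, hρ]
  have hs : Surjective f := by
    intro v
    obtain ⟨a, rfl⟩ := Submodule.mkQ_surjective _ v
    obtain ⟨r, hr⟩ := hπ (ρ a)
    refine ⟨r, ?_⟩
    rw [hf, ← sub_eq_zero, ← map_sub, ← LinearMap.mem_ker, Submodule.ker_mkQ, htop,
      RingHom.mem_ker, map_sub, hρ, hr, sub_self]
  exact ⟨((Submodule.quotEquivOfEq _ _ hk.symm).trans (f.quotKerEquivOfSurjective hs)).symm⟩

theorem quot_smul (π : RR →ₐ[k] Y) (hπ : Surjective π)
    (l : List AA) (ρ : AA →+* Y)
    (hρ : ∀ r : RR, ρ (algebraMap RR AA r) = π r)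
    (hker : RingHom.ker ρ = Ideal.ofList l) (a : AA) :
    ∃ r : RR, ∀ v : (AA ⧸ (Ideal.ofList l • ⊤ : Submodule AA AA)), a • v = r • v := by
  obtain ⟨r, hr⟩ := hπ (ρ a)
  refine ⟨r, fun v => ?_⟩
  obtain ⟨b, rfl⟩ := Submodule.mkQ_surjective _ v
  rw [← algebraMap_smul AA r (Submodule.mkQ (Ideal.ofList l • ⊤ : Submodule AA AA) b), ← map_smul,
    ← map_smul, ← sub_eq_zero, ← map_sub, ← LinearMap.mem_ker, Submodule.ker_mkQ]
  have htop : (Ideal.ofList l • ⊤ : Submodule AA AA) = RingHom.ker ρ := by
    rw [hker, smul_eq_mul, Ideal.mul_top]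
  rw [htop, RingHom.mem_ker, smul_eq_mul, smul_eq_mul, map_sub, map_mul, map_mul, hρ, hr, sub_self]

set_option synthInstance.maxHeartbeats 400000 in
set_option maxHeartbeats 1000000 in
theorem main_quot [IsNoetherianRing Y] (π : RR →ₐ[k] Y) (hπ : Surjective π)
    (N : Type u) [AddCommGroup N] [Module RR N] [Module.Finite RR N]
    {F : MCx RR} {ε : (F.ι 0 → RR) →ₗ[RR] N} (hF : IsRes F ε)
    (hfin : ∃ n, maximalIdeal RR ^ n ≤ Module.annihilator RR N ⊔ RingHom.ker π)
    (M : ℕ) (hM : 1 + d ≤ M) :
    (∀ i, Module.length RR (HX RR F (RR ⧸ RingHom.ker π) i) ≠ ⊤) ∧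
    (∀ i, 1 + d ≤ i → Subsingleton (HX RR F (RR ⧸ RingHom.ker π) i)) ∧
    0 ≤ ∑ i ∈ Finset.range M, (-1) ^ i *
      ((Module.length RR (HX RR F (RR ⧸ RingHom.ker π) i)).toNat : ℤ) ∧
    (0 < ∑ i ∈ Finset.range M, (-1) ^ i *
      ((Module.length RR (HX RR F (RR ⧸ RingHom.ker π) i)).toNat : ℤ) ↔
      Module.supportDim RR N + ringKrullDim Y = d) ∧
    Module.supportDim RR N + ringKrullDim Y ≤ d := by
  have hflat : Module.Flat RR AA := flat_mvPowerSeries
  obtain ⟨l, ρ, hl, hlen, hreg, hρ, hker, hsurj⟩ := exists_diagonal (d := d) π hπ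
  have hgood := good_tensor π hπ N l ρ hρ hker hsurj hfin
  have hg : ∀ i, Good l (HX AA F AA i) := by
    intro i
    cases i with
    | zero => exact hgood.congr (H0Flat hF).symm
    | succ i =>
      have := subsingleton_HX_of_flat (A := AA) hF i
      exact Good.of_subsingleton _ _
  have hsub : ∀ i, 1 ≤ i → Subsingleton (HX AA F AA i) := by
    intro i hi
    obtain ⟨j, rfl⟩ := Nat.exists_eq_add_of_le' hi
    exact subsingleton_HX_of_flat (A := AA) hF j
  obtain ⟨h1, h2, h3⟩ := chain F l AA hreg hg 1 hsub M (by rw [hlen]; exact hM)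
  obtain ⟨ψ⟩ := exists_quot_equiv π hπ l ρ hρ hker
  have hlength : ∀ i, Module.length AA
      (HX AA F (AA ⧸ (Ideal.ofList l • ⊤ : Submodule AA AA)) i) =
      Module.length RR (HX RR F (RR ⧸ RingHom.ker π) i) := by
    intro i
    rw [length_HX_eq F (A := AA) (B := RR) (AA ⧸ (Ideal.ofList l • ⊤ : Submodule AA AA))
      (quot_smul π hπ l ρ hρ hker) (fun r => ⟨algebraMap RR AA r, fun m => algebraMap_smul AA r m⟩) i]
    exact (HXcongr F ψ (fun r x => map_smul ψ r x) i).length_eq
  have hee : ee F l AA M = e l (AA ⊗[RR] N) := by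
    unfold ee
    obtain ⟨M', rfl⟩ := Nat.exists_eq_add_of_le' (by omega : 1 ≤ M)
    rw [Finset.sum_range_succ', Finset.sum_eq_zero]
    · rw [zero_add, pow_zero, one_mul]
      exact e_congr l (H0Flat hF)
    · intro i _
      have := hsub (i + 1) (by omega)
      rw [e_subsingleton l, mul_zero]
  have hsum : ∑ i ∈ Finset.range M, (-1) ^ i *
      ((Module.length RR (HX RR F (RR ⧸ RingHom.ker π) i)).toNat : ℤ) = e l (AA ⊗[RR] N) := by
    rw [← hee, h1, ee_nil]
    refine Finset.sum_congr rfl fun i _ => ?_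
    rw [hlength]
  obtain ⟨h4, h5⟩ := e_serre l hl (AA ⊗[RR] N) hgood
  have h6 := hgood.supportDim_le l hl
  rw [supportDim_baseChange_A, hlen] at h5 h6
  refine ⟨fun i => ?_, fun i hi => ?_, ?_, ?_, h6⟩
  · rw [← hlength]
    exact (h2 i).length_ne_top
  · have := h3 i (by rw [hlen]; exact hi)
    rw [← Module.length_eq_zero_iff (R := RR), ← hlength]
    exact Module.length_eq_zero
  · rw [hsum]; exact h4
  · rw [hsum]; exact h5

end Crest.Agent.R188.Eq
end

-- ▼ part R188/Eq8
section

set_option autoImplicit false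
set_option linter.unusedSectionVars false

namespace Crest.Agent.R188.Eq

open IsLocalRing Module Function TensorProduct
open scoped Pointwise ENNReal
open Crest.Agent.R183 Crest.Agent.R183.Res Crest.Agent.R188.Chi

universe u v w

section

variable {R : Type u} [CommRing R] [IsLocalRing R]

/-- the statement proved by devissage: Serre's theorem for `F ⊗ X`, `F` a resolution of a module
of dimension `a`; `I` is the annihilator of that module. -/
def Pos (I : Ideal R) (a : WithBot ℕ∞) (d : ℕ) (F : MCx R) (M : ℕ) (X : Type u) [AddCommGroup X]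
    [Module R X] : Prop :=
  (∃ n, maximalIdeal R ^ n ≤ I ⊔ Module.annihilator R X) →
    (∀ i, hX (AddLen.ofLength R) F X i ≠ ⊤) ∧
    (∀ i, 1 + d ≤ i → hX (AddLen.ofLength R) F X i = 0) ∧
    0 ≤ chiX (AddLen.ofLength R) F X M ∧
    (0 < chiX (AddLen.ofLength R) F X M ↔ a + Module.supportDim R X = d) ∧
    a + Module.supportDim R X ≤ d

lemma hX_ofLength (F : MCx R) (X : Type u) [AddCommGroup X] [Module R X] (i : ℕ) :
    hX (AddLen.ofLength R) F X i = ((Module.length R (HX R F X i) : ℕ∞) : ℝ≥0∞) := rfl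

lemma toReal_ofLength (F : MCx R) (X : Type u) [AddCommGroup X] [Module R X] (i : ℕ) :
    (hX (AddLen.ofLength R) F X i).toReal =
      ((((Module.length R (HX R F X i)).toNat : ℤ)) : ℝ) := by
  rw [hX_ofLength]
  generalize Module.length R (HX R F X i) = x
  cases x with
  | top => simp
  | coe n => simp

lemma chiX_ofLength (F : MCx R) (X : Type u) [AddCommGroup X] [Module R X] (M : ℕ) :
    chiX (AddLen.ofLength R) F X M = ((∑ i ∈ Finset.range M, (-1) ^ i *
      ((Module.length R (HX R F X i)).toNat : ℤ) : ℤ) : ℝ) := by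
  rw [chiX_eq]
  push_cast
  refine Finset.sum_congr rfl fun i _ => ?_
  rw [toReal_ofLength]
  push_cast
  rfl

lemma supportDim_eq_max {X Y Z : Type u} [AddCommGroup X] [Module R X] [AddCommGroup Y] [Module R Y]
    [AddCommGroup Z] [Module R Z] (f : X →ₗ[R] Y) (g : Y →ₗ[R] Z) (hf : Injective f)
    (hg : Surjective g) (h : Exact f g) :
    Module.supportDim R Y = max (Module.supportDim R X) (Module.supportDim R Z) :=
  le_antisymm (supportDim_le_of_exact f g hf hg h)
    (max_le (Module.supportDim_le_of_injective f hf) (Module.supportDim_le_of_surjective g hg))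

theorem Pos.exact {I : Ideal R} {a : WithBot ℕ∞} {d : ℕ} {F : MCx R} {M : ℕ} (hM : 1 + d ≤ M)
    {X Y Z : Type u} [AddCommGroup X] [Module R X] [AddCommGroup Y] [Module R Y]
    [AddCommGroup Z] [Module R Z] (f : X →ₗ[R] Y) (g : Y →ₗ[R] Z) (hf : Injective f)
    (hg : Surjective g) (h : Exact f g) (hX' : Pos I a d F M X) (hZ : Pos I a d F M Z) :
    Pos I a d F M Y := by
  rintro ⟨n, hn⟩
  obtain ⟨x1, x2, x3, x4, x5⟩ := hX' ⟨n, hn.trans (sup_le_sup_left
    (f.annihilator_le_of_injective hf) _)⟩
  obtain ⟨z1, z2, z3, z4, z5⟩ := hZ ⟨n, hn.trans (sup_le_sup_left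
    (g.annihilator_le_of_surjective hg) _)⟩
  have hlf : RLin R f := fun r x => map_smul f r x
  have hlg : RLin R g := fun r x => map_smul g r x
  have hle := fun i => hX_mid_le (AddLen.ofLength R) F hlf hlg hf hg h i
  have hadd := chiX_add (AddLen.ofLength R) F hlf hlg hf hg h M (fun i _ => x1 i) (fun i _ => z1 i)
    (z2 M hM)
  rw [supportDim_eq_max f g hf hg h, hadd]
  refine ⟨fun i => ne_top_of_le_ne_top (ENNReal.add_ne_top.2 ⟨x1 i, z1 i⟩) (hle i),
    fun i hi => ?_, by positivity, ?_, ?_⟩
  · have := hle i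
    rw [x2 i hi, z2 i hi, add_zero] at this
    exact le_antisymm this zero_le
  · rcases le_total (Module.supportDim R X) (Module.supportDim R Z) with hc | hc
    · rw [max_eq_right hc, ← z4]
      constructor
      · intro h1
        by_contra h2
        have h3 : ¬ 0 < chiX (AddLen.ofLength R) F X M := by
          intro h3
          have h4 := x4.1 h3
          apply h2
          rw [z4]
          refine le_antisymm z5 ?_
          rw [← h4]
          exact add_le_add_right hc a
        linarith
      · intro h1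
        linarith
    · rw [max_eq_left hc, ← x4]
      constructor
      · intro h1
        by_contra h2
        have h3 : ¬ 0 < chiX (AddLen.ofLength R) F Z M := by
          intro h3
          have h4 := z4.1 h3
          apply h2
          rw [x4]
          refine le_antisymm x5 ?_
          rw [← h4]
          exact add_le_add_right hc a
        linarith
      · intro h1
        linarith
  · rcases le_total (Module.supportDim R X) (Module.supportDim R Z) with hc | hc
    · rw [max_eq_right hc]; exact z5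
    · rw [max_eq_left hc]; exact x5

theorem Pos.subsingleton (I : Ideal R) (a : WithBot ℕ∞) (d : ℕ) (F : MCx R) (M : ℕ) (X : Type u)
    [AddCommGroup X] [Module R X] [Subsingleton X] : Pos I a d F M X := by
  intro _
  have h0 : ∀ i, hX (AddLen.ofLength R) F X i = 0 := fun i =>
    hX_subsingleton (AddLen.ofLength R) F X i
  have h1 : chiX (AddLen.ofLength R) F X M = 0 := by
    rw [chiX_eq]
    exact Finset.sum_eq_zero fun i _ => by rw [h0]; simp
  rw [h1, Module.supportDim_eq_bot_of_subsingleton, WithBot.add_bot]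
  refine ⟨fun i => by rw [h0]; simp, fun i _ => h0 i, le_rfl, ?_, bot_le⟩
  constructor
  · intro h; exact absurd h (lt_irrefl _)
  · intro h
    exact absurd h (by exact (WithBot.coe_ne_bot (a := ((d : ℕ) : ℕ∞))).symm)

theorem Pos.congr {I : Ideal R} {a : WithBot ℕ∞} {d : ℕ} {F : MCx R} {M : ℕ} {X Y : Type u}
    [AddCommGroup X] [Module R X] [AddCommGroup Y] [Module R Y] (ψ : X ≃ₗ[R] Y)
    (h : Pos I a d F M X) : Pos I a d F M Y := by
  intro hn
  have hh : ∀ i, hX (AddLen.ofLength R) F X i = hX (AddLen.ofLength R) F Y i := fun i =>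
    hX_congr (AddLen.ofLength R) F ψ (fun r x => map_smul ψ r x) i
  have hc : chiX (AddLen.ofLength R) F X M = chiX (AddLen.ofLength R) F Y M :=
    chiX_congr (AddLen.ofLength R) F ψ (fun r x => map_smul ψ r x) M
  have hd := Module.supportDim_eq_of_equiv ψ
  rw [← ψ.annihilator_eq] at hn
  obtain ⟨h1, h2, h3, h4, h5⟩ := h hn
  rw [← hc, ← hd]
  exact ⟨fun i => by rw [← hh]; exact h1 i, fun i hi => by rw [← hh]; exact h2 i hi, h3, h4, h5⟩

end

section

variable {k : Type u} [Field k] {d : ℕ}

local notation "RR" => MvPowerSeries (Fin d) k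

theorem pos_quot (N : Type u) [AddCommGroup N] [Module RR N] [Module.Finite RR N]
    {F : MCx RR} {ε : (F.ι 0 → RR) →ₗ[RR] N} (hF : IsRes F ε) (M : ℕ) (hM : 1 + d ≤ M)
    (P : Ideal RR) [P.IsPrime] :
    Pos (Module.annihilator RR N) (Module.supportDim RR N) d F M (RR ⧸ P) := by
  intro hn
  rw [Ideal.annihilator_quotient] at hn
  have hloc : IsLocalRing (RR ⧸ P) :=
    Str.isLocalRing_quotient (IsLocalRing.le_maximalIdeal (Ideal.IsPrime.ne_top ‹_›))
  have hk : RingHom.ker (Ideal.Quotient.mkₐ k P) = P := Ideal.Quotient.mkₐ_ker k P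
  obtain ⟨h1, h2, h3, h4, h5⟩ := main_quot (Y := RR ⧸ P) (Ideal.Quotient.mkₐ k P)
    (Ideal.Quotient.mkₐ_surjective k P) N hF (by rw [hk]; exact hn) M hM
  rw [hk] at h1 h2 h3 h4
  rw [chiX_ofLength, Module.supportDim_quotient_eq_ringKrullDim]
  refine ⟨fun i => ?_, fun i hi => ?_, by exact_mod_cast h3, ?_, h5⟩
  · rw [hX_ofLength]
    have := h1 i
    simpa using this
  · have := h2 i hi
    rw [hX_ofLength, Module.length_eq_zero]
    simp
  · rw [← h4]
    exact_mod_cast Iff.rfl

/-- **Serre's theorem in equal characteristic** for `F ⊗ X`, `F` a resolution of `N`. -/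
theorem pos_all (N : Type u) [AddCommGroup N] [Module RR N] [Module.Finite RR N]
    {F : MCx RR} {ε : (F.ι 0 → RR) →ₗ[RR] N} (hF : IsRes F ε) (M : ℕ) (hM : 1 + d ≤ M)
    (X : Type u) [AddCommGroup X] [Module RR X] (hfin : Module.Finite RR X) :
    Pos (Module.annihilator RR N) (Module.supportDim RR N) d F M X := by
  induction hfin using IsNoetherianRing.induction_on_isQuotientEquivQuotientPrime RR with
  | subsingleton X => exact Pos.subsingleton _ _ _ _ _ _
  | quotient X p f =>
    have := p.2
    exact (pos_quot N hF M hM p.1).congr f.symm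
  | exact X Y Z f g hf hg hfg h1 h3 => exact Pos.exact hM f g hf hg hfg h1 h3

end

end Crest.Agent.R188.Eq
end

-- ▼ part R188/Eq9
section

set_option autoImplicit false
set_option linter.unusedSectionVars false

namespace Crest.Agent.R188.Eq

open IsLocalRing Module Function TensorProduct
open scoped Pointwise ENNReal
open Crest.Agent.R183 Crest.Agent.R183.Res Crest.Agent.R188.Chi

universe u v w


/-- the statement S0288 for the ring `R` -/
def S288 (R : Type u) [CommRing R] : Prop :=
  ∀ (d : ℕ) (_ : ringKrullDim R = d) (M N : ModuleCat.{u} R)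
    [Module.Finite R M] [Module.Finite R N] [Nontrivial M] [Nontrivial N]
    (_ : IsFiniteLength R (TensorProduct R M N))
    (_ : Module.supportDim R M + Module.supportDim R N = d),
    0 < ∑ i ∈ Finset.range (d + 1), (-1 : ℤ) ^ i *
      ((Module.length R (((CategoryTheory.Tor (ModuleCat.{u} R) i).obj M).obj N)).toNat : ℤ)

/-- `M ⊗ N` of finite length, `R` local: `m^n ≤ Ann N + Ann M`. -/
theorem exists_pow_le (R : Type u) [CommRing R] [IsLocalRing R] [IsNoetherianRing R]
    (M N : Type u) [AddCommGroup M] [Module R M] [AddCommGroup N] [Module R N]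
    [Module.Finite R M] [Module.Finite R N] (h : IsFiniteLength R (TensorProduct R M N)) :
    ∃ n, maximalIdeal R ^ n ≤ Module.annihilator R N ⊔ Module.annihilator R M := by
  have h1 := length_ann_ne_top h
  rw [Module.length_ne_top_iff] at h1
  obtain ⟨c, hc⟩ := Noe.exists_pow_le_annihilator h1
  rw [Ideal.annihilator_quotient, sup_comm] at hc
  exact ⟨c, hc⟩

/-- **S0288 for `k[[x_1..x_d]]`** -/
theorem s288_mvPowerSeries (k : Type u) [Field k] (d : ℕ) : S288 (MvPowerSeries (Fin d) k) := by
  intro d' hd' M N _ _ _ _ hlen hdim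
  have hdd : (d' : WithBot ℕ∞) = (d : ℕ) := by
    rw [← hd', R183.Cohen.ringKrullDim_mvPowerSeries, ringKrullDim_eq_zero_of_field, zero_add]
  obtain ⟨F, ε, hF⟩ := exists_res (T := MvPowerSeries (Fin d) k) N
  rw [sum_tor_pos_iff M N hF]
  obtain rfl : d' = d := by
    have h1 : ((d' : ℕ∞) : WithBot ℕ∞) = ((d : ℕ∞) : WithBot ℕ∞) := hdd
    rw [WithBot.coe_inj] at h1
    exact_mod_cast h1
  obtain ⟨-, -, -, h4, -⟩ := pos_all (d := d') N hF (d' + 1) (by omega) M inferInstance
    (exists_pow_le _ M N hlen)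
  rw [h4, add_comm]
  exact hdim

/-- S0288 descends along flat local homomorphisms `R → S` with `m_R S = m_S`. -/
theorem S288.of_flat {R S : Type u} [CommRing R] [IsLocalRing R] [IsNoetherianRing R] [CommRing S]
    [IsLocalRing S] [IsNoetherianRing S] [Algebra R S] [Module.Flat R S]
    (hm : (maximalIdeal R).map (algebraMap R S) = maximalIdeal S) (h : S288 S) : S288 R := by
  intro d hd M N _ _ _ _ hlen hdim
  have h1 := sum_tor_baseChange hm M N (d + 1)
  rw [← h1]
  have hdS : ringKrullDim S = d := by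
    rw [← hd]
    exact R183.G.ringKrullDim_eq_of_map_maximalIdeal hm
  have i1 : Nontrivial (S ⊗[R] M) := Str.nontrivial_baseChange R S hm M
  have i2 : Nontrivial (S ⊗[R] N) := Str.nontrivial_baseChange R S hm N
  have i3 : Nontrivial (ModuleCat.of S (S ⊗[R] M)) := i1
  have i4 : Nontrivial (ModuleCat.of S (S ⊗[R] N)) := i2
  have i5 : Module.Finite S (ModuleCat.of S (S ⊗[R] M)) :=
    (inferInstance : Module.Finite S (S ⊗[R] M))
  have i6 : Module.Finite S (ModuleCat.of S (S ⊗[R] N)) :=
    (inferInstance : Module.Finite S (S ⊗[R] N))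
  refine h d hdS (ModuleCat.of S (S ⊗[R] M)) (ModuleCat.of S (S ⊗[R] N)) ?_ ?_
  · exact Str.isFiniteLength_tensor_baseChange R S hm M N hlen
  · rw [← hdim]
    congr 1
    · exact Str.supportDim_baseChange R S hm M
    · exact Str.supportDim_baseChange R S hm N

/-- S0288 is invariant under isomorphism. -/
theorem S288.of_ringEquiv {R S : Type u} [CommRing R] [IsLocalRing R] [IsNoetherianRing R]
    [CommRing S] [IsLocalRing S] [IsNoetherianRing S] (e : R ≃+* S) (h : S288 S) : S288 R := by
  let _ : Algebra R S := e.toRingHom.toAlgebra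
  have hflat : Module.Flat R S := by
    let ψ : R ≃ₗ[R] S := LinearEquiv.ofBijective (Algebra.linearMap R S) e.bijective
    exact Module.Flat.of_linearEquiv ψ.symm
  refine S288.of_flat (S := S) ?_ h
  exact Str.map_maximalIdeal_of_surjective (algebraMap R S) e.surjective

/-- **S0288 in mixed characteristic**: the remaining case. -/
def Mixed288 : Prop :=
  ∀ (S : Type) [CommRing S] [IsRegularLocalRing S] [IsAdicComplete (maximalIdeal S) S]
    [IsAlgClosed (ResidueField S)] (p : ℕ) [Fact p.Prime] [CharP (ResidueField S) p],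
    (p : S) ≠ 0 → S288 S

/-- **S0288 reduces to mixed characteristic** (complete, algebraically closed residue field). -/
theorem s288_of_mixed (h : Mixed288) (R : Type) [CommRing R] [IsRegularLocalRing R] : S288 R := by
  obtain ⟨S, _, _, _, hc, hac, hflat, hm, hdim⟩ := Str.exists_gonflement_regular R
  refine S288.of_flat hm ?_
  obtain ⟨d, hd⟩ : ∃ d : ℕ, ringKrullDim S = (d : ℕ) := by
    exact ⟨_, (IsRegularLocalRing.spanFinrank_maximalIdeal (R := S)).symm⟩
  obtain ⟨t, ht⟩ := Str.exists_generators S hd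
  rcases Str.structure_of_isAlgClosed S hd t ht with ⟨e, -, -⟩ | ⟨p, hp, hch, hp0, -⟩
  · exact S288.of_ringEquiv e.symm (s288_mvPowerSeries _ d)
  · exact h S p hp0

end Crest.Agent.R188.Eq
end

-- ▼ part R188/Top3
section

set_option autoImplicit false
set_option linter.unusedSectionVars false

namespace Crest.Agent.R188.Top

open scoped ENNReal TensorProduct
open IsLocalRing
open Crest.Agent.R183 Crest.Agent.R183.Res Crest.Agent.R188.Chi

universe u v w

section change

variable {R : Type u} [CommRing R] {S : Type u} [CommRing S]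
  [Algebra R S] {M X : Type u} [AddCommGroup M] [Module R M] [Module S M] [IsScalarTower R S M]
  [AddCommGroup X] [Module R X] [Module S X] [IsScalarTower R S X]

/-- `Proper` does not change under a surjective change of rings. -/
theorem proper_iff_of_surjective (hs : Function.Surjective (algebraMap R S)) :
    Proper R M X ↔ Proper S M X := by
  have hann : ∀ (M : Type u) [AddCommGroup M] [Module R M] [Module S M] [IsScalarTower R S M],
      Module.annihilator R M = (Module.annihilator S M).comap (algebraMap R S) := by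
    intro M _ _ _ _
    ext r
    rw [Ideal.mem_comap, Module.mem_annihilator, Module.mem_annihilator]
    simp only [algebraMap_smul]
  have h1 : Module.annihilator R M ⊔ Module.annihilator R X =
      (Module.annihilator S M ⊔ Module.annihilator S X).comap (algebraMap R S) := by
    rw [← Ideal.map_comap_of_surjective _ hs (Module.annihilator S M),
      ← Ideal.map_comap_of_surjective _ hs (Module.annihilator S X), ← Ideal.map_sup,
      Ideal.comap_map_of_surjective _ hs, hann M, hann X]
    symm
    rw [sup_eq_left]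
    exact le_sup_of_le_left (Ideal.comap_mono bot_le)
  have e : (R ⧸ (Module.annihilator R M ⊔ Module.annihilator R X)) ≃+*
      (S ⧸ (Module.annihilator S M ⊔ Module.annihilator S X)) :=
    RingEquiv.ofBijective (Ideal.quotientMap _ (algebraMap R S) h1.le)
      ⟨Ideal.quotientMap_injective' h1.ge, Ideal.quotientMap_surjective hs⟩
  unfold Proper
  rw [ringKrullDim_eq_of_ringEquiv e]

end change

section theta

variable {S T A : Type u} [CommRing S] [IsRegularLocalRing S] [CommRing T] [IsRegularLocalRing T]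
  [CommRing A] [IsLocalRing A] [IsNoetherianRing A] [Algebra S A] [Algebra T A]
  {E₁ : S} {E₂ : T} {M X : Type u} [AddCommGroup M] [AddCommGroup X]
  [Module S M] [Module T M] [Module A M] [IsScalarTower S A M] [IsScalarTower T A M]
  [Module S X] [Module T X] [Module A X] [IsScalarTower S A X] [IsScalarTower T A X]

/-- `χ_S(M, X) = χ_T(M, X)` if `S/E₁ = A = T/E₂` -/
theorem pair_eq_of_two [Module.Finite S M] [Module.Finite T M] [Module.Finite A M]
    [Module.Finite S X] [Module.Finite T X] {d : ℕ} (hdS : ringKrullDim S = d)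
    (hdT : ringKrullDim T = d) (h1 : Function.Surjective (algebraMap S A))
    (h2 : Function.Surjective (algebraMap T A)) (k1 : RingHom.ker (algebraMap S A) = Ideal.span {E₁})
    (k2 : RingHom.ker (algebraMap T A) = Ideal.span {E₂}) (hE1 : E₁ ∈ nonZeroDivisors S)
    (hE2 : E₂ ∈ nonZeroDivisors T) (hp : Proper S M X) :
    pair S d M X = pair T d M X := by
  have hpA : Proper A M X := (proper_iff_of_surjective h1).1 hp
  have hpT : Proper T M X := (proper_iff_of_surjective h2).2 hpA
  obtain ⟨F, ε, hF⟩ := exists_res (T := A) M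
  obtain ⟨G₁, ε₁, hG₁, -, hl₁⟩ := exists_res_len hdS M
  obtain ⟨G₂, ε₂, hG₂, -, hl₂⟩ := exists_res_len hdT M
  have c1 : ∀ s : S, ∃ t : T, ∀ m : X, s • m = t • m := fun s => by
    obtain ⟨t, ht⟩ := h2 (algebraMap S A s)
    exact ⟨t, fun m => by rw [← algebraMap_smul A s m, ← algebraMap_smul A t m, ht]⟩
  have c2 : ∀ t : T, ∃ s : S, ∀ m : X, s • m = t • m := fun t => by
    obtain ⟨s, hs⟩ := h1 (algebraMap T A t)
    exact ⟨s, fun m => by rw [← algebraMap_smul A s m, ← algebraMap_smul A t m, hs]⟩
  have i1 : SMulCommClass A S X := ⟨fun a s m => by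
    rw [← algebraMap_smul A s, ← algebraMap_smul A s, smul_comm]⟩
  have i2 : SMulCommClass T S X := ⟨fun t s m => by
    rw [← algebraMap_smul A s, ← algebraMap_smul A s, ← algebraMap_smul A t,
      ← algebraMap_smul A t, smul_comm]⟩
  have fin₁ : ∀ i, hX (AddLen.ofLength S) G₁ X i ≠ ⊤ := fun i =>
    hX_length_ne_top (proper_iff.1 hp.symm) hG₁ i
  have fin₂' : ∀ i, hX (AddLen.ofLength T) G₂ X i ≠ ⊤ := fun i =>
    hX_length_ne_top (proper_iff.1 hpT.symm) hG₂ i
  have e2 : ∀ i, hX (AddLen.ofLength S) G₂ X i = hX (AddLen.ofLength T) G₂ X i := fun i => by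
    have := Eq.length_HX_eq (R := T) (A := S) (B := T) G₂ X c1 c2 i
    rw [hX_eq, hX_eq, AddLen.ofLength_L, AddLen.ofLength_L, this]
  have fin₂ : ∀ i, hX (AddLen.ofLength S) G₂ X i ≠ ⊤ := fun i => by
    rw [e2]; exact fin₂' i
  rw [pair_eq hG₁, pair_eq hG₂, chiX_eq_of_two (AddLen.ofLength S) (R := A) (S₁ := S) (S₂ := T)
    (φ₁ := algebraMap S A) (φ₂ := algebraMap T A) (E₁ := E₁) (E₂ := E₂) hF h1 k1 hE1
    (fun s m => (algebraMap_smul A s m).symm) (fun s m => (algebraMap_smul A s m).symm) hG₁ fin₁
    (fun i hi => hX_eq_zero_of_len _ _ _ hl₁ hi) h2 k2 hE2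
    (fun s m => (algebraMap_smul A s m).symm) (fun s m => (algebraMap_smul A s m).symm) hG₂ fin₂
    (fun i hi => hX_eq_zero_of_len _ _ _ hl₂ hi)]
  rw [chiX_eq, chiX_eq]
  exact Finset.sum_congr rfl fun i _ => by rw [e2]

/-- positivity over `S` from positivity over `T` -/
theorem Good.of_two [Module.Finite S M] [Module.Finite T M] [Module.Finite A M]
    [Module.Finite S X] [Module.Finite T X] {d : ℕ} (hdS : ringKrullDim S = d)
    (hdT : ringKrullDim T = d) (h1 : Function.Surjective (algebraMap S A))
    (h2 : Function.Surjective (algebraMap T A)) (k1 : RingHom.ker (algebraMap S A) = Ideal.span {E₁})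
    (k2 : RingHom.ker (algebraMap T A) = Ideal.span {E₂}) (hE1 : E₁ ∈ nonZeroDivisors S)
    (hE2 : E₂ ∈ nonZeroDivisors T) (h : Good T d M X) : Good S d M X := by
  intro hp hdim
  rw [pair_eq_of_two hdS hdT h1 h2 k1 k2 hE1 hE2 hp]
  have hpA : Proper A M X := (proper_iff_of_surjective h1).1 hp
  have hpT : Proper T M X := (proper_iff_of_surjective h2).2 hpA
  rw [Noe.supportDim_of_surjective h1, Noe.supportDim_of_surjective (M := X) h1,
    ← Noe.supportDim_of_surjective (R := T) h2,
    ← Noe.supportDim_of_surjective (R := T) (M := X) h2] at hdim ⊢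
  exact h hpT hdim

end theta

section equal

/-- equal characteristic -/
theorem good_mvPowerSeries (k : Type u) [Field k] (d : ℕ) (M X : Type u)
    [AddCommGroup M] [Module (MvPowerSeries (Fin d) k) M] [Module.Finite (MvPowerSeries (Fin d) k) M]
    [AddCommGroup X] [Module (MvPowerSeries (Fin d) k) X]
    [Module.Finite (MvPowerSeries (Fin d) k) X] :
    Good (MvPowerSeries (Fin d) k) d M X := by
  intro hp hdim
  obtain ⟨F, ε, hF⟩ := exists_res (T := MvPowerSeries (Fin d) k) M
  obtain ⟨-, -, h3, h4, -⟩ := Eq.pos_all (d := d) M hF (d + 1) (by omega) X inferInstance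
    (Noe.exists_pow_le_of_ringKrullDim_le_zero hp)
  rw [pair_eq hF]
  exact ⟨h3, fun h => h4.2 h⟩

end equal

section rings

/-- kernel of the coefficientwise map of power series rings -/
theorem ker_mvPowerSeries_map {σ : Type*} {A B : Type*} [CommRing A] [CommRing B] (φ : A →+* B)
    {a : A} (h : RingHom.ker φ = Ideal.span {a}) :
    RingHom.ker (MvPowerSeries.map (σ := σ) φ) = Ideal.span {MvPowerSeries.C a} := by
  ext f
  rw [RingHom.mem_ker, Ideal.mem_span_singleton]
  constructor
  · intro hf
    have h1 : ∀ n, ∃ b, MvPowerSeries.coeff n f = a * b := by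
      intro n
      have h2 : MvPowerSeries.coeff n f ∈ RingHom.ker φ := by
        rw [RingHom.mem_ker, ← MvPowerSeries.coeff_map, hf, map_zero]
      rw [h, Ideal.mem_span_singleton] at h2
      exact h2
    choose b hb using h1
    let g : MvPowerSeries σ A := fun n => b n
    have hg : ∀ n, MvPowerSeries.coeff n g = b n := fun n => rfl
    refine ⟨g, ?_⟩
    ext n
    rw [MvPowerSeries.coeff_C_mul, hb, hg]
  · rintro ⟨g, rfl⟩
    have ha : φ a = 0 := by
      have : a ∈ RingHom.ker φ := by rw [h]; exact Ideal.mem_span_singleton_self a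
      exact this
    rw [map_mul, MvPowerSeries.map_C, ha, map_zero, zero_mul]

theorem mvPowerSeries_map_surjective {σ : Type*} {A B : Type*} [CommRing A] [CommRing B]
    (φ : A →+* B) (h : Function.Surjective φ) :
    Function.Surjective (MvPowerSeries.map (σ := σ) φ) := by
  intro g
  choose f hf using fun n => h (MvPowerSeries.coeff n g)
  let f' : MvPowerSeries σ A := fun n => f n
  have hf' : ∀ n, MvPowerSeries.coeff n f' = f n := fun n => rfl
  refine ⟨f', ?_⟩
  ext n
  rw [MvPowerSeries.coeff_map, hf', hf n]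

/-- `S/P = T/(q f)` if `S = W/(P - f)`, `T = W/P` -/
theorem exists_common_quotient {W S T : Type*} [CommRing W] [CommRing S] [CommRing T] (π : W →+* S)
    (hπ : Function.Surjective π) (q : W →+* T) (hq : Function.Surjective q) {P f : W}
    (hk : RingHom.ker π = Ideal.span {P - f}) (hkq : RingHom.ker q = Ideal.span {P}) :
    ∃ φ : T →+* S ⧸ Ideal.span {π P}, Function.Surjective φ ∧
      RingHom.ker φ = Ideal.span {q f} ∧ ∀ w, φ (q w) = Ideal.Quotient.mk _ (π w) := by
  have hle : RingHom.ker q ≤ RingHom.ker ((Ideal.Quotient.mk (Ideal.span {π P})).comp π) := by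
    rw [hkq, Ideal.span_singleton_le_iff_mem, RingHom.mem_ker, RingHom.comp_apply,
      Ideal.Quotient.eq_zero_iff_mem]
    exact Ideal.mem_span_singleton_self _
  let φ : T →+* S ⧸ Ideal.span {π P} :=
    RingHom.liftOfSurjective q hq ⟨(Ideal.Quotient.mk (Ideal.span {π P})).comp π, hle⟩
  have hφ : ∀ w, φ (q w) = Ideal.Quotient.mk _ (π w) := fun w =>
    RingHom.liftOfRightInverse_comp_apply q _ _ _ w
  have hPf : π P = π f := by
    have : P - f ∈ RingHom.ker π := by rw [hk]; exact Ideal.mem_span_singleton_self _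
    rw [RingHom.mem_ker, map_sub, sub_eq_zero] at this
    exact this
  refine ⟨φ, ?_, ?_, hφ⟩
  · intro y
    obtain ⟨s, rfl⟩ := Ideal.Quotient.mk_surjective y
    obtain ⟨w, rfl⟩ := hπ s
    exact ⟨q w, hφ w⟩
  · apply le_antisymm
    · intro y hy
      obtain ⟨w, rfl⟩ := hq y
      rw [RingHom.mem_ker, hφ, Ideal.Quotient.eq_zero_iff_mem, Ideal.mem_span_singleton] at hy
      obtain ⟨c, hc⟩ := hy
      obtain ⟨c', rfl⟩ := hπ c
      have h1 : w - P * c' ∈ RingHom.ker π := by
        rw [RingHom.mem_ker, map_sub, map_mul, hc, sub_self]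
      rw [hk, Ideal.mem_span_singleton] at h1
      obtain ⟨e, he⟩ := h1
      have hqP : q P = 0 := by
        have : P ∈ RingHom.ker q := by rw [hkq]; exact Ideal.mem_span_singleton_self _
        exact this
      have h2 : w = P * c' + (P - f) * e := by rw [← he]; ring
      rw [Ideal.mem_span_singleton, h2, map_add, map_mul, map_mul, map_sub, hqP]
      exact ⟨-(q e), by ring⟩
    · rw [Ideal.span_singleton_le_iff_mem, RingHom.mem_ker, hφ, Ideal.Quotient.eq_zero_iff_mem,
        hPf]
      exact Ideal.mem_span_singleton_self _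

end rings

section main

theorem good_of_quotient {S T : Type u} [CommRing S] [IsRegularLocalRing S] [CommRing T]
    [IsRegularLocalRing T] {d : ℕ} (hdS : ringKrullDim S = d) (hdT : ringKrullDim T = d) {E₁ : S}
    {E₂ : T} (hm : E₁ ∈ maximalIdeal S) (hE1 : E₁ ≠ 0) (hE2 : E₂ ≠ 0)
    (φ : T →+* S ⧸ Ideal.span {E₁}) (hφ : Function.Surjective φ)
    (hk : RingHom.ker φ = Ideal.span {E₂}) (M X : Type u) [AddCommGroup M] [Module S M]
    [Module.Finite S M] [AddCommGroup X] [Module S X] [Module.Finite S X]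
    (hM : ∀ m : M, E₁ • m = 0) (hX : ∀ x : X, E₁ • x = 0)
    (hT : ∀ (M X : Type u) [AddCommGroup M] [Module T M] [Module.Finite T M] [AddCommGroup X]
      [Module T X] [Module.Finite T X], Good T d M X) : Good S d M X := by
  have hdomS : IsDomain S := Str.isDomain_of_isRegularLocalRing S
  have hdomT : IsDomain T := Str.isDomain_of_isRegularLocalRing T
  have hle : Ideal.span {E₁} ≤ maximalIdeal S := by
    rwa [Ideal.span_singleton_le_iff_mem]
  have hloc : IsLocalRing (S ⧸ Ideal.span {E₁}) := Str.isLocalRing_quotient hle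
  have tM : Module.IsTorsionBySet S M (Ideal.span {E₁} : Set S) :=
    (Module.isTorsionBySet_span_singleton_iff E₁).2 hM
  have tX : Module.IsTorsionBySet S X (Ideal.span {E₁} : Set S) :=
    (Module.isTorsionBySet_span_singleton_iff E₁).2 hX
  let _ : Module (S ⧸ Ideal.span {E₁}) M := tM.module
  let _ : Module (S ⧸ Ideal.span {E₁}) X := tX.module
  have _ : IsScalarTower S (S ⧸ Ideal.span {E₁}) M := tM.isScalarTower
  have _ : IsScalarTower S (S ⧸ Ideal.span {E₁}) X := tX.isScalarTower
  let _ : Algebra T (S ⧸ Ideal.span {E₁}) := φ.toAlgebra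
  let _ : Module T M := Module.compHom M φ
  let _ : Module T X := Module.compHom X φ
  have _ : IsScalarTower T (S ⧸ Ideal.span {E₁}) M := IsScalarTower.of_algebraMap_smul
    fun r x => rfl
  have _ : IsScalarTower T (S ⧸ Ideal.span {E₁}) X := IsScalarTower.of_algebraMap_smul
    fun r x => rfl
  have _ : Module.Finite (S ⧸ Ideal.span {E₁}) M :=
    Module.Finite.of_restrictScalars_finite S (S ⧸ Ideal.span {E₁}) M
  have _ : Module.Finite (S ⧸ Ideal.span {E₁}) X :=
    Module.Finite.of_restrictScalars_finite S (S ⧸ Ideal.span {E₁}) X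
  have _ : Module.Finite T (S ⧸ Ideal.span {E₁}) :=
    Module.Finite.of_surjective (Algebra.linearMap T (S ⧸ Ideal.span {E₁})) hφ
  have _ : Module.Finite T M := Module.Finite.trans (S ⧸ Ideal.span {E₁}) M
  have _ : Module.Finite T X := Module.Finite.trans (S ⧸ Ideal.span {E₁}) X
  exact Good.of_two (A := S ⧸ Ideal.span {E₁}) (E₁ := E₁) (E₂ := E₂) hdS hdT
    Ideal.Quotient.mk_surjective hφ Ideal.mk_ker hk (mem_nonZeroDivisors_of_ne_zero hE1)
    (mem_nonZeroDivisors_of_ne_zero hE2) (hT M X)

variable {S : Type u} [CommRing S] [IsRegularLocalRing S]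

/-- modules killed by `p`, mixed characteristic -/
theorem good_of_p_torsion [IsAdicComplete (maximalIdeal S) S] [IsAlgClosed (ResidueField S)]
    (p : ℕ) [Fact p.Prime] [CharP (ResidueField S) p] (hp0 : (p : S) ≠ 0) {d : ℕ}
    (hd : ringKrullDim S = d) (M X : Type u) [AddCommGroup M] [Module S M] [Module.Finite S M]
    [AddCommGroup X] [Module S X] [Module.Finite S X] (hM : ∀ m : M, (p : S) • m = 0)
    (hX : ∀ x : X, (p : S) • x = 0) : Good S d M X := by
  have hdomS : IsDomain S := Str.isDomain_of_isRegularLocalRing S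
  have hpm : (p : S) ∈ maximalIdeal S := by
    rw [← residue_eq_zero_iff, map_natCast]
    exact CharP.cast_eq_zero _ p
  obtain ⟨t, ht⟩ := Str.exists_generators S hd
  obtain ⟨π, hπ, -, -, f, -, hker⟩ := Str.exists_surjective_of_perfect S p hpm
    (RingEquiv.refl (ResidueField S)) hd t ht
  obtain ⟨φ, hφs, hφk, hφq⟩ := exists_common_quotient π hπ
    (MvPowerSeries.map (WittVector.constantCoeff : WittVector p (ResidueField S) →+* ResidueField S))
    (mvPowerSeries_map_surjective _ (WittVector.constantCoeff_surjective p)) hker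
    (ker_mvPowerSeries_map _ WittVector.ker_constantCoeff)
  have hπp : π (MvPowerSeries.C (p : WittVector p (ResidueField S))) = (p : S) := by
    rw [map_natCast, map_natCast]
  have hdT : ringKrullDim (MvPowerSeries (Fin d) (ResidueField S)) = d := by
    rw [R183.Cohen.ringKrullDim_mvPowerSeries, ringKrullDim_eq_zero_of_field, zero_add]
  have hE1 : π (MvPowerSeries.C (p : WittVector p (ResidueField S))) ≠ 0 := by rwa [hπp]
  have hE2 : MvPowerSeries.map (WittVector.constantCoeff :
      WittVector p (ResidueField S) →+* ResidueField S) f ≠ 0 := by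
    intro h0
    rw [h0, Ideal.span_singleton_eq_bot.2 rfl] at hφk
    have e := RingEquiv.ofBijective φ ⟨(RingHom.injective_iff_ker_eq_bot φ).2 hφk, hφs⟩
    have h1 := ringKrullDim_eq_of_ringEquiv e
    have h2 := ringKrullDim_quotient_succ_le_of_nonZeroDivisor
      (mem_nonZeroDivisors_of_ne_zero hE1)
    rw [← h1, hdT, hd] at h2
    have h3 : ((d + 1 : ℕ) : WithBot ℕ∞) ≤ ((d : ℕ) : WithBot ℕ∞) := by exact_mod_cast h2
    have h4 : d + 1 ≤ d := by exact_mod_cast h3
    omega
  refine good_of_quotient hd hdT (by rw [hπp]; exact hpm) hE1 hE2 φ hφs hφk M X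
    (by rw [hπp]; exact hM) (by rw [hπp]; exact hX) ?_
  intro M X _ _ _ _ _ _
  exact good_mvPowerSeries (ResidueField S) d M X

/-- **CASES**: in mixed characteristic, positivity for all pairs follows from positivity for prime
pairs `(S/P, S/Q)` with `p ∉ Q`. -/
theorem good_of_mix [IsAdicComplete (maximalIdeal S) S] [IsAlgClosed (ResidueField S)]
    (p : ℕ) [Fact p.Prime] [CharP (ResidueField S) p] (hp0 : (p : S) ≠ 0) {d : ℕ}
    (hd : ringKrullDim S = d)
    (hmix : ∀ P Q : Ideal S, P.IsPrime → Q.IsPrime → (p : S) ∉ Q → Good S d (S ⧸ P) (S ⧸ Q))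
    (M X : Type u) [AddCommGroup M] [Module S M] [Module.Finite S M]
    [AddCommGroup X] [Module S X] [Module.Finite S X] : Good S d M X := by
  refine Good.of_prime hd (fun P Q hP hQ => ?_) M X
  have key : ∀ I : Ideal S, (p : S) ∈ I → ∀ m : S ⧸ I, (p : S) • m = 0 := by
    intro I hI m
    obtain ⟨s, rfl⟩ := Ideal.Quotient.mk_surjective m
    rw [← Ideal.Quotient.mk_eq_mk, ← Submodule.Quotient.mk_smul, Submodule.Quotient.mk_eq_zero,
      smul_eq_mul]
    exact Ideal.mul_mem_right _ _ hI
  by_cases h2 : (p : S) ∈ Q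
  · by_cases h1 : (p : S) ∈ P
    · exact good_of_p_torsion p hp0 hd _ _ (key P h1) (key Q h2)
    · exact (hmix Q P hQ hP h1).symm
  · exact hmix P Q hP hQ h2

/-- the remaining statement -/
def MixPrime : Prop :=
  ∀ (S : Type) [CommRing S] [IsRegularLocalRing S] [IsAdicComplete (maximalIdeal S) S]
    [IsAlgClosed (ResidueField S)] (p : ℕ) [Fact p.Prime] [CharP (ResidueField S) p],
    (p : S) ≠ 0 → ∀ d : ℕ, ringKrullDim S = d →
    ∀ P Q : Ideal S, P.IsPrime → Q.IsPrime → (p : S) ∉ Q → Good S d (S ⧸ P) (S ⧸ Q)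

/-- `Mixed288` (helper702) from prime pairs with `p ∉ Q` -/
theorem mixed288_of_mixPrime (h : MixPrime) : Eq.Mixed288 := by
  intro S _ _ _ _ p _ _ hp0 d hd M N _ _ _ _ hlen hdim
  exact Good.serre M N (good_of_mix p hp0 hd (h S p hp0 d hd) M N) hlen hdim

end main

end Crest.Agent.R188.Top
end

-- ▼ part R188/Top4

set_option autoImplicit false
set_option linter.unusedSectionVars false

namespace Crest.Agent.R188.Top

open scoped ENNReal TensorProduct
open IsLocalRing

/-- **CORE** (to be proved from the world `Asm.World p k b`): for `R = S/(p - f)`,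
`S = W(k)[[x_1..x_d]]`, `A` a quotient ring of `R` which is finite and free over
`B = W(k)[[X_1..X_b]]`, `M` of dimension `a = d - (b+1)` with `M ⊗ A` of finite length:
`χ_R(M, N) = Σ_j μ(γ_j)` for every `B`-free `A`-module `N` with characters `γ_j`, and `μ > 0`. -/
def CORE : Prop :=
  ∀ (p : ℕ) [Fact p.Prime] (k : Type) [Field k] [IsAlgClosed k] [CharP k p]
    (R : Type) [CommRing R] [IsRegularLocalRing R] [IsAdicComplete (maximalIdeal R) R]
    (d a b : ℕ) (_ : ringKrullDim R = d) (_ : d = a + (b + 1))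
    (π : MvPowerSeries (Fin d) (WittVector p k) →+* R) (_ : Function.Surjective π)
    (f : MvPowerSeries (Fin d) (WittVector p k))
    (_ : f ∈ Ideal.span (Set.range
      (MvPowerSeries.X : Fin d → MvPowerSeries (Fin d) (WittVector p k))))
    (_ : RingHom.ker π = Ideal.span {MvPowerSeries.C (p : WittVector p k) - f})
    (A : Type) [CommRing A] [Nontrivial A] [Algebra R A]
    (_ : Function.Surjective (algebraMap R A)) [Algebra (Asm.BB p k b) A]
    [Module.Finite (Asm.BB p k b) A] [Module.Free (Asm.BB p k b) A]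
    (_ : ∀ w : WittVector p k,
      algebraMap (Asm.BB p k b) A (MvPowerSeries.C w) = algebraMap R A (π (MvPowerSeries.C w)))
    (M : Type) [AddCommGroup M] [Module R M] [Module.Finite R M]
    (_ : Module.supportDim R M = (a : ℕ)) (_ : IsFiniteLength R (M ⊗[R] A)),
    ∃ μ : (A →ₐ[Asm.BB p k b] Asm.BPlus p k b) → ℝ, (∀ γ, 0 < μ γ) ∧
      ∀ (N : Type) [AddCommGroup N] [Module A N] [Module R N] [IsScalarTower R A N]
        [Module (Asm.BB p k b) N] [IsScalarTower (Asm.BB p k b) A N] (r : ℕ)
        (e : Module.Basis (Fin r) (Asm.BB p k b) N)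
        (L : Matrix (Fin r) (Fin r) (Asm.BPlus p k b))
        (γ : Fin r → A →ₐ[Asm.BB p k b] Asm.BPlus p k b),
        Tri.IsFlag (Tri.actMatrix (A := A) e) L γ → pair R d M N = ∑ j, μ (γ j)

end Crest.Agent.R188.Top
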