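import Mathlib

/-! # R188, block (G): Cramer / Laplace identities for a flag of row vectors

Rows `l i : Fin r → Ω`, minors `mu l k τ = det (l_i (τ_j))_{i,j<k}` for ARBITRARY functions
`τ : Fin k → Fin r`, and the vectors
`uv l k τ = ∑_j (-1)^(j+k) mu_k (τ ∘ δ_j) • c_{τ_j}` (`τ : Fin (k+1) → Fin r`).
-/

set_option autoImplicit false

namespace Crest.Agent.R188.Flg

open Matrix Finset

universe u

variable {Ω : Type u} [CommRing Ω] {r : ℕ}

/-- the `k × k` minor of the first `k` rows at the columns `τ` -/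
def mu (l : ℕ → Fin r → Ω) (k : ℕ) (τ : Fin k → Fin r) : Ω :=
  Matrix.det (Matrix.of fun i j : Fin k => l i (τ j))

/-- the pairing of a row with a column -/
def ev (a x : Fin r → Ω) : Ω := ∑ c, a c * x c

lemma ev_add (a x y : Fin r → Ω) : ev a (x + y) = ev a x + ev a y := by
  simp [ev, mul_add, Finset.sum_add_distrib]

lemma ev_smul (a : Fin r → Ω) (b : Ω) (x : Fin r → Ω) : ev a (b • x) = b * ev a x := by
  simp only [ev, Pi.smul_apply, smul_eq_mul, Finset.mul_sum]
  refine Finset.sum_congr rfl fun c _ => by ring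

lemma ev_zero (a : Fin r → Ω) : ev a 0 = 0 := by simp [ev]

/-- `ev` as a linear map -/
def evL (a : Fin r → Ω) : (Fin r → Ω) →ₗ[Ω] Ω where
  toFun x := ev a x
  map_add' := ev_add a
  map_smul' b x := by simp [ev_smul]

@[simp] lemma evL_apply (a x : Fin r → Ω) : evL a x = ev a x := rfl

lemma ev_sum {ι : Type*} (s : Finset ι) (a : Fin r → Ω) (x : ι → Fin r → Ω) :
    ev a (∑ i ∈ s, x i) = ∑ i ∈ s, ev a (x i) :=
  map_sum (evL a) x s

lemma ev_single (a : Fin r → Ω) (c : Fin r) (b : Ω) :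
    ev a (b • (Pi.single c (1 : Ω) : Fin r → Ω)) = b * a c := by
  rw [ev_smul]
  congr 1
  simp [ev, Pi.single_apply]

/-- the Cramer vectors -/
def uv (l : ℕ → Fin r → Ω) (k : ℕ) (τ : Fin (k + 1) → Fin r) : Fin r → Ω :=
  ∑ j : Fin (k + 1), ((-1) ^ (j.val + k) * mu l k (τ ∘ j.succAbove)) •
    (Pi.single (τ j) (1 : Ω) : Fin r → Ω)

lemma ev_uv (l : ℕ → Fin r → Ω) (k : ℕ) (τ : Fin (k + 1) → Fin r) (a : Fin r → Ω) :
    ev a (uv l k τ) = ∑ j : Fin (k + 1), (-1) ^ (j.val + k) * mu l k (τ ∘ j.succAbove) * a (τ j) := by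
  rw [uv, ev_sum]
  refine Finset.sum_congr rfl fun j _ => ?_
  rw [ev_single]

/-- Laplace expansion along the last row -/
lemma ev_uv_eq_det (l : ℕ → Fin r → Ω) (k : ℕ) (τ : Fin (k + 1) → Fin r) (a : Fin r → Ω) :
    ev a (uv l k τ) = Matrix.det (Matrix.of fun i j : Fin (k + 1) =>
      (Fin.snoc (α := fun _ => Fin r → Ω) (fun i : Fin k => l i) a i : Fin r → Ω) (τ j)) := by
  rw [ev_uv, Matrix.det_succ_row _ (Fin.last k)]
  refine Finset.sum_congr rfl fun j _ => ?_
  have h1 : (Matrix.of fun i j : Fin (k + 1) =>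
      (Fin.snoc (α := fun _ => Fin r → Ω) (fun i : Fin k => l i) a i : Fin r → Ω) (τ j))
        (Fin.last k) j = a (τ j) := by
    simp [Matrix.of_apply]
  have h2 : ((Matrix.of fun i j : Fin (k + 1) =>
      (Fin.snoc (α := fun _ => Fin r → Ω) (fun i : Fin k => l i) a i : Fin r → Ω)
        (τ j)).submatrix (Fin.last k).succAbove j.succAbove).det = mu l k (τ ∘ j.succAbove) := by
    rw [mu]
    congr 1
    ext i j'
    simp [Matrix.submatrix_apply, Matrix.of_apply]
  rw [h1, h2, Fin.val_last, add_comm j.val k]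
  ring

/-- the rows below `k` kill `uv l k τ` -/
lemma ev_uv_of_lt (l : ℕ → Fin r → Ω) (k : ℕ) (τ : Fin (k + 1) → Fin r) (i : ℕ) (hi : i < k) :
    ev (l i) (uv l k τ) = 0 := by
  rw [ev_uv_eq_det]
  refine Matrix.det_zero_of_row_eq (i := Fin.castSucc ⟨i, hi⟩) (j := Fin.last k)
    (by exact (Fin.castSucc_lt_last _).ne) ?_
  ext j
  simp only [Matrix.of_apply, Fin.snoc_castSucc, Fin.snoc_last]

/-- the row `k` on `uv l k τ` is the next minor -/
lemma ev_uv_self (l : ℕ → Fin r → Ω) (k : ℕ) (τ : Fin (k + 1) → Fin r) :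
    ev (l k) (uv l k τ) = mu l (k + 1) τ := by
  rw [ev_uv_eq_det, mu]
  congr 1
  ext i j
  refine Fin.lastCases ?_ (fun i => ?_) i
  · simp [Matrix.of_apply]
  · simp [Matrix.of_apply]

/-- Laplace expansion of a minor along its last column -/
lemma mu_snoc (l : ℕ → Fin r → Ω) (k : ℕ) (σ : Fin k → Fin r) (c : Fin r) :
    mu l (k + 1) (Fin.snoc (α := fun _ => Fin r) σ c) =
      ∑ m : Fin (k + 1), (-1) ^ (m.val + k) * l m c *
        Matrix.det (Matrix.of fun i j : Fin k => l (m.succAbove i) (σ j)) := by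
  rw [mu, Matrix.det_succ_column _ (Fin.last k)]
  refine Finset.sum_congr rfl fun m _ => ?_
  have h1 : (Matrix.of fun i j : Fin (k + 1) =>
      l i (Fin.snoc (α := fun _ => Fin r) σ c j)) m (Fin.last k) = l m c := by
    simp [Matrix.of_apply]
  have h2 : ((Matrix.of fun i j : Fin (k + 1) =>
      l i (Fin.snoc (α := fun _ => Fin r) σ c j)).submatrix m.succAbove
        (Fin.last k).succAbove).det =
      Matrix.det (Matrix.of fun i j : Fin k => l (m.succAbove i) (σ j)) := by
    congr 1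
    ext i j
    simp [Matrix.submatrix_apply, Matrix.of_apply]
  rw [h1, h2, Fin.val_last]

/-- the double Laplace expansion -/
lemma sum_mu_mul_mu_snoc (l : ℕ → Fin r → Ω) (k : ℕ) (τ : Fin (k + 1) → Fin r)
    (σ : Fin k → Fin r) :
    ∑ i : Fin (k + 1), (-1) ^ (i.val + k) * mu l k (τ ∘ i.succAbove) *
        mu l (k + 1) (Fin.snoc (α := fun _ => Fin r) σ (τ i)) =
      mu l (k + 1) τ * mu l k σ := by
  have h1 : ∀ i : Fin (k + 1), (-1) ^ (i.val + k) * mu l k (τ ∘ i.succAbove) *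
        mu l (k + 1) (Fin.snoc (α := fun _ => Fin r) σ (τ i)) =
      ∑ m : Fin (k + 1), ((-1) ^ (m.val + k) *
        Matrix.det (Matrix.of fun i j : Fin k => l (m.succAbove i) (σ j))) *
          ((-1) ^ (i.val + k) * mu l k (τ ∘ i.succAbove) * l m (τ i)) := by
    intro i
    rw [mu_snoc, Finset.mul_sum]
    refine Finset.sum_congr rfl fun m _ => by ring
  simp_rw [h1]
  rw [Finset.sum_comm]
  simp_rw [← Finset.mul_sum, ← ev_uv]
  rw [Fin.sum_univ_castSucc]
  have h2 : ∀ m : Fin k, ev (l (Fin.castSucc m)) (uv l k τ) = 0 := fun m =>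
    ev_uv_of_lt l k τ m m.2
  simp_rw [h2, mul_zero, Finset.sum_const_zero, zero_add]
  have h3 : ev (l (Fin.last k)) (uv l k τ) = mu l (k + 1) τ := ev_uv_self l k τ
  rw [h3]
  have h4 : Matrix.det (Matrix.of fun i j : Fin k => l ((Fin.last k).succAbove i) (σ j)) =
      mu l k σ := by
    rw [mu]
    congr 1
    ext i j
    simp [Matrix.of_apply]
  rw [h4, Fin.val_last, ← two_mul, pow_mul]
  simp [mul_comm]

lemma snoc_comp_succAbove_castSucc (k : ℕ) (τ : Fin (k + 1) → Fin r) (c : Fin r)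
    (j : Fin (k + 1)) :
    (Fin.snoc (α := fun _ => Fin r) τ c) ∘ (Fin.castSucc j).succAbove =
      Fin.snoc (α := fun _ => Fin r) (τ ∘ j.succAbove) c := by
  ext i
  refine Fin.lastCases ?_ (fun i => ?_) i
  · have h : (Fin.castSucc j).succAbove (Fin.last k) = Fin.last (k + 1) := by
      rw [Fin.succAbove_of_lt_succ _ _ (by
        simp [Fin.lt_def]; omega)]
      simp
    simp [h]
  · have h : (Fin.castSucc j).succAbove (Fin.castSucc i) = Fin.castSucc (j.succAbove i) := by
      rw [Fin.castSucc_succAbove_castSucc]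
    simp [h]

/-- the vector `uv` at an appended column -/
lemma uv_snoc (l : ℕ → Fin r → Ω) (k : ℕ) (τ : Fin (k + 1) → Fin r) (c : Fin r) :
    uv l (k + 1) (Fin.snoc (α := fun _ => Fin r) τ c) =
      mu l (k + 1) τ • (Pi.single c (1 : Ω) : Fin r → Ω) -
      ∑ j : Fin (k + 1), ((-1) ^ (j.val + k) *
        mu l (k + 1) (Fin.snoc (α := fun _ => Fin r) (τ ∘ j.succAbove) c)) •
          (Pi.single (τ j) (1 : Ω) : Fin r → Ω) := by
  rw [uv, Fin.sum_univ_castSucc]
  have h1 : (Fin.snoc (α := fun _ => Fin r) τ c) ∘ (Fin.last (k + 1)).succAbove = τ := by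
    ext i
    simp
  rw [h1]
  simp_rw [snoc_comp_succAbove_castSucc]
  simp only [Fin.snoc_castSucc, Fin.snoc_last, Fin.val_castSucc, Fin.val_last]
  rw [add_comm, sub_eq_add_neg, ← Finset.sum_neg_distrib]
  congr 1
  · rw [← two_mul, pow_mul]
    simp
  · refine Finset.sum_congr rfl fun j _ => ?_
    rw [← neg_smul]
    congr 1
    rw [← add_assoc, pow_succ]
    ring

/-- **Cramer identity** (the relations between the vectors `uv l k τ` modulo the kernel of the
row `k` are generated by the next vectors). -/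
theorem cramer (l : ℕ → Fin r → Ω) (k : ℕ) (τ τ' : Fin (k + 1) → Fin r) :
    mu l (k + 1) τ' • uv l k τ - mu l (k + 1) τ • uv l k τ' =
      ∑ i : Fin (k + 1), ((-1) ^ (i.val + k) * mu l k (τ ∘ i.succAbove)) •
        uv l (k + 1) (Fin.snoc (α := fun _ => Fin r) τ' (τ i)) := by
  simp_rw [uv_snoc, smul_sub, Finset.sum_sub_distrib]
  congr 1
  · rw [uv, Finset.smul_sum]
    refine Finset.sum_congr rfl fun j _ => ?_
    rw [smul_smul, smul_smul, mul_comm]
  · simp_rw [Finset.smul_sum, smul_smul]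
    rw [Finset.sum_comm]
    rw [uv, Finset.smul_sum]
    refine Finset.sum_congr rfl fun j _ => ?_
    rw [← Finset.sum_smul, smul_smul]
    congr 1
    have h := sum_mu_mul_mu_snoc l k τ (τ' ∘ j.succAbove)
    calc mu l (k + 1) τ * ((-1) ^ (j.val + k) * mu l k (τ' ∘ j.succAbove))
        = (-1) ^ (j.val + k) * (mu l (k + 1) τ * mu l k (τ' ∘ j.succAbove)) := by ring
      _ = _ := by
        rw [← h, Finset.mul_sum]
        refine Finset.sum_congr rfl fun i _ => by ring



end Crest.Agent.R188.Flg
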