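import Mathlib
import Crest.Agent.R188.FlgCramer

-- ▼ part R188/Tri1
section

/-!
# R188, block FLAG DATA (helper645), part 1: simultaneous triangularisation over an algebraically
closed field
-/

set_option autoImplicit false

namespace Crest.Agent.R188.Tri

open TensorProduct

universe u v w

section eigen

variable {F : Type u} [Field F] [IsAlgClosed F] {A : Type v} [CommRing A] [Algebra F A]

/-- A nonzero finite dimensional module over a commutative `F`-algebra has a common eigenvector. -/
theorem exists_eigenvector (M : Type w) [AddCommGroup M] [Module A M] [Module F M]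
    [IsScalarTower F A M] [Module.Finite F M] [Nontrivial M] :
    ∃ (m : M) (γ : A →ₐ[F] F), m ≠ 0 ∧ ∀ a : A, a • m = γ a • m := by
  have hart : IsArtinian A M := isArtinian_of_tower F inferInstance
  obtain ⟨W, hW⟩ := IsAtomic.exists_atom (Submodule A M)
  have hs : IsSimpleModule A W := isSimpleModule_iff_isAtom.2 hW
  obtain ⟨I, hI, ⟨e⟩⟩ := isSimpleModule_iff_quot_maximal.mp hs
  let _ : Field (A ⧸ I) := Ideal.Quotient.field I
  have hfin : Module.Finite F (A ⧸ I) := by
    have h1 : Module.Finite F W :=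
      Module.Finite.of_injective ((W.subtype).restrictScalars F) W.subtype_injective
    exact Module.Finite.of_surjective (e.toLinearMap.restrictScalars F) e.surjective
  have hint : Algebra.IsIntegral F (A ⧸ I) := Algebra.IsIntegral.of_finite F _
  have hbij := IsAlgClosed.algebraMap_bijective_of_isIntegral (k := F) (K := A ⧸ I)
  let φ : F ≃ₐ[F] (A ⧸ I) := AlgEquiv.ofBijective (Algebra.ofId F (A ⧸ I)) hbij
  let γ : A →ₐ[F] F := φ.symm.toAlgHom.comp (Ideal.Quotient.mkₐ F I)
  have hγ : ∀ a : A, Ideal.Quotient.mk I a = (γ a) • (1 : A ⧸ I) := by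
    intro a
    rw [Algebra.smul_def, mul_one]
    exact (φ.apply_symm_apply (Ideal.Quotient.mk I a)).symm
  refine ⟨((e.symm 1 : W) : M), γ, ?_, fun a => ?_⟩
  · intro h
    have h1 : (e.symm 1 : W) = 0 := Subtype.ext h
    rw [LinearEquiv.map_eq_zero_iff] at h1
    exact one_ne_zero h1
  · have h1 : a • (e.symm 1 : W) = γ a • (e.symm 1 : W) := by
      rw [← map_smul]
      have h2 : a • (1 : A ⧸ I) = algebraMap F A (γ a) • (1 : A ⧸ I) := by
        have h3 : a • (1 : A ⧸ I) = Ideal.Quotient.mk I a := by
          rw [Algebra.smul_def, mul_one]; rfl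
        rw [h3, hγ a, algebraMap_smul]
      rw [h2, map_smul, algebraMap_smul]
    exact congrArg Subtype.val h1

/-- **Flags**: a finite dimensional module over a commutative `F`-algebra has an `F`-basis in which
the action is triangular, with characters on the diagonal. -/
theorem exists_flag (r : ℕ) : ∀ (M : Type w) [AddCommGroup M] [Module A M] [Module F M]
    [IsScalarTower F A M] [Module.Finite F M], Module.finrank F M = r →
    ∃ (l : Fin r → M) (γ : Fin r → A →ₐ[F] F), LinearIndependent F l ∧
      ∀ k a, ∃ c : Fin r → F, (∀ j, ¬ j < k → c j = 0) ∧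
        a • l k = γ k a • l k + ∑ j, c j • l j := by
  induction r with
  | zero =>
    intro M _ _ _ _ _ _
    exact ⟨fun i => i.elim0, fun i => i.elim0, linearIndependent_empty_type, fun k => k.elim0⟩
  | succ r ih =>
    intro M _ _ _ _ _ hr
    have hnt : Nontrivial M := Module.nontrivial_of_finrank_pos (R := F) (by rw [hr]; omega)
    obtain ⟨m, γ₀, hm, hγ₀⟩ := exists_eigenvector (F := F) (A := A) M
    let W : Submodule A M := Submodule.span A {m}
    have hW : ∀ x ∈ W, ∃ c : F, x = c • m := by
      intro x hx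
      obtain ⟨a, rfl⟩ := Submodule.mem_span_singleton.1 hx
      exact ⟨γ₀ a, hγ₀ a⟩
    have hWF : (W.restrictScalars F) = Submodule.span F {m} := by
      apply le_antisymm
      · intro x hx
        obtain ⟨c, rfl⟩ := hW x hx
        exact Submodule.mem_span_singleton.2 ⟨c, rfl⟩
      · rw [Submodule.span_le, Set.singleton_subset_iff]
        exact Submodule.mem_span_singleton_self m
    have hfr : Module.finrank F (M ⧸ W) = r := by
      have h1 := Submodule.finrank_quotient_add_finrank (R := F) (W.restrictScalars F)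
      have h2 : Module.finrank F (W.restrictScalars F) = 1 := by
        rw [hWF]; exact finrank_span_singleton hm
      have h3 : Module.finrank F (M ⧸ (W.restrictScalars F)) = Module.finrank F (M ⧸ W) :=
        (Submodule.Quotient.restrictScalarsEquiv F W).finrank_eq
      rw [h2, h3, hr] at h1
      omega
    obtain ⟨l, γ, hli, hl⟩ := ih (M ⧸ W) hfr
    choose l' hl' using fun i => Submodule.Quotient.mk_surjective W (l i)
    refine ⟨Fin.cons m l', Fin.cons γ₀ γ, ?_, ?_⟩
    · rw [linearIndependent_finCons]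
      have h1 : LinearIndependent F ((W.mkQ.restrictScalars F) ∘ l') := by
        have : ((W.mkQ.restrictScalars F) ∘ l') = l := funext fun i => hl' i
        rw [this]; exact hli
      refine ⟨LinearIndependent.of_comp (W.mkQ.restrictScalars F) h1, ?_⟩
      intro hmem
      obtain ⟨c, hc⟩ := (Submodule.mem_span_range_iff_exists_fun F).1 hmem
      have h2 : ∑ i, c i • l i = 0 := by
        have h3 : (W.mkQ.restrictScalars F) (∑ i, c i • l' i) = 0 := by
          rw [hc]
          exact (Submodule.Quotient.mk_eq_zero W).2 (Submodule.mem_span_singleton_self m)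
        rw [map_sum] at h3
        rw [← h3]
        refine Finset.sum_congr rfl fun i _ => ?_
        rw [map_smul]
        exact congrArg (c i • ·) (hl' i).symm
      have h4 : ∀ i, c i = 0 := fun i => (Fintype.linearIndependent_iff.1 hli) c h2 i
      apply hm
      rw [← hc]
      exact Finset.sum_eq_zero fun i _ => by rw [h4 i, zero_smul]
    · intro k a
      induction k using Fin.cases with
      | zero =>
        refine ⟨0, fun _ _ => rfl, ?_⟩
        simp only [Fin.cons_zero, Pi.zero_apply, zero_smul, Finset.sum_const_zero, add_zero]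
        exact hγ₀ a
      | succ j =>
        obtain ⟨c, hc0, hc⟩ := hl j a
        have h1 : a • l' j - (γ j a • l' j + ∑ i, c i • l' i) ∈ W := by
          rw [← Submodule.Quotient.mk_eq_zero, Submodule.Quotient.mk_sub,
            Submodule.Quotient.mk_smul, hl', hc, sub_eq_zero, Submodule.Quotient.mk_add]
          have h2 : (Submodule.Quotient.mk (γ j a • l' j) : M ⧸ W) = γ j a • l j := by
            rw [← hl' j]; rfl
          have h3 : (Submodule.Quotient.mk (∑ i, c i • l' i) : M ⧸ W) = ∑ i, c i • l i := by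
            have h4 : (W.mkQ.restrictScalars F) (∑ i, c i • l' i) = ∑ i, c i • l i := by
              rw [map_sum]
              refine Finset.sum_congr rfl fun i _ => ?_
              rw [map_smul]
              exact congrArg (c i • ·) (hl' i)
            exact h4
          rw [h2, h3]
        obtain ⟨e, he⟩ := hW _ h1
        refine ⟨Fin.cons e c, ?_, ?_⟩
        · intro i hi
          induction i using Fin.cases with
          | zero => exact absurd (Fin.succ_pos j) hi
          | succ i => exact hc0 i (fun h => hi (Fin.succ_lt_succ_iff.2 h))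
        · rw [Fin.sum_univ_succ]
          simp only [Fin.cons_zero, Fin.cons_succ]
          rw [← he]
          abel

end eigen

end Crest.Agent.R188.Tri
end

-- ▼ part R188/Tri2
section

/-!
# R188, block FLAG DATA (helper645), part 2: commuting matrices, rows with integral entries
-/

set_option autoImplicit false

namespace Crest.Agent.R188.Tri

open TensorProduct Matrix

universe u v w

section field

variable {B : Type u} {F : Type v} {A : Type w} [CommRing B] [CommRing A] [Algebra B A] [Field F]
  [Algebra B F]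

theorem commute_ofId {r : ℕ} (ρ : A →ₐ[B] Matrix (Fin r) (Fin r) F) (x : F) (y : A) :
    Commute (Algebra.ofId F (Matrix (Fin r) (Fin r) F) x) (ρ y) := Algebra.commutes x (ρ y)

/-- the `F`-algebra map `F ⊗ A → Mat_r(F)` -/
noncomputable def extHom {r : ℕ} (ρ : A →ₐ[B] Matrix (Fin r) (Fin r) F) :
    F ⊗[B] A →ₐ[F] Matrix (Fin r) (Fin r) F :=
  Algebra.TensorProduct.lift (Algebra.ofId F _) ρ (commute_ofId ρ)

theorem extHom_tmul {r : ℕ} (ρ : A →ₐ[B] Matrix (Fin r) (Fin r) F) (x : F) (a : A) :
    extHom ρ (x ⊗ₜ a) = x • ρ a := by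
  rw [extHom, Algebra.TensorProduct.lift_tmul, Algebra.ofId_apply, ← Algebra.smul_def]

/-- row vectors as a module over a commutative algebra acting through matrices -/
@[implicit_reducible]
noncomputable def rowModule {r : ℕ} {A' : Type*} [CommRing A']
    (σ : A' →+* Matrix (Fin r) (Fin r) F) : Module A' (Fin r → F) where
  smul a l := l ᵥ* σ a
  one_smul l := by change l ᵥ* σ 1 = l; rw [map_one, vecMul_one]
  mul_smul a b l := by
    change l ᵥ* σ (a * b) = (l ᵥ* σ b) ᵥ* σ a
    rw [vecMul_vecMul, ← map_mul, mul_comm]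
  smul_zero a := by change (0 : Fin r → F) ᵥ* σ a = 0; exact zero_vecMul _
  smul_add a l m := by
    change (l + m) ᵥ* σ a = l ᵥ* σ a + m ᵥ* σ a
    exact add_vecMul _ _ _
  add_smul a b l := by
    change l ᵥ* σ (a + b) = l ᵥ* σ a + l ᵥ* σ b
    rw [map_add, vecMul_add]
  zero_smul l := by change l ᵥ* σ 0 = 0; rw [map_zero, vecMul_zero]

/-- **Common triangularisation of commuting matrices** (row form). -/
theorem exists_flag_matrix [IsAlgClosed F] {r : ℕ} (ρ : A →ₐ[B] Matrix (Fin r) (Fin r) F) :
    ∃ (l : Fin r → Fin r → F) (γ : Fin r → A →ₐ[B] F), LinearIndependent F l ∧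
      ∀ k a, ∃ c : Fin r → F, (∀ j, ¬ j < k → c j = 0) ∧
        l k ᵥ* ρ a = γ k a • l k + ∑ j, c j • l j := by
  let A' := F ⊗[B] A
  let σ : A' →ₐ[F] Matrix (Fin r) (Fin r) F := extHom ρ
  let _ : Module A' (Fin r → F) := rowModule (σ : A' →+* Matrix (Fin r) (Fin r) F)
  have hsmul : ∀ (a : A') (l : Fin r → F), a • l = l ᵥ* σ a := fun a l => rfl
  have : IsScalarTower F A' (Fin r → F) := by
    refine ⟨fun c a l => ?_⟩
    rw [hsmul, hsmul, map_smul, vecMul_smul]
  obtain ⟨l, γ, hli, hl⟩ := exists_flag (F := F) (A := A') r (Fin r → F) (by simp)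
  refine ⟨l, fun k => ((γ k).restrictScalars B).comp Algebra.TensorProduct.includeRight, hli,
    fun k a => ?_⟩
  obtain ⟨c, hc0, hc⟩ := hl k ((1 : F) ⊗ₜ a)
  refine ⟨c, hc0, ?_⟩
  rw [hsmul] at hc
  have h1 : σ ((1 : F) ⊗ₜ a) = ρ a := by
    change extHom ρ _ = _
    rw [extHom_tmul, one_smul]
  rw [h1] at hc
  exact hc

omit [CommRing A] in
/-- scaling rows -/
theorem flag_scale {r : ℕ} {ρ : A → Matrix (Fin r) (Fin r) F} {l : Fin r → Fin r → F}
    {γ : Fin r → A → F}
    (h : ∀ k a, ∃ c : Fin r → F, (∀ j, ¬ j < k → c j = 0) ∧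
        l k ᵥ* ρ a = γ k a • l k + ∑ j, c j • l j) (b : Fin r → F) (hb : ∀ k, b k ≠ 0) :
    ∀ k a, ∃ c : Fin r → F, (∀ j, ¬ j < k → c j = 0) ∧
        (b k • l k) ᵥ* ρ a = γ k a • (b k • l k) + ∑ j, c j • (b j • l j) := by
  intro k a
  obtain ⟨c, hc0, hc⟩ := h k a
  refine ⟨fun j => b k * c j * (b j)⁻¹, fun j hj => by simp [hc0 j hj], ?_⟩
  rw [smul_vecMul, hc, smul_add, smul_comm, Finset.smul_sum]
  congr 1
  refine Finset.sum_congr rfl fun j _ => ?_
  rw [smul_smul, smul_smul, mul_assoc, inv_mul_cancel₀ (hb j), mul_one]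

end field

end Crest.Agent.R188.Tri
end

-- ▼ part R188/Tri3
section

/-!
# R188, block FLAG DATA (helper645), part 3: rows with entries in the integral closure

`B` a domain, `F` an algebraically closed field, algebraic over `B`, `Bp` the integral closure of
`B` in `F`.  A commuting family `ρ : A →ₐ[B] Mat_r(B)`, `A` integral over `B`.
-/

set_option autoImplicit false
set_option linter.unusedSectionVars false

namespace Crest.Agent.R188.Tri

open TensorProduct Matrix

universe u v w x

section descend

variable {B : Type u} {A : Type w} [CommRing B] [CommRing A] [Algebra B A]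
  (F : Type v) [Field F] [Algebra B F]
  (Bp : Type x) [CommRing Bp] [Algebra B Bp] [Algebra Bp F] [IsScalarTower B Bp F]
  [IsIntegralClosure Bp B F]

/-- a character with values in `F` takes values in `Bp` (function) -/
noncomputable def descendFun [Algebra.IsIntegral B A] (γ : A →ₐ[B] F) (a : A) : Bp :=
  IsIntegralClosure.mk' Bp (γ a) ((Algebra.IsIntegral.isIntegral (R := B) a).map γ)

theorem algebraMap_descendFun [Algebra.IsIntegral B A] (γ : A →ₐ[B] F) (a : A) :
    algebraMap Bp F (descendFun F Bp γ a) = γ a :=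
  IsIntegralClosure.algebraMap_mk' (R := B) Bp (γ a) _

/-- a character with values in `F` takes values in `Bp` -/
noncomputable def descendChar [Algebra.IsIntegral B A] (γ : A →ₐ[B] F) : A →ₐ[B] Bp where
  toFun a := descendFun F Bp γ a
  map_one' := IsIntegralClosure.algebraMap_injective Bp B F (by
    rw [algebraMap_descendFun, map_one, map_one])
  map_zero' := IsIntegralClosure.algebraMap_injective Bp B F (by
    rw [algebraMap_descendFun, map_zero, map_zero])
  map_mul' a b := IsIntegralClosure.algebraMap_injective Bp B F (by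
    rw [map_mul, algebraMap_descendFun, algebraMap_descendFun,
      algebraMap_descendFun, map_mul])
  map_add' a b := IsIntegralClosure.algebraMap_injective Bp B F (by
    rw [map_add, algebraMap_descendFun, algebraMap_descendFun,
      algebraMap_descendFun, map_add])
  commutes' b := IsIntegralClosure.algebraMap_injective Bp B F (by
    rw [algebraMap_descendFun, AlgHom.commutes, ← IsScalarTower.algebraMap_apply])

theorem algebraMap_descendChar [Algebra.IsIntegral B A] (γ : A →ₐ[B] F) (a : A) :
    algebraMap Bp F (descendChar F Bp γ a) = γ a := algebraMap_descendFun F Bp γ a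

variable {F} in
/-- determinant of a matrix with linearly independent rows -/
theorem det_ne_zero_of_linearIndependent {r : ℕ} {l : Fin r → Fin r → F}
    (h : LinearIndependent F l) : (Matrix.of l).det ≠ 0 := by
  have h1 : IsUnit (Matrix.of l) := Matrix.linearIndependent_rows_iff_isUnit.1 h
  exact ((Matrix.isUnit_iff_isUnit_det _).1 h1).ne_zero

/-- **Flag data.** -/
theorem exists_rows [IsDomain B] [IsAlgClosed F] [Algebra.IsAlgebraic B F] [FaithfulSMul B F]
    [Algebra.IsIntegral B A] {r : ℕ} (ρ : A →ₐ[B] Matrix (Fin r) (Fin r) B) :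
    ∃ (L : Matrix (Fin r) (Fin r) Bp) (γ : Fin r → A →ₐ[B] Bp), L.det ≠ 0 ∧
      ∀ a : A, (∀ k j, k < j → (L * (ρ a).map (algebraMap B Bp) * L.adjugate) k j = 0) ∧
        ∀ k, (L * (ρ a).map (algebraMap B Bp) * L.adjugate) k k = L.det * γ k a := by
  classical
  have hinj := IsIntegralClosure.algebraMap_injective Bp B F
  let ρF : A →ₐ[B] Matrix (Fin r) (Fin r) F := (Algebra.ofId B F).mapMatrix.comp ρ
  have hρF : ∀ a, ρF a = ((ρ a).map (algebraMap B Bp)).map (algebraMap Bp F) := by
    intro a
    ext i j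
    change algebraMap B F (ρ a i j) = _
    rw [Matrix.map_apply, Matrix.map_apply, ← IsScalarTower.algebraMap_apply]
  obtain ⟨l, γ, hli, hl⟩ := exists_flag_matrix ρF
  -- scale the rows
  have hy : ∀ k, ∃ y : B, y ≠ 0 ∧ ∀ j, IsIntegral B (y • l k j) := by
    intro k
    obtain ⟨y, hy0, hy⟩ := Algebra.IsAlgebraic.exists_integral_multiples B
      (Finset.univ.image (l k))
    exact ⟨y, hy0, fun j => hy _ (Finset.mem_image_of_mem _ (Finset.mem_univ j))⟩
  choose y hy0 hy using hy
  let b : Fin r → F := fun k => algebraMap B F (y k)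
  have hb : ∀ k, b k ≠ 0 := fun k => by
    simp only [b]
    rw [Ne, FaithfulSMul.algebraMap_eq_zero_iff]
    exact hy0 k
  let L : Matrix (Fin r) (Fin r) Bp :=
    Matrix.of fun k j => IsIntegralClosure.mk' Bp (y k • l k j) (hy k j)
  let l' : Fin r → Fin r → F := fun k => b k • l k
  have hL : L.map (algebraMap Bp F) = Matrix.of l' := by
    ext k j
    rw [Matrix.map_apply]
    change algebraMap Bp F (IsIntegralClosure.mk' Bp (y k • l k j) (hy k j)) = _
    rw [IsIntegralClosure.algebraMap_mk', Algebra.smul_def]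
    rfl
  have hli' : LinearIndependent F l' := by
    have h1 := hli.units_smul (fun k => Units.mk0 (b k) (hb k))
    exact h1
  have hdet : (L.map (algebraMap Bp F)).det ≠ 0 := by
    rw [hL]; exact det_ne_zero_of_linearIndependent hli'
  have hmapdet : algebraMap Bp F L.det = (L.map (algebraMap Bp F)).det := RingHom.map_det _ _
  have hdet0 : L.det ≠ 0 := by
    intro h
    apply hdet
    rw [← hmapdet, h, map_zero]
  refine ⟨L, fun k => descendChar F Bp (γ k), hdet0, fun a => ?_⟩
  -- the triangular matrix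
  have hsc := flag_scale (ρ := fun a => ρF a) (l := l) (γ := fun k a => γ k a) hl b hb
  choose c hc0 hc using fun k => hsc k a
  let T : Matrix (Fin r) (Fin r) F := Matrix.of fun k j => c k j + if k = j then γ k a else 0
  have hT1 : ∀ k j, k < j → T k j = 0 := by
    intro k j hkj
    simp only [T, Matrix.of_apply]
    rw [hc0 k j (not_lt.2 hkj.le), if_neg hkj.ne, add_zero]
  have hT2 : ∀ k, T k k = γ k a := by
    intro k
    simp only [T, Matrix.of_apply, if_true]
    rw [hc0 k k (lt_irrefl k), zero_add]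
  have hTL : (L.map (algebraMap Bp F)) * ρF a = T * (L.map (algebraMap Bp F)) := by
    rw [hL]
    ext k j
    have h1 : ((b k • l k) ᵥ* ρF a) j = (γ k a • b k • l k + ∑ i, c k i • b i • l i) j :=
      congrFun (hc k) j
    have h2 : ((Matrix.of l') * ρF a) k j = ((b k • l k) ᵥ* ρF a) j := rfl
    have h3 : (T * Matrix.of l') k j = (γ k a • b k • l k + ∑ i, c k i • b i • l i) j := by
      rw [Matrix.mul_apply]
      simp only [T, Matrix.of_apply, add_mul, Finset.sum_add_distrib, Pi.add_apply,
        Finset.sum_apply, Pi.smul_apply, smul_eq_mul, l']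
      rw [add_comm]
      congr 1
      rw [Finset.sum_eq_single k]
      · rw [if_pos rfl]
      · intro i _ hi
        rw [if_neg (Ne.symm hi), zero_mul]
      · intro h
        exact absurd (Finset.mem_univ k) h
    rw [h2, h1, h3]
  have hfin : (L * (ρ a).map (algebraMap B Bp) * L.adjugate).map (algebraMap Bp F) =
      (L.map (algebraMap Bp F)).det • T := by
    rw [Matrix.map_mul, Matrix.map_mul, ← hρF, hTL, Matrix.mul_assoc]
    have h1 : L.adjugate.map (algebraMap Bp F) = (L.map (algebraMap Bp F)).adjugate :=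
      RingHom.map_adjugate _ _
    rw [h1, Matrix.mul_adjugate, Matrix.mul_smul, Matrix.mul_one]
  refine ⟨fun k j hkj => ?_, fun k => ?_⟩
  · apply hinj
    have h1 := congrFun (congrFun hfin k) j
    rw [Matrix.map_apply, Matrix.smul_apply, hT1 k j hkj, smul_zero] at h1
    rw [h1, map_zero]
  · apply hinj
    have h1 := congrFun (congrFun hfin k) k
    rw [Matrix.map_apply, Matrix.smul_apply, hT2 k, smul_eq_mul, ← hmapdet] at h1
    rw [h1, map_mul, algebraMap_descendChar]

end descend

end Crest.Agent.R188.Tri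
end

-- ▼ part R188/Tri4

/-!
# R188, block FLAG DATA (helper645), part 4: base change of the flag to `Ω`
-/

set_option autoImplicit false
set_option linter.unusedSectionVars false

namespace Crest.Agent.R188.Tri

open TensorProduct Matrix

universe u v w x y

section norm

variable {B : Type u} [CommRing B] [IsDomain B]
  (F : Type v) [Field F] [Algebra B F] [Algebra.IsAlgebraic B F] [FaithfulSMul B F]
  {Bp : Type x} [CommRing Bp] [Algebra B Bp] [Algebra Bp F] [IsScalarTower B Bp F]
  [IsIntegralClosure Bp B F]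

include F in
/-- every nonzero element of `Bp` divides a nonzero element of `B` -/
theorem exists_mul_eq_algebraMap {c : Bp} (hc : c ≠ 0) :
    ∃ (c' : Bp) (b : B), b ≠ 0 ∧ c * c' = algebraMap B Bp b := by
  have hinj := IsIntegralClosure.algebraMap_injective Bp B F
  have h0 : (algebraMap Bp F c) ≠ 0 := fun h => hc (hinj (by rw [h, map_zero]))
  obtain ⟨y, hy0, hy⟩ := (Algebra.IsAlgebraic.isAlgebraic (R := B)
    (algebraMap Bp F c)⁻¹).exists_integral_multiple
  refine ⟨IsIntegralClosure.mk' Bp (y • (algebraMap Bp F c)⁻¹) hy, y, hy0, hinj ?_⟩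
  rw [map_mul, IsIntegralClosure.algebraMap_mk', ← IsScalarTower.algebraMap_apply,
    Algebra.smul_def, mul_left_comm, mul_inv_cancel₀ h0, mul_one]


end norm

section omega

variable {B : Type u} {A : Type w} [CommRing B] [CommRing A] [Algebra B A]
  {Bp : Type x} [CommRing Bp] [Algebra B Bp] {Ω : Type y} [CommRing Ω] [Algebra Bp Ω]

/-- the flag property of rows `L` with characters `γ` for the commuting matrices `ρ` -/
structure IsFlag {r : ℕ} (ρ : A →ₐ[B] Matrix (Fin r) (Fin r) B) (L : Matrix (Fin r) (Fin r) Bp)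
    (γ : Fin r → A →ₐ[B] Bp) : Prop where
  det_ne_zero : L.det ≠ 0
  upper : ∀ a k j, k < j → (L * (ρ a).map (algebraMap B Bp) * L.adjugate) k j = 0
  diag : ∀ a k, (L * (ρ a).map (algebraMap B Bp) * L.adjugate) k k = L.det * γ k a

variable {r : ℕ} {ρ : A →ₐ[B] Matrix (Fin r) (Fin r) B} {L : Matrix (Fin r) (Fin r) Bp}
  {γ : Fin r → A →ₐ[B] Bp}

theorem det_smul_mul (ρ : A →ₐ[B] Matrix (Fin r) (Fin r) B) (L : Matrix (Fin r) (Fin r) Bp)
    (a : A) :
    (L * (ρ a).map (algebraMap B Bp) * L.adjugate) * L =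
      L.det • (L * (ρ a).map (algebraMap B Bp)) := by
  rw [Matrix.mul_assoc, Matrix.adjugate_mul, Matrix.mul_smul, Matrix.mul_one]

/-- the sum of the characters is the trace -/
theorem IsFlag.sum_eq_trace [IsDomain Bp] (h : IsFlag ρ L γ) (a : A) :
    ∑ k, γ k a = algebraMap B Bp (ρ a).trace := by
  have h1 : (L * (ρ a).map (algebraMap B Bp) * L.adjugate).trace =
      L.det * algebraMap B Bp (ρ a).trace := by
    rw [Matrix.trace_mul_comm, ← Matrix.mul_assoc, Matrix.adjugate_mul, Matrix.smul_mul,
      Matrix.one_mul, Matrix.trace_smul, smul_eq_mul]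
    congr 1
    rw [Matrix.trace, Matrix.trace, map_sum]
    rfl
  have h2 : (L * (ρ a).map (algebraMap B Bp) * L.adjugate).trace = L.det * ∑ k, γ k a := by
    rw [Matrix.trace, Finset.mul_sum]
    exact Finset.sum_congr rfl fun k _ => h.diag a k
  exact mul_left_cancel₀ h.det_ne_zero (h2.symm.trans h1)

variable (Ω L) in
/-- the rows over `Ω`, in the format of `Flg` (indexed by `ℕ`) -/
def rows : ℕ → Fin r → Ω := fun k j => if hk : k < r then algebraMap Bp Ω (L ⟨k, hk⟩ j) else 0

theorem rows_of_lt {k : ℕ} (hk : k < r) (j : Fin r) :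
    rows Ω L k j = algebraMap Bp Ω (L ⟨k, hk⟩ j) := dif_pos hk

theorem ev_rows {k : ℕ} (hk : k < r) (x : Fin r → Ω) :
    Flg.ev (rows Ω L k) x = ((L.map (algebraMap Bp Ω)) *ᵥ x) ⟨k, hk⟩ := by
  rw [Flg.ev, Matrix.mulVec, dotProduct]
  refine Finset.sum_congr rfl fun j _ => ?_
  rw [rows_of_lt hk]
  rfl



/-- **the flag over `Ω`**: on `{x | l_i x = 0, i < k}` the algebra acts on `l_k` through `γ_k`. -/
theorem IsFlag.ev_mulVec (h : IsFlag ρ L γ) (hreg : IsSMulRegular Ω L.det) (a : A) {k : ℕ}
    (hk : k < r) (x : Fin r → Ω) (hx : ∀ i < k, Flg.ev (rows Ω L i) x = 0) :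
    Flg.ev (rows Ω L k) ((((ρ a).map (algebraMap B Bp)).map (algebraMap Bp Ω)) *ᵥ x) =
      algebraMap Bp Ω (γ ⟨k, hk⟩ a) * Flg.ev (rows Ω L k) x := by
  have h1 : ((L * (ρ a).map (algebraMap B Bp) * L.adjugate).map (algebraMap Bp Ω)) *ᵥ
      ((L.map (algebraMap Bp Ω)) *ᵥ x) =
      L.det • ((L.map (algebraMap Bp Ω)) *ᵥ
        ((((ρ a).map (algebraMap B Bp)).map (algebraMap Bp Ω)) *ᵥ x)) := by
    rw [Matrix.mulVec_mulVec, ← Matrix.map_mul, det_smul_mul ρ L a, Matrix.mulVec_mulVec,
      ← Matrix.map_mul]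
    have h2 : (L.det • (L * (ρ a).map (algebraMap B Bp))).map (algebraMap Bp Ω) =
        algebraMap Bp Ω L.det • ((L * (ρ a).map (algebraMap B Bp)).map (algebraMap Bp Ω)) := by
      ext i j
      simp only [Matrix.map_apply, Matrix.smul_apply, smul_eq_mul, map_mul]
    rw [h2, Matrix.smul_mulVec]
    ext i
    simp [Algebra.smul_def]
  have h3 := congrFun h1 ⟨k, hk⟩
  apply hreg
  change L.det • Flg.ev (rows Ω L k) _ = L.det • (_ * Flg.ev (rows Ω L k) x)
  rw [ev_rows hk, ev_rows hk]
  have h4 : (L.det • ((L.map (algebraMap Bp Ω)) *ᵥ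
        ((((ρ a).map (algebraMap B Bp)).map (algebraMap Bp Ω)) *ᵥ x))) ⟨k, hk⟩ =
      L.det • (((L.map (algebraMap Bp Ω)) *ᵥ
        ((((ρ a).map (algebraMap B Bp)).map (algebraMap Bp Ω)) *ᵥ x)) ⟨k, hk⟩) := rfl
  rw [← h4, ← h3]
  conv_lhs => rw [Matrix.mulVec, dotProduct]
  rw [Finset.sum_eq_single ⟨k, hk⟩]
  · rw [Matrix.map_apply, h.diag, map_mul, Algebra.smul_def, mul_assoc]
  · intro j _ hj
    rcases lt_or_gt_of_ne hj with hlt | hgt
    · have h5 := hx j.1 hlt
      rw [ev_rows j.2] at h5
      have h6 : ((L.map (algebraMap Bp Ω)) *ᵥ x) j = 0 := h5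
      rw [h6, mul_zero]
    · rw [Matrix.map_apply, h.upper a _ _ hgt, map_zero, zero_mul]
  · intro hcon
    exact absurd (Finset.mem_univ _) hcon

end omega

section exists_flag

variable {B : Type u} {A : Type w} [CommRing B] [IsDomain B] [CommRing A] [Algebra B A]
  (F : Type v) [Field F] [Algebra B F] [IsAlgClosed F] [Algebra.IsAlgebraic B F] [FaithfulSMul B F]
  (Bp : Type x) [CommRing Bp] [Algebra B Bp] [Algebra Bp F] [IsScalarTower B Bp F]
  [IsIntegralClosure Bp B F] [Algebra.IsIntegral B A]

include F in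
theorem exists_isFlag {r : ℕ} (ρ : A →ₐ[B] Matrix (Fin r) (Fin r) B) :
    ∃ (L : Matrix (Fin r) (Fin r) Bp) (γ : Fin r → A →ₐ[B] Bp), IsFlag ρ L γ := by
  obtain ⟨L, γ, h1, h2⟩ := exists_rows F Bp ρ
  exact ⟨L, γ, h1, fun a => (h2 a).1, fun a => (h2 a).2⟩

end exists_flag

section module

variable {B : Type u} {A : Type w} [CommRing B] [CommRing A] [Algebra B A]
  {V : Type v} [AddCommGroup V] [Module B V] [Module A V] [IsScalarTower B A V]

/-- the matrices of the action of `A` on a finite free `B`-module `V` with basis `b` -/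
noncomputable def actMatrix {r : ℕ} (b : Module.Basis (Fin r) B V) :
    A →ₐ[B] Matrix (Fin r) (Fin r) B :=
  (LinearMap.toMatrixAlgEquiv b).toAlgHom.comp (Algebra.lsmul B B V)

theorem actMatrix_mulVec {r : ℕ} (b : Module.Basis (Fin r) B V) (a : A) (v : V) :
    actMatrix b a *ᵥ b.equivFun v = b.equivFun (a • v) := by
  have h1 := LinearMap.toMatrix_mulVec_repr b b (Algebra.lsmul B B V a) v
  exact h1

end module

end Crest.Agent.R188.Tri
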