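import Crest.Agent.R188.Tri4
import Crest.Agent.R188.FlgFilt

-- ▼ part R188/Tri5
section

/-!
# R188, block FLAG DATA (helper645), part 5: glue with `Flg.IsFlag`

`S` a commutative `B`-algebra acting on `B^r` through commuting matrices `ρ`, `A = Ω ⊗[B] S`,
`V = Ω^r` with `A` acting through `ρ`.
-/

set_option autoImplicit false
set_option linter.unusedSectionVars false

namespace Crest.Agent.R188.Tri

open TensorProduct Matrix

universe u v w x y

section minors

variable {Ω : Type y} [CommRing Ω] {r : ℕ}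



end minors

section omega

variable {B : Type u} [CommRing B] {S : Type y} [CommRing S] [Algebra B S]
  (Ω : Type y) [CommRing Ω] [Algebra B Ω] {r : ℕ}

theorem commute_mapMatrix (ρ : S →ₐ[B] Matrix (Fin r) (Fin r) B) (x : Ω) (s : S) :
    Commute (Algebra.ofId Ω (Matrix (Fin r) (Fin r) Ω) x)
      (((Algebra.ofId B Ω).mapMatrix.comp ρ) s) :=
  Algebra.commutes x (((Algebra.ofId B Ω).mapMatrix.comp ρ) s)

/-- `Ω ⊗ S → Mat_r(Ω)` -/
noncomputable def matHom (ρ : S →ₐ[B] Matrix (Fin r) (Fin r) B) :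
    Ω ⊗[B] S →ₐ[Ω] Matrix (Fin r) (Fin r) Ω :=
  Algebra.TensorProduct.lift (Algebra.ofId Ω _) ((Algebra.ofId B Ω).mapMatrix.comp ρ)
    (commute_mapMatrix Ω ρ)

theorem matHom_tmul (ρ : S →ₐ[B] Matrix (Fin r) (Fin r) B) (x : Ω) (s : S) :
    matHom Ω ρ (x ⊗ₜ s) = x • (ρ s).map (algebraMap B Ω) := by
  rw [matHom, Algebra.TensorProduct.lift_tmul, Algebra.ofId_apply, ← Algebra.smul_def]
  rfl

/-- `Ω^r` with the action of `Ω ⊗ S` through `ρ` -/
def OmV (_ρ : S →ₐ[B] Matrix (Fin r) (Fin r) B) : Type y := Fin r → Ω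

variable (ρ : S →ₐ[B] Matrix (Fin r) (Fin r) B)

instance : AddCommGroup (OmV Ω ρ) := inferInstanceAs (AddCommGroup (Fin r → Ω))

instance : Module Ω (OmV Ω ρ) := inferInstanceAs (Module Ω (Fin r → Ω))

/-- the ring hom `Ω ⊗ S → End` -/
noncomputable def endHom : Ω ⊗[B] S →+* Module.End Ω (Fin r → Ω) :=
  ((Matrix.toLinAlgEquiv' : Matrix (Fin r) (Fin r) Ω ≃ₐ[Ω] _).toAlgHom.toRingHom).comp
    (matHom Ω ρ).toRingHom

noncomputable instance : Module (Ω ⊗[B] S) (OmV Ω ρ) :=
  Module.compHom (Fin r → Ω) (endHom Ω ρ)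

/-- coordinates -/
def OmV.coord : OmV Ω ρ ≃ₗ[Ω] (Fin r → Ω) := LinearEquiv.refl Ω _

theorem OmV.coord_smul (a : Ω ⊗[B] S) (x : OmV Ω ρ) :
    OmV.coord Ω ρ (a • x) = matHom Ω ρ a *ᵥ OmV.coord Ω ρ x := rfl

instance : IsScalarTower Ω (Ω ⊗[B] S) (OmV Ω ρ) := by
  refine ⟨fun c a x => ?_⟩
  apply (OmV.coord Ω ρ).injective
  rw [OmV.coord_smul, map_smul, map_smul, OmV.coord_smul, smul_mulVec]

variable {Bp : Type x} [CommRing Bp] [Algebra B Bp] [Algebra Bp Ω] [IsScalarTower B Bp Ω]

theorem commute_char (γ : S →ₐ[B] Bp) (x : Ω) (s : S) :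
    Commute (AlgHom.id Ω Ω x) (((IsScalarTower.toAlgHom B Bp Ω).comp γ) s) := mul_comm _ _

/-- the character of `Ω ⊗ S` given by a character of `S` -/
noncomputable def charOm (γ : S →ₐ[B] Bp) : Ω ⊗[B] S →ₐ[Ω] Ω :=
  Algebra.TensorProduct.lift (AlgHom.id Ω Ω) ((IsScalarTower.toAlgHom B Bp Ω).comp γ)
    (commute_char Ω γ)

theorem charOm_tmul (γ : S →ₐ[B] Bp) (x : Ω) (s : S) :
    charOm Ω γ (x ⊗ₜ s) = x * algebraMap Bp Ω (γ s) := by
  rw [charOm, Algebra.TensorProduct.lift_tmul]
  rfl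

/-- the characters in the format of `Flg` -/
noncomputable def charN (hr : 0 < r) (γ : Fin r → S →ₐ[B] Bp) (k : ℕ) : Ω ⊗[B] S →ₐ[Ω] Ω :=
  charOm Ω (γ (if hk : k < r then ⟨k, hk⟩ else ⟨0, hr⟩))

theorem charN_of_lt (hr : 0 < r) (γ : Fin r → S →ₐ[B] Bp) {k : ℕ} (hk : k < r) :
    charN Ω hr γ k = charOm Ω (γ ⟨k, hk⟩) := by rw [charN, dif_pos hk]

variable {L : Matrix (Fin r) (Fin r) Bp} {γ : Fin r → S →ₐ[B] Bp}

/-- **GLUE**: the flag of `Tri` is a flag in the sense of `Flg`. -/
theorem IsFlag.flg (hr : 0 < r) (h : IsFlag ρ L γ) (hreg : IsSMulRegular Ω L.det) :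
    Flg.IsFlag (A := Ω ⊗[B] S) (OmV.coord Ω ρ) (rows Ω L) (charN Ω hr γ) := by
  intro k hk x hx a
  rw [OmV.coord_smul, charN_of_lt Ω hr γ hk]
  induction a using TensorProduct.induction_on with
  | zero => rw [map_zero, map_zero, zero_mulVec, Flg.ev_zero, zero_mul]
  | add a b ha hb => rw [map_add, map_add, add_mulVec, Flg.ev_add, ha, hb, add_mul]
  | tmul c s =>
    rw [matHom_tmul, charOm_tmul, smul_mulVec, Flg.ev_smul, mul_assoc]
    congr 1
    have h1 := h.ev_mulVec hreg s hk (OmV.coord Ω ρ x) hx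
    rw [← h1]
    congr 2
    ext i j
    rw [Matrix.map_apply, Matrix.map_apply, Matrix.map_apply,
      ← IsScalarTower.algebraMap_apply B Bp Ω]

/-- the rows separate points -/
theorem eq_zero_of_rows (hreg : IsSMulRegular Ω L.det) (x : OmV Ω ρ)
    (hx : ∀ i < r, Flg.ev (rows Ω L i) (OmV.coord Ω ρ x) = 0) : x = 0 := by
  have h1 : (L.map (algebraMap Bp Ω)) *ᵥ (OmV.coord Ω ρ x) = 0 := by
    funext i
    have h2 := hx i.1 i.2
    rw [ev_rows i.2] at h2
    exact h2
  have h2 : ((L.adjugate.map (algebraMap Bp Ω)) *ᵥ ((L.map (algebraMap Bp Ω)) *ᵥ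
      (OmV.coord Ω ρ x))) = L.det • (OmV.coord Ω ρ x) := by
    rw [mulVec_mulVec, ← Matrix.map_mul, Matrix.adjugate_mul]
    have h3 : (L.det • (1 : Matrix (Fin r) (Fin r) Bp)).map (algebraMap Bp Ω) =
        algebraMap Bp Ω L.det • (1 : Matrix (Fin r) (Fin r) Ω) := by
      ext i j
      rw [Matrix.map_apply, Matrix.smul_apply, Matrix.smul_apply, smul_eq_mul, smul_eq_mul,
        map_mul, Matrix.one_apply, Matrix.one_apply]
      split_ifs <;> simp
    rw [h3, smul_mulVec, one_mulVec]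
    funext i
    rw [Pi.smul_apply, Pi.smul_apply, algebraMap_smul]
  rw [h1, mulVec_zero] at h2
  apply (OmV.coord Ω ρ).injective
  rw [map_zero]
  funext i
  have h4 : L.det • (OmV.coord Ω ρ x) i = L.det • (0 : Ω) := by
    rw [smul_zero]
    exact (congrFun h2 i).symm
  exact hreg h4



end omega

end Crest.Agent.R188.Tri
end

-- ▼ part R188/Tri6

/-!
# R188, block FLAG DATA (helper645), part 6: the absolute integral closure of `B` maps to every
absolutely integrally closed ring over `B`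
-/

set_option autoImplicit false

namespace Crest.Agent.R188.Tri

universe u v w

section

variable (B : Type u) [CommRing B] [IsDomain B]

/-- an algebraic closure of the fraction field -/
abbrev FB : Type u := AlgebraicClosure (FractionRing B)

/-- the absolute integral closure of `B` -/
abbrev BPlus : Type u := integralClosure B (FB B)

instance : FaithfulSMul B (FB B) := by
  rw [faithfulSMul_iff_algebraMap_injective, IsScalarTower.algebraMap_eq B (FractionRing B) (FB B)]
  exact (algebraMap (FractionRing B) (FB B)).injective.comp (IsFractionRing.injective B _)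

instance : Algebra.IsAlgebraic B (FB B) :=
  (IsFractionRing.comap_isAlgebraic_iff (A := B) (K := FractionRing B) (C := FB B)).2 inferInstance


/-- `B⁺` maps (over `B`) to every ring `T` which is the integral closure of a `B`-algebra in an
algebraically closed field `K`, `B → K` injective. -/
theorem exists_bPlus_hom {A : Type v} [CommRing A] [Algebra B A] {K : Type w} [Field K]
    [IsAlgClosed K] [Algebra A K] [Algebra B K] [IsScalarTower B A K]
    (hinj : Function.Injective (algebraMap B K)) :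
    ∃ φ : BPlus B →ₐ[B] K, Function.Injective φ ∧ ∀ x, IsIntegral A (φ x) := by
  have h1 : FaithfulSMul B K := (faithfulSMul_iff_algebraMap_injective B K).2 hinj
  let ψ : FB B →ₐ[B] K := IsAlgClosed.lift
  refine ⟨ψ.comp (IsScalarTower.toAlgHom B (BPlus B) (FB B)), ?_, fun x => ?_⟩
  · exact (ψ : FB B →+* K).injective.comp Subtype.val_injective
  · have h2 : IsIntegral B ((x : FB B)) := x.2
    exact (h2.map ψ).tower_top

/-- the same with values in the integral closure of `A` in `K` (as a `B`-algebra map) -/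
theorem exists_bPlus_hom' {A : Type v} [CommRing A] [Algebra B A] {K : Type w} [Field K]
    [IsAlgClosed K] [Algebra A K] [Algebra B K] [IsScalarTower B A K]
    (hinj : Function.Injective (algebraMap B K)) :
    ∃ φ : BPlus B →+* integralClosure A K, Function.Injective φ ∧
      ∀ b : B, φ (algebraMap B (BPlus B) b) =
        algebraMap A (integralClosure A K) (algebraMap B A b) := by
  obtain ⟨φ, hφ, hint⟩ := exists_bPlus_hom B (A := A) hinj
  refine ⟨(φ : BPlus B →+* K).codRestrict (integralClosure A K).toSubring hint, ?_, fun b => ?_⟩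
  · intro x y h
    exact hφ (congrArg Subtype.val h)
  · apply Subtype.ext
    change φ (algebraMap B (BPlus B) b) = algebraMap A K (algebraMap B A b)
    rw [AlgHom.commutes, ← IsScalarTower.algebraMap_apply]

end

section

variable {B : Type u} [CommRing B] [IsDomain B] {S : Type v} [CommRing S] [Algebra B S]
  [Algebra.IsIntegral B S]

/-- flag data with values in `BPlus B` -/
theorem exists_isFlag_bPlus {r : ℕ} (ρ : S →ₐ[B] Matrix (Fin r) (Fin r) B) :
    ∃ (L : Matrix (Fin r) (Fin r) (BPlus B)) (γ : Fin r → S →ₐ[B] BPlus B), IsFlag ρ L γ :=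
  exists_isFlag (FB B) (BPlus B) ρ

theorem bPlus_exists_mul {c : BPlus B} (hc : c ≠ 0) :
    ∃ (c' : BPlus B) (b : B), b ≠ 0 ∧ c * c' = algebraMap B (BPlus B) b :=
  exists_mul_eq_algebraMap (FB B) hc


end

end Crest.Agent.R188.Tri
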