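import Mathlib
import Crest.Agent.R188.Noe7
import Crest.Agent.R188.Tri4
import Crest.Agent.R188.Tri6
import Crest.Agent.R188.Top4
import Crest.Agent.R183.CohenWitt

-- ▼ part R188/Chr1
section

set_option autoImplicit false

namespace Crest.Agent.R188.Chr

open Module

universe u v w

section trace

variable {K : Type*} [Field K] {V' V V'' : Type*} [AddCommGroup V'] [Module K V']
  [AddCommGroup V] [Module K V] [AddCommGroup V''] [Module K V''] [FiniteDimensional K V]

/-- **Additivity of the trace** on short exact sequences. -/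
theorem trace_of_exact (i : V' →ₗ[K] V) (p : V →ₗ[K] V'') (hi : Function.Injective i)
    (hp : Function.Surjective p) (h : Function.Exact i p) (f' : Module.End K V')
    (f : Module.End K V) (f'' : Module.End K V'') (h1 : ∀ x, i (f' x) = f (i x))
    (h2 : ∀ x, p (f x) = f'' (p x)) :
    LinearMap.trace K V f = LinearMap.trace K V' f' + LinearMap.trace K V'' f'' := by
  have : FiniteDimensional K V' := FiniteDimensional.of_injective i hi
  have : FiniteDimensional K V'' := Module.Finite.of_surjective p hp
  obtain ⟨s, hs⟩ := LinearMap.exists_rightInverse_of_surjective p (LinearMap.range_eq_top.2 hp)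
  have hs' : ∀ y, p (s y) = y := fun y => LinearMap.congr_fun hs y
  -- the retraction
  have hrange : ∀ x, x - s (p x) ∈ LinearMap.range i := by
    intro x
    have : p (x - s (p x)) = 0 := by rw [map_sub, hs', sub_self]
    exact (h _).1 this
  let e := LinearEquiv.ofInjective i hi
  let q : V →ₗ[K] LinearMap.range i :=
    LinearMap.codRestrict (LinearMap.range i) (LinearMap.id - s ∘ₗ p) (by
      intro x; exact hrange x)
  let r : V →ₗ[K] V' := e.symm.toLinearMap ∘ₗ q
  have hir : ∀ x, i (r x) = x - s (p x) := by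
    intro x
    have h3 : e (r x) = q x := e.apply_symm_apply _
    have h4 : (e (r x) : V) = i (r x) := LinearEquiv.ofInjective_apply i (r x)
    rw [← h4, h3]
    rfl
  have hri : ∀ x, r (i x) = x := by
    intro x
    apply hi
    rw [hir, h.apply_apply_eq_zero, map_zero, sub_zero]
  have h3 : f = (i ∘ₗ (r ∘ₗ f)) + (s ∘ₗ (p ∘ₗ f)) := by
    ext x
    simp only [LinearMap.add_apply, LinearMap.comp_apply]
    rw [hir]; abel
  rw [h3, map_add, LinearMap.trace_comp_comm' , LinearMap.trace_comp_comm' (p ∘ₗ f) s]
  congr 1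
  · congr 1
    ext x
    simp only [LinearMap.comp_apply]
    rw [← h1, hri]
  · congr 1
    ext x
    simp only [LinearMap.comp_apply]
    rw [h2, hs']

end trace

section chars

variable {A : Type u} [CommRing A] {K : Type w} [Field K]

/-- `t` is the sum of the characters in `Γ`. -/
def IsCh (t : A → K) (Γ : Multiset (A →+* K)) : Prop := ∀ a, t a = (Γ.map fun g => g a).sum

theorem IsCh.add {t t' t'' : A → K} {Γ' Γ'' : Multiset (A →+* K)} (h' : IsCh t' Γ')
    (h'' : IsCh t'' Γ'') (h : ∀ a, t a = t' a + t'' a) : IsCh t (Γ' + Γ'') := by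
  intro a
  rw [h, h' a, h'' a, Multiset.map_add, Multiset.sum_add]

theorem sum_eq_finset (Γ : Multiset (A →+* K)) (S : Finset (A →+* K)) [DecidableEq (A →+* K)]
    (hS : Γ.toFinset ⊆ S) (a : A) :
    (Γ.map fun g => g a).sum = ∑ g ∈ S, (Γ.count g : K) * g a := by
  rw [Finset.sum_multiset_map_count]
  simp only [nsmul_eq_mul]
  refine Finset.sum_subset hS ?_
  intro g _ hg
  rw [Multiset.mem_toFinset, ← Multiset.count_eq_zero] at hg
  rw [hg]; simp

/-- **Uniqueness** (independence of characters), characteristic zero. -/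
theorem IsCh.unique [CharZero K] {t : A → K} {Γ₁ Γ₂ : Multiset (A →+* K)} (h1 : IsCh t Γ₁)
    (h2 : IsCh t Γ₂) : Γ₁ = Γ₂ := by
  classical
  let S := Γ₁.toFinset ∪ Γ₂.toFinset
  have hli : LinearIndependent K (fun g : A →+* K => (g : A → K)) := by
    have h0 := linearIndependent_monoidHom A K
    have := h0.comp (fun g : A →+* K => (g : A →* K)) (by
      intro g g' h
      ext a
      exact DFunLike.congr_fun h a)
    exact this
  have h3 : ∑ g ∈ S, ((Γ₁.count g : K) - (Γ₂.count g : K)) • (g : A → K) = 0 := by
    funext a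
    have e1 := h1 a
    rw [h2 a, sum_eq_finset Γ₁ S Finset.subset_union_left,
      sum_eq_finset Γ₂ S Finset.subset_union_right] at e1
    simp only [Finset.sum_apply, Pi.smul_apply, smul_eq_mul, sub_mul, Finset.sum_sub_distrib,
      Pi.zero_apply]
    rw [e1, sub_self]
  have h4 := linearIndependent_iff'.1 hli S _ h3
  ext g
  by_cases hg : g ∈ S
  · have := h4 g hg
    rw [sub_eq_zero] at this
    exact_mod_cast this
  · rw [Finset.mem_union, not_or, Multiset.mem_toFinset, Multiset.mem_toFinset] at hg
    rw [Multiset.count_eq_zero.2 hg.1, Multiset.count_eq_zero.2 hg.2]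

end chars

section existence

variable {A : Type u} [CommRing A] {K : Type w} [Field K]

/-- the trace function of a representation -/
noncomputable def tr {V : Type v} [AddCommGroup V] [Module K V] (ρ : A →+* Module.End K V) : A → K :=
  fun a => LinearMap.trace K V (ρ a)

section sub

variable {V : Type v} [AddCommGroup V] [Module K V] (ρ : A →+* Module.End K V)
  (W : Submodule K V) (hW : ∀ a, ∀ x ∈ W, ρ a x ∈ W)

/-- subrepresentation -/
def repSub : A →+* Module.End K W where
  toFun a := (ρ a).restrict (hW a)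
  map_one' := by ext x; simp
  map_mul' a b := by ext x; simp
  map_zero' := by ext x; simp
  map_add' a b := by ext x; simp

/-- quotient representation -/
def repQuot : A →+* Module.End K (V ⧸ W) where
  toFun a := W.mapQ W (ρ a) (hW a)
  map_one' := by ext x; simp
  map_mul' a b := by ext x; simp
  map_zero' := by ext x; simp
  map_add' a b := by ext x; simp

theorem tr_eq_add [FiniteDimensional K V] (a : A) :
    tr ρ a = tr (repSub ρ W hW) a + tr (repQuot ρ W hW) a :=
  trace_of_exact W.subtype W.mkQ W.subtype_injective W.mkQ_surjective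
    (LinearMap.exact_subtype_mkQ W) _ _ _ (fun _ => rfl) (fun _ => rfl)

end sub

/-- **Existence of the characters.**  Every `g ∈ Γ` is compatible with the scalars, and `Γ` has
`dim V` elements. -/
theorem exists_isCh [IsAlgClosed K] (n : ℕ) : ∀ (V : Type v) [AddCommGroup V] [Module K V]
    [FiniteDimensional K V] (ρ : A →+* Module.End K V), finrank K V = n →
    ∃ Γ : Multiset (A →+* K), IsCh (tr ρ) Γ ∧ Γ.card = n ∧
      ∀ g ∈ Γ, ∀ a c, (∀ x, ρ a x = c • x) → g a = c := by
  induction n using Nat.strong_induction_on with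
  | _ n ih =>
    intro V _ _ _ ρ hn
    rcases subsingleton_or_nontrivial V with hV | hV
    · refine ⟨0, ?_, ?_, by simp⟩
      · intro a
        have : ρ a = 0 := Subsingleton.elim _ _
        simp [tr, this]
      · rw [← hn, Module.finrank_zero_of_subsingleton]; rfl
    by_cases hsc : ∀ a, ∃ c : K, ρ a = c • (1 : Module.End K V)
    · choose γ hγ using hsc
      have hinj : ∀ c c' : K, c • (1 : Module.End K V) = c' • (1 : Module.End K V) → c = c' := by
        intro c c' h
        have h1 : (1 : Module.End K V) ≠ 0 := one_ne_zero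
        exact smul_left_injective K h1 h
      let g : A →+* K :=
        { toFun := γ
          map_one' := hinj _ _ (by rw [← hγ, map_one, one_smul])
          map_mul' := fun a b => hinj _ _ (by
            rw [← hγ, map_mul, hγ a, hγ b]
            ext x
            simp [mul_smul, smul_comm (γ a) (γ b)])
          map_zero' := hinj _ _ (by rw [← hγ, map_zero, zero_smul])
          map_add' := fun a b => hinj _ _ (by
            rw [← hγ, map_add, hγ a, hγ b, add_smul]) }
      refine ⟨Multiset.replicate n g, ?_, by simp, ?_⟩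
      · intro a
        rw [Multiset.map_replicate, Multiset.sum_replicate]
        show LinearMap.trace K V (ρ a) = n • γ a
        rw [hγ, map_smul, LinearMap.trace_one, hn, smul_eq_mul, nsmul_eq_mul, mul_comm]
      · intro g' hg' a c hc
        rw [Multiset.eq_of_mem_replicate hg']
        refine hinj _ _ ?_
        rw [show g a = γ a from rfl, ← hγ]
        ext x
        rw [hc]; rfl
    · push Not at hsc
      obtain ⟨a₀, ha₀⟩ := hsc
      obtain ⟨c, hc⟩ := Module.End.exists_eigenvalue (ρ a₀)
      let W : Submodule K V := Module.End.eigenspace (ρ a₀) c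
      have hmemW : ∀ x, x ∈ W ↔ ρ a₀ x = c • x := fun x => Module.End.mem_eigenspace_iff
      have hW : ∀ a, ∀ x ∈ W, ρ a x ∈ W := by
        intro a x hx
        rw [hmemW] at hx ⊢
        rw [← Module.End.mul_apply, ← map_mul, mul_comm, map_mul, Module.End.mul_apply, hx,
          map_smul]
      have hW0 : W ≠ ⊥ := hc
      have hW1 : W ≠ ⊤ := by
        intro h
        apply ha₀ c
        ext x
        have : x ∈ W := by rw [h]; trivial
        exact (hmemW x).1 this
      have hadd : finrank K (V ⧸ W) + finrank K W = finrank K V :=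
        Submodule.finrank_quotient_add_finrank W
      have hpos1 : 0 < finrank K W := by
        rw [Module.finrank_pos_iff_exists_ne_zero]
        obtain ⟨x, hx, hx0⟩ := Submodule.exists_mem_ne_zero_of_ne_bot hW0
        exact ⟨⟨x, hx⟩, fun h => hx0 (congrArg Subtype.val h)⟩
      have hpos2 : 0 < finrank K (V ⧸ W) := by
        have : Nontrivial (V ⧸ W) := Submodule.Quotient.nontrivial_iff.2 hW1
        exact Module.finrank_pos
      obtain ⟨Γ', h1', h2', h3'⟩ := ih (finrank K W) (by omega) W (repSub ρ W hW) rfl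
      obtain ⟨Γ'', h1'', h2'', h3''⟩ := ih (finrank K (V ⧸ W)) (by omega) (V ⧸ W)
        (repQuot ρ W hW) rfl
      refine ⟨Γ' + Γ'', h1'.add h1'' (tr_eq_add ρ W hW), by
        rw [Multiset.card_add, h2', h2'']; omega, ?_⟩
      intro g hg a c hc
      rcases Multiset.mem_add.1 hg with hg | hg
      · refine h3' g hg a c ?_
        intro x
        exact Subtype.ext (hc x.1)
      · refine h3'' g hg a c ?_
        intro x
        obtain ⟨y, rfl⟩ := W.mkQ_surjective x
        show W.mkQ (ρ a y) = _
        rw [hc, map_smul]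

end existence

section rows

variable {K : Type w} [Field K]


end rows

end Crest.Agent.R188.Chr
end

-- ▼ part R188/Chr2
section

set_option autoImplicit false
set_option maxHeartbeats 400000

namespace Crest.Agent.R188.Chr

open Module TensorProduct

universe u v w

section flat

/-- a field containing a domain is flat over it -/
theorem flat_of_injective {B : Type*} [CommRing B] [IsDomain B] {K : Type*} [Field K] [Algebra B K]
    (h : Function.Injective (algebraMap B K)) : Module.Flat B K := by
  have : FaithfulSMul B K := (faithfulSMul_iff_algebraMap_injective B K).2 h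
  let _ : Algebra (FractionRing B) K := FractionRing.liftAlgebra B K
  have : IsScalarTower B (FractionRing B) K := FractionRing.isScalarTower_liftAlgebra B K
  have : Module.Flat B (FractionRing B) := IsLocalization.flat (FractionRing B) (nonZeroDivisors B)
  exact Module.Flat.trans B (FractionRing B) K

end flat

section rep

variable (B : Type*) [CommRing B] {A : Type u} [CommRing A] [Algebra B A] (K : Type w) [Field K]
  [Algebra B K]

/-- the action of `A` on `K ⊗_B N` -/
noncomputable def rep (N : Type v) [AddCommGroup N] [Module A N] [Module B N]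
    [IsScalarTower B A N] : A →+* Module.End K (K ⊗[B] N) where
  toFun a := (Algebra.lsmul B B N a).baseChange K
  map_one' := by
    rw [map_one]; exact LinearMap.baseChange_id
  map_mul' a b := by
    rw [map_mul]; exact LinearMap.baseChange_comp _ _
  map_zero' := by
    rw [map_zero]; exact LinearMap.baseChange_zero
  map_add' a b := by
    rw [map_add]; exact LinearMap.baseChange_add _ _

variable {N N' N'' : Type v} [AddCommGroup N] [Module A N] [Module B N]
    [IsScalarTower B A N] [AddCommGroup N'] [Module A N'] [Module B N']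
    [IsScalarTower B A N'] [AddCommGroup N''] [Module A N''] [Module B N'']
    [IsScalarTower B A N'']

@[simp] theorem rep_tmul (a : A) (x : K) (n : N) : rep B K N a (x ⊗ₜ[B] n) = x ⊗ₜ[B] (a • n) := rfl

theorem rep_algebraMap (b : B) (x : K ⊗[B] N) :
    rep B K N (algebraMap B A b) x = (algebraMap B K b) • x := by
  induction x with
  | zero => simp
  | add x y hx hy => rw [map_add, hx, hy, smul_add]
  | tmul x n =>
    rw [rep_tmul, algebraMap_smul, TensorProduct.tmul_smul, algebraMap_smul]

/-- **Additivity** -/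
theorem tr_rep_add [Module.Flat B K] [Module.Finite B N] (f : N' →ₗ[A] N) (g : N →ₗ[A] N'')
    (hf : Function.Injective f) (hg : Function.Surjective g) (h : Function.Exact f g) (a : A) :
    tr (rep B K N) a = tr (rep B K N') a + tr (rep B K N'') a := by
  let f' : N' →ₗ[B] N := f.restrictScalars B
  let g' : N →ₗ[B] N'' := g.restrictScalars B
  refine trace_of_exact (f'.baseChange K) (g'.baseChange K) ?_ ?_ ?_ _ _ _ ?_ ?_
  · exact Module.Flat.lTensor_preserves_injective_linearMap (M := K) f' hf
  · exact LinearMap.lTensor_surjective K hg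
  · exact lTensor_exact K (f := f') (g := g') h hg
  · intro x
    induction x with
    | zero => simp
    | add x y hx hy => simp only [map_add, hx, hy]
    | tmul x n =>
      rw [rep_tmul, LinearMap.baseChange_tmul, LinearMap.baseChange_tmul, rep_tmul]
      show x ⊗ₜ[B] (f (a • n)) = x ⊗ₜ[B] (a • f n)
      rw [map_smul]
  · intro x
    induction x with
    | zero => simp
    | add x y hx hy => simp only [map_add, hx, hy]
    | tmul x n =>
      rw [rep_tmul, LinearMap.baseChange_tmul, LinearMap.baseChange_tmul, rep_tmul]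
      show x ⊗ₜ[B] (g (a • n)) = x ⊗ₜ[B] (a • g n)
      rw [map_smul]


/-- trace on a `B`-free module in terms of matrices -/
theorem tr_rep_eq_trace {r : ℕ} (b : Basis (Fin r) B N) (a : A) :
    tr (rep B K N) a =
      ((LinearMap.toMatrix b b (Algebra.lsmul B B N a)).map (algebraMap B K)).trace := by
  have h1 : Module.Free B N := Module.Free.of_basis b
  have h2 : Module.Finite B N := Module.Finite.of_basis b
  have h3 : tr (rep B K N) a = algebraMap B K (LinearMap.trace B N (Algebra.lsmul B B N a)) :=
    LinearMap.trace_baseChange (Algebra.lsmul B B N a) K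
  rw [h3, LinearMap.trace_eq_matrix_trace B b]
  simp only [Matrix.trace, Matrix.diag_apply, Matrix.map_apply, map_sum]


end rep

end Crest.Agent.R188.Chr
end

-- ▼ part R188/Chr3
section

set_option autoImplicit false
set_option maxHeartbeats 400000
set_option linter.unusedSectionVars false

namespace Crest.Agent.R188.Chr

open Module TensorProduct

universe u v w x

section lift

variable {B : Type u} [CommRing B] {A : Type v} [CommRing A] [Algebra B A]
  (F : Type w) [Field F] [Algebra B F]
  {Bp : Type x} [CommRing Bp] [Algebra B Bp] [Algebra Bp F] [IsScalarTower B Bp F]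

/-- a character with values in `Bp`, as a character with values in `F` -/
def toF (γ : A →ₐ[B] Bp) : A →+* F := (algebraMap Bp F).comp γ.toRingHom

@[simp] theorem toF_apply (γ : A →ₐ[B] Bp) (a : A) : toF F γ a = algebraMap Bp F (γ a) := rfl

variable [IsIntegralClosure Bp B F]

theorem toF_injective : Function.Injective (toF F : (A →ₐ[B] Bp) → (A →+* F)) := by
  intro γ γ' h
  ext a
  exact IsIntegralClosure.algebraMap_injective Bp B F (RingHom.congr_fun h a)

theorem exists_toF [Algebra.IsIntegral B A] (g : A →+* F)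
    (hg : ∀ b, g (algebraMap B A b) = algebraMap B F b) : ∃ γ : A →ₐ[B] Bp, toF F γ = g := by
  let g' : A →ₐ[B] F := { g with commutes' := hg }
  refine ⟨Tri.descendChar F Bp g', ?_⟩
  ext a
  exact Tri.algebraMap_descendChar F Bp g' a

theorem exists_map_toF (Γ : Multiset (A →+* F))
    (h : ∀ g ∈ Γ, ∃ γ : A →ₐ[B] Bp, toF F γ = g) :
    ∃ Γ' : Multiset (A →ₐ[B] Bp), Γ'.map (toF F) = Γ := by
  induction Γ using Multiset.induction_on with
  | empty => exact ⟨0, rfl⟩
  | cons g Γ ih =>
    obtain ⟨Γ', h'⟩ := ih fun g' hg' => h g' (Multiset.mem_cons_of_mem hg')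
    obtain ⟨γ, hγ⟩ := h g (Multiset.mem_cons_self _ _)
    exact ⟨γ ::ₘ Γ', by rw [Multiset.map_cons, h', hγ]⟩

/-- the trace of a `B`-free module with a flag is the sum of the characters -/
theorem isCh_of_isFlag [IsDomain Bp] {N : Type*} [AddCommGroup N] [Module A N] [Module B N]
    [IsScalarTower B A N] {r : ℕ} (e : Basis (Fin r) B N) {L : Matrix (Fin r) (Fin r) Bp}
    {γ : Fin r → A →ₐ[B] Bp} (h : Tri.IsFlag (Tri.actMatrix (A := A) e) L γ) :
    IsCh (tr (rep B F N)) ((Finset.univ.val.map γ).map (toF F)) := by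
  intro a
  have h1 := congrArg (algebraMap Bp F) (h.sum_eq_trace a)
  rw [map_sum, ← IsScalarTower.algebraMap_apply] at h1
  rw [tr_rep_eq_trace B F e a, Multiset.map_map, Multiset.map_map]
  refine Eq.trans ?_ h1.symm
  rw [Matrix.trace, Matrix.trace, map_sum]
  rfl

/-- **The characters of a finite module.** -/
theorem exists_chars [IsAlgClosed F] [Algebra.IsIntegral B A] (N : Type*) [AddCommGroup N]
    [Module A N] [Module B N] [IsScalarTower B A N] [Module.Finite B N] :
    ∃ Γ : Multiset (A →ₐ[B] Bp), IsCh (tr (rep (A := A) B F N)) (Γ.map (toF F)) ∧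
      Γ.card = finrank F (F ⊗[B] N) ∧ ∀ γ ∈ Γ, ∀ a, (∀ n : N, a • n = 0) → γ a = 0 := by
  obtain ⟨Γ, h1, h2, h3⟩ := exists_isCh _ (F ⊗[B] N) (rep (A := A) B F N) rfl
  obtain ⟨Γ', rfl⟩ := exists_map_toF (B := B) (Bp := Bp) F Γ (fun g hg =>
    exists_toF F g (fun b => h3 g hg _ _ (fun x => rep_algebraMap B F b x)))
  refine ⟨Γ', h1, by rw [← h2, Multiset.card_map], fun γ hγ a ha => ?_⟩
  have h4 := h3 (toF F γ) (Multiset.mem_map_of_mem _ hγ) a 0 (fun x => by
    rw [zero_smul]
    induction x with
    | zero => rw [map_zero]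
    | add x y hx hy => rw [map_add, hx, hy, add_zero]
    | tmul x n => rw [rep_tmul, ha, TensorProduct.tmul_zero])
  exact IsIntegralClosure.algebraMap_injective Bp B F (by rw [map_zero]; exact h4)

end lift

section main

variable {B : Type u} [CommRing B] [IsRegularLocalRing B] {A : Type v} [CommRing A]
  [IsNoetherianRing A] [Algebra B A] [Module.Finite B A] [Module.Free B A]
  (F : Type w) [Field F] [Algebra B F] [IsAlgClosed F] [CharZero F] [Module.Flat B F]


end main

end Crest.Agent.R188.Chr
end

-- ▼ part R188/Top5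
section

set_option autoImplicit false
set_option linter.unusedSectionVars false

namespace Crest.Agent.R188.Top

open scoped ENNReal TensorProduct
open IsLocalRing

/-- multiplicities of characters -/
structure MltData (B A : Type) [CommRing B] [IsDomain B] [CommRing A] [Algebra B A] where
  /-- the multiplicity of `γ` in `N` -/
  mlt : (A →ₐ[B] Tri.BPlus B) → ∀ (N : Type) [AddCommGroup N] [Module A N], ℕ
  add : ∀ (γ : A →ₐ[B] Tri.BPlus B) (N' N N'' : Type) [AddCommGroup N'] [Module A N']
    [Module.Finite A N'] [AddCommGroup N] [Module A N] [Module.Finite A N] [AddCommGroup N'']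
    [Module A N''] [Module.Finite A N''] (f : N' →ₗ[A] N) (g : N →ₗ[A] N''),
    Function.Injective f → Function.Surjective g → Function.Exact f g →
      mlt γ N = mlt γ N' + mlt γ N''
  flag : ∀ (N : Type) [AddCommGroup N] [Module A N] [Module B N] [IsScalarTower B A N] (r : ℕ)
    (e : Module.Basis (Fin r) B N) (L : Matrix (Fin r) (Fin r) (Tri.BPlus B))
    (γ : Fin r → A →ₐ[B] Tri.BPlus B), Tri.IsFlag (Tri.actMatrix (A := A) e) L γ →
      ∀ g, mlt g N = Nat.card {j : Fin r // γ j = g}
  pos : ∀ (N : Type) [AddCommGroup N] [Module A N] [Module B N] [IsScalarTower B A N]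
    [Module.Finite A N], (∃ x : N, ∀ b : B, b • x = 0 → b = 0) → ∃ γ, 0 < mlt γ N

section formula

variable {B A : Type} [CommRing B] [IsRegularLocalRing B] [IsDomain B] [CommRing A] [Algebra B A]
  [Module.Finite B A] [Module.Free B A] (D : MltData B A)

/-- the finite set of characters of `A` -/
theorem MltData.exists_finset : ∃ T : Finset (A →ₐ[B] Tri.BPlus B),
    ∀ (N : Type) [AddCommGroup N] [Module A N] [Module.Finite A N] (g), g ∉ T → D.mlt g N = 0 := by
  classical
  have hnoeth : IsNoetherianRing A := IsNoetherianRing.of_finite B A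
  let e : Module.Basis (Fin (Module.finrank B A)) B A := Module.finBasis B A
  have hint : Algebra.IsIntegral B A := inferInstance
  obtain ⟨L, γ, hfl⟩ := Tri.exists_isFlag_bPlus (Tri.actMatrix (A := A) e)
  refine ⟨Finset.univ.image γ, fun N _ _ _ g hg => ?_⟩
  have hA : D.mlt g A = 0 := by
    rw [D.flag A _ e L γ hfl g, Nat.card_eq_zero]
    left
    refine ⟨fun j => hg ?_⟩
    rw [Finset.mem_image]
    exact ⟨j.1, Finset.mem_univ _, j.2⟩
  have hpi : ∀ n : ℕ, D.mlt g (Fin n → A) = 0 := by
    intro n
    induction n with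
    | zero =>
      have h := D.add g (Fin 0 → A) (Fin 0 → A) (Fin 0 → A) LinearMap.id LinearMap.id
        Function.injective_id Function.surjective_id (fun x => ⟨fun _ => ⟨x, rfl⟩,
          fun _ => Subsingleton.elim _ _⟩)
      omega
    | succ n ih =>
      let i : A →ₗ[A] (Fin (n + 1) → A) := LinearMap.single A (fun _ => A) 0
      let q : (Fin (n + 1) → A) →ₗ[A] (Fin n → A) := LinearMap.funLeft A A Fin.succ
      have h := D.add g A (Fin (n + 1) → A) (Fin n → A) i q
        (by
          intro x y hxy
          have := congrFun hxy 0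
          simpa [i] using this)
        (by
          intro y
          exact ⟨Fin.cons 0 y, by funext j; simp [q, LinearMap.funLeft_apply]⟩)
        (by
          intro x
          constructor
          · intro hx
            refine ⟨x 0, ?_⟩
            funext j
            refine Fin.cases ?_ (fun j => ?_) j
            · simp [i]
            · have : x j.succ = 0 := congrFun hx j
              rw [this]
              simp [i]
          · rintro ⟨y, rfl⟩
            funext j
            simp [i, q, LinearMap.funLeft_apply])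
      rw [h, hA, ih]
  obtain ⟨n, f, hf⟩ := Module.Finite.exists_fin' A N
  have h := D.add g (LinearMap.ker f) (Fin n → A) N (LinearMap.ker f).subtype f
    (Submodule.subtype_injective _) hf (LinearMap.exact_subtype_ker_map f)
  rw [hpi] at h
  omega

variable {R : Type} [CommRing R] [IsRegularLocalRing R] {d : ℕ} (hd : ringKrullDim R = d)
  [Algebra R A] (hs : Function.Surjective (algebraMap R A)) {M : Type} [AddCommGroup M] [Module R M]
  [Module.Finite R M]

include hs in
lemma finite_of_surj (N : Type) [AddCommGroup N] [Module A N] [Module.Finite A N] [Module R N]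
    [IsScalarTower R A N] : Module.Finite R N := by
  have : Module.Finite R A := Module.Finite.of_surjective (Algebra.linearMap R A) hs
  exact Module.Finite.trans A N

lemma Proper.of_algebra (h : Proper R M A) (N : Type) [AddCommGroup N] [Module A N] [Module R N]
    [IsScalarTower R A N] : Proper R M N := by
  refine h.mono le_rfl ?_
  intro r hr
  rw [Module.mem_annihilator] at hr ⊢
  intro n
  have h1 := hr 1
  rw [Algebra.smul_def, mul_one] at h1
  rw [← algebraMap_smul A r n, h1, zero_smul]

include hd hs in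
/-- **the character formula for all finite modules** -/
theorem MltData.formula (T : Finset (A →ₐ[B] Tri.BPlus B))
    (hT : ∀ (N : Type) [AddCommGroup N] [Module A N] [Module.Finite A N] (g), g ∉ T →
      D.mlt g N = 0) (hp : Proper R M A) (μ : (A →ₐ[B] Tri.BPlus B) → ℝ)
    (hμ : ∀ (N : Type) [AddCommGroup N] [Module A N] [Module R N] [IsScalarTower R A N]
        [Module B N] [IsScalarTower B A N] (r : ℕ)
        (e : Module.Basis (Fin r) B N)
        (L : Matrix (Fin r) (Fin r) (Tri.BPlus B))
        (γ : Fin r → A →ₐ[B] Tri.BPlus B),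
        Tri.IsFlag (Tri.actMatrix (A := A) e) L γ → pair R d M N = ∑ j, μ (γ j))
    (N : Type) [AddCommGroup N] [Module A N] [Module.Finite A N] [i1 : Module R N]
    [i2 : IsScalarTower R A N] : pair R d M N = ∑ g ∈ T, (D.mlt g N : ℝ) * μ g := by
  classical
  have hnoeth : IsNoetherianRing A := IsNoetherianRing.of_finite B A
  have hint : Algebra.IsIntegral B A := inferInstance
  -- the case of `B`-free modules
  have hfree : ∀ (L : Type) [AddCommGroup L] [Module A L] [Module B L] [IsScalarTower B A L]
      [Module.Finite A L] [Module R L] [IsScalarTower R A L], Module.Free B L →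
      pair R d M L = ∑ g ∈ T, (D.mlt g L : ℝ) * μ g := by
    intro L _ _ _ _ _ _ _ _
    have : Module.Finite B L := Module.Finite.trans A L
    let e : Module.Basis (Fin (Module.finrank B L)) B L := Module.finBasis B L
    obtain ⟨Lm, γ, hfl⟩ := Tri.exists_isFlag_bPlus (Tri.actMatrix (A := A) e)
    rw [hμ L _ e Lm γ hfl]
    have hmem : ∀ j, γ j ∈ T := by
      intro j
      by_contra hj
      have h1 := hT L (γ j) hj
      rw [D.flag L _ e Lm γ hfl, Nat.card_eq_zero] at h1
      rcases h1 with h1 | h1
      · exact h1.false ⟨j, rfl⟩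
      · exact (not_finite_iff_infinite.2 h1) inferInstance
    rw [← Finset.sum_fiberwise_of_maps_to (s := Finset.univ) (t := T) (g := γ)
      (fun j _ => hmem j)]
    refine Finset.sum_congr rfl fun g _ => ?_
    rw [D.flag L _ e Lm γ hfl]
    have h2 : ∀ j ∈ Finset.univ.filter (fun j => γ j = g), μ (γ j) = μ g := by
      intro j hj
      rw [(Finset.mem_filter.1 hj).2]
    rw [Finset.sum_congr rfl h2, Finset.sum_const, nsmul_eq_mul]
    congr 1
    rw [Nat.card_eq_fintype_card, Fintype.card_subtype]
  refine Noe.syz_induction (B := B) (S := A)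
    (P := fun L _ _ => ∀ (i1 : Module R L) (i2 : IsScalarTower R A L),
      pair R d M L = ∑ g ∈ T, (D.mlt g L : ℝ) * μ g) ?_ ?_ N i1 i2
  · intro L _ _ _ _ _ hL i1 i2
    exact hfree L hL
  · intro L _ _ _ r f hf ih i1 i2
    have h1 := hfree (Fin r → A) inferInstance
    have h2 := ih inferInstance inferInstance
    have f1 : Module.Finite R L := finite_of_surj hs L
    have f2 : Module.Finite R (Fin r → A) := finite_of_surj hs (Fin r → A)
    have f3 : Module.Finite R ↥(LinearMap.ker f) := finite_of_surj hs ↥(LinearMap.ker f)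
    have h3 := pair_add_right hd (M := M) ((LinearMap.ker f).subtype.restrictScalars R)
      (f.restrictScalars R) (Submodule.subtype_injective _) hf
      (LinearMap.exact_subtype_ker_map f) (Proper.of_algebra hp (Fin r → A))
    have h4 : ∀ g, D.mlt g (Fin r → A) = D.mlt g ↥(LinearMap.ker f) + D.mlt g L := fun g =>
      D.add g (LinearMap.ker f) (Fin r → A) L (LinearMap.ker f).subtype f
        (Submodule.subtype_injective _) hf (LinearMap.exact_subtype_ker_map f)
    rw [h1, h2] at h3
    have h5 : ∑ g ∈ T, (D.mlt g (Fin r → A) : ℝ) * μ g =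
        ∑ g ∈ T, (D.mlt g ↥(LinearMap.ker f) : ℝ) * μ g + ∑ g ∈ T, (D.mlt g L : ℝ) * μ g := by
      rw [← Finset.sum_add_distrib]
      refine Finset.sum_congr rfl fun g _ => ?_
      rw [h4]
      push_cast
      ring
    linarith

end formula

section main

open Noe R183.Cohen

lemma exists_nat_of_le {x : WithBot ℕ∞} (h0 : x ≠ ⊥) {d : ℕ} (h : x ≤ (d : ℕ)) :
    ∃ a : ℕ, x = (a : ℕ) := by
  cases x with
  | bot => exact absurd rfl h0
  | coe x =>
    have h1 : x ≤ (d : ℕ∞) := by exact_mod_cast h
    obtain ⟨n, rfl⟩ := ENat.ne_top_iff_exists.1 (ne_top_of_le_ne_top (ENat.natCast_ne_top d) h1)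
    exact ⟨n, rfl⟩

/-- **`MixPrime ⇐ CORE`** -/
theorem mixPrime_of_core (hcore : CORE)
    (hD : ∀ (p : ℕ) [Fact p.Prime] (k : Type) [Field k] [IsAlgClosed k] [CharP k p] (b : ℕ)
      (A : Type) [CommRing A] [Algebra (Asm.BB p k b) A] [Module.Finite (Asm.BB p k b) A],
      Nonempty (MltData (Asm.BB p k b) A)) : MixPrime := by
  intro R _ _ _ _ p _ _ hp0 d hd P Q hP hQ hpQ hprop hdim
  have hdomR : IsDomain R := Str.isDomain_of_isRegularLocalRing R
  have hpm : (p : R) ∈ maximalIdeal R := by
    rw [← residue_eq_zero_iff, map_natCast]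
    exact CharP.cast_eq_zero _ p
  rw [Module.supportDim_quotient_eq_ringKrullDim, Module.supportDim_quotient_eq_ringKrullDim]
    at hdim ⊢
  have hPm : P ≤ maximalIdeal R := IsLocalRing.le_maximalIdeal hP.ne_top
  have hQm : Q ≤ maximalIdeal R := IsLocalRing.le_maximalIdeal hQ.ne_top
  have hntP : Nontrivial (R ⧸ P) := Ideal.Quotient.nontrivial_iff.2 hP.ne_top
  have hntQ : Nontrivial (R ⧸ Q) := Ideal.Quotient.nontrivial_iff.2 hQ.ne_top
  obtain ⟨a, ha⟩ : ∃ a : ℕ, ringKrullDim (R ⧸ P) = (a : ℕ) := exists_nat_of_le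
    (lt_of_lt_of_le (WithBot.bot_lt_coe _) ringKrullDim_nonneg_of_nontrivial).ne' (by rw [← hd]; exact ringKrullDim_quotient_le P)
  obtain ⟨c, hc⟩ : ∃ c : ℕ, ringKrullDim (R ⧸ Q) = (c : ℕ) := exists_nat_of_le
    (lt_of_lt_of_le (WithBot.bot_lt_coe _) ringKrullDim_nonneg_of_nontrivial).ne' (by rw [← hd]; exact ringKrullDim_quotient_le Q)
  -- `dim R/(p, Q) < dim R/Q`
  have hpQ1 : ringKrullDim (R ⧸ (Ideal.span {(p : R)} ⊔ Q)) + 1 ≤ (c : ℕ) := by
    rw [← hc]
    exact Noe.ringKrullDim_quotient_add_one_le le_sup_right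
      ((le_sup_left : Ideal.span {(p : R)} ≤ _) (Ideal.mem_span_singleton_self _)) hpQ
  have hpQ0 : 0 ≤ ringKrullDim (R ⧸ (Ideal.span {(p : R)} ⊔ Q)) := by
    have h1 : Ideal.span {(p : R)} ⊔ Q ≠ ⊤ := fun h => (maximalIdeal.isMaximal R).ne_top
      (top_le_iff.1 (h ▸ sup_le (by rwa [Ideal.span_singleton_le_iff_mem]) hQm))
    have h2 : Nontrivial (R ⧸ (Ideal.span {(p : R)} ⊔ Q)) := Ideal.Quotient.nontrivial_iff.2 h1
    exact ringKrullDim_nonneg_of_nontrivial
  have hc1 : 1 ≤ c := by
    have h1 : (1 : WithBot ℕ∞) ≤ (c : ℕ) := by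
      calc (1 : WithBot ℕ∞) = 0 + 1 := by rw [zero_add]
        _ ≤ _ := add_le_add hpQ0 le_rfl
        _ ≤ _ := hpQ1
    exact_mod_cast h1
  rw [ha, hc] at hdim ⊢
  have hac : a + c ≤ d := by exact_mod_cast hdim
  obtain ⟨b, hb⟩ : ∃ b, d = a + (b + 1) := ⟨d - a - 1, by omega⟩
  have hcb : c ≤ b + 1 := by omega
  -- the complete intersection
  have hCM : CM R (b + 1 + a) R := CM.of_regular R (by rw [hd, hb, add_comm])
  have hpR : ringKrullDim (R ⧸ Ideal.span {(p : R)}) ≤ (b + a : ℕ) := by
    have h1 := ringKrullDim_quotient_succ_le_of_nonZeroDivisor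
      (mem_nonZeroDivisors_of_ne_zero hp0)
    rw [hd, hb] at h1
    refine Noe.le_of_add_one_le_add_one' ?_
    refine h1.trans (le_of_eq ?_)
    push_cast
    ring
  have hIp : ringKrullDim (R ⧸ (Ideal.span {(p : R)} ⊔ Q)) ≤ (b : ℕ) := by
    refine Noe.le_of_add_one_le_add_one' ?_
    refine hpQ1.trans ?_
    exact_mod_cast hcb
  have hAI : ringKrullDim (R ⧸ (P ⊔ Q)) ≤ 0 := by
    have h1 := hprop
    unfold Proper at h1
    rwa [Ideal.annihilator_quotient, Ideal.annihilator_quotient] at h1
  obtain ⟨G, hGl, hGQ, -, hGCM, hPG, hGp, -⟩ := exists_G_param hCM hpR hQm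
    (by rw [hc]; exact_mod_cast hcb) hIp (le_of_eq ha) hAI
  set J : Ideal R := Ideal.ofList G with hJ
  have hJQ : J ≤ Q := by
    rw [hJ]
    unfold Ideal.ofList
    rw [Ideal.span_le]
    exact fun g hg => hGQ g hg
  have hJm : J ≤ maximalIdeal R := hJQ.trans hQm
  -- parameters, coefficient ring
  obtain ⟨t, ht, e, hte⟩ := exists_sop_mixed' (p := p) hJm hpm hGp
  obtain ⟨s, hs⟩ := Str.exists_generators R hd
  obtain ⟨π, hπ, -, hπr, f, hf, hker⟩ := Str.exists_surjective_of_perfect R p hpm
    (RingEquiv.refl (ResidueField R)) hd s hs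
  let g : WittVector p (ResidueField R) →+* R := π.comp MvPowerSeries.C
  have hgr : ∀ w, residue R (g w) = WittVector.constantCoeff w := fun w => hπr w
  have hgloc : IsLocalHom g := by
    refine ⟨fun w hw => ?_⟩
    by_contra hcon
    have h1 : w ∈ maximalIdeal (WittVector p (ResidueField R)) := (mem_maximalIdeal _).2 hcon
    rw [(isCohen_witt p (ResidueField R)).maximalIdeal_eq, Ideal.mem_span_singleton] at h1
    obtain ⟨v, rfl⟩ := h1
    rw [map_mul, map_natCast] at hw
    exact (mem_maximalIdeal _).1 (Ideal.mul_mem_right _ _ hpm) hw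
  have hgs : Function.Surjective ((residue R).comp g) := by
    intro x
    obtain ⟨w, hw⟩ := WittVector.constantCoeff_surjective (R := ResidueField R) p x
    exact ⟨w, by rw [RingHom.comp_apply, hgr, hw]⟩
  have hgfin : ((residue R).comp g).Finite := RingHom.Finite.of_surjective _ hgs
  let _ : Algebra (Asm.BB p (ResidueField R) b) R := (psEval (maximalIdeal R) g t ht).toAlgebra
  obtain ⟨hfin, hfree, hinj⟩ := noe_mixed (isCohen_witt p (ResidueField R)) g hgloc hgfin J hJm
    hGCM t ht hte rfl
  have hntA : Nontrivial (R ⧸ J) := Ideal.Quotient.nontrivial_iff.2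
    (fun h => hQ.ne_top (top_le_iff.1 (h ▸ hJQ)))
  -- CORE
  have hPA : Proper R (R ⧸ P) (R ⧸ J) := by
    unfold Proper
    rwa [Ideal.annihilator_quotient, Ideal.annihilator_quotient]
  obtain ⟨μ, hμ, hform⟩ := hcore p (ResidueField R) R d a b hd hb π hπ f hf hker (R ⧸ J)
    Ideal.Quotient.mk_surjective (by
      intro w
      show Ideal.Quotient.mk J (psEval (maximalIdeal R) g t ht (MvPowerSeries.C w)) = _
      rw [psEval_C]
      rfl) (R ⧸ P)
    (by rw [Module.supportDim_quotient_eq_ringKrullDim, ha]) (proper_iff.1 hPA)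
  obtain ⟨D⟩ := hD p (ResidueField R) b (R ⧸ J)
  have hregW : IsRegularLocalRing (WittVector p (ResidueField R)) := (isCohen_witt p (ResidueField R)).isRegularLocalRing
  have hregB : IsRegularLocalRing (Asm.BB p (ResidueField R) b) :=
    isRegularLocalRing_mvPowerSeries b
  obtain ⟨T, hT⟩ := D.exists_finset
  -- the module `R/Q` over `A = R/J`
  let _ : Algebra (R ⧸ J) (R ⧸ Q) := (Ideal.Quotient.factor hJQ).toAlgebra
  have tow : IsScalarTower R (R ⧸ J) (R ⧸ Q) := IsScalarTower.of_algebraMap_eq fun r => rfl
  have towB : IsScalarTower (Asm.BB p (ResidueField R) b) (R ⧸ J) (R ⧸ Q) :=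
    IsScalarTower.of_algebraMap_eq fun r => rfl
  have hsQ : Function.Surjective (algebraMap (R ⧸ J) (R ⧸ Q)) :=
    Ideal.Quotient.factor_surjective hJQ
  have hfinQ : Module.Finite (R ⧸ J) (R ⧸ Q) :=
    Module.Finite.of_surjective (Algebra.linearMap (R ⧸ J) (R ⧸ Q)) hsQ
  have hfml := D.formula hd Ideal.Quotient.mk_surjective T hT hPA μ hform (R ⧸ Q)
  rw [hfml]
  have hnn : ∀ g ∈ T, 0 ≤ (D.mlt g (R ⧸ Q) : ℝ) * μ g := fun g _ =>
    mul_nonneg (Nat.cast_nonneg _) (hμ g).le
  refine ⟨Finset.sum_nonneg hnn, fun hsum => ?_⟩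
  have hcb' : c = b + 1 := by
    have h1 : a + c = d := by exact_mod_cast hsum
    omega
  -- `B → R/Q` is injective
  have hfinBQ : Module.Finite (Asm.BB p (ResidueField R) b) (R ⧸ Q) :=
    Module.Finite.trans (R ⧸ J) (R ⧸ Q)
  have hdB : ringKrullDim (Asm.BB p (ResidueField R) b) = (b + 1 : ℕ) := by
    rw [ringKrullDim_mvPowerSeries, (isCohen_witt p (ResidueField R)).ringKrullDim_eq]
    push_cast
    rw [add_comm]
  have hinjQ : Function.Injective (algebraMap (Asm.BB p (ResidueField R) b) (R ⧸ Q)) := by
    refine injective_of_isIntegral_of_ringKrullDim_le ?_ ?_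
    · rw [hdB]
      exact fun h => ENat.natCast_ne_top (b + 1) (WithBot.coe_injective h)
    · rw [hdB, hc, hcb']
  obtain ⟨γ, hγ⟩ := D.pos (R ⧸ Q) ⟨1, fun x hx => by
    rw [Algebra.smul_def, mul_one] at hx
    exact hinjQ (hx.trans (map_zero _).symm)⟩
  have hγT : γ ∈ T := by
    by_contra hcon
    rw [hT _ γ hcon] at hγ
    exact lt_irrefl _ hγ
  refine Finset.sum_pos' hnn ⟨γ, hγT, ?_⟩
  exact mul_pos (by exact_mod_cast hγ) (hμ γ)

/-- **S0288 ⇐ CORE** -/
theorem s288_of_core (hcore : CORE)
    (hD : ∀ (p : ℕ) [Fact p.Prime] (k : Type) [Field k] [IsAlgClosed k] [CharP k p] (b : ℕ)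
      (A : Type) [CommRing A] [Algebra (Asm.BB p k b) A] [Module.Finite (Asm.BB p k b) A],
      Nonempty (MltData (Asm.BB p k b) A)) (R : Type) [CommRing R] [IsRegularLocalRing R] :
    Eq.S288 R :=
  Eq.s288_of_mixed (mixed288_of_mixPrime (mixPrime_of_core hcore hD)) R

end main

end Crest.Agent.R188.Top
end

-- ▼ part R188/Chr5

set_option autoImplicit false
set_option maxHeartbeats 400000
set_option linter.unusedSectionVars false

namespace Crest.Agent.R188.Chr

open Module TensorProduct

universe u v w x

section mlt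

variable {B A : Type} [CommRing B] [IsDomain B] [CommRing A] [Algebra B A]

open Classical in
/-- the multiplicity of `γ` in `N` (auxiliary: `B`-structure explicit) -/
noncomputable def mltAux (γ : A →ₐ[B] Tri.BPlus B) (N : Type) [AddCommGroup N] [Module A N]
    [Module B N] [IsScalarTower B A N] : ℕ :=
  if h : ∃ Γ : Multiset (A →ₐ[B] Tri.BPlus B),
    IsCh (tr (rep (A := A) B (Tri.FB B) N)) (Γ.map (toF (Tri.FB B))) then h.choose.count γ else 0

/-- the multiplicity of `γ` in `N` -/
noncomputable def mltFun (γ : A →ₐ[B] Tri.BPlus B) (N : Type) [AddCommGroup N] [Module A N] : ℕ :=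
  @mltAux B A _ _ _ _ γ N _ _ (Module.compHom N (algebraMap B A))
    (@IsScalarTower.of_algebraMap_smul B A N _ _ _ _ (Module.compHom N (algebraMap B A)).toSMul
      fun _ _ => rfl)

theorem mltFun_eq_aux (γ : A →ₐ[B] Tri.BPlus B) (N : Type) [AddCommGroup N]
    [Module A N] [iB : Module B N] [iT : IsScalarTower B A N] : mltFun γ N = mltAux γ N := by
  have h0 : iB = Module.compHom N (algebraMap B A) := by
    refine Module.ext' _ _ fun b x => ?_
    have h1 := @IsScalarTower.smul_assoc B A N _ _ _ iT b 1 x
    rw [one_smul] at h1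
    rw [← h1, Algebra.smul_def, mul_one]
    rfl
  subst h0
  rfl

open Classical in
theorem mltFun_eq [CharZero (Tri.FB B)] (γ : A →ₐ[B] Tri.BPlus B) (N : Type) [AddCommGroup N]
    [Module A N] [iB : Module B N] [iT : IsScalarTower B A N] (Γ : Multiset (A →ₐ[B] Tri.BPlus B))
    (h : IsCh (tr (rep (A := A) B (Tri.FB B) N)) (Γ.map (toF (Tri.FB B)))) :
    mltFun γ N = Γ.count γ := by
  have hex : ∃ Γ : Multiset (A →ₐ[B] Tri.BPlus B),
    IsCh (tr (rep (A := A) B (Tri.FB B) N)) (Γ.map (toF (Tri.FB B))) := ⟨Γ, h⟩
  have h2 : mltAux γ N = hex.choose.count γ := dif_pos hex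
  have h3 : hex.choose = Γ :=
    Multiset.map_injective (toF_injective (Tri.FB B)) (hex.choose_spec.unique h)
  rw [mltFun_eq_aux, h2, h3]

end mlt

/-- **the multiplicities** -/
theorem nonempty_mltData (B A : Type) [CommRing B] [IsDomain B] [CharZero B] [CommRing A]
    [Algebra B A] [Module.Finite B A] : Nonempty (Top.MltData B A) := by
  classical
  have hc : CharZero (Tri.FB B) :=
    charZero_of_injective_algebraMap (FaithfulSMul.algebraMap_injective B (Tri.FB B))
  have hflat : Module.Flat B (Tri.FB B) :=
    flat_of_injective (FaithfulSMul.algebraMap_injective B (Tri.FB B))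
  have hint : Algebra.IsIntegral B A := inferInstance
  refine ⟨{ mlt := fun γ N _ _ => mltFun γ N, add := ?_, flag := ?_, pos := ?_ }⟩
  · intro γ N' N N'' _ _ _ _ _ _ _ _ _ f g hf hg hfg
    let _ : Module B N' := Module.compHom N' (algebraMap B A)
    have : IsScalarTower B A N' := IsScalarTower.of_algebraMap_smul fun _ _ => rfl
    let _ : Module B N := Module.compHom N (algebraMap B A)
    have : IsScalarTower B A N := IsScalarTower.of_algebraMap_smul fun _ _ => rfl
    let _ : Module B N'' := Module.compHom N'' (algebraMap B A)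
    have : IsScalarTower B A N'' := IsScalarTower.of_algebraMap_smul fun _ _ => rfl
    have : Module.Finite B N' := Module.Finite.trans A N'
    have : Module.Finite B N := Module.Finite.trans A N
    have : Module.Finite B N'' := Module.Finite.trans A N''
    obtain ⟨Γ', h', -, -⟩ := exists_chars (A := A) (B := B) (Bp := Tri.BPlus B) (Tri.FB B) N'
    obtain ⟨Γ'', h'', -, -⟩ := exists_chars (A := A) (B := B) (Bp := Tri.BPlus B) (Tri.FB B) N''
    have h : IsCh (tr (rep (A := A) B (Tri.FB B) N)) ((Γ' + Γ'').map (toF (Tri.FB B))) := by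
      rw [Multiset.map_add]
      exact h'.add h'' (fun a => tr_rep_add B (Tri.FB B) f g hf hg hfg a)
    rw [mltFun_eq γ N' Γ' h', mltFun_eq γ N'' Γ'' h'', mltFun_eq γ N _ h, Multiset.count_add]
  · intro N _ _ _ _ r e L γ hL g
    rw [mltFun_eq g N _ (isCh_of_isFlag (Tri.FB B) e hL), Multiset.count_map, Nat.card_eq_fintype_card,
      Fintype.card_subtype, Finset.card_def, Finset.filter_val]
    congr 1
    refine Multiset.filter_congr fun j _ => ?_
    exact eq_comm
  · intro N _ _ _ _ _ hx
    obtain ⟨x, hx⟩ := hx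
    have : Module.Finite B N := Module.Finite.trans A N
    obtain ⟨Γ, h1, h2, -⟩ := exists_chars (A := A) (B := B) (Bp := Tri.BPlus B) (Tri.FB B) N
    have hinj : Function.Injective (LinearMap.toSpanSingleton B N x) := by
      rw [← LinearMap.ker_eq_bot, eq_bot_iff]
      intro b hb
      exact hx b hb
    have hne : Γ ≠ 0 := by
      rintro rfl
      rw [Multiset.card_zero] at h2
      have h4 : Subsingleton ((Tri.FB B) ⊗[B] N) := Module.finrank_zero_iff.1 h2.symm
      have h5 : Function.Injective ((LinearMap.toSpanSingleton B N x).lTensor (Tri.FB B)) :=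
        Module.Flat.lTensor_preserves_injective_linearMap _ hinj
      have h6 : Subsingleton ((Tri.FB B) ⊗[B] B) := h5.subsingleton
      exact not_subsingleton (Tri.FB B)
        ((TensorProduct.rid B (Tri.FB B)).symm.injective.subsingleton)
    obtain ⟨γ, hγ⟩ := Multiset.exists_mem_of_ne_zero hne
    refine ⟨γ, ?_⟩
    show 0 < mltFun γ N
    rw [mltFun_eq γ N Γ h1]
    exact Multiset.count_pos.2 hγ

instance charZero_witt (p : ℕ) [Fact p.Prime] (k : Type*) [Field k] [CharP k p] :
    CharZero (WittVector p k) := by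
  obtain ⟨q, hq⟩ := CharP.exists (WittVector p k)
  rcases eq_or_ne q 0 with rfl | hq0
  · exact CharP.charP_to_charZero _
  · exfalso
    have hqp : q.Prime := (CharP.char_is_prime_or_zero (WittVector p k) q).resolve_right hq0
    have h1 : (q : WittVector p k) = 0 := CharP.cast_eq_zero _ q
    have h2 : ((q : ℕ) : k) = 0 := by
      have := congrArg (WittVector.constantCoeff (p := p) (R := k)) h1
      rwa [map_natCast, map_zero] at this
    rw [CharP.cast_eq_zero_iff k p] at h2
    have h3 : p = q := (Nat.prime_dvd_prime_iff_eq (Fact.out : p.Prime) hqp).1 h2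
    subst h3
    exact WittVector.p_nonzero p k h1

instance charZero_BB (p : ℕ) [Fact p.Prime] (k : Type) [Field k] [CharP k p] (b : ℕ) :
    CharZero (Asm.BB p k b) :=
  charZero_of_injective_ringHom (f := (MvPowerSeries.C : WittVector p k →+* Asm.BB p k b))
    (MvPowerSeries.C_injective)

/-- **S0288 ⇐ CORE**, no further input. -/
theorem s288_of_core (hcore : Top.CORE) (R : Type) [CommRing R] [IsRegularLocalRing R] :
    Eq.S288 R :=
  Top.s288_of_core hcore (fun p _ k _ _ _ b A _ _ _ => nonempty_mltData (Asm.BB p k b) A) R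

end Crest.Agent.R188.Chr
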