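/-
R188, block (L3): extension of an additive length from `A ⧸ 𝔞`-modules to all `A`-modules
(devissage / Schreier).  helper200

`PreLen A` = an invariant `c` of `A`-modules with `c N ≤ c M + c P` for right exact sequences
`M → N → P → 0`.  `PreLen.addLen` : the additive length `L M = sup (sum of c of the successive
quotients of finite filtrations of M)`; it is additive on ALL exact sequences.
-/
import Mathlib
import Crest.Agent.R183.AddLenInst
import Crest.Agent.R183.WBound

set_option autoImplicit false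

namespace Crest.Agent.R188.LenW

open scoped ENNReal
open Crest.Agent.R183

universe u v

/-- a right-subadditive invariant of modules. -/
structure PreLen (A : Type u) [CommRing A] where
  /-- the invariant -/
  c : ∀ (M : Type v) [AddCommGroup M] [Module A M], ℝ≥0∞
  zero' : ∀ (M : Type v) [AddCommGroup M] [Module A M], Subsingleton M → c M = 0
  sub' : ∀ {M N P : Type v} [AddCommGroup M] [Module A M] [AddCommGroup N] [Module A N]
    [AddCommGroup P] [Module A P] (f : M →ₗ[A] N) (g : N →ₗ[A] P),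
    Function.Surjective g → Function.Exact f g → c N ≤ c M + c P

namespace PreLen

variable {A : Type u} [CommRing A] (C : PreLen.{u, v} A)

section
variable {M N P : Type v} [AddCommGroup M] [Module A M] [AddCommGroup N] [Module A N]
  [AddCommGroup P] [Module A P]

lemma c_le_congr (e : M ≃ₗ[A] N) : C.c M ≤ C.c N := by
  have h := C.sub' (0 : PUnit.{v+1} →ₗ[A] M) (e : M →ₗ[A] N) e.surjective (by
    intro x
    constructor
    · intro hx
      have : x = 0 := by
        apply e.injective
        rw [map_zero]; exact hx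
      exact ⟨0, by rw [this]; rfl⟩
    · rintro ⟨y, rfl⟩
      simp)
  rwa [C.zero' PUnit.{v+1} inferInstance, zero_add] at h

lemma c_congr (e : M ≃ₗ[A] N) : C.c M = C.c N :=
  le_antisymm (C.c_le_congr e) (C.c_le_congr e.symm)

end

/-- `Ln n M = sup` over chains of length `n` from the top. -/
noncomputable def Ln : ℕ → ∀ (M : Type v) [AddCommGroup M] [Module A M], ℝ≥0∞
  | 0, _, _, _ => 0
  | n + 1, M, _, _ => ⨆ N : Submodule A M, C.c (M ⧸ N) + Ln n N

@[simp] lemma Ln_zero (M : Type v) [AddCommGroup M] [Module A M] : C.Ln 0 M = 0 := rfl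

lemma Ln_succ (n : ℕ) (M : Type v) [AddCommGroup M] [Module A M] :
    C.Ln (n + 1) M = ⨆ N : Submodule A M, C.c (M ⧸ N) + C.Ln n N := rfl

lemma le_Ln_succ (n : ℕ) {M : Type v} [AddCommGroup M] [Module A M] (N : Submodule A M) :
    C.c (M ⧸ N) + C.Ln n N ≤ C.Ln (n + 1) M :=
  le_iSup (fun N : Submodule A M => C.c (M ⧸ N) + C.Ln n N) N

lemma Ln_le_congr (n : ℕ) {M N : Type v} [AddCommGroup M] [Module A M] [AddCommGroup N]
    [Module A N] (e : M ≃ₗ[A] N) : C.Ln n M ≤ C.Ln n N := by
  induction n generalizing M N with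
  | zero => simp
  | succ n ih =>
    rw [Ln_succ]
    refine iSup_le fun S => ?_
    refine le_trans ?_ (C.le_Ln_succ n (S.map (e : M →ₗ[A] N)))
    refine add_le_add (C.c_le_congr ?_) (ih ?_)
    · exact Submodule.Quotient.equiv S (S.map (e : M →ₗ[A] N)) e rfl
    · exact e.submoduleMap S

lemma Ln_congr (n : ℕ) {M N : Type v} [AddCommGroup M] [Module A M] [AddCommGroup N]
    [Module A N] (e : M ≃ₗ[A] N) : C.Ln n M = C.Ln n N :=
  le_antisymm (C.Ln_le_congr n e) (C.Ln_le_congr n e.symm)

lemma Ln_le_succ (n : ℕ) (M : Type v) [AddCommGroup M] [Module A M] :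
    C.Ln n M ≤ C.Ln (n + 1) M := by
  refine le_trans ?_ (C.le_Ln_succ n (⊤ : Submodule A M))
  rw [C.Ln_congr n (Submodule.topEquiv (R := A) (M := M))]
  exact le_add_self

lemma Ln_mono (M : Type v) [AddCommGroup M] [Module A M] : Monotone fun n => C.Ln n M :=
  monotone_nat_of_le_succ fun n => C.Ln_le_succ n M

lemma Ln_add_le (m n : ℕ) {M N P : Type v} [AddCommGroup M] [Module A M] [AddCommGroup N]
    [Module A N] [AddCommGroup P] [Module A P] (f : M →ₗ[A] N) (g : N →ₗ[A] P)
    (hf : Function.Injective f) (hg : Function.Surjective g) (h : Function.Exact f g) :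
    C.Ln m M + C.Ln n P ≤ C.Ln (m + n + 1) N := by
  induction n generalizing N P with
  | zero =>
    rw [Ln_zero, add_zero, add_zero]
    refine le_trans ?_ (C.le_Ln_succ m (LinearMap.range f))
    rw [C.Ln_congr m (LinearEquiv.ofInjective f hf)]
    exact le_add_self
  | succ n ih =>
    rw [C.Ln_succ n P]
    rw [ENNReal.add_iSup]
    refine iSup_le fun S => ?_
    refine le_trans ?_ (C.le_Ln_succ (m + n + 1) (S.comap g))
    let f' : M →ₗ[A] S.comap g := f.codRestrict (S.comap g) (fun x => by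
      rw [Submodule.mem_comap, (h (f x)).2 ⟨x, rfl⟩]; exact S.zero_mem)
    let g' : S.comap g →ₗ[A] S := g.restrict (fun x hx => hx)
    have hf' : Function.Injective f' := fun x y hxy => hf (congrArg Subtype.val hxy)
    have hg' : Function.Surjective g' := by
      rintro ⟨y, hy⟩
      obtain ⟨x, rfl⟩ := hg y
      exact ⟨⟨x, hy⟩, rfl⟩
    have h' : Function.Exact f' g' := by
      rintro ⟨x, hx⟩
      constructor
      · intro hx'
        obtain ⟨y, hy⟩ := (h x).1 (congrArg Subtype.val hx')
        exact ⟨y, Subtype.ext hy⟩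
      · rintro ⟨y, hy⟩
        apply Subtype.ext
        change g x = 0
        exact (h x).2 ⟨y, congrArg Subtype.val hy⟩
    have h1 := ih f' g' hf' hg' h'
    have h2 : C.c (P ⧸ S) = C.c (N ⧸ S.comap g) := by
      refine (C.c_congr ?_).symm
      have hk : LinearMap.ker (S.mkQ.comp g) = S.comap g := by
        rw [LinearMap.ker_comp, Submodule.ker_mkQ]
      exact (Submodule.quotEquivOfEq _ _ hk.symm).trans
        ((S.mkQ.comp g).quotKerEquivOfSurjective (S.mkQ_surjective.comp hg))
    rw [h2, add_left_comm]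
    exact add_le_add le_rfl h1

lemma Ln_le_add (n : ℕ) {M N P : Type v} [AddCommGroup M] [Module A M] [AddCommGroup N]
    [Module A N] [AddCommGroup P] [Module A P] (f : M →ₗ[A] N) (g : N →ₗ[A] P)
    (hf : Function.Injective f) (hg : Function.Surjective g) (h : Function.Exact f g) :
    C.Ln n N ≤ C.Ln n M + C.Ln n P := by
  induction n generalizing M N P with
  | zero => simp
  | succ n ih =>
    rw [C.Ln_succ n N]
    refine iSup_le fun S => ?_
    refine le_trans ?_ (add_le_add (C.le_Ln_succ n (S.comap f)) (C.le_Ln_succ n (S.map g)))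
    let f' : S.comap f →ₗ[A] S := f.restrict (fun x hx => hx)
    let g' : S →ₗ[A] S.map g := g.submoduleMap S
    have hf' : Function.Injective f' := fun x y hxy =>
      Subtype.ext (hf (congrArg Subtype.val hxy))
    have hg' : Function.Surjective g' := g.submoduleMap_surjective S
    have h' : Function.Exact f' g' := by
      rintro ⟨x, hx⟩
      constructor
      · intro hx'
        have hx'' : g x = 0 := congrArg Subtype.val hx'
        obtain ⟨y, hy⟩ := (h x).1 hx''
        subst hy
        exact ⟨⟨y, hx⟩, rfl⟩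
      · rintro ⟨y, hy⟩
        apply Subtype.ext
        change g x = 0
        exact (h x).2 ⟨y, congrArg Subtype.val hy⟩
    have h1 := ih f' g' hf' hg' h'
    let f'' : (M ⧸ S.comap f) →ₗ[A] N ⧸ S := Submodule.mapQ _ _ f le_rfl
    let g'' : (N ⧸ S) →ₗ[A] P ⧸ S.map g := Submodule.mapQ _ _ g (Submodule.le_comap_map g S)
    have h2 : C.c (N ⧸ S) ≤ C.c (M ⧸ S.comap f) + C.c (P ⧸ S.map g) := by
      refine C.sub' f'' g'' ?_ ?_
      · intro y
        obtain ⟨y, rfl⟩ := Submodule.mkQ_surjective _ y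
        obtain ⟨x, rfl⟩ := hg y
        exact ⟨S.mkQ x, rfl⟩
      · intro x
        obtain ⟨x, rfl⟩ := Submodule.mkQ_surjective _ x
        constructor
        · intro hx
          have hx' : (S.map g).mkQ (g x) = 0 := hx
          rw [Submodule.mkQ_apply, Submodule.Quotient.mk_eq_zero] at hx'
          obtain ⟨s, hs, hgs⟩ := hx'
          have : g (x - s) = 0 := by rw [map_sub, hgs, sub_self]
          obtain ⟨y, hy⟩ := (h _).1 this
          refine ⟨(S.comap f).mkQ y, ?_⟩
          change S.mkQ (f y) = S.mkQ x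
          rw [hy, Submodule.mkQ_apply, Submodule.mkQ_apply, Submodule.Quotient.eq]
          simpa using hs
        · rintro ⟨y, hy⟩
          obtain ⟨y, rfl⟩ := Submodule.mkQ_surjective _ y
          rw [← hy]
          change (S.map g).mkQ (g (f y)) = 0
          rw [(h (f y)).2 ⟨y, rfl⟩, map_zero]
    calc C.c (N ⧸ S) + C.Ln n S
        ≤ (C.c (M ⧸ S.comap f) + C.c (P ⧸ S.map g)) + (C.Ln n (S.comap f) + C.Ln n (S.map g)) :=
          add_le_add h2 h1
      _ = _ := by ring

/-- **the additive length attached to a right-subadditive invariant.** -/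
noncomputable def addLen : AddLen.{u, v} A where
  L := fun M _ _ => ⨆ n, C.Ln n M
  zero' := fun M _ _ hM => by
    have key : ∀ n (M : Type v) [AddCommGroup M] [Module A M] [Subsingleton M], C.Ln n M = 0 := by
      intro n
      induction n with
      | zero => intro M _ _ _; simp
      | succ n ih =>
        intro M _ _ _
        rw [Ln_succ]
        refine le_antisymm (iSup_le fun N => ?_) zero_le
        rw [ih, C.zero' _ inferInstance, add_zero]
    simp [key]
  add' := fun {M N P} _ _ _ _ _ _ f g hf hg h => by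
    refine le_antisymm (iSup_le fun n => ?_) ?_
    · exact (C.Ln_le_add n f g hf hg h).trans
        (add_le_add (le_iSup (fun n => C.Ln n M) n) (le_iSup (fun n => C.Ln n P) n))
    · rw [ENNReal.iSup_add_iSup_of_monotone (C.Ln_mono M) (C.Ln_mono P)]
      refine iSup_le fun n => ?_
      exact (C.Ln_add_le n n f g hf hg h).trans (le_iSup (fun n => C.Ln n N) _)


lemma c_le_L (M : Type v) [AddCommGroup M] [Module A M] : C.c M ≤ C.addLen.L M := by
  refine le_trans ?_ (le_iSup (fun n => C.Ln n M) 1)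
  refine le_trans ?_ (C.le_Ln_succ 0 (⊥ : Submodule A M))
  rw [Ln_zero, add_zero]
  exact C.c_le_congr (Submodule.quotEquivOfEqBot ⊥ rfl).symm

/-- `L` is the least additive length `≥ c`. -/
lemma L_le_of_le (Λ : AddLen.{u, v} A)
    (h : ∀ (M : Type v) [AddCommGroup M] [Module A M], C.c M ≤ Λ.L M)
    (M : Type v) [AddCommGroup M] [Module A M] : C.addLen.L M ≤ Λ.L M := by
  have key : ∀ n (M : Type v) [AddCommGroup M] [Module A M], C.Ln n M ≤ Λ.L M := by
    intro n
    induction n with
    | zero => intro M _ _; simp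
    | succ n ih =>
      intro M _ _
      rw [Ln_succ]
      refine iSup_le fun N => ?_
      rw [Λ.L_eq_add_quotient N, add_comm]
      exact add_le_add (ih N) (h _)
  exact iSup_le fun n => key n M

end PreLen

/-! ### The extension from `A ⧸ 𝔞` to `A` -/

section ext

variable {A : Type u} [CommRing A] (𝔞 : Ideal A) (Λ : AddLen.{u, v} (A ⧸ 𝔞))

/-- an `A`-linear map induces an `A ⧸ 𝔞`-linear map `M/𝔞M → N/𝔞N`. -/
def mapq {M N : Type v} [AddCommGroup M] [Module A M] [AddCommGroup N] [Module A N]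
    (f : M →ₗ[A] N) :
    (M ⧸ (𝔞 • (⊤ : Submodule A M))) →ₗ[A ⧸ 𝔞] (N ⧸ (𝔞 • (⊤ : Submodule A N))) :=
  { (Submodule.mapQ (𝔞 • (⊤ : Submodule A M)) (𝔞 • (⊤ : Submodule A N)) f (by
      rw [← Submodule.map_le_iff_le_comap, Submodule.map_smul'']
      exact Submodule.smul_mono le_rfl le_top)) with
    map_smul' := by
      intro a x
      obtain ⟨a, rfl⟩ := Ideal.Quotient.mk_surjective a
      exact map_smul (Submodule.mapQ (𝔞 • (⊤ : Submodule A M)) (𝔞 • (⊤ : Submodule A N)) f _) a x }

@[simp] lemma mapq_mk {M N : Type v} [AddCommGroup M] [Module A M] [AddCommGroup N] [Module A N]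
    (f : M →ₗ[A] N) (x : M) :
    mapq 𝔞 f (Submodule.Quotient.mk x) = Submodule.Quotient.mk (f x) := rfl

/-- the right-subadditive invariant `M ↦ L(M/𝔞M)`. -/
noncomputable def preExt : PreLen.{u, v} A where
  c := fun M _ _ => Λ.L (M ⧸ (𝔞 • (⊤ : Submodule A M)))
  zero' := fun M _ _ _ => Λ.zero' _ inferInstance
  sub' := fun {M N P} _ _ _ _ _ _ f g hg h => by
    refine Λ.L_le_add_of_exact (mapq 𝔞 f) (mapq 𝔞 g) ?_
    intro x
    obtain ⟨x, rfl⟩ := Submodule.Quotient.mk_surjective _ x
    rw [mapq_mk]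
    constructor
    · intro hx
      rw [Submodule.Quotient.mk_eq_zero] at hx
      -- lift
      have h1 : (𝔞 • (⊤ : Submodule A P)) = (𝔞 • (⊤ : Submodule A N)).map g := by
        rw [Submodule.map_smul'', Submodule.map_top, LinearMap.range_eq_top.2 hg]
      rw [h1] at hx
      obtain ⟨z, hz, hgz⟩ := hx
      have : g (x - z) = 0 := by rw [map_sub, hgz, sub_self]
      obtain ⟨y, hy⟩ := (h _).1 this
      refine ⟨Submodule.Quotient.mk y, ?_⟩
      rw [mapq_mk, hy, Submodule.Quotient.eq]
      simpa using hz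
    · rintro ⟨y, hy⟩
      obtain ⟨y, rfl⟩ := Submodule.Quotient.mk_surjective _ y
      rw [mapq_mk, Submodule.Quotient.eq] at hy
      rw [Submodule.Quotient.mk_eq_zero]
      have h1 : g (f y - x) ∈ 𝔞 • (⊤ : Submodule A P) := by
        have h2 : (𝔞 • (⊤ : Submodule A N)).map g ≤ 𝔞 • (⊤ : Submodule A P) := by
          rw [Submodule.map_smul'']
          exact Submodule.smul_mono le_rfl le_top
        exact h2 ⟨_, hy, rfl⟩
      rw [map_sub, (h (f y)).2 ⟨y, rfl⟩, zero_sub, neg_mem_iff] at h1
      exact h1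

/-- **the extension of `Λ` to all `A`-modules** -/
noncomputable def ext : AddLen.{u, v} A := (preExt 𝔞 Λ).addLen


/-- on `A ⧸ 𝔞`-modules nothing changes. -/
theorem ext_L (M : Type v) [AddCommGroup M] [Module A M] [Module (A ⧸ 𝔞) M]
    [IsScalarTower A (A ⧸ 𝔞) M] : (ext 𝔞 Λ).L M = Λ.L M := by
  have hbot : ∀ (N : Type v) [AddCommGroup N] [Module A N] [Module (A ⧸ 𝔞) N]
      [IsScalarTower A (A ⧸ 𝔞) N], (𝔞 • (⊤ : Submodule A N)) = ⊥ := by
    intro N _ _ _ _
    rw [eq_bot_iff, Submodule.smul_le]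
    intro a ha n _
    rw [Submodule.mem_bot, ← algebraMap_smul (A ⧸ 𝔞) a n, Ideal.Quotient.algebraMap_eq,
      Ideal.Quotient.eq_zero_iff_mem.2 ha, zero_smul]
  have hc : ∀ (N : Type v) [AddCommGroup N] [Module A N] [Module (A ⧸ 𝔞) N]
      [IsScalarTower A (A ⧸ 𝔞) N], (preExt 𝔞 Λ).c N = Λ.L N := by
    intro N _ _ _ _
    refine Λ.L_congr (M := N ⧸ (𝔞 • (⊤ : Submodule A N))) (N := N) ?_
    let e : (N ⧸ (𝔞 • (⊤ : Submodule A N))) ≃ₗ[A] N :=
      Submodule.quotEquivOfEqBot _ (hbot N)
    refine { e with map_smul' := ?_ }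
    intro a x
    obtain ⟨a, rfl⟩ := Ideal.Quotient.mk_surjective a
    have := e.map_smul a x
    refine Eq.trans ?_ (this.trans ?_)
    · rfl
    · exact (algebraMap_smul (A ⧸ 𝔞) a (e x)).symm
  refine le_antisymm ?_ ?_
  · refine iSup_le fun n => ?_
    have key : ∀ n (N : Type v) [AddCommGroup N] [Module A N] [Module (A ⧸ 𝔞) N]
        [IsScalarTower A (A ⧸ 𝔞) N], (preExt 𝔞 Λ).Ln n N ≤ Λ.L N := by
      intro n
      induction n with
      | zero => intro N _ _ _ _; simp
      | succ n ih =>
        intro N _ _ _ _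
        rw [PreLen.Ln_succ]
        refine iSup_le fun S => ?_
        -- `S` is an `A ⧸ 𝔞`-submodule
        let S' : Submodule (A ⧸ 𝔞) N :=
          { S with
            smul_mem' := by
              intro a x hx
              obtain ⟨a, rfl⟩ := Ideal.Quotient.mk_surjective a
              have : (Ideal.Quotient.mk 𝔞 a) • x = a • x := algebraMap_smul (A ⧸ 𝔞) a x
              rw [this]
              exact S.smul_mem a hx }
        have e1 : (preExt 𝔞 Λ).Ln n S ≤ Λ.L S' := by
          refine le_trans ((preExt 𝔞 Λ).Ln_le_congr n (N := S') ?_) (ih S')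
          exact { Equiv.refl _ with map_add' := fun _ _ => rfl, map_smul' := fun _ _ => rfl }
        have e2 : (preExt 𝔞 Λ).c (N ⧸ S) ≤ Λ.L (N ⧸ S') := by
          rw [← hc (N ⧸ S')]
          refine (preExt 𝔞 Λ).c_le_congr ?_
          exact { Equiv.refl _ with map_add' := fun _ _ => rfl, map_smul' := fun _ _ => rfl }
        rw [Λ.L_eq_add_quotient S', add_comm]
        exact add_le_add e1 e2
    exact key n M
  · rw [← hc M]
    exact (preExt 𝔞 Λ).c_le_L M

end ext

/-! ### Continuity -/

/-- continuity of an additive length: it is determined by finitely generated submodules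
(for `u = v` this is `Crest.Agent.R183.WG.Cont`). -/
def Cont {A : Type u} [CommRing A] (Λ : AddLen.{u, v} A) : Prop :=
  ∀ (M : Type v) [AddCommGroup M] [Module A M] (c : ℝ≥0∞),
    (∀ E : Submodule A M, E.FG → Λ.L E ≤ c) → Λ.L M ≤ c


section cont

variable {A : Type u} [CommRing A]

lemma Cont.le_iSup {Λ : AddLen.{u, v} A} (h : Cont Λ) (M : Type v) [AddCommGroup M] [Module A M] :
    Λ.L M ≤ ⨆ E : {E : Submodule A M // E.FG}, Λ.L E.1 :=
  h M _ fun E hE => _root_.le_iSup (fun E : {E : Submodule A M // E.FG} => Λ.L E.1) ⟨E, hE⟩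

lemma Cont.eq_iSup {Λ : AddLen.{u, v} A} (h : Cont Λ) (M : Type v) [AddCommGroup M] [Module A M] :
    Λ.L M = ⨆ E : {E : Submodule A M // E.FG}, Λ.L E.1 :=
  le_antisymm (h.le_iSup M) (iSup_le fun E => Λ.L_submodule_le E.1)

/-- `L(E₁) + L(E₂) ≤ L(E)` for finitely generated `E₁ ⊂ M/N`, `E₂ ⊂ N` and a suitable f.g. `E`. -/
lemma exists_fg_add_le (Λ : AddLen.{u, v} A) {M : Type v} [AddCommGroup M] [Module A M]
    (N : Submodule A M) (E₁ : Submodule A (M ⧸ N)) (E₂ : Submodule A N) (h₁ : E₁.FG)
    (h₂ : E₂.FG) : ∃ E : Submodule A M, E.FG ∧ Λ.L E₁ + Λ.L E₂ ≤ Λ.L E := by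
  obtain ⟨s, rfl⟩ := h₁
  have hl : ∀ y : M ⧸ N, ∃ x : M, N.mkQ x = y := N.mkQ_surjective
  choose l hl using hl
  classical
  set F : Submodule A M := Submodule.span A ((s.image l : Finset M) : Set M) with hF
  set E : Submodule A M := F ⊔ E₂.map N.subtype with hE
  refine ⟨E, ?_, ?_⟩
  · exact Submodule.FG.sup ⟨_, rfl⟩ (h₂.map _)
  · let g : E →ₗ[A] M ⧸ N := N.mkQ.comp E.subtype
    rw [Λ.L_ker_add_range g, add_comm]
    refine add_le_add ?_ ?_
    · let i : E₂ →ₗ[A] E := (N.subtype.comp E₂.subtype).codRestrict E (fun x =>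
        (le_sup_right : E₂.map N.subtype ≤ E) ⟨x.1, x.2, rfl⟩)
      let j : E₂ →ₗ[A] LinearMap.ker g := i.codRestrict _ (fun x => by
        rw [LinearMap.mem_ker]
        change N.mkQ (x.1 : M) = 0
        rw [Submodule.mkQ_apply, Submodule.Quotient.mk_eq_zero]
        exact x.1.2)
      refine Λ.L_le_of_injective j ?_
      intro x y hxy
      have h1 : ((x.1 : N) : M) = ((y.1 : N) : M) :=
        congrArg (fun z : LinearMap.ker g => ((z : E) : M)) hxy
      exact Subtype.ext (Subtype.ext h1)
    · have hle : Submodule.span A (s : Set (M ⧸ N)) ≤ LinearMap.range g := by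
        rw [Submodule.span_le]
        intro y hy
        refine ⟨⟨l y, ?_⟩, hl y⟩
        refine (le_sup_left : F ≤ E) (Submodule.subset_span ?_)
        exact Finset.mem_coe.2 (Finset.mem_image_of_mem l (Finset.mem_coe.1 hy))
      exact Λ.L_le_of_injective (Submodule.inclusion hle) (Submodule.inclusion_injective hle)

/-- **the extension of a continuous length is continuous.** -/
theorem ext_cont (𝔞 : Ideal A) (Λ : AddLen.{u, v} (A ⧸ 𝔞)) (hΛ : Cont Λ) : Cont (ext 𝔞 Λ) := by
  -- it is enough to bound the chain sums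
  have hc : ∀ (Q : Type v) [AddCommGroup Q] [Module A Q],
      (preExt 𝔞 Λ).c Q ≤ ⨆ E : {E : Submodule A Q // E.FG}, (ext 𝔞 Λ).L E.1 := by
    intro Q _ _
    refine hΛ _ _ fun E' hE' => ?_
    obtain ⟨s, rfl⟩ := hE'
    have hl : ∀ y : Q ⧸ (𝔞 • (⊤ : Submodule A Q)), ∃ x : Q,
        (Submodule.mkQ (𝔞 • (⊤ : Submodule A Q))) x = y := Submodule.mkQ_surjective _
    choose l hl using hl
    classical
    set F : Submodule A Q := Submodule.span A ((s.image l : Finset Q) : Set Q) with hF
    refine le_trans ?_ (_root_.le_iSup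
      (fun E : {E : Submodule A Q // E.FG} => (ext 𝔞 Λ).L E.1) ⟨F, ⟨_, rfl⟩⟩)
    set E' : Submodule (A ⧸ 𝔞) (Q ⧸ (𝔞 • (⊤ : Submodule A Q))) := Submodule.span (A ⧸ 𝔞) (s : Set _)
      with hE'
    rw [← ext_L 𝔞 Λ E']
    -- `F → E'` is surjective
    let g : F →ₗ[A] (E'.restrictScalars A) :=
      ((Submodule.mkQ (𝔞 • (⊤ : Submodule A Q))).comp F.subtype).codRestrict (E'.restrictScalars A)
        (fun x => by
          obtain ⟨x, hx⟩ := x
          change (Submodule.mkQ (𝔞 • (⊤ : Submodule A Q))) x ∈ E'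
          rw [hF] at hx
          induction hx using Submodule.span_induction with
          | mem z hz =>
            obtain ⟨y, hy, rfl⟩ := Finset.mem_image.1 (Finset.mem_coe.1 hz)
            rw [hl]
            exact Submodule.subset_span hy
          | zero => rw [map_zero]; exact E'.zero_mem
          | add z w _ _ hz hw => rw [map_add]; exact E'.add_mem hz hw
          | smul a z _ hz => rw [map_smul]; exact E'.smul_mem (Ideal.Quotient.mk 𝔞 a) hz)
    have hsub : ∀ y ∈ Submodule.span (A ⧸ 𝔞) (s : Set (Q ⧸ (𝔞 • (⊤ : Submodule A Q)))),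
        ∃ a ∈ F, (Submodule.mkQ (𝔞 • (⊤ : Submodule A Q))) a = y := by
      intro y hy
      induction hy using Submodule.span_induction with
      | mem z hz =>
        exact ⟨l z, Submodule.subset_span
          (Finset.mem_coe.2 (Finset.mem_image_of_mem l (Finset.mem_coe.1 hz))), hl z⟩
      | zero => exact ⟨0, F.zero_mem, map_zero _⟩
      | add z w _ _ ihz ihw =>
        obtain ⟨a, ha, ha'⟩ := ihz
        obtain ⟨b, hb, hb'⟩ := ihw
        exact ⟨a + b, F.add_mem ha hb, by rw [map_add, ha', hb']⟩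
      | smul a z _ ihz =>
        obtain ⟨b, hb, hb'⟩ := ihz
        obtain ⟨a, rfl⟩ := Ideal.Quotient.mk_surjective a
        refine ⟨a • b, F.smul_mem a hb, ?_⟩
        rw [map_smul, hb']
        rfl
    have hg : Function.Surjective g := by
      rintro ⟨y, hy⟩
      obtain ⟨a, ha, hay⟩ := hsub y hy
      exact ⟨⟨a, ha⟩, Subtype.ext hay⟩
    exact (ext 𝔞 Λ).L_le_of_surjective (N := E'.restrictScalars A) g hg
  have hn : ∀ n (M : Type v) [AddCommGroup M] [Module A M],
      (preExt 𝔞 Λ).Ln n M ≤ ⨆ E : {E : Submodule A M // E.FG}, (ext 𝔞 Λ).L E.1 := by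
    intro n
    induction n with
    | zero => intro M _ _; simp
    | succ n ih =>
      intro M _ _
      rw [PreLen.Ln_succ]
      refine iSup_le fun N => ?_
      refine (add_le_add (hc _) (ih N)).trans ?_
      have : Nonempty {E : Submodule A (M ⧸ N) // E.FG} := ⟨⟨⊥, Submodule.fg_bot⟩⟩
      have : Nonempty {E : Submodule A N // E.FG} := ⟨⟨⊥, Submodule.fg_bot⟩⟩
      refine ENNReal.iSup_add_iSup_le fun E₁ E₂ => ?_
      obtain ⟨E, hE, hle⟩ := exists_fg_add_le (ext 𝔞 Λ) N E₁.1 E₂.1 E₁.2 E₂.2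
      exact hle.trans (_root_.le_iSup
        (fun E : {E : Submodule A M // E.FG} => (ext 𝔞 Λ).L E.1) ⟨E, hE⟩)
  intro M _ _ c h
  refine (iSup_le fun n => hn n M).trans ?_
  exact iSup_le fun E => h E.1 E.2

/-! ### Uniqueness -/

/-- two lengths that agree on modules killed by `𝔞` agree on modules killed by `𝔞 ^ n`. -/
theorem agree_pow (𝔞 : Ideal A) (Λ₁ Λ₂ : AddLen.{u, v} A)
    (h : ∀ (M : Type v) [AddCommGroup M] [Module A M], (∀ a ∈ 𝔞, ∀ x : M, a • x = 0) →
      Λ₁.L M = Λ₂.L M) (n : ℕ) (M : Type v) [AddCommGroup M] [Module A M]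
    (hM : ∀ a ∈ 𝔞 ^ n, ∀ x : M, a • x = 0) : Λ₁.L M = Λ₂.L M := by
  induction n generalizing M with
  | zero =>
    have : Subsingleton M := by
      refine subsingleton_of_forall_eq 0 fun x => ?_
      have := hM 1 (by simp) x
      rwa [one_smul] at this
    rw [Λ₁.L_subsingleton, Λ₂.L_subsingleton]
  | succ n ih =>
    rw [Λ₁.L_eq_add_quotient (𝔞 • (⊤ : Submodule A M)),
      Λ₂.L_eq_add_quotient (𝔞 • (⊤ : Submodule A M))]
    congr 1
    · refine ih _ fun a ha x => ?_
      obtain ⟨x, hx⟩ := x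
      apply Subtype.ext
      change a • x = 0
      refine Submodule.smul_induction_on hx ?_ ?_
      · intro b hb y _
        rw [smul_smul]
        exact hM _ (by rw [pow_succ]; exact Ideal.mul_mem_mul ha hb) y
      · intro y z hy hz
        rw [smul_add, hy, hz, add_zero]
    · refine h _ fun a ha x => ?_
      obtain ⟨x, rfl⟩ := Submodule.Quotient.mk_surjective _ x
      rw [← Submodule.Quotient.mk_smul, Submodule.Quotient.mk_eq_zero]
      exact Submodule.smul_mem_smul ha trivial

/-- elementwise power torsion, finitely generated: killed by a power. -/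
lemma kill_of_fg (𝔞 : Ideal A) {M : Type v} [AddCommGroup M] [Module A M]
    (hM : ∀ x : M, ∃ n, ∀ a ∈ 𝔞 ^ n, a • x = 0) (E : Submodule A M) (hE : E.FG) :
    ∃ n, ∀ a ∈ 𝔞 ^ n, ∀ x : E, a • x = 0 := by
  obtain ⟨s, rfl⟩ := hE
  classical
  choose k hk using hM
  refine ⟨s.sup k, fun a ha x => ?_⟩
  obtain ⟨x, hx⟩ := x
  apply Subtype.ext
  change a • x = 0
  induction hx using Submodule.span_induction with
  | mem y hy =>
    refine hk y a (Ideal.pow_le_pow_right ?_ ha)
    exact Finset.le_sup (f := k) (Finset.mem_coe.1 hy)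
  | zero => rw [smul_zero]
  | add y z _ _ hy hz => rw [smul_add, hy, hz, add_zero]
  | smul b y _ hy => rw [smul_comm, hy, smul_zero]


/-- the extension is the least length that dominates. -/
theorem ext_le (𝔞 : Ideal A) (Λ : AddLen.{u, v} (A ⧸ 𝔞)) (Λ' : AddLen.{u, v} A)
    (h : ∀ (M : Type v) [AddCommGroup M] [Module A M] [Module (A ⧸ 𝔞) M]
      [IsScalarTower A (A ⧸ 𝔞) M], Λ.L M ≤ Λ'.L M)
    (M : Type v) [AddCommGroup M] [Module A M] : (ext 𝔞 Λ).L M ≤ Λ'.L M := by
  refine (preExt 𝔞 Λ).L_le_of_le Λ' (fun M _ _ => ?_) M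
  refine (h (M ⧸ (𝔞 • (⊤ : Submodule A M)))).trans ?_
  exact Λ'.L_quotient_le _

end cont

section restrict

variable {A : Type u} [CommRing A] {B : Type*} [CommRing B]

/-- restriction preserves continuity. -/
theorem cont_restrict (Λ : AddLen.{u, v} A) (h : Cont Λ) (f : A →+* B) :
    Cont (Λ.restrict f) := by
  intro M _ _ c hc
  let _ : Module A M := Module.compHom M f
  have hsm : ∀ (a : A) (x : M), a • x = f a • x := fun a x => rfl
  rw [Λ.restrict_L f M hsm]
  refine h M c fun E hE => ?_
  obtain ⟨s, hs⟩ := hE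
  have h1 := hc (Submodule.span B (s : Set M)) ⟨s, rfl⟩
  refine le_trans ?_ h1
  have hle : ∀ x ∈ E, x ∈ Submodule.span B (s : Set M) := by
    intro x hx
    rw [← hs] at hx
    induction hx using Submodule.span_induction with
    | mem y hy => exact Submodule.subset_span hy
    | zero => exact Submodule.zero_mem _
    | add y z _ _ hy hz => exact Submodule.add_mem _ hy hz
    | smul a y _ hy => rw [hsm]; exact Submodule.smul_mem _ _ hy
  let _ : Module A (Submodule.span B (s : Set M)) := Module.compHom _ f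
  let i : E →ₗ[A] (Submodule.span B (s : Set M)) :=
    { toFun := fun x => ⟨x.1, hle x.1 x.2⟩
      map_add' := fun _ _ => rfl
      map_smul' := fun _ _ => rfl }
  have hi : Function.Injective i := fun x y hxy => by
    have h2 : (x : M) = (y : M) := congrArg (fun z : Submodule.span B (s : Set M) => (z : M)) hxy
    exact Subtype.ext h2
  exact Λ.L_le_of_injective i hi


/-- **extension along a surjection** `f : A → B`. -/
noncomputable def extf {B : Type u} [CommRing B] (f : A →+* B) (hf : Function.Surjective f)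
    (Λ : AddLen.{u, v} B) : AddLen.{u, v} A :=
  ext (RingHom.ker f)
    (Λ.restrict ((RingHom.quotientKerEquivOfSurjective hf).symm : B →+* A ⧸ RingHom.ker f))

theorem extf_cont {B : Type u} [CommRing B] (f : A →+* B) (hf : Function.Surjective f)
    (Λ : AddLen.{u, v} B) (h : Cont Λ) : Cont (extf f hf Λ) :=
  ext_cont _ _ (cont_restrict _ h _)

/-- on `B`-modules nothing changes. -/
theorem extf_L {B : Type u} [CommRing B] (f : A →+* B) (hf : Function.Surjective f)
    (Λ : AddLen.{u, v} B) (M : Type v) [AddCommGroup M] [Module A M] [Module B M]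
    (h : ∀ (a : A) (x : M), a • x = f a • x) : (extf f hf Λ).L M = Λ.L M := by
  let e := RingHom.quotientKerEquivOfSurjective hf
  let _ : Module (A ⧸ RingHom.ker f) M := Module.compHom M (e : (A ⧸ RingHom.ker f) →+* B)
  have hsm : ∀ (a : A ⧸ RingHom.ker f) (x : M), a • x = e a • x := fun _ _ => rfl
  have hst : IsScalarTower A (A ⧸ RingHom.ker f) M := ⟨fun a b x => by
    obtain ⟨b, rfl⟩ := Ideal.Quotient.mk_surjective b
    rw [hsm, hsm, h]
    have h1 : a • (Ideal.Quotient.mk (RingHom.ker f) b) = Ideal.Quotient.mk _ (a * b) := rfl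
    rw [h1]
    have h2 : ∀ c : A, e (Ideal.Quotient.mk (RingHom.ker f) c) = f c := fun c => rfl
    rw [h2, h2, map_mul, mul_smul]⟩
  rw [extf, ext_L]
  refine Λ.restrict_L _ M fun b x => ?_
  rw [hsm]
  congr 1
  exact (e.apply_symm_apply b).symm

end restrict

end Crest.Agent.R188.LenW
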