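import Mathlib
import Crest.Agent.R183.AddLen
import Crest.Agent.R188.Wit4
import Crest.Agent.R188.Wit5
import Crest.Agent.R183.AddLenInst
import Crest.Agent.R188.LenW1

-- ▼ part R188/FinA1
section

/-!
# R188, block FINA (helper414), part 1: the abstract finiteness argument (7113 (III))
-/

set_option autoImplicit false

namespace Crest.Agent.R188.FinA

open scoped ENNReal
open Crest.Agent.R183

universe u

section facts

variable {A : Type u} [CommRing A] (Λ : AddLen.{u, u} A)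

/-- The length is the supremum over the finitely generated submodules. -/
def Cont : Prop := ∀ (X : Type u) [AddCommGroup X] [Module A X] (c : ℝ≥0∞),
  (∀ N : Submodule A X, N.FG → Λ.L N ≤ c) → Λ.L X ≤ c

variable {X Y : Type u} [AddCommGroup X] [Module A X] [AddCommGroup Y] [Module A Y]

/-- multiplication by `a` -/
abbrev mulL (X : Type u) [AddCommGroup X] [Module A X] (a : A) : X →ₗ[A] X :=
  LinearMap.lsmul A X a

/-- `L(X[a]) = L(X/aX)` when `L(X) < ∞`. -/
theorem L_ker_eq (a : A) (h : Λ.L X ≠ ⊤) :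
    Λ.L (LinearMap.ker (mulL X a)) = Λ.L (X ⧸ LinearMap.range (mulL X a)) := by
  have h1 := Λ.L_ker_add_range (mulL X a)
  have h2 := Λ.L_eq_add_quotient (LinearMap.range (mulL X a))
  have h3 : Λ.L (LinearMap.range (mulL X a)) ≠ ⊤ := ne_top_of_le_ne_top h (Λ.L_submodule_le _)
  rw [h1, add_comm] at h2
  exact (ENNReal.add_right_inj h3).1 h2

/-- finitely many generators -/
theorem L_le_card_mul (J : Ideal A) (hJ : ∀ a ∈ J, ∀ x : X, a • x = 0) (n : ℕ) (g : Fin n → X)
    (hg : Submodule.span A (Set.range g) = ⊤) : Λ.L X ≤ n * Λ.L (A ⧸ J) := by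
  rw [← Λ.L_finset_pi]
  let f : (Fin n → A) →ₗ[A] X := Fintype.linearCombination A g
  have hf : ∀ v : Fin n → A, f v = ∑ i, v i • g i := fun v => Fintype.linearCombination_apply A g v
  let f' : (Fin n → A ⧸ J) →ₗ[A] X := ∑ i : Fin n,
    (Submodule.liftQ J (LinearMap.toSpanSingleton A X (g i)) (by
      intro a ha
      rw [LinearMap.mem_ker, LinearMap.toSpanSingleton_apply]
      exact hJ a ha _)) ∘ₗ LinearMap.proj i
  refine Λ.L_le_of_surjective f' ?_
  intro x
  have hx : x ∈ Submodule.span A (Set.range g) := by rw [hg]; trivial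
  obtain ⟨v, hv⟩ := (Submodule.mem_span_range_iff_exists_fun A).1 hx
  refine ⟨fun i => Submodule.Quotient.mk (v i), ?_⟩
  rw [← hv]
  simp only [f', LinearMap.coe_sum, Finset.sum_apply, LinearMap.comp_apply, LinearMap.proj_apply]
  refine Finset.sum_congr rfl fun i _ => ?_
  exact Submodule.liftQ_apply J (LinearMap.toSpanSingleton A X (g i)) (v i)

/-- the same for a finitely generated submodule -/
theorem exists_card_bound (N : Submodule A X) (hN : N.FG) : ∃ n : ℕ,
    (∀ J : Ideal A, (∀ a ∈ J, ∀ x : X, a • x = 0) → Λ.L N ≤ n * Λ.L (A ⧸ J)) ∧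
    (∀ (J : Ideal A) (h : A), (∀ a ∈ J, ∀ x : X, a • x = 0) →
      Λ.L (N ⧸ LinearMap.range (mulL N h)) ≤ n * Λ.L (A ⧸ (J ⊔ Ideal.span {h}))) := by
  obtain ⟨n, g, hg⟩ := Submodule.fg_iff_exists_fin_generating_family.1 hN
  have hmem : ∀ i, g i ∈ N := fun i => by
    rw [← hg]; exact Submodule.subset_span ⟨i, rfl⟩
  let g' : Fin n → N := fun i => ⟨g i, hmem i⟩
  have hg' : Submodule.span A (Set.range g') = ⊤ := by
    apply Submodule.map_injective_of_injective N.subtype_injective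
    rw [Submodule.map_span, Submodule.map_top, Submodule.range_subtype]
    refine Eq.trans ?_ hg
    congr 1
    ext x
    simp only [Set.mem_image, Set.mem_range, exists_exists_eq_and]
    rfl
  refine ⟨n, fun J hJ => ?_, fun J h hJ => ?_⟩
  · exact L_le_card_mul Λ J (fun a ha x => Subtype.ext (hJ a ha x)) n g' hg'
  · refine L_le_card_mul Λ _ ?_ n (fun i => Submodule.Quotient.mk (g' i)) ?_
    · intro a ha x
      obtain ⟨x, rfl⟩ := Submodule.Quotient.mk_surjective _ x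
      rw [← Submodule.Quotient.mk_smul, Submodule.Quotient.mk_eq_zero]
      obtain ⟨b, hb, c, hc, rfl⟩ := Submodule.mem_sup.1 ha
      obtain ⟨d, rfl⟩ := Ideal.mem_span_singleton'.1 hc
      refine ⟨d • x, ?_⟩
      apply Subtype.ext
      show h • (d • (x : X)) = (b + d * h) • (x : X)
      rw [add_smul, hJ b hb, zero_add, smul_smul, mul_comm]
    · rw [eq_top_iff]
      rintro x _
      obtain ⟨x, rfl⟩ := Submodule.Quotient.mk_surjective _ x
      have hx : x ∈ Submodule.span A (Set.range g') := by rw [hg']; trivial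
      have := Submodule.mem_map_of_mem (f := (LinearMap.range (mulL N h)).mkQ) hx
      rw [Submodule.map_span, ← Set.range_comp] at this
      exact this

/-- The sup argument of 7113 (III): if `X` is killed by `𝔶` with `L(A/𝔶) < ∞`, and for every `q`
there is a submodule `K q` killed by `h q` with `L(X / K q) ≤ c`, where `L(A/(𝔶 + h q)) → 0`, then
`L(X) ≤ c`. -/
theorem L_le_of_almost (hc : Cont Λ) (𝔶 : Ideal A) (h𝔶 : ∀ a ∈ 𝔶, ∀ x : X, a • x = 0)
    (hfin : Λ.L (A ⧸ 𝔶) ≠ ⊤) {ι : Type*} (h : ι → A) (K : ι → Submodule A X)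
    (hK : ∀ q, ∀ x ∈ K q, h q • x = 0) (c : ℝ≥0∞) (hcK : ∀ q, Λ.L (X ⧸ K q) ≤ c)
    (hnull : ∀ ε : ℝ≥0∞, 0 < ε → ∃ q, Λ.L (A ⧸ (𝔶 ⊔ Ideal.span {h q})) ≤ ε) : Λ.L X ≤ c := by
  refine hc X c fun N hN => ?_
  obtain ⟨n, hn1, hn2⟩ := exists_card_bound Λ N hN
  have hNfin : Λ.L N ≠ ⊤ :=
    ne_top_of_le_ne_top (ENNReal.mul_ne_top (ENNReal.natCast_ne_top n) hfin) (hn1 𝔶 h𝔶)
  have key : ∀ q, Λ.L N ≤ c + n * Λ.L (A ⧸ (𝔶 ⊔ Ideal.span {h q})) := by
    intro q
    rw [Λ.L_eq_add_quotient ((K q).comap N.subtype), add_comm]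
    refine add_le_add ?_ ?_
    · refine le_trans ?_ (hcK q)
      refine Λ.L_le_of_injective (Submodule.mapQ _ (K q) N.subtype le_rfl) ?_
      rw [← LinearMap.ker_eq_bot, Submodule.ker_mapQ]
      simp
    · refine le_trans ?_ (hn2 𝔶 (h q) h𝔶)
      rw [← L_ker_eq Λ (h q) hNfin]
      refine Λ.L_le_of_injective (Submodule.inclusion ?_) (Submodule.inclusion_injective _)
      intro x hx
      rw [LinearMap.mem_ker]
      exact Subtype.ext (hK q x.1 hx)
  rcases Nat.eq_zero_or_pos n with hn0 | hn0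
  · subst hn0
    by_cases hι : Nonempty ι
    · obtain ⟨q⟩ := hι
      simpa using key q
    · exfalso
      obtain ⟨q, _⟩ := hnull 1 one_pos
      exact hι ⟨q⟩
  refine ENNReal.le_of_forall_pos_le_add fun ε hε _ => ?_
  have hn1' : (n : ℝ≥0∞) ≠ 0 := by exact_mod_cast hn0.ne'
  obtain ⟨q, hq⟩ := hnull (ε / n) (ENNReal.div_pos (by exact_mod_cast hε.ne')
    (ENNReal.natCast_ne_top n))
  refine (key q).trans (add_le_add le_rfl ?_)
  refine (mul_le_mul_right hq _).trans ?_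
  rw [ENNReal.mul_div_cancel hn1' (ENNReal.natCast_ne_top n)]

end facts

section noeth

variable {A : Type u} [CommRing A] (Λ : AddLen.{u, u} A)

/-- one step: if `W'' ≤ W` and `W` is generated by `W''` and `w`, `J W ≤ W''`. -/
theorem L_quot_le_one {W : Type u} [AddCommGroup W] [Module A W] (W'' : Submodule A W) (w : W)
    (J : Ideal A) (hJ : ∀ a ∈ J, ∀ x : W, a • x ∈ W'')
    (hw : W'' ⊔ Submodule.span A {w} = ⊤) : Λ.L (W ⧸ W'') ≤ Λ.L (A ⧸ J) := by
  have := L_le_card_mul Λ (X := W ⧸ W'') J ?_ 1 (fun _ => Submodule.Quotient.mk w) ?_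
  · simpa using this
  · intro a ha x
    obtain ⟨x, rfl⟩ := Submodule.Quotient.mk_surjective _ x
    rw [← Submodule.Quotient.mk_smul, Submodule.Quotient.mk_eq_zero]
    exact hJ a ha x
  · rw [eq_top_iff]
    rintro x _
    obtain ⟨x, rfl⟩ := Submodule.Quotient.mk_surjective _ x
    have hx : x ∈ W'' ⊔ Submodule.span A {w} := by rw [hw]; trivial
    obtain ⟨y, hy, z, hz, rfl⟩ := Submodule.mem_sup.1 hx
    obtain ⟨a, rfl⟩ := Submodule.mem_span_singleton.1 hz
    have h0 : (Submodule.Quotient.mk y : W ⧸ W'') = 0 := (Submodule.Quotient.mk_eq_zero _).2 hy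
    rw [Submodule.Quotient.mk_add, h0, zero_add, Submodule.Quotient.mk_smul]
    exact Submodule.smul_mem _ _ (Submodule.subset_span ⟨0, rfl⟩)

/-- `L(W) ≤ length(Z) L(A/𝔪A)` if `W` is the `A`-span of the image of `Z`. -/
theorem L_le_length_mul_aux {R : Type*} [CommRing R] [IsLocalRing R] (φ : R →+* A) (n : ℕ) :
    ∀ {Z : Type u} [AddCommGroup Z] [Module R Z] {W : Type u} [AddCommGroup W] [Module A W]
      (f : Z →+ W) (_ : ∀ (r : R) (z : Z), f (r • z) = φ r • f z)
      (_ : Submodule.span A (Set.range f) = ⊤) (_ : Module.length R Z = n),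
    Λ.L W ≤ n * Λ.L (A ⧸ (IsLocalRing.maximalIdeal R).map φ) := by
  induction n with
  | zero =>
    intro Z _ _ W _ _ f hf hs hn
    have hZ : Subsingleton Z := Module.length_eq_zero_iff.1 (by simpa using hn)
    have hW : Subsingleton W := by
      rw [← Submodule.subsingleton_iff A]
      constructor
      have h0 : Submodule.span A (Set.range f) = ⊥ := by
        rw [Submodule.span_eq_bot]
        rintro _ ⟨z, rfl⟩
        rw [Subsingleton.elim z 0, map_zero]
      have h1 : (⊤ : Submodule A W) = ⊥ := hs.symm.trans h0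
      intro a b
      have ha : a = ⊥ := le_bot_iff.1 (h1 ▸ le_top)
      have hb : b = ⊥ := le_bot_iff.1 (h1 ▸ le_top)
      rw [ha, hb]
    rw [Λ.L_subsingleton]; simp
  | succ n ih =>
    intro Z _ _ W _ _ f hf hs hn
    have hfl : IsFiniteLength R Z := by
      rw [← Module.length_ne_top_iff, hn]
      exact ENat.natCast_ne_top _
    have hNA := isFiniteLength_iff_isNoetherian_isArtinian.1 hfl
    have : IsNoetherian R Z := hNA.1
    have hnt : Nontrivial Z := by
      rw [← not_subsingleton_iff_nontrivial]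
      intro h
      have := (Module.length_eq_zero_iff (R := R)).2 h
      rw [hn] at this
      simp at this
    obtain ⟨Z', hZ', -⟩ : ∃ Z' : Submodule R Z, IsCoatom Z' ∧ ⊥ ≤ Z' :=
      (eq_top_or_exists_le_coatom (⊥ : Submodule R Z)).resolve_left bot_ne_top
    have hsimple : IsSimpleModule R (Z ⧸ Z') := isSimpleModule_iff_isCoatom.2 hZ'
    have hlen : Module.length R Z = Module.length R Z' + Module.length R (Z ⧸ Z') :=
      Module.length_eq_add_of_exact Z'.subtype Z'.mkQ Z'.subtype_injective Z'.mkQ_surjective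
        (LinearMap.exact_subtype_mkQ Z')
    rw [Module.length_eq_one R (Z ⧸ Z'), hn] at hlen
    have hlen' : Module.length R Z' = n := by
      have h1 : ((n : ℕ∞) + 1) = Module.length R Z' + 1 := by rw [← hlen]; push_cast; rfl
      exact (ENat.add_left_injective_of_ne_top (n := 1) (by simp) h1).symm
    have hm : ∀ r ∈ IsLocalRing.maximalIdeal R, ∀ z : Z, r • z ∈ Z' := by
      intro r hr z
      have h1 : Module.annihilator R (Z ⧸ Z') = IsLocalRing.maximalIdeal R :=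
        IsLocalRing.eq_maximalIdeal (IsSimpleModule.annihilator_isMaximal)
      have h2 : r ∈ Module.annihilator R (Z ⧸ Z') := by rw [h1]; exact hr
      have h3 := Module.mem_annihilator.1 h2 (Submodule.Quotient.mk z)
      rwa [← Submodule.Quotient.mk_smul, Submodule.Quotient.mk_eq_zero] at h3
    obtain ⟨z0, hz0⟩ : ∃ z0, z0 ∉ Z' := by
      by_contra h
      push Not at h
      exact hZ'.1 (eq_top_iff.2 fun x _ => h x)
    have hZtop : Z' ⊔ Submodule.span R {z0} = ⊤ := by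
      refine hZ'.2 _ (lt_of_le_of_ne le_sup_left fun h => hz0 ?_)
      rw [h]
      exact Submodule.mem_sup_right (Submodule.mem_span_singleton_self z0)
    set W' : Submodule A W := Submodule.span A (f '' (Z' : Set Z)) with hW'
    have hfW : ∀ z ∈ Z', f z ∈ W' := fun z hz => Submodule.subset_span ⟨z, hz, rfl⟩
    rw [Λ.L_eq_add_quotient W']
    have h1 : Λ.L W' ≤ n * Λ.L (A ⧸ (IsLocalRing.maximalIdeal R).map φ) := by
      let f' : Z' →+ W' :=
        { toFun := fun z => ⟨f z, hfW z z.2⟩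
          map_zero' := Subtype.ext (map_zero f)
          map_add' := fun a b => Subtype.ext (map_add f _ _) }
      refine ih f' (fun r z => Subtype.ext (hf r z)) ?_ hlen'
      apply Submodule.map_injective_of_injective W'.subtype_injective
      rw [Submodule.map_span, Submodule.map_top, Submodule.range_subtype]
      refine Eq.trans ?_ hW'.symm
      congr 1
      ext x
      constructor
      · rintro ⟨_, ⟨z, rfl⟩, rfl⟩
        exact ⟨z, z.2, rfl⟩
      · rintro ⟨z, hz, rfl⟩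
        exact ⟨_, ⟨⟨z, hz⟩, rfl⟩, rfl⟩
    have h2 : Λ.L (W ⧸ W') ≤ Λ.L (A ⧸ (IsLocalRing.maximalIdeal R).map φ) := by
      refine L_quot_le_one Λ W' (f z0) _ ?_ ?_
      · intro a ha x
        have hx : x ∈ Submodule.span A (Set.range f) := by rw [hs]; trivial
        induction hx using Submodule.span_induction with
        | mem x hx =>
          obtain ⟨z, rfl⟩ := hx
          refine Submodule.span_induction (p := fun a _ => a • f z ∈ W') ?_ ?_ ?_ ?_ ha
          · rintro _ ⟨r, hr, rfl⟩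
            rw [← hf]
            exact hfW _ (hm r hr z)
          · simp
          · intro a b _ _ ha hb
            rw [add_smul]; exact add_mem ha hb
          · intro a b _ hb
            rw [smul_eq_mul, mul_smul]; exact Submodule.smul_mem _ _ hb
        | zero => simp
        | add x y _ _ hx hy => rw [smul_add]; exact add_mem hx hy
        | smul b x _ hx => rw [smul_comm]; exact Submodule.smul_mem _ _ hx
      · rw [eq_top_iff, ← hs, Submodule.span_le]
        rintro _ ⟨z, rfl⟩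
        have hz : z ∈ Z' ⊔ Submodule.span R {z0} := by rw [hZtop]; trivial
        obtain ⟨y, hy, w, hw, rfl⟩ := Submodule.mem_sup.1 hz
        obtain ⟨r, rfl⟩ := Submodule.mem_span_singleton.1 hw
        rw [map_add, hf]
        exact add_mem (Submodule.mem_sup_left (hfW y hy))
          (Submodule.mem_sup_right (Submodule.smul_mem _ _ (Submodule.mem_span_singleton_self _)))
    push_cast
    rw [add_mul, one_mul]
    exact add_le_add h1 h2

/-- `L(W) ≤ length(Z) L(A/𝔪A)` if `W` is the `A`-span of the image of `Z`. -/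
theorem L_le_length_mul {R : Type*} [CommRing R] [IsLocalRing R] (φ : R →+* A)
    {Z : Type u} [AddCommGroup Z] [Module R Z] {W : Type u} [AddCommGroup W] [Module A W]
    (f : Z →+ W) (hf : ∀ (r : R) (z : Z), f (r • z) = φ r • f z)
    (hs : Submodule.span A (Set.range f) = ⊤) {n : ℕ} (hn : Module.length R Z ≤ n) :
    Λ.L W ≤ n * Λ.L (A ⧸ (IsLocalRing.maximalIdeal R).map φ) := by
  obtain ⟨m, hm⟩ := ENat.ne_top_iff_exists.1 (ne_top_of_le_ne_top (ENat.natCast_ne_top n) hn)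
  refine (L_le_length_mul_aux Λ φ m f hf hs hm.symm).trans ?_
  rw [← hm] at hn
  have : m ≤ n := by exact_mod_cast hn
  gcongr

end noeth

end Crest.Agent.R188.FinA
end

-- ▼ part R188/WitLen
section

set_option autoImplicit false
set_option linter.unusedSectionVars false
set_option linter.unusedVariables false
set_option linter.style.haveILetI false

namespace Crest.Agent.R188.Wit

open Function Crest.Agent.R183
open scoped Pointwise ENNReal

universe u v

variable {A : Type u} [CommRing A]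

section SES

variable {x : A} {M N P : Type v} [AddCommGroup M] [Module A M] [AddCommGroup N] [Module A N]
  [AddCommGroup P] [Module A P] {f : M →ₗ[A] N} {g : N →ₗ[A] P}

lemma quotSMulTop_map_injective (hf : Injective f) (hg : Surjective g) (hfg : Exact f g)
    (hP : Tf x P) : Injective (QuotSMulTop.map x f) := by
  rw [injective_iff_map_eq_zero]
  intro m hm
  obtain ⟨m, rfl⟩ := Submodule.Quotient.mk_surjective _ m
  rw [QuotSMulTop.map_apply_mk, Submodule.Quotient.mk_eq_zero, mem_smul_top] at hm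
  obtain ⟨n, hn⟩ := hm
  have h1 : g n = 0 := by
    apply hP
    rw [← map_smul, ← hn]
    exact hfg.apply_apply_eq_zero m
  obtain ⟨m', rfl⟩ := (hfg n).1 h1
  rw [← map_smul] at hn
  rw [Submodule.Quotient.mk_eq_zero, mem_smul_top]
  exact ⟨m', hf hn⟩

lemma quotSMulTop_map_surjective (hg : Surjective g) : Surjective (QuotSMulTop.map x g) := by
  intro y
  obtain ⟨y, rfl⟩ := Submodule.Quotient.mk_surjective _ y
  obtain ⟨n, rfl⟩ := hg y
  exact ⟨Submodule.Quotient.mk n, rfl⟩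

lemma quotSMulTop_map_exact (hg : Surjective g) (hfg : Exact f g) :
    Exact (QuotSMulTop.map x f) (QuotSMulTop.map x g) :=
  (exMod_iff (a := x) fun m => hfg.apply_apply_eq_zero m).1 (exMod_of_exact_last hfg hg)

/-- additivity of the length modulo `x` when `x` is regular on the cokernel. -/
lemma L_quotSMulTop_add (Λ : AddLen.{u, v} A) (hf : Injective f) (hg : Surjective g)
    (hfg : Exact f g) (hP : Tf x P) :
    Λ.L (QuotSMulTop x N) = Λ.L (QuotSMulTop x M) + Λ.L (QuotSMulTop x P) :=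
  Λ.add' (QuotSMulTop.map x f) (QuotSMulTop.map x g) (quotSMulTop_map_injective hf hg hfg hP)
    (quotSMulTop_map_surjective hg) (quotSMulTop_map_exact hg hfg)

end SES

section DXI

variable {a c u : A}

lemma pow_mul_of_xi {D : Type v} [AddCommGroup D] [Module A D] {x : D}
    (hx : (c + a * u) • x = 0) (M : ℕ) : (a * u) ^ M • x = (-c) ^ M • x := by
  induction M with
  | zero => simp
  | succ M ih =>
    have h1 : (a * u) • x = (-c) • x := by
      rw [add_smul] at hx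
      rw [neg_smul]
      exact eq_neg_of_add_eq_zero_right hx
    rw [pow_succ', mul_smul, ih, smul_comm, h1, smul_smul, ← pow_succ]

/-- `ξ = c + a u` is regular on `a`-torsion free `c`-nilpotent modules. -/
theorem tf_xi (hu : IsUnit u) {D : Type v} [AddCommGroup D] [Module A D] (ha : Tf a D) {M : ℕ}
    (hc : ∀ x : D, c ^ M • x = 0) : Tf (c + a * u) D := by
  intro x hx
  have h1 := pow_mul_of_xi hx M
  rw [neg_pow, mul_smul, hc, smul_zero, mul_pow, mul_smul] at h1
  have h2 := ha.pow M _ h1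
  exact (hu.pow M).smul_eq_zero.1 h2

/-- **(DXI)** `L(D/ξ) = L(D/a)`. -/
theorem L_xi_eq (Λ : AddLen.{u, v} A) (hu : IsUnit u) (M : ℕ) :
    ∀ {D : Type v} [AddCommGroup D] [Module A D] (_ : Tf a D) (_ : ∀ x : D, c ^ M • x = 0),
      Λ.L (QuotSMulTop (c + a * u) D) = Λ.L (QuotSMulTop a D) := by
  induction M with
  | zero =>
    intro D _ _ ha hc
    haveI : Subsingleton D := ⟨fun x y => by
      have h1 := hc x
      have h2 := hc y
      rw [pow_zero, one_smul] at h1 h2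
      rw [h1, h2]⟩
    haveI : Subsingleton (QuotSMulTop (c + a * u) D) := Submodule.Quotient.subsingleton_iff.2 (by
      rw [eq_top_iff]; intro x _; rw [Subsingleton.elim x 0]; exact zero_mem _)
    haveI : Subsingleton (QuotSMulTop a D) := Submodule.Quotient.subsingleton_iff.2 (by
      rw [eq_top_iff]; intro x _; rw [Subsingleton.elim x 0]; exact zero_mem _)
    rw [Λ.L_subsingleton, Λ.L_subsingleton]
  | succ M ih =>
    intro D _ _ ha hc
    -- `0 → ker c → D → c D → 0`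
    let φ : D →ₗ[A] D := LinearMap.lsmul A D c
    have hφ : ∀ x, φ x = c • x := fun x => rfl
    let K := LinearMap.ker φ
    let Rg := LinearMap.range φ
    have hK : Tf a K := Tf.sub (f := K.subtype) K.injective_subtype ha
    have hR : Tf a Rg := Tf.sub (f := Rg.subtype) Rg.injective_subtype ha
    have hRc : ∀ x : Rg, c ^ M • x = 0 := by
      rintro ⟨_, y, rfl⟩
      apply Subtype.ext
      show c ^ M • φ y = 0
      rw [hφ, smul_smul, ← pow_succ]
      exact hc y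
    have hRξ : Tf (c + a * u) Rg := tf_xi hu hR hRc
    have e1 := L_quotSMulTop_add (x := c + a * u) Λ (Submodule.injective_subtype K)
      φ.surjective_rangeRestrict (by
        intro x
        rw [← LinearMap.mem_ker, LinearMap.ker_rangeRestrict]
        simp [K]) hRξ
    have e2 := L_quotSMulTop_add (x := a) Λ (Submodule.injective_subtype K)
      φ.surjective_rangeRestrict (by
        intro x
        rw [← LinearMap.mem_ker, LinearMap.ker_rangeRestrict]
        simp [K]) hR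
    rw [e1, e2, ih hR hRc]
    congr 1
    -- on `K` we have `ξ = a u`
    apply Λ.L_congr
    refine Submodule.quotEquivOfEq _ _ ?_
    ext x
    rw [mem_smul_top, mem_smul_top]
    have hcK : ∀ y : K, c • y = 0 := by
      rintro ⟨y, hy⟩
      exact Subtype.ext hy
    obtain ⟨w, rfl⟩ := hu
    constructor
    · rintro ⟨y, rfl⟩
      exact ⟨(w : A) • y, by rw [add_smul, hcK, zero_add, mul_smul]⟩
    · rintro ⟨y, rfl⟩
      refine ⟨((w⁻¹ : Aˣ) : A) • y, ?_⟩
      rw [add_smul, hcK, zero_add, smul_smul, mul_assoc, Units.mul_inv, mul_one]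


end DXI

end Crest.Agent.R188.Wit
end

-- ▼ part R188/FinA2
section

/-!
# R188, block FINA (helper414), part 2: lengths of closed-ideal quotients over `P` and over `Om ξ`
-/

set_option autoImplicit false
set_option linter.unusedSectionVars false
set_option linter.style.haveILetI false

namespace Crest.Agent.R188.FinA

open scoped ENNReal Pointwise
open WittVector Function Crest.Agent.R188.Prf Crest.Agent.R188.Wit Crest.Agent.R183

universe u

section semi

variable {A : Type u} {B : Type*} [CommRing A] [CommRing B] (Λ : AddLen.{u, u} A) (φ : A →+* B)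
variable {X : Type u} [AddCommGroup X] [Module A X] {Y : Type u} [AddCommGroup Y] [Module B Y]

/-- a semilinear surjection with kernel `N` up to null. -/
theorem L_eq_of_semilinear (f : X →+ Y) (hf : ∀ a x, f (a • x) = φ a • f x) (hs : Surjective f)
    (N : Submodule A X) (hN : ∀ x ∈ N, f x = 0)
    (hnull : ∀ K : Submodule A X, (∀ x ∈ K, f x = 0) → Λ.L (K.map N.mkQ) = 0) :
    (Λ.restrict φ).L Y = Λ.L (X ⧸ N) := by
  letI : Module A Y := Module.compHom Y φ
  rw [Λ.restrict_L φ Y (fun _ _ => rfl)]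
  let F : X →ₗ[A] Y := { toFun := f, map_add' := f.map_add, map_smul' := fun a x => hf a x }
  have hNF : N ≤ LinearMap.ker F := fun x hx => hN x hx
  let G : (X ⧸ N) →ₗ[A] Y := N.liftQ F hNF
  have hG : Surjective G := by
    intro y
    obtain ⟨x, rfl⟩ := hs y
    exact ⟨N.mkQ x, rfl⟩
  have hk : LinearMap.ker G = (LinearMap.ker F).map N.mkQ := Submodule.ker_liftQ _ _ _
  have h1 := Λ.L_ker_add_range G
  rw [hk, hnull _ (fun x hx => hx), zero_add] at h1
  rw [h1, LinearMap.range_eq_top.2 hG]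
  exact (Λ.L_congr Submodule.topEquiv).symm


end semi

section transfer

variable {p : ℕ} [hp : Fact p.Prime] {P : Type u} [CommRing P] (hP : IsPerf p P)

local notation "𝕎" => WittVector p
local notation "τ" => WittVector.teichmuller p

open Crest.Agent.R183.Digit (Convex)

/-- the quotient `W~(I)/W~(I ⊓ I')`. -/
abbrev XW (I I' : Ideal P) : Type u :=
  ↥(WI hP.p_zero I) ⧸ (WI hP.p_zero (I ⊓ I')).submoduleOf (WI hP.p_zero I)

/-- `J(I) = θ(W~(I))` -/
noncomputable abbrev JI (ξ : 𝕎 P) (I : Ideal P) : Ideal (Om ξ) := (WI hP.p_zero I).map (θ ξ)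

variable {hP} in
lemma mem_JI {ξ : 𝕎 P} {I : Ideal P} {x : Om ξ} :
    x ∈ JI hP ξ I ↔ ∃ y ∈ WI hP.p_zero I, θ ξ y = x :=
  Ideal.mem_map_iff_of_surjective _ (θ_surjective ξ)

/-- `W~(I)/W~(I ⊓ I')` is `p`-torsion free. -/
lemma tf_XW {I I' : Ideal P} (hI : Convex p I) (hI' : Convex p I') :
    Tf (p : 𝕎 P) (XW hP I I') := by
  intro x hx
  obtain ⟨x, rfl⟩ := Submodule.Quotient.mk_surjective _ x
  rw [← Submodule.Quotient.mk_smul, Submodule.Quotient.mk_eq_zero] at hx
  rw [Submodule.Quotient.mk_eq_zero]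
  exact WI_of_p_mul_mem hP (Convex.inf hI hI') hx

lemma teich_smul_XW {I I' : Ideal P} (hI : Convex p I) (hI' : Convex p I') {a : P}
    (ha : ∀ x ∈ I, a * x ∈ I') (x : XW hP I I') : τ a • x = 0 := by
  obtain ⟨x, rfl⟩ := Submodule.Quotient.mk_surjective _ x
  rw [← Submodule.Quotient.mk_smul, Submodule.Quotient.mk_eq_zero]
  show τ a * (x : 𝕎 P) ∈ WI hP.p_zero (I ⊓ I')
  rw [WI_inf hP hI hI']
  exact ⟨Ideal.mul_mem_left _ _ x.2, teich_mul_mem_WI ha x.2⟩

/-- `L_P(I/(I ⊓ I')) = L(X/p)`. -/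
theorem L_quot_P (Λ : AddLen.{u, u} (𝕎 P)) {I I' : Ideal P} (hI : Convex p I)
    (_ : Convex p I') :
    (Λ.restrict (constantCoeff : 𝕎 P →+* P)).L (↥I ⧸ (I ⊓ I').submoduleOf I) =
      Λ.L (QuotSMulTop (p : 𝕎 P) (XW hP I I')) := by
  let f0 : ↥(WI hP.p_zero I) →+ ↥I :=
    { toFun := fun x => ⟨(x : 𝕎 P).coeff 0, coeff_zero_mem_of_WI x.2⟩
      map_zero' := Subtype.ext (by simp)
      map_add' := fun x y => Subtype.ext (by
        show constantCoeff ((x : 𝕎 P) + (y : 𝕎 P)) =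
          constantCoeff (x : 𝕎 P) + constantCoeff (y : 𝕎 P)
        rw [map_add]) }
  let f : XW hP I I' →+ (↥I ⧸ (I ⊓ I').submoduleOf I) :=
    QuotientAddGroup.map _ _ f0 (by
      intro x hx
      exact coeff_zero_mem_of_WI (h0 := hP.p_zero) (I := I ⊓ I') hx)
  have hfmk : ∀ x, f (Submodule.Quotient.mk x) = Submodule.Quotient.mk (f0 x) := fun x => rfl
  refine L_eq_of_semilinear Λ _ f ?_ ?_ _ ?_ ?_
  · intro a x
    obtain ⟨x, rfl⟩ := Submodule.Quotient.mk_surjective _ x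
    rw [← Submodule.Quotient.mk_smul, hfmk, hfmk, ← Submodule.Quotient.mk_smul]
    exact congrArg _ (Subtype.ext (map_mul constantCoeff a (x : 𝕎 P)))
  · intro y
    obtain ⟨y, rfl⟩ := Submodule.Quotient.mk_surjective _ y
    refine ⟨Submodule.Quotient.mk ⟨τ (y : P), teich_mem_WI y.2⟩, ?_⟩
    rw [hfmk]
    exact congrArg _ (Subtype.ext (teichmuller_coeff_zero p (y : P)))
  · intro x hx
    rw [mem_smul_top] at hx
    obtain ⟨y, rfl⟩ := hx
    obtain ⟨y, rfl⟩ := Submodule.Quotient.mk_surjective _ y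
    rw [← Submodule.Quotient.mk_smul, hfmk, Submodule.Quotient.mk_eq_zero]
    have h1 : (f0 ((p : 𝕎 P) • y) : P) = 0 := by
      show constantCoeff ((p : 𝕎 P) * (y : 𝕎 P)) = 0
      rw [map_mul, map_natCast, hP.p_zero, zero_mul]
    show (f0 ((p : 𝕎 P) • y) : P) ∈ I ⊓ I'
    rw [h1]
    exact zero_mem _
  · intro K hK
    have : K.map (Submodule.mkQ ((p : 𝕎 P) • (⊤ : Submodule (𝕎 P) (XW hP I I')))) = ⊥ := by
      rw [eq_bot_iff, Submodule.map_le_iff_le_comap]
      intro x hx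
      rw [Submodule.mem_comap, Submodule.mem_bot, Submodule.mkQ_apply,
        Submodule.Quotient.mk_eq_zero, mem_smul_top]
      have h0 := hK x hx
      obtain ⟨x, rfl⟩ := Submodule.Quotient.mk_surjective _ x
      rw [hfmk, Submodule.Quotient.mk_eq_zero] at h0
      have h1 : (x : 𝕎 P).coeff 0 ∈ I ⊓ I' := h0
      obtain ⟨y, hy, hxy⟩ := WI_exists_eq_teich_add hP hI x.2
      refine ⟨Submodule.Quotient.mk ⟨y, hy⟩, ?_⟩
      rw [← Submodule.Quotient.mk_smul, ← sub_eq_zero, ← Submodule.Quotient.mk_sub,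
        Submodule.Quotient.mk_eq_zero]
      show (x : 𝕎 P) - (p : 𝕎 P) * y ∈ WI hP.p_zero (I ⊓ I')
      have : (x : 𝕎 P) - (p : 𝕎 P) * y = τ ((x : 𝕎 P).coeff 0) := by
        nth_rewrite 1 [hxy]; ring
      rw [this]
      exact teich_mem_WI h1
    rw [this]
    exact Λ.L_subsingleton

/-- key point: the kernel of `W~(I)/W~(I ⊓ I') → J(I)/(J(I) ⊓ J(I'))` modulo `ξ` is null. -/
theorem ker_null {ξ : 𝕎 P} {π : P} (hξ : IsDist ξ π) {I I' I0 : Ideal P} (hI : Convex p I)
    (hI' : Convex p I') (hI0 : Convex p I0) (h1 : I ≤ I0) (h2 : I' ≤ I0) {M : ℕ}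
    (hπ : ∀ x ∈ I0, π ^ M * x ∈ I') {c : P} (hc : c ∈ I0) (k : ℕ) {x : 𝕎 P}
    (hx : x ∈ WI hP.p_zero I) (hx' : θ ξ x ∈ JI hP ξ I') :
    ∃ y ∈ WI hP.p_zero I, τ (hP.rtn k c) * x - ξ * y ∈ WI hP.p_zero (I ⊓ I') := by
  obtain ⟨b, hb, hbx⟩ := mem_JI.1 hx'
  have h3 : θ ξ (x - b) = 0 := by rw [map_sub, hbx, sub_self]
  obtain ⟨z, hz⟩ := θ_eq_zero_iff.1 h3
  set t := τ (hP.rtn k c) with ht
  have h4 : t * z ∈ WI hP.p_zero I0 := by
    refine xi_torsion_WI hP hI0 hξ ?_ hc k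
    rw [← hz]
    exact sub_mem (WI_mono h1 hx) (WI_mono h2 hb)
  -- `E = W~(I0)`, `D' = W~(I) + W~(I')`
  let E : Submodule (𝕎 P) (𝕎 P) := WI hP.p_zero I0
  let D' : Submodule (𝕎 P) E := (WI hP.p_zero I ⊔ WI hP.p_zero I').submoduleOf E
  have hTf : Tf (p : 𝕎 P) (E ⧸ D') := by
    intro y hy
    obtain ⟨y, rfl⟩ := Submodule.Quotient.mk_surjective _ y
    rw [← Submodule.Quotient.mk_smul, Submodule.Quotient.mk_eq_zero] at hy
    rw [Submodule.Quotient.mk_eq_zero]
    have hy2 : (p : 𝕎 P) * (y : 𝕎 P) ∈ WI hP.p_zero I ⊔ WI hP.p_zero I' := hy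
    show (y : 𝕎 P) ∈ WI hP.p_zero I ⊔ WI hP.p_zero I'
    obtain ⟨a, ha, b, hb, hab⟩ := Submodule.mem_sup.1 hy2
    obtain ⟨a', ha', e1⟩ := WI_exists_eq_teich_add hP hI ha
    obtain ⟨b', hb', e2⟩ := WI_exists_eq_teich_add hP hI' hb
    have e3 : a.coeff 0 + b.coeff 0 = 0 := by
      have := congrArg (constantCoeff : 𝕎 P →+* P) hab
      rw [map_add, map_mul, map_natCast, hP.p_zero, zero_mul] at this
      exact this
    have e4 : a.coeff 0 ∈ I := coeff_zero_mem_of_WI ha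
    have e5 : b.coeff 0 ∈ I' := coeff_zero_mem_of_WI hb
    have e6 : a.coeff 0 ∈ I' := by
      rw [eq_neg_of_add_eq_zero_left e3]; exact neg_mem e5
    have e7 : b.coeff 0 ∈ I := by
      rw [eq_neg_of_add_eq_zero_right e3]; exact neg_mem e4
    have e8 : τ (a.coeff 0) + τ (b.coeff 0) ∈ WI hP.p_zero (I ⊓ I') :=
      add_mem (teich_mem_WI ⟨e4, e6⟩) (teich_mem_WI ⟨e7, e5⟩)
    obtain ⟨w, hw, e9⟩ := WI_exists_eq_teich_add hP (Convex.inf hI hI') e8
    have e10 : (τ (a.coeff 0) + τ (b.coeff 0)).coeff 0 = 0 := by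
      have : constantCoeff (τ (a.coeff 0) + τ (b.coeff 0)) = a.coeff 0 + b.coeff 0 := by
        rw [map_add]
        show (τ (a.coeff 0)).coeff 0 + (τ (b.coeff 0)).coeff 0 = _
        rw [teichmuller_coeff_zero, teichmuller_coeff_zero]
      rw [e3] at this
      exact this
    rw [e10, teichmuller_zero, zero_add] at e9
    have e11 : (y : 𝕎 P) = (a' + w) + b' := by
      apply eq_of_p_mul hP
      rw [← hab, mul_add, mul_add, ← e9]
      nth_rewrite 1 [e1]
      nth_rewrite 1 [e2]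
      ring
    rw [e11]
    exact Submodule.add_mem_sup (add_mem ha' (WI_mono inf_le_left hw)) hb'
  have hnil : ∀ y : E ⧸ D', τ π ^ M • y = 0 := by
    intro y
    obtain ⟨y, rfl⟩ := Submodule.Quotient.mk_surjective _ y
    rw [← Submodule.Quotient.mk_smul, Submodule.Quotient.mk_eq_zero]
    show τ π ^ M * (y : 𝕎 P) ∈ WI hP.p_zero I ⊔ WI hP.p_zero I'
    rw [← map_pow]
    exact Submodule.mem_sup_right (teich_mul_mem_WI hπ y.2)
  obtain ⟨u, hu, he⟩ := hξ.ex
  have hTξ : Tf ξ (E ⧸ D') := by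
    rw [he]
    exact tf_xi hu hTf hnil
  have h5 : (Submodule.Quotient.mk ⟨t * z, h4⟩ : E ⧸ D') = 0 := by
    apply hTξ
    rw [← Submodule.Quotient.mk_smul, Submodule.Quotient.mk_eq_zero]
    show ξ * (t * z) ∈ WI hP.p_zero I ⊔ WI hP.p_zero I'
    have : ξ * (t * z) = t * x + -(t * b) := by linear_combination -t * hz
    rw [this]
    exact Submodule.add_mem_sup (Ideal.mul_mem_left _ _ hx) (neg_mem (Ideal.mul_mem_left _ _ hb))
  rw [Submodule.Quotient.mk_eq_zero] at h5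
  have h6 : t * z ∈ WI hP.p_zero I ⊔ WI hP.p_zero I' := h5
  obtain ⟨y, hy, b', hb', h7⟩ := Submodule.mem_sup.1 h6
  refine ⟨y, hy, ?_⟩
  rw [WI_inf hP hI hI']
  refine ⟨sub_mem (Ideal.mul_mem_left _ _ hx) (Ideal.mul_mem_left _ _ hy), ?_⟩
  have : t * x - ξ * y = t * b + ξ * b' := by linear_combination t * hz - ξ * h7
  rw [this]
  exact add_mem (Ideal.mul_mem_left _ _ hb) (Ideal.mul_mem_left _ _ hb')

/-- **transfer**: `L_P(I/(I ⊓ I')) = L_Om(J(I)/(J(I) ⊓ J(I')))`. -/
theorem transfer (Λ : AddLen.{u, u} (𝕎 P)) {ξ : 𝕎 P} {π : P} (hξ : IsDist ξ π)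
    {I I' I0 : Ideal P} (hI : Convex p I)
    (hI' : Convex p I') (hI0 : Convex p I0) (h1 : I ≤ I0) (h2 : I' ≤ I0) {M : ℕ}
    (hπ : ∀ x ∈ I0, π ^ M * x ∈ I') {c : P} (hc : c ∈ I0)
    {κ : Type*} (t : κ → P) (ht : ∀ i, ∀ x ∈ I, t i ^ M * x ∈ I')
    (hnull : ∀ (X : Type u) [AddCommGroup X] [Module (𝕎 P) X],
      (∀ x : X, (p : 𝕎 P) ^ M • x = 0) → (∀ i, ∀ x : X, τ (t i) ^ M • x = 0) →
      (∀ k, ∀ x : X, τ (hP.rtn k c) • x = 0) → Λ.L X = 0) :
    (Λ.restrict (constantCoeff : 𝕎 P →+* P)).L (↥I ⧸ (I ⊓ I').submoduleOf I) =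
      (Λ.restrict (θ ξ)).L (↥(JI hP ξ I) ⧸ (JI hP ξ I ⊓ JI hP ξ I').submoduleOf (JI hP ξ I)) := by
  rw [L_quot_P hP Λ hI hI']
  obtain ⟨u, hu, he⟩ := hξ.ex
  have hnilX : ∀ y : XW hP I I', τ π ^ M • y = 0 := by
    intro y
    rw [← map_pow]
    exact teich_smul_XW hP hI hI' (fun x hx => hπ x (h1 hx)) y
  rw [← L_xi_eq Λ hu M (tf_XW hP hI hI') hnilX, ← he]
  symm
  let f0 : ↥(WI hP.p_zero I) →+ ↥(JI hP ξ I) :=
    { toFun := fun x => ⟨θ ξ (x : 𝕎 P), Ideal.mem_map_of_mem _ x.2⟩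
      map_zero' := Subtype.ext (map_zero _)
      map_add' := fun x y => Subtype.ext (map_add _ _ _) }
  let f : XW hP I I' →+ (↥(JI hP ξ I) ⧸ (JI hP ξ I ⊓ JI hP ξ I').submoduleOf (JI hP ξ I)) :=
    QuotientAddGroup.map _ _ f0 (by
      intro x hx
      have hx2 : (x : 𝕎 P) ∈ WI hP.p_zero (I ⊓ I') := hx
      rw [WI_inf hP hI hI'] at hx2
      exact ⟨Ideal.mem_map_of_mem _ hx2.1, Ideal.mem_map_of_mem _ hx2.2⟩)
  have hfmk : ∀ x, f (Submodule.Quotient.mk x) = Submodule.Quotient.mk (f0 x) := fun x => rfl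
  refine L_eq_of_semilinear Λ _ f ?_ ?_ _ ?_ ?_
  · intro a x
    obtain ⟨x, rfl⟩ := Submodule.Quotient.mk_surjective _ x
    rw [← Submodule.Quotient.mk_smul, hfmk, hfmk, ← Submodule.Quotient.mk_smul]
    exact congrArg _ (Subtype.ext (map_mul _ _ _))
  · intro y
    obtain ⟨y, rfl⟩ := Submodule.Quotient.mk_surjective _ y
    obtain ⟨z, hz, hzy⟩ := mem_JI.1 y.2
    refine ⟨Submodule.Quotient.mk ⟨z, hz⟩, ?_⟩
    rw [hfmk]
    exact congrArg _ (Subtype.ext hzy)
  · intro x hx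
    rw [mem_smul_top] at hx
    obtain ⟨y, rfl⟩ := hx
    obtain ⟨y, rfl⟩ := Submodule.Quotient.mk_surjective _ y
    rw [← Submodule.Quotient.mk_smul, hfmk, Submodule.Quotient.mk_eq_zero]
    have h1 : (f0 (ξ • y) : Om ξ) = 0 := by
      show θ ξ (ξ * (y : 𝕎 P)) = 0
      rw [map_mul, θ_xi, zero_mul]
    show (f0 (ξ • y) : Om ξ) ∈ JI hP ξ I ⊓ JI hP ξ I'
    rw [h1]
    exact zero_mem _
  · intro K hK
    refine hnull _ ?_ ?_ ?_
    · rintro ⟨_, x, hx, rfl⟩
      apply Subtype.ext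
      show (p : 𝕎 P) ^ M • Submodule.Quotient.mk x = 0
      have hξx : ∀ y : QuotSMulTop ξ (XW hP I I'), ξ • y = 0 := by
        intro y
        obtain ⟨y, rfl⟩ := Submodule.Quotient.mk_surjective _ y
        rw [← Submodule.Quotient.mk_smul, Submodule.Quotient.mk_eq_zero, mem_smul_top]
        exact ⟨y, rfl⟩
      have h3 := pow_mul_of_xi (c := τ π) (a := (p : 𝕎 P)) (u := u)
        (x := (Submodule.Quotient.mk x : QuotSMulTop ξ (XW hP I I')))
        (by rw [← he]; exact hξx _) M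
      rw [neg_pow, mul_smul, ← Submodule.Quotient.mk_smul _ _ (r := τ π ^ M), hnilX,
        Submodule.Quotient.mk_zero, smul_zero, mul_pow, mul_comm, mul_smul] at h3
      exact (hu.pow M).smul_eq_zero.1 h3
    · rintro i ⟨_, x, hx, rfl⟩
      apply Subtype.ext
      show τ (t i) ^ M • Submodule.Quotient.mk x = 0
      rw [← Submodule.Quotient.mk_smul, ← map_pow, teich_smul_XW hP hI hI' (ht i),
        Submodule.Quotient.mk_zero]
    · rintro k ⟨_, x, hx, rfl⟩
      apply Subtype.ext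
      show τ (hP.rtn k c) • Submodule.Quotient.mk x = 0
      rw [← Submodule.Quotient.mk_smul, Submodule.Quotient.mk_eq_zero, mem_smul_top]
      have h0 := hK x hx
      obtain ⟨x, rfl⟩ := Submodule.Quotient.mk_surjective _ x
      rw [hfmk, Submodule.Quotient.mk_eq_zero] at h0
      have h0' : θ ξ (x : 𝕎 P) ∈ JI hP ξ I ⊓ JI hP ξ I' := h0
      obtain ⟨y, hy, hxy⟩ := ker_null hP hξ hI hI' hI0 h1 h2 hπ hc k x.2 h0'.2
      refine ⟨Submodule.Quotient.mk ⟨y, hy⟩, ?_⟩
      rw [← Submodule.Quotient.mk_smul, ← Submodule.Quotient.mk_smul, ← sub_eq_zero,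
        ← Submodule.Quotient.mk_sub, Submodule.Quotient.mk_eq_zero]
      exact hxy

end transfer

end Crest.Agent.R188.FinA
end

-- ▼ part R188/FinA3

/-!
# R188, block FINA (helper414), part 3: Frobenius, null limits and the theorem FIN
-/

set_option autoImplicit false
set_option linter.unusedSectionVars false
set_option linter.style.haveILetI false

namespace Crest.Agent.R188.FinA

open scoped ENNReal Pointwise
open WittVector Function Crest.Agent.R188.Prf Crest.Agent.R188.Wit Crest.Agent.R183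

universe u

section frob

variable {p : ℕ} [hp : Fact p.Prime] {P : Type u} [CommRing P] (Λ : AddLen.{u, u} P)

/-- Frobenius scaling. -/
def Frob (Λ : AddLen.{u, u} P) (p D : ℕ) : Prop :=
  ∀ (Y Y' : Type u) [AddCommGroup Y] [Module P Y] [AddCommGroup Y'] [Module P Y'] (e : Y ≃+ Y'),
    (∀ (a : P) (y : Y), e (a • y) = a ^ p • e y) → Λ.L Y' = (p : ℝ≥0∞) ^ D * Λ.L Y

variable {Λ}

theorem Frob.iter (hP : IsPerf p P) {D : ℕ} (h : Frob Λ p D) (n : ℕ) :
    ∀ (Y Y' : Type u) [AddCommGroup Y] [Module P Y] [AddCommGroup Y'] [Module P Y'] (e : Y ≃+ Y'),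
    (∀ (a : P) (y : Y), e (a • y) = a ^ p ^ n • e y) →
      Λ.L Y' = (p : ℝ≥0∞) ^ (D * n) * Λ.L Y := by
  induction n with
  | zero =>
    intro Y Y' _ _ _ _ e he
    rw [mul_zero, pow_zero, one_mul]
    refine (Λ.L_congr (LinearEquiv.mk ⟨⟨e, e.map_add⟩, fun a y => ?_⟩ e.symm e.left_inv
      e.right_inv)).symm
    have := he a y
    rw [pow_zero, pow_one] at this
    exact this
  | succ n ih =>
    intro Y Y' _ _ _ i2 e he
    let φ : P →+* P :=
      { toFun := fun a => a ^ p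
        map_one' := one_pow _
        map_mul' := fun a b => mul_pow a b p
        map_zero' := zero_pow hp.out.ne_zero
        map_add' := fun a b => add_pow_p hP.p_zero a b }
    let i1 : Module P Y' := Module.compHom Y' φ
    have e1 := @h Y' Y' _ i1 _ i2 (AddEquiv.refl Y') (fun a y => rfl)
    have e2 := @ih Y Y' _ _ _ i1 e (fun a y => by
      have h2 : a ^ p ^ (n + 1) = (a ^ p ^ n) ^ p := by rw [← pow_mul, ← pow_succ]
      have h3 := he a y
      rw [h2] at h3
      exact h3)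
    rw [e1, e2, ← mul_assoc, ← pow_add]
    congr 2
    ring

end frob

section lim

variable {A : Type u} [CommRing A] (Λ : AddLen.{u, u} A)
variable {X : Type u} [AddCommGroup X] [Module A X]

theorem range_mulL_mono {a b : A} (h : b ∣ a) :
    LinearMap.range (mulL X a) ≤ LinearMap.range (mulL X b) := by
  obtain ⟨c, rfl⟩ := h
  rintro _ ⟨x, rfl⟩
  refine ⟨c • x, ?_⟩
  show b • c • x = (b * c) • x
  rw [mul_smul]

theorem exists_small (hc : Cont Λ) (hfin : Λ.L X ≠ ⊤) (h : ℕ → A) (hd : ∀ n, h (n + 1) ∣ h n)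
    (hnull : Λ.L (X ⧸ (⨆ n, LinearMap.range (mulL X (h n)))) = 0) (ε : ℝ≥0∞) (hε : 0 < ε) :
    ∃ n, Λ.L (X ⧸ LinearMap.range (mulL X (h n))) ≤ ε := by
  by_contra hcon
  push Not at hcon
  let R : ℕ → Submodule A X := fun n => LinearMap.range (mulL X (h n))
  have hmono : Monotone R := monotone_nat_of_le_succ fun n => range_mulL_mono (hd n)
  have h1 : ∀ n, Λ.L (R n) + ε ≤ Λ.L X := by
    intro n
    rw [Λ.L_eq_add_quotient (R n)]
    exact add_le_add le_rfl (hcon n).le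
  have hεX : ε ≤ Λ.L X := le_trans le_add_self (h1 0)
  have hεt : ε ≠ ⊤ := ne_top_of_le_ne_top hfin hεX
  have h2 : Λ.L (⨆ n, R n : Submodule A X) ≤ Λ.L X - ε := by
    refine hc _ _ fun E hE => ?_
    have hE' : (E.map (⨆ n, R n : Submodule A X).subtype).FG := hE.map _
    have hle : E.map (⨆ n, R n : Submodule A X).subtype ≤ ⨆ n, R n := by
      rintro _ ⟨x, -, rfl⟩
      exact x.2
    obtain ⟨n, hn⟩ : ∃ n, E.map (⨆ n, R n : Submodule A X).subtype ≤ R n := by
      have hcomp := (Submodule.fg_iff_compact _).1 hE'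
      rw [CompleteLattice.isCompactElement_iff_le_of_directed_sSup_le] at hcomp
      obtain ⟨_, ⟨n, rfl⟩, hn⟩ := hcomp (Set.range R) (Set.range_nonempty _)
        (hmono.directed_le.directedOn_range) (by rwa [sSup_range])
      exact ⟨n, hn⟩
    refine le_trans ?_ (ENNReal.le_sub_of_add_le_right hεt (h1 n))
    refine Λ.L_le_of_injective (LinearMap.codRestrict (R n)
      ((⨆ n, R n : Submodule A X).subtype ∘ₗ E.subtype) (fun x => hn ⟨x, x.2, rfl⟩)) ?_
    intro x y hxy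
    have hxy' : ((x : ↥(⨆ n, R n : Submodule A X)) : X) = ((y : ↥(⨆ n, R n : Submodule A X)) : X) :=
      congrArg (fun z : R n => (z : X)) hxy
    exact Subtype.ext (Subtype.ext hxy')
  have h3 : Λ.L X = Λ.L (⨆ n, R n : Submodule A X) := by
    rw [Λ.L_eq_add_quotient (⨆ n, R n : Submodule A X), hnull, add_zero]
  rw [← h3] at h2
  have h4 : Λ.L X - ε < Λ.L X :=
    ENNReal.sub_lt_self hfin (ne_of_gt (lt_of_lt_of_le hε hεX)) hε.ne'
  exact absurd h2 (not_le.2 h4)

end lim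

open Crest.Agent.R183.Digit (Convex)

/-- a two-parameter family of closed ideals. -/
structure Fam (p : ℕ) (P : Type u) [CommRing P] where
  /-- the ideals -/
  I : ℕ → ℕ → Ideal P
  convex : ∀ t m, Convex p (I t m)
  top : I 0 0 = ⊤
  anti : ∀ {t t' m m' : ℕ}, t ≤ t' → m ≤ m' → I t' m' ≤ I t m
  mul : ∀ {a b c d : ℕ} {x y : P}, x ∈ I a b → y ∈ I c d → x * y ∈ I (a + c) (b + d)
  root : ∀ {t m : ℕ} {x : P}, x ^ p ∈ I (p * t) (p * m) → x ∈ I t m

namespace Fam

variable {p : ℕ} [hp : Fact p.Prime] {P : Type u} [CommRing P] (F : Fam p P)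

lemma pow {t m : ℕ} {x : P} (hx : x ∈ F.I t m) (n : ℕ) : x ^ n ∈ F.I (n * t) (n * m) := by
  induction n with
  | zero => rw [pow_zero, zero_mul, zero_mul, F.top]; trivial
  | succ n ih =>
    rw [pow_succ, add_mul, add_mul, one_mul, one_mul]
    exact F.mul ih hx

lemma root_pow (e : ℕ) : ∀ {t m : ℕ} {x : P}, x ^ p ^ e ∈ F.I (p ^ e * t) (p ^ e * m) →
    x ∈ F.I t m := by
  induction e with
  | zero => intro t m x hx; simpa using hx
  | succ e ih =>
    intro t m x hx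
    apply F.root
    apply ih
    rw [← pow_mul, ← pow_succ', ← mul_assoc, ← mul_assoc, ← pow_succ]
    exact hx

lemma smul_mem {a b c : ℕ} {x y : P} (hx : x ∈ F.I 0 b) (hy : y ∈ F.I a c) :
    x * y ∈ F.I a (b + c) := by
  have := F.mul hx hy
  rwa [zero_add] at this

/-- `{x ∈ I(t,0) : x^q ∈ I(qt - s, qm)}`, `q = p^e`. -/
def Kq (hP : IsPerf p P) (s e t m : ℕ) : Submodule P ↥(F.I t 0) where
  carrier := {x | (x : P) ^ p ^ e ∈ F.I (p ^ e * t - s) (p ^ e * m)}
  zero_mem' := by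
    rw [Set.mem_ofPred_eq, Submodule.coe_zero, zero_pow (pow_ne_zero _ hp.out.ne_zero)]
    exact zero_mem _
  add_mem' := by
    intro x y hx hy
    rw [Set.mem_ofPred_eq] at *
    rw [Submodule.coe_add, add_pow_pn hP.p_zero]
    exact add_mem hx hy
  smul_mem' := by
    intro a x hx
    rw [Set.mem_ofPred_eq] at *
    rw [Submodule.coe_smul, smul_eq_mul, mul_pow]
    exact Ideal.mul_mem_left _ _ hx

lemma mem_Kq {hP : IsPerf p P} {s e t m : ℕ} {x : ↥(F.I t 0)} :
    x ∈ F.Kq hP s e t m ↔ (x : P) ^ p ^ e ∈ F.I (p ^ e * t - s) (p ^ e * m) := Iff.rfl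

/-- `L(I(qt,0)/(I(qt,0) ⊓ I(qt-s,qm))) = q^D L(I(t,0)/K_q)`. -/
theorem L_Kq (hP : IsPerf p P) {Λ : AddLen.{u, u} P} {D : ℕ} (h : Frob Λ p D) (s e t m : ℕ) :
    Λ.L (↥(F.I (p ^ e * t) 0) ⧸ (F.I (p ^ e * t) 0 ⊓
      F.I (p ^ e * t - s) (p ^ e * m)).submoduleOf (F.I (p ^ e * t) 0)) =
    (p : ℝ≥0∞) ^ (D * e) * Λ.L (↥(F.I t 0) ⧸ F.Kq hP s e t m) := by
  have hpow : ∀ x : ↥(F.I t 0), (x : P) ^ p ^ e ∈ F.I (p ^ e * t) 0 := by
    intro x
    have := F.pow x.2 (p ^ e)
    rwa [mul_zero] at this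
  let f0 : ↥(F.I t 0) →+ ↥(F.I (p ^ e * t) 0) :=
    { toFun := fun x => ⟨(x : P) ^ p ^ e, hpow x⟩
      map_zero' := Subtype.ext (zero_pow (pow_ne_zero _ hp.out.ne_zero))
      map_add' := fun x y => Subtype.ext (add_pow_pn hP.p_zero e (x : P) (y : P)) }
  let f : (↥(F.I t 0) ⧸ F.Kq hP s e t m) →+ (↥(F.I (p ^ e * t) 0) ⧸ (F.I (p ^ e * t) 0 ⊓
      F.I (p ^ e * t - s) (p ^ e * m)).submoduleOf (F.I (p ^ e * t) 0)) :=
    QuotientAddGroup.map _ _ f0 (by
      intro x hx
      exact ⟨hpow x, hx⟩)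
  have hfmk : ∀ x, f (Submodule.Quotient.mk x) = Submodule.Quotient.mk (f0 x) := fun x => rfl
  have hbij : Bijective f := by
    constructor
    · rw [injective_iff_map_eq_zero]
      intro x hx
      obtain ⟨x, rfl⟩ := Submodule.Quotient.mk_surjective _ x
      rw [hfmk, Submodule.Quotient.mk_eq_zero] at hx
      rw [Submodule.Quotient.mk_eq_zero]
      exact hx.2
    · intro y
      obtain ⟨y, rfl⟩ := Submodule.Quotient.mk_surjective _ y
      refine ⟨Submodule.Quotient.mk ⟨hP.rtn e (y : P), ?_⟩, ?_⟩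
      · apply F.root_pow e
        rw [hP.rtn_pow, mul_zero]
        exact y.2
      · rw [hfmk]
        exact congrArg _ (Subtype.ext (hP.rtn_pow e (y : P)))
  refine h.iter hP e _ _ (AddEquiv.ofBijective f hbij) ?_
  intro a x
  obtain ⟨x, rfl⟩ := Submodule.Quotient.mk_surjective _ x
  rw [AddEquiv.ofBijective_apply, AddEquiv.ofBijective_apply, ← Submodule.Quotient.mk_smul, hfmk,
    hfmk, ← Submodule.Quotient.mk_smul]
  exact congrArg _ (Subtype.ext (mul_pow a (x : P) (p ^ e)))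

end Fam

section finpow

variable {p : ℕ} [hp : Fact p.Prime] {P : Type u} [CommRing P]

/-- `P/(y_j^q) ≅ P/(y_j)` up to Frobenius. -/
theorem L_quot_pow_q (hP : IsPerf p P) {Λ : AddLen.{u, u} P} {D : ℕ} (h : Frob Λ p D)
    {κ : Type*} [Fintype κ] (y : κ → P) (e : ℕ) :
    Λ.L (P ⧸ Ideal.span (Set.range fun j => y j ^ p ^ e)) =
      (p : ℝ≥0∞) ^ (D * e) * Λ.L (P ⧸ Ideal.span (Set.range y)) := by
  let f0 : P →+ P :=
    { toFun := fun x => x ^ p ^ e
      map_zero' := zero_pow (pow_ne_zero _ hp.out.ne_zero)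
      map_add' := fun x y => add_pow_pn hP.p_zero e x y }
  have hmem : ∀ x, x ∈ Ideal.span (Set.range y) ↔
      x ^ p ^ e ∈ Ideal.span (Set.range fun j => y j ^ p ^ e) := by
    intro x
    rw [Ideal.mem_span_range_iff_exists_fun, Ideal.mem_span_range_iff_exists_fun]
    constructor
    · rintro ⟨c, rfl⟩
      refine ⟨fun j => c j ^ p ^ e, ?_⟩
      rw [sum_pow_pn hP.p_zero]
      exact Finset.sum_congr rfl fun j _ => (mul_pow _ _ _).symm
    · rintro ⟨c, hc⟩
      refine ⟨fun j => hP.rtn e (c j), ?_⟩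
      apply hP.pow_pn_inj (n := e)
      rw [sum_pow_pn hP.p_zero, ← hc]
      exact Finset.sum_congr rfl fun j _ => by rw [mul_pow, hP.rtn_pow]
  let f : (P ⧸ Ideal.span (Set.range y)) →+ (P ⧸ Ideal.span (Set.range fun j => y j ^ p ^ e)) :=
    QuotientAddGroup.map _ _ f0 (fun x hx => (hmem x).1 hx)
  have hfmk : ∀ x, f (Submodule.Quotient.mk x) = Submodule.Quotient.mk (f0 x) := fun x => rfl
  have hbij : Bijective f := by
    constructor
    · rw [injective_iff_map_eq_zero]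
      intro x hx
      obtain ⟨x, rfl⟩ := Submodule.Quotient.mk_surjective _ x
      rw [hfmk, Submodule.Quotient.mk_eq_zero] at hx
      rw [Submodule.Quotient.mk_eq_zero]
      exact (hmem x).2 hx
    · intro z
      obtain ⟨z, rfl⟩ := Submodule.Quotient.mk_surjective _ z
      refine ⟨Submodule.Quotient.mk (hP.rtn e z), ?_⟩
      rw [hfmk]
      exact congrArg _ (hP.rtn_pow e z)
  refine h.iter hP e _ _ (AddEquiv.ofBijective f hbij) ?_
  intro a x
  obtain ⟨x, rfl⟩ := Submodule.Quotient.mk_surjective _ x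
  rw [AddEquiv.ofBijective_apply, AddEquiv.ofBijective_apply, ← Submodule.Quotient.mk_smul, hfmk,
    hfmk, ← Submodule.Quotient.mk_smul]
  exact congrArg _ (mul_pow a x (p ^ e))

theorem L_quot_pow_ne_top (hP : IsPerf p P) {Λ : AddLen.{u, u} P} {D : ℕ} (h : Frob Λ p D)
    {κ : Type*} [Fintype κ] (y : κ → P) (hy : Λ.L (P ⧸ Ideal.span (Set.range y)) ≠ ⊤) (m : ℕ) :
    Λ.L (P ⧸ Ideal.span (Set.range fun j => y j ^ m)) ≠ ⊤ := by
  have h1 := L_quot_pow_q hP h y m
  have h2 : Ideal.span (Set.range fun j => y j ^ p ^ m) ≤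
      Ideal.span (Set.range fun j => y j ^ m) := by
    rw [Ideal.span_le]
    rintro _ ⟨j, rfl⟩
    have h3 : m ≤ p ^ m := (Nat.lt_pow_self hp.out.one_lt).le
    obtain ⟨c, hc⟩ := pow_dvd_pow (y j) h3
    show y j ^ p ^ m ∈ _
    rw [hc]
    exact Ideal.mul_mem_right _ _ (Ideal.subset_span ⟨j, rfl⟩)
  refine ne_top_of_le_ne_top ?_ (Λ.L_le_of_surjective (Submodule.factor h2)
    (Submodule.factor_surjective h2))
  rw [h1]
  exact ENNReal.mul_ne_top (ENNReal.pow_ne_top (ENNReal.natCast_ne_top p)) hy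

end finpow

section main

variable {p : ℕ} [hp : Fact p.Prime] {P : Type u} [CommRing P] (hP : IsPerf p P)

local notation "𝕎" => WittVector p
local notation "τ" => WittVector.teichmuller p

/-- the null criterion for the roots of `h`. -/
def NullAt (Λ : AddLen.{u, u} (𝕎 P)) {κ : Type*} (y : κ → P) (h : P) : Prop :=
  ∀ (X : Type u) [AddCommGroup X] [Module (𝕎 P) X],
    (∀ x : X, ∃ N : ℕ, (p : 𝕎 P) ^ N • x = 0 ∧ ∀ i, τ (y i) ^ N • x = 0) →
    (∀ (n : ℕ) (x : X), τ (hP.rtn n h) • x = 0) → Λ.L X = 0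

variable {hP}

/-- the criterion for `P`-modules -/
theorem NullAt.forP {Λ : AddLen.{u, u} (𝕎 P)} {κ : Type*} {y : κ → P} {h : P}
    (hn : NullAt hP Λ y h) (X : Type u) [AddCommGroup X] [Module P X]
    (h1 : ∀ x : X, ∃ N : ℕ, ∀ i, y i ^ N • x = 0)
    (h2 : ∀ (n : ℕ) (x : X), hP.rtn n h • x = 0) :
    (Λ.restrict (constantCoeff : 𝕎 P →+* P)).L X = 0 := by
  let _ : Module (𝕎 P) X := Module.compHom X (constantCoeff : 𝕎 P →+* P)
  have hsm : ∀ (a : 𝕎 P) (x : X), a • x = (constantCoeff a : P) • x := fun _ _ => rfl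
  have hτ : ∀ a : P, (constantCoeff (τ a) : P) = a := fun a => teichmuller_coeff_zero p a
  rw [Λ.restrict_L _ X hsm]
  refine hn X (fun x => ?_) (fun n x => ?_)
  · obtain ⟨N, hN⟩ := h1 x
    refine ⟨N + 1, ?_, fun i => ?_⟩
    · rw [hsm, map_pow, map_natCast, hP.p_zero, zero_pow (Nat.succ_ne_zero N), zero_smul]
    · rw [hsm, map_pow, hτ, pow_succ', mul_smul, hN, smul_zero]
  · rw [hsm, hτ]
    exact h2 n x

theorem NullAt.mul_right {Λ : AddLen.{u, u} (𝕎 P)} {κ : Type*} {y : κ → P} {h : P}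
    (hn : NullAt hP Λ y h) {X : Type u} [AddCommGroup X] [Module (𝕎 P) X]
    (h1 : ∀ x : X, ∃ N : ℕ, (p : 𝕎 P) ^ N • x = 0 ∧ ∀ i, τ (y i) ^ N • x = 0) (k : ℕ)
    (h2 : ∀ (n : ℕ) (x : X), τ (hP.rtn n (h ^ k)) • x = 0) : Λ.L X = 0 := by
  refine hn X h1 fun n x => ?_
  have h3 : hP.rtn n h = hP.rtn (n + k) h ^ (p ^ k - k) * hP.rtn (n + k) (h ^ k) := by
    rw [hP.rtn_pow_comm, ← pow_add, Nat.sub_add_cancel (Nat.lt_pow_self hp.out.one_lt).le,
      hP.rtn_add_pow]
  rw [h3, map_mul, mul_smul, h2, smul_zero]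

theorem exists_small_P {Λ : AddLen.{u, u} (𝕎 P)} (hcont : Cont Λ) {κ : Type*}
    {y : κ → P} {h : P} (hn : NullAt hP Λ y h) {m : ℕ}
    (hfin : (Λ.restrict (constantCoeff : 𝕎 P →+* P)).L
      (P ⧸ Ideal.span (Set.range fun j => y j ^ m)) ≠ ⊤) (e0 : ℕ) (ε : ℝ≥0∞) (hε : 0 < ε) :
    ∃ n, (Λ.restrict (constantCoeff : 𝕎 P →+* P)).L
      (P ⧸ (Ideal.span (Set.range fun j => y j ^ m) ⊔ Ideal.span {hP.rtn (n + e0) h})) ≤ ε := by
  set 𝔶 : Ideal P := Ideal.span (Set.range fun j => y j ^ m) with h𝔶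
  set L := Λ.restrict (constantCoeff : 𝕎 P →+* P) with hL
  have hcL : Cont L := LenW.cont_restrict Λ hcont _
  have hd : ∀ n, hP.rtn (n + 1 + e0) h ∣ hP.rtn (n + e0) h := by
    intro n
    have : n + 1 + e0 = (n + e0) + 1 := by ring
    rw [this, ← hP.rtn_succ_pow (n + e0)]
    exact dvd_pow_self _ hp.out.ne_zero
  have hnul : L.L ((P ⧸ 𝔶) ⧸ (⨆ n, LinearMap.range (mulL (P ⧸ 𝔶) (hP.rtn (n + e0) h)))) = 0 := by
    refine hn.forP _ (fun x => ⟨m, fun i => ?_⟩) (fun n x => ?_)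
    · obtain ⟨x, rfl⟩ := Submodule.Quotient.mk_surjective _ x
      obtain ⟨x, rfl⟩ := Submodule.Quotient.mk_surjective _ x
      rw [← Submodule.Quotient.mk_smul, ← Submodule.Quotient.mk_smul]
      have : (Submodule.Quotient.mk (y i ^ m • x) : P ⧸ 𝔶) = 0 := by
        rw [Submodule.Quotient.mk_eq_zero, smul_eq_mul]
        exact Ideal.mul_mem_right _ _ (Ideal.subset_span ⟨i, rfl⟩)
      rw [this, Submodule.Quotient.mk_zero]
    · obtain ⟨x, rfl⟩ := Submodule.Quotient.mk_surjective _ x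
      rw [← Submodule.Quotient.mk_smul, Submodule.Quotient.mk_eq_zero]
      refine Submodule.mem_iSup_of_mem n ?_
      have h3 : hP.rtn n h = hP.rtn (n + e0) h ^ p ^ e0 := (hP.rtn_add_pow n e0 h).symm
      obtain ⟨c, hc⟩ : hP.rtn (n + e0) h ∣ hP.rtn n h := by
        rw [h3]; exact dvd_pow_self _ (pow_ne_zero _ hp.out.ne_zero)
      refine ⟨c • x, ?_⟩
      show hP.rtn (n + e0) h • c • x = hP.rtn n h • x
      rw [smul_smul, ← hc]
  obtain ⟨n, hn'⟩ := exists_small L (X := P ⧸ 𝔶) hcL hfin (fun n => hP.rtn (n + e0) h) hd hnul ε hε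
  set G : Ideal P := Ideal.span {hP.rtn (n + e0) h} with hG
  let fac : (P ⧸ 𝔶) →ₗ[P] (P ⧸ (𝔶 ⊔ G)) := Submodule.factor le_sup_left
  have hfac : ∀ x : P, fac (Submodule.Quotient.mk x) = Submodule.Quotient.mk x := fun _ => rfl
  have hker : LinearMap.range (mulL (P ⧸ 𝔶) (hP.rtn (n + e0) h)) ≤ LinearMap.ker fac := by
    rintro _ ⟨x, rfl⟩
    obtain ⟨x, rfl⟩ := Submodule.Quotient.mk_surjective _ x
    rw [LinearMap.mem_ker]
    have h3 : mulL (P ⧸ 𝔶) (hP.rtn (n + e0) h) (Submodule.Quotient.mk x) =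
        Submodule.Quotient.mk (hP.rtn (n + e0) h * x) := rfl
    rw [h3, hfac, Submodule.Quotient.mk_eq_zero]
    exact Submodule.mem_sup_right
      (Ideal.mul_mem_right _ _ (Ideal.mem_span_singleton_self _))
  refine ⟨n, le_trans (L.L_le_of_surjective (Submodule.liftQ _ fac hker) ?_) hn'⟩
  intro z
  obtain ⟨z, rfl⟩ := Submodule.Quotient.mk_surjective _ z
  exact ⟨Submodule.Quotient.mk (Submodule.Quotient.mk z), rfl⟩

/-- **FIN**. -/
theorem fin_bound {Λ : AddLen.{u, u} (𝕎 P)} (hcont : Cont Λ) {ξ : 𝕎 P} {π : P}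
    (hξ : IsDist ξ π) (F : Fam p P) {D : ℕ}
    (hfrob : Frob (Λ.restrict (constantCoeff : 𝕎 P →+* P)) p D) {κ : Type*} [Fintype κ]
    (y : κ → P) (hy : ∀ j, y j ∈ F.I 0 1) (hπ : π ∈ F.I 0 1)
    (hfin : (Λ.restrict (constantCoeff : 𝕎 P →+* P)).L (P ⧸ Ideal.span (Set.range y)) ≠ ⊤)
    {s : ℕ} (hs : 1 ≤ s) {h : P} (hh : h ∈ F.I s 0) (hnull : NullAt hP Λ y h) (C : ℝ≥0∞)
    (hcount : ∀ t M : ℕ, s ≤ t → (Λ.restrict (θ ξ)).L (↥(JI hP ξ (F.I t 0)) ⧸
      (JI hP ξ (F.I t 0) ⊓ JI hP ξ (F.I (t - s) M)).submoduleOf (JI hP ξ (F.I t 0))) ≤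
      C * ((t + M + 1 : ℕ) : ℝ≥0∞) ^ D) {t : ℕ} (ht : 1 ≤ t) (m : ℕ) :
    (Λ.restrict (constantCoeff : 𝕎 P →+* P)).L
      (↥(F.I t 0) ⧸ (F.I t m).submoduleOf (F.I t 0)) ≤ C * ((t + m + 1 : ℕ) : ℝ≥0∞) ^ D := by
  set L := Λ.restrict (constantCoeff : 𝕎 P →+* P) with hL
  have hcL : Cont L := LenW.cont_restrict Λ hcont _
  have hym : ∀ (M a : ℕ) (j : κ), ∀ x ∈ F.I a 0, y j ^ M * x ∈ F.I a M := by
    intro M a j x hx
    have h1 := F.smul_mem (F.pow (hy j) M |> fun h => by rwa [mul_zero, mul_one] at h) hx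
    rwa [add_zero] at h1
  have hπm : ∀ (M a : ℕ), ∀ x ∈ F.I a 0, π ^ M * x ∈ F.I a M := by
    intro M a x hx
    have h1 := F.smul_mem (F.pow hπ M |> fun h => by rwa [mul_zero, mul_one] at h) hx
    rwa [add_zero] at h1
  have hqs : ∀ e : ℕ, s ≤ p ^ (e + s) * t := by
    intro e
    calc s ≤ p ^ s := (Nat.lt_pow_self hp.out.one_lt).le
      _ ≤ p ^ (e + s) := Nat.pow_le_pow_right hp.out.pos (by omega)
      _ ≤ p ^ (e + s) * t := Nat.le_mul_of_pos_right _ ht
  set X := ↥(F.I t 0) ⧸ (F.I t m).submoduleOf (F.I t 0) with hX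
  have hle : ∀ e, (F.I t m).submoduleOf (F.I t 0) ≤ F.Kq hP s (e + s) t m := by
    intro e x hx
    rw [Fam.mem_Kq]
    exact F.anti (Nat.sub_le _ _) le_rfl (F.pow (show (x : P) ∈ F.I t m from hx) (p ^ (e + s)))
  refine L_le_of_almost L hcL (Ideal.span (Set.range fun j => y j ^ m)) ?_
    (L_quot_pow_ne_top hP hfrob y hfin m) (fun e : ℕ => hP.rtn (e + s) h)
    (fun e => (F.Kq hP s (e + s) t m).map ((F.I t m).submoduleOf (F.I t 0)).mkQ) ?_ _ ?_
    (exists_small_P hcont hnull (L_quot_pow_ne_top hP hfrob y hfin m) s)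
  · -- `X` is killed by `(y_j^m)`
    intro a ha x
    obtain ⟨x, rfl⟩ := Submodule.Quotient.mk_surjective _ x
    rw [← Submodule.Quotient.mk_smul, Submodule.Quotient.mk_eq_zero]
    show a * (x : P) ∈ F.I t m
    refine Submodule.span_induction (p := fun a _ => a * (x : P) ∈ F.I t m) ?_ ?_ ?_ ?_ ha
    · rintro _ ⟨j, rfl⟩
      exact hym m t j _ x.2
    · rw [zero_mul]; exact zero_mem _
    · intro a b _ _ ha hb
      rw [add_mul]; exact add_mem ha hb
    · intro a b _ hb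
      rw [smul_eq_mul, mul_assoc]; exact Ideal.mul_mem_left _ _ hb
  · -- `K_q` is killed by `h_q`
    rintro e _ ⟨x, hx, rfl⟩
    rw [SetLike.mem_coe, Fam.mem_Kq] at hx
    rw [Submodule.mkQ_apply, ← Submodule.Quotient.mk_smul, Submodule.Quotient.mk_eq_zero]
    show hP.rtn (e + s) h * (x : P) ∈ F.I t m
    apply F.root_pow (e + s)
    rw [mul_pow, hP.rtn_pow]
    have h1 := F.mul hh hx
    rwa [Nat.add_sub_cancel' (hqs e), zero_add] at h1
  · -- the count
    intro e
    have h1 : L.L (X ⧸ (F.Kq hP s (e + s) t m).map ((F.I t m).submoduleOf (F.I t 0)).mkQ) =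
        L.L (↥(F.I t 0) ⧸ F.Kq hP s (e + s) t m) :=
      L.L_congr (Submodule.quotientQuotientEquivQuotient _ _ (hle e))
    rw [h1]
    have h2 := F.L_Kq hP hfrob s (e + s) t m
    set q := p ^ (e + s) with hq
    have h3 : L.L (↥(F.I (q * t) 0) ⧸ (F.I (q * t) 0 ⊓
        F.I (q * t - s) (q * m)).submoduleOf (F.I (q * t) 0)) ≤
        C * ((q * t + q * m + 1 : ℕ) : ℝ≥0∞) ^ D := by
      have hmem : h ^ (q * t) ∈ F.I (q * t - s) 0 := by
        have := F.pow hh (q * t)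
        rw [mul_zero] at this
        refine F.anti ?_ le_rfl this
        exact (Nat.sub_le _ _).trans (Nat.le_mul_of_pos_right _ hs)
      rw [transfer hP Λ hξ (M := q * m) (F.convex _ _) (F.convex _ _) (F.convex (q * t - s) 0)
        (F.anti (Nat.sub_le _ _) le_rfl) (F.anti le_rfl (Nat.zero_le _))
        (fun x hx => hπm _ _ x hx) hmem y
        (fun j x hx => F.anti (Nat.sub_le _ _) le_rfl (hym (q * m) (q * t) j x hx))
        (fun X _ _ h4 h5 h6 => hnull.mul_right (fun x => ⟨q * m, h4 x, fun i => h5 i x⟩) (q * t)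
          h6)]
      exact hcount _ _ (hqs e)
    have hq0 : (p : ℝ≥0∞) ^ (D * (e + s)) ≠ 0 :=
      pow_ne_zero _ (by exact_mod_cast hp.out.ne_zero)
    have hqt : (p : ℝ≥0∞) ^ (D * (e + s)) ≠ ⊤ := ENNReal.pow_ne_top (ENNReal.natCast_ne_top p)
    rw [← ENNReal.mul_le_mul_iff_right hq0 hqt, ← h2]
    refine h3.trans ?_
    have h4 : ((q * t + q * m + 1 : ℕ) : ℝ≥0∞) ^ D ≤
        (p : ℝ≥0∞) ^ (D * (e + s)) * ((t + m + 1 : ℕ) : ℝ≥0∞) ^ D := by
      have hq1 : 1 ≤ q := Nat.one_le_pow _ _ hp.out.pos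
      have h5 : q * t + q * m + 1 ≤ q * (t + m + 1) := by nlinarith
      calc ((q * t + q * m + 1 : ℕ) : ℝ≥0∞) ^ D ≤ ((q * (t + m + 1) : ℕ) : ℝ≥0∞) ^ D := by
            gcongr
        _ = _ := by
            rw [Nat.cast_mul, mul_pow, hq]
            push_cast
            rw [← pow_mul, mul_comm (e + s) D]
    calc C * ((q * t + q * m + 1 : ℕ) : ℝ≥0∞) ^ D
        ≤ C * ((p : ℝ≥0∞) ^ (D * (e + s)) * ((t + m + 1 : ℕ) : ℝ≥0∞) ^ D) := by gcongr
      _ = _ := by ring

end main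

end Crest.Agent.R188.FinA
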