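import Crest.Agent.R188.PerfB8
import Crest.Agent.R188.SX3
import Crest.Agent.R188.Wit5

-- ▼ part R188/PerfC1
section

set_option autoImplicit false
set_option linter.unusedSectionVars false

namespace Crest.Agent.R188.PerfC

open scoped ENNReal
open Crest.Agent.R183 Crest.Agent.R188.Chi Crest.Agent.R188.KosG

universe u v w

section h0

variable {A : Type u} [CommRing A] (Λ : AddLen.{u, v} A)
variable {X X' X'' : Type v} [AddCommGroup X] [Module A X] [AddCommGroup X'] [Module A X']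
  [AddCommGroup X''] [Module A X'']

theorem h0_eq_kh (l : List A) (X : Type v) [AddCommGroup X] [Module A X] (i : ℕ) :
    SX.h0 Λ l X i = kh Λ l X i := by
  rw [← SX.hK_one Λ A (X := X) l i, PerfB.hK_one]

/-- restriction of the length -/
theorem kh_restrict {A' : Type u} [CommRing A'] (f : A' →+* A) [Module A' X]
    (h : ∀ (a : A') (x : X), a • x = f a • x) (Λ' : AddLen.{u, v} A') (l : List A') (i : ℤ) :
    kh (Λ'.restrict f) (l.map f) X i = kh Λ' l X i := by
  rcases lt_or_ge i 0 with hi | hi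
  · rw [kh_eq_zero _ _ _ i (Or.inl hi), kh_eq_zero _ _ _ i (Or.inl hi)]
  · obtain ⟨n, rfl⟩ := Int.eq_ofNat_of_zero_le hi
    have := SX.h0_restrict f h Λ' l n
    rw [h0_eq_kh, h0_eq_kh] at this
    exact this.symm


theorem h0_cons_congr {a a' : A} {l : List A}
    (h : a - a' ∈ Ideal.ofList l ⊔ Module.annihilator A X) (i : ℕ) :
    SX.h0 Λ (a :: l) X i = SX.h0 Λ (a' :: l) X i := by
  have h1 : a - a' ∈ (Kos.kos l (SX.deg0 A X)).Nh := by
    refine (sup_le (Kos.ofList_le_Nh_kos l _) ?_) h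
    refine le_trans ?_ (Kos.Nh_le_kos l _)
    intro c hc
    rw [Module.mem_annihilator] at hc
    exact Kos.Cx.mem_Nh_of_smul_eq_zero _ fun n x => funext fun j => hc _
  obtain ⟨φ⟩ := Kos.Cx.Iso.cone_add_of_mem_Nh h1 a'
  rw [add_sub_cancel] at φ
  exact φ.l_eq Λ i

/-- vanishing if the homology is null for a null-homotopic reason -/
theorem kh_eq_zero_of_null (l : List A) (X : Type v) [AddCommGroup X] [Module A X]
    (hnull : ∀ (Y : Type v) [AddCommGroup Y] [Module A Y],
      (∀ a ∈ Ideal.ofList l ⊔ Module.annihilator A X, ∀ y : Y, a • y = 0) → Λ.L Y = 0) (i : ℤ) :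
    kh Λ l X i = 0 := by
  refine hnull _ fun a ha y => ?_
  have h1 : (kos l X).NH a := KosG.span_le_NHI X l ha
  exact h1.smul_H i y

/-- null kernel: `kh` does not change -/
theorem kh_eq_of_ker_null {f : X →ₗ[A] X''} (surj : Function.Surjective f) (l : List A)
    (hk : ∀ i, kh Λ l (LinearMap.ker f) i = 0) (i : ℤ) : kh Λ l X i = kh Λ l X'' i := by
  have h1 := kh_mid_le Λ (LinearMap.ker f).subtype f (Submodule.injective_subtype _) surj
    (LinearMap.exact_subtype_ker_map f) l i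
  have h2 := kh_right_le Λ (LinearMap.ker f).subtype f (Submodule.injective_subtype _) surj
    (LinearMap.exact_subtype_ker_map f) l i
  rw [hk, zero_add] at h1
  rw [hk, add_zero] at h2
  exact le_antisymm h1 h2


/-- **exchange of the generators**: `ξ = π + p u`, `Y = X/ξ`, `Z = X/p`:
`K(p, l; Y) = K(ξ, p, l; X) = K(π, p, l; X) = K(π, l; Z)` in lengths. -/
theorem h0_exchange {p π u ξ : A} (hξ : ξ = π + p * u) {g : X →ₗ[A] X'} {g' : X →ₗ[A] X''}
    (ξreg : ∀ x : X, ξ • x = 0 → x = 0) (preg : ∀ x : X, p • x = 0 → x = 0)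
    (hg : Function.Surjective g) (hgk : ∀ x, g x = 0 ↔ ∃ y, ξ • y = x)
    (hg' : Function.Surjective g') (hgk' : ∀ x, g' x = 0 ↔ ∃ y, p • y = x) (l : List A) (i : ℕ) :
    SX.h0 Λ (p :: l) X' i = SX.h0 Λ (π :: l) X'' i := by
  rw [← SX.h0_cons_regular Λ ξ (p :: l) g ξreg hg hgk i,
    ← SX.h0_cons_regular Λ p (π :: l) g' preg hg' hgk' i,
    h0_cons_congr Λ (a := ξ) (a' := π) (l := p :: l) (X := X) (by
      rw [hξ, add_sub_cancel_left]
      exact Ideal.mem_sup_left (Ideal.mul_mem_right _ _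
        (Ideal.subset_span (by simp)))) i]
  exact SX.h0_perm Λ (List.Perm.swap p π l) i

end h0

end Crest.Agent.R188.PerfC
end

-- ▼ part R188/PerfC2

set_option autoImplicit false
set_option linter.unusedSectionVars false

namespace Crest.Agent.R188.PerfC

open scoped ENNReal Pointwise
open WittVector Crest.Agent.R183 Crest.Agent.R188.Chi Crest.Agent.R188.KosG
open Crest.Agent.R188.Wit Crest.Agent.R188.Prf

universe u v w

variable {p : ℕ} [hp : Fact p.Prime] {P : Type u} [CommRing P]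

local notation "𝕎" => WittVector p
local notation "τ" => WittVector.teichmuller p

lemma map_theta (ξ : WittVector p P) (l : List P) :
    ((p : 𝕎 P) :: l.map τ).map (θ ξ) = (p : Om ξ) :: l.map (sh ξ) := by
  rw [List.map_cons, List.map_map, map_natCast]
  rfl

lemma map_coeff (l : List P) :
    (l.map τ).map (constantCoeff (p := p) (R := P)) = l := by
  rw [List.map_map]
  conv_rhs => rw [← List.map_id l]
  refine List.map_congr_left fun c _ => ?_
  exact teichmuller_coeff_zero p c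

variable (h : IsPerf p P) {ξ : WittVector p P} {π : P} (hξ : IsDist ξ π)
variable (Λ : AddLen.{u, u} (WittVector p P))

section Om

include h hξ

/-- **`Ω` versus `P`** -/
theorem h0_Om (l : List P) (i : ℕ) :
    SX.h0 (Λ.restrict (θ ξ)) ((p : Om ξ) :: l.map (sh ξ)) (Om ξ) i =
      SX.h0 (Λ.restrict (constantCoeff (p := p) (R := P))) (π :: l) P i := by
  let _ : Module (𝕎 P) P := Module.compHom P (constantCoeff (p := p) (R := P))
  obtain ⟨u, -, hu⟩ := hξ.ex
  rw [← map_theta ξ l, ← SX.h0_restrict (θ ξ) (fun a x => by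
      obtain ⟨y, rfl⟩ := θ_surjective ξ x
      rfl) Λ]
  have e1 : π :: l = (τ π :: l.map τ).map (constantCoeff (p := p) (R := P)) := by
    rw [List.map_cons, map_coeff]
    rw [show constantCoeff (τ π) = π from teichmuller_coeff_zero p π]
  rw [e1, ← SX.h0_restrict (constantCoeff (p := p) (R := P)) (fun _ _ => rfl) Λ]
  refine h0_exchange Λ (X := 𝕎 P) (p := (p : 𝕎 P)) (π := τ π) (u := u) (ξ := ξ) hu
    (g := (Submodule.mkQ (Ideal.span {ξ}) : 𝕎 P →ₗ[𝕎 P] Om ξ))
    (g' := { toFun := fun x => x.coeff 0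
             map_add' := fun x y => map_add (constantCoeff (p := p) (R := P)) x y
             map_smul' := fun a x => map_mul (constantCoeff (p := p) (R := P)) a x })
    (fun x hx => xi_regular h hξ hx) (fun x hx => p_regular h hx)
    (Submodule.mkQ_surjective _) (fun x => ?_) (fun x => ?_) (fun x => ?_) _ i
  · rw [Submodule.mkQ_apply, Submodule.Quotient.mk_eq_zero, Ideal.mem_span_singleton']
    exact ⟨fun ⟨y, hy⟩ => ⟨y, by rw [smul_eq_mul, mul_comm, hy]⟩,
      fun ⟨y, hy⟩ => ⟨y, by rw [mul_comm, ← smul_eq_mul, hy]⟩⟩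
  · exact ⟨τ x, teichmuller_coeff_zero p x⟩
  · show x.coeff 0 = 0 ↔ _
    rw [← p_dvd_iff h]
    exact ⟨fun ⟨y, hy⟩ => ⟨y, hy.symm⟩, fun ⟨y, hy⟩ => ⟨y, hy.symm⟩⟩

theorem kh_Om (l : List P) (i : ℤ) :
    kh (Λ.restrict (θ ξ)) ((p : Om ξ) :: l.map (sh ξ)) (Om ξ) i =
      kh (Λ.restrict (constantCoeff (p := p) (R := P))) (π :: l) P i := by
  rcases lt_or_ge i 0 with hi | hi
  · rw [kh_eq_zero _ _ _ i (Or.inl hi), kh_eq_zero _ _ _ i (Or.inl hi)]
  · obtain ⟨n, rfl⟩ := Int.eq_ofNat_of_zero_le hi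
    have := h0_Om h hξ Λ l n
    rwa [h0_eq_kh, h0_eq_kh] at this

end Om

section J

variable {I : Ideal P} (hI : Digit.Convex p I)

/-- `W~(I)/ξ → J = θ(W~(I))` -/
noncomputable def toJ (h0 : (p : P) = 0) (ξ : WittVector p P) (I : Ideal P) :
    (↥(WI h0 I) ⧸ (ξ • (⊤ : Submodule (WittVector p P) ↥(WI h0 I)))) →ₗ[WittVector p P]
      ↥((WI h0 I).map (θ ξ)) :=
  Submodule.liftQ _
    { toFun := fun x => ⟨θ ξ x.1, Ideal.mem_map_of_mem _ x.2⟩
      map_add' := fun x y => Subtype.ext (map_add (θ ξ) _ _)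
      map_smul' := fun a x => Subtype.ext (map_mul (θ ξ) a x.1) }
    (by
      intro x hx
      rw [Submodule.mem_smul_pointwise_iff_exists] at hx
      obtain ⟨y, -, rfl⟩ := hx
      rw [LinearMap.mem_ker]
      apply Subtype.ext
      show θ ξ (ξ * y.1) = 0
      rw [map_mul, θ_xi, zero_mul])


lemma toJ_surjective (h0 : (p : P) = 0) (ξ : WittVector p P) (I : Ideal P) :
    Function.Surjective (toJ h0 ξ I) := by
  rintro ⟨y, hy⟩
  obtain ⟨x, hx, rfl⟩ := (Ideal.mem_map_iff_of_surjective _ (θ_surjective ξ)).1 hy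
  exact ⟨Submodule.Quotient.mk ⟨x, hx⟩, rfl⟩

include h hξ hI

/-- the kernel of `W~(I)/ξ → J` is killed by `ξ` and by all `[a^{1/p^n}]` if `a^m ∈ I` -/
lemma toJ_ker {a : P} {m : ℕ} (ha : a ^ m ∈ I) (x : ↥(WI h.p_zero I) ⧸
      (ξ • (⊤ : Submodule (WittVector p P) ↥(WI h.p_zero I)))) (hx : toJ h.p_zero ξ I x = 0) (n : ℕ) :
    τ (h.rtn n a) • x = 0 := by
  obtain ⟨x, rfl⟩ := Submodule.Quotient.mk_surjective _ x
  have h1 : θ ξ x.1 = 0 := congrArg Subtype.val hx
  obtain ⟨z, hz⟩ := θ_eq_zero_iff.1 h1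
  have h2 : ξ * z ∈ WI h.p_zero I := hz ▸ x.2
  have h3 : τ (h.rtn n a) * z ∈ WI h.p_zero I := by
    have h4 := xi_torsion_WI h hI hξ h2 ha (n + m)
    have h5 : h.rtn (n + m) (a ^ m) ∣ h.rtn n a := by
      rw [h.rtn_pow_comm]
      refine ⟨h.rtn (n + m) a ^ (p ^ m - m), ?_⟩
      rw [← pow_add, Nat.add_sub_cancel' (Nat.lt_pow_self hp.out.one_lt).le, h.rtn_add_pow]
    obtain ⟨r, hr⟩ := h5
    have : τ (h.rtn n a) * z = τ r * (τ (h.rtn (n + m) (a ^ m)) * z) := by
      rw [← mul_assoc, ← map_mul, mul_comm r, ← hr]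
    rw [this]
    exact Ideal.mul_mem_left _ _ h4
  rw [← Submodule.Quotient.mk_smul, Submodule.Quotient.mk_eq_zero,
    Submodule.mem_smul_pointwise_iff_exists]
  refine ⟨⟨_, h3⟩, trivial, Subtype.ext ?_⟩
  show ξ * (τ (h.rtn n a) * z) = τ (h.rtn n a) * x.1
  rw [hz]; ring

/-- **`J = θ(W~(I))` versus `I`**: the Koszul homology of `(p, l^♯)` on `J` and of `(π, l)` on `I`
have the same lengths, if the modules killed by `p, [π], [l]` and all `[a^{1/p^n}]` are null
(`a^m ∈ I`). -/
theorem kh_J {a : P} {m : ℕ} (ha : a ^ m ∈ I) (l : List P)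
    (hnull : ∀ (Y : Type u) [AddCommGroup Y] [Module (WittVector p P) Y],
      (∀ y : Y, (p : WittVector p P) • y = 0) → (∀ y : Y, τ π • y = 0) →
      (∀ c ∈ l, ∀ y : Y, τ c • y = 0) → (∀ (n : ℕ) (y : Y), τ (h.rtn n a) • y = 0) → Λ.L Y = 0)
    (i : ℤ) :
    kh (Λ.restrict (θ ξ)) ((p : Om ξ) :: l.map (sh ξ)) ↥((WI h.p_zero I).map (θ ξ)) i =
      kh (Λ.restrict (constantCoeff (p := p) (R := P))) (π :: l) ↥I i := by
  let _ : Module (WittVector p P) ↥I := Module.compHom ↥I (constantCoeff (p := p) (R := P))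
  obtain ⟨u, -, hu⟩ := hξ.ex
  -- `J` over `W`
  rw [← map_theta ξ l, kh_restrict (θ ξ) (fun b x => by
      apply Subtype.ext
      obtain ⟨y, hy⟩ := θ_surjective ξ x.1
      show b • (x.1 : Om ξ) = θ ξ b * x.1
      rw [← hy]; rfl) Λ]
  have e1 : π :: l = (τ π :: l.map τ).map (constantCoeff (p := p) (R := P)) := by
    rw [List.map_cons, map_coeff]
    rw [show constantCoeff (τ π) = π from teichmuller_coeff_zero p π]
  rw [e1, kh_restrict (constantCoeff (p := p) (R := P)) (fun _ _ => rfl) Λ]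
  -- the null kernel
  rw [← kh_eq_of_ker_null Λ (toJ_surjective h.p_zero ξ I) _ (fun j => ?_)]
  · rcases lt_or_ge i 0 with hi | hi
    · rw [kh_eq_zero _ _ _ i (Or.inl hi), kh_eq_zero _ _ _ i (Or.inl hi)]
    obtain ⟨n, rfl⟩ := Int.eq_ofNat_of_zero_le hi
    have h1 := h0_exchange Λ (X := ↥(WI h.p_zero I)) (p := (p : WittVector p P)) (π := τ π)
      (u := u) (ξ := ξ) hu
      (g := Submodule.mkQ (ξ • (⊤ : Submodule (WittVector p P) ↥(WI h.p_zero I))))
      (g' := ({ toFun := fun x => ⟨x.1.coeff 0, coeff_zero_mem_of_WI x.2⟩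
                map_add' := fun x y => Subtype.ext
                  (map_add (constantCoeff (p := p) (R := P)) x.1 y.1)
                map_smul' := fun a x => Subtype.ext
                  (map_mul (constantCoeff (p := p) (R := P)) a x.1) } :
          ↥(WI h.p_zero I) →ₗ[WittVector p P] ↥I))
      (fun x hx => Subtype.ext (xi_regular h hξ (congrArg Subtype.val hx)))
      (fun x hx => Subtype.ext (p_regular h (congrArg Subtype.val hx)))
      (Submodule.mkQ_surjective _) (fun x => ?_) (fun x => ?_) (fun x => ?_) (l.map τ) n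
    · rwa [h0_eq_kh, h0_eq_kh] at h1
    · rw [Submodule.mkQ_apply, Submodule.Quotient.mk_eq_zero,
        Submodule.mem_smul_pointwise_iff_exists]
      exact ⟨fun ⟨y, _, hy⟩ => ⟨y, hy⟩, fun ⟨y, hy⟩ => ⟨y, trivial, hy⟩⟩
    · exact ⟨⟨τ x.1, teich_mem_WI x.2⟩, Subtype.ext (teichmuller_coeff_zero p x.1)⟩
    · constructor
      · intro hx
        obtain ⟨y, hy, hxy⟩ := WI_exists_eq_teich_add h hI x.2
        have hx0 : x.1.coeff 0 = 0 := congrArg Subtype.val hx
        rw [hx0, WittVector.teichmuller_zero, zero_add] at hxy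
        exact ⟨⟨y, hy⟩, Subtype.ext hxy.symm⟩
      · rintro ⟨y, rfl⟩
        apply Subtype.ext
        exact (p_dvd_iff h).1 ⟨y.1, rfl⟩
  · refine kh_eq_zero_of_null Λ _ _ (fun Y _ _ hY => ?_) j
    have hp' : ∀ y : Y, (p : WittVector p P) • y = 0 := fun y =>
      hY _ (Ideal.mem_sup_left (Ideal.subset_span (by simp))) y
    have hann : ∀ b : WittVector p P, (∀ x, toJ h.p_zero ξ I x = 0 → b • x = 0) →
        ∀ y : Y, b • y = 0 := fun b hb y =>
      hY b (Ideal.mem_sup_right (Module.mem_annihilator.2 fun x => Subtype.ext (hb x.1 x.2))) y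
    have hξ' : ∀ y : Y, ξ • y = 0 := hann ξ fun x _ => by
      obtain ⟨x, rfl⟩ := Submodule.Quotient.mk_surjective _ x
      rw [← Submodule.Quotient.mk_smul, Submodule.Quotient.mk_eq_zero,
        Submodule.mem_smul_pointwise_iff_exists]
      exact ⟨x, trivial, rfl⟩
    refine hnull Y hp' (fun y => ?_) (fun c hc y => ?_) (fun n y => ?_)
    · have h2 : τ π = ξ - u * (p : WittVector p P) := by rw [hu]; ring
      rw [h2, sub_smul, hξ', mul_smul, hp', smul_zero, sub_zero]
    · exact hY _ (Ideal.mem_sup_left (Ideal.subset_span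
        (List.mem_cons_of_mem _ (List.mem_map_of_mem hc)))) y
    · exact hann _ (fun x hx => toJ_ker h hξ hI ha x hx n) y

end J

section quot

variable {I : Ideal P} (hI : Digit.Convex p I)

include h hI

/-- **`D = W(P)/W~(I)` versus `P/I`** -/
theorem kh_quot (l : List P) (i : ℤ) :
    kh Λ ((p : WittVector p P) :: l.map τ) (WittVector p P ⧸ WI h.p_zero I) i =
      kh (Λ.restrict (constantCoeff (p := p) (R := P))) l (P ⧸ I) i := by
  let _ : Module (WittVector p P) (P ⧸ I) :=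
    Module.compHom (P ⧸ I) (constantCoeff (p := p) (R := P))
  conv_rhs => rw [← map_coeff (p := p) l]
  rw [kh_restrict (constantCoeff (p := p) (R := P)) (fun _ _ => rfl) Λ]
  rcases lt_or_ge i 0 with hi | hi
  · rw [kh_eq_zero _ _ _ i (Or.inl hi), kh_eq_zero _ _ _ i (Or.inl hi)]
  obtain ⟨n, rfl⟩ := Int.eq_ofNat_of_zero_le hi
  let g0 : WittVector p P →ₗ[WittVector p P] (P ⧸ I) :=
    { toFun := fun x => Submodule.Quotient.mk (x.coeff 0)
      map_add' := fun x y => by
        rw [← Submodule.Quotient.mk_add]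
        exact congrArg _ (map_add (constantCoeff (p := p) (R := P)) x y)
      map_smul' := fun a x => by
        refine (congrArg (Submodule.Quotient.mk (p := I))
          (map_mul (constantCoeff (p := p) (R := P)) a x)).trans ?_
        rfl }
  let g : (WittVector p P ⧸ WI h.p_zero I) →ₗ[WittVector p P] (P ⧸ I) :=
    Submodule.liftQ _ g0 (fun x hx => (Submodule.Quotient.mk_eq_zero _).2 (coeff_zero_mem_of_WI hx))
  have h1 := SX.h0_cons_regular Λ (X := WittVector p P ⧸ WI h.p_zero I) (p : WittVector p P)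
    (l.map τ) g (fun x hx => ?_) (fun x => ?_) (fun x => ?_) n
  · rwa [h0_eq_kh, h0_eq_kh] at h1
  · obtain ⟨x, rfl⟩ := Submodule.Quotient.mk_surjective _ x
    rw [← Submodule.Quotient.mk_smul, Submodule.Quotient.mk_eq_zero] at hx
    exact (Submodule.Quotient.mk_eq_zero _).2 (WI_of_p_mul_mem h hI hx)
  · obtain ⟨x, rfl⟩ := Submodule.Quotient.mk_surjective _ x
    refine ⟨Submodule.Quotient.mk (τ x), ?_⟩
    show Submodule.Quotient.mk ((τ x).coeff 0) = _
    rw [teichmuller_coeff_zero]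
  · obtain ⟨x, rfl⟩ := Submodule.Quotient.mk_surjective _ x
    constructor
    · intro hx
      have hx0 : x.coeff 0 ∈ I := (Submodule.Quotient.mk_eq_zero _).1 hx
      obtain ⟨y, hy⟩ := exists_eq_teich_add h x
      refine ⟨Submodule.Quotient.mk y, ?_⟩
      rw [← Submodule.Quotient.mk_smul, Submodule.Quotient.eq, smul_eq_mul]
      have h2 : (p : WittVector p P) * y - x = - τ (x.coeff 0) := by
        conv_lhs => rw [hy]
        ring
      rw [h2]
      exact neg_mem (teich_mem_WI hx0)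
    · rintro ⟨y, hy⟩
      obtain ⟨y, rfl⟩ := Submodule.Quotient.mk_surjective _ y
      rw [← hy]
      show Submodule.Quotient.mk (((p : WittVector p P) • y).coeff 0) = (0 : P ⧸ I)
      have h3 : ((p : WittVector p P) • y).coeff 0 = 0 := (p_dvd_iff h).1 ⟨y, rfl⟩
      rw [h3, Submodule.Quotient.mk_zero]

end quot

end Crest.Agent.R188.PerfC
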