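import Crest.Agent.R188.KosF
import Crest.Agent.R183.AddLenInst

/-!
# R188 (Serre positivity), S-level (e), `Λ`-side: powers of regular sequences, restriction of
scalars, `ϖ` regular on `C/(v^m)C`.
helper415
-/

set_option autoImplicit false

namespace Crest.Agent.R188.KosG

open Crest.Agent.R183
open scoped ENNReal

universe u v w

section powers

variable {A : Type u} [CommRing A] (Λ : AddLen.{u, v} A)

theorem co_mul_le (a b : A) (X : Type v) [AddCommGroup X] [Module A X] :
    co Λ (a * b) X ≤ co Λ a X + co Λ b X := by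
  obtain ⟨s, t, w, -, -, h3, h4⟩ := herbrand_aux Λ X a b
  rw [h3, h4]
  exact add_le_add_left le_add_self _

theorem an_mul_le (a b : A) (X : Type v) [AddCommGroup X] [Module A X] :
    an Λ (a * b) X ≤ an Λ a X + an Λ b X := by
  obtain ⟨s, t, w, h1, h2, -, -⟩ := herbrand_aux Λ X a b
  rw [h1, h2]
  exact add_le_add_right le_self_add _

theorem co_pow_le (a : A) (X : Type v) [AddCommGroup X] [Module A X] (m : ℕ) :
    co Λ (a ^ m) X ≤ m * co Λ a X := by
  induction m with
  | zero =>
    have h1 : co Λ (1 : A) X = 0 := by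
      unfold co
      have : LinearMap.range (LinearMap.lsmul A X (1 : A)) = ⊤ := by
        rw [LinearMap.range_eq_top]
        intro x
        exact ⟨x, one_smul A x⟩
      rw [this]
      have : Subsingleton (X ⧸ (⊤ : Submodule A X)) := Submodule.Quotient.subsingleton_iff.2 rfl
      exact Λ.L_subsingleton
    rw [pow_zero, h1]
    exact zero_le
  | succ m ih =>
    rw [pow_succ]
    refine (co_mul_le Λ _ _ X).trans ?_
    push_cast
    rw [add_mul, one_mul]
    exact add_le_add_left ih _

theorem an_pow_le (a : A) (X : Type v) [AddCommGroup X] [Module A X] (m : ℕ) :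
    an Λ (a ^ m) X ≤ m * an Λ a X := by
  induction m with
  | zero =>
    have h1 : an Λ (1 : A) X = 0 := by
      unfold an
      have : LinearMap.ker (LinearMap.lsmul A X (1 : A)) = ⊥ := by
        rw [LinearMap.ker_eq_bot']
        intro x hx
        rwa [LinearMap.lsmul_apply, one_smul] at hx
      rw [this]
      exact Λ.L_subsingleton
    rw [pow_zero, h1]
    exact zero_le
  | succ m ih =>
    rw [pow_succ]
    refine (an_mul_le Λ _ _ X).trans ?_
    push_cast
    rw [add_mul, one_mul]
    exact add_le_add_left ih _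

theorem h_cone_pow_le (K : GCx.{u, v} A) (a : A) (m : ℕ) (i : ℤ) :
    (GCx.cone (a ^ m) K).h Λ i ≤ m * (GCx.cone a K).h Λ i := by
  rw [GCx.h_cone, GCx.h_cone, mul_add]
  exact add_le_add (co_pow_le Λ a _ m) (an_pow_le Λ a _ m)

theorem h_cones_map_pow_le (K : GCx.{u, v} A) (m : ℕ) (l' l'' : List A) (i : ℤ) :
    (cones (l'.map (· ^ m) ++ l'') K).h Λ i ≤ (m : ℝ≥0∞) ^ l'.length * (cones (l' ++ l'') K).h Λ i := by
  induction l' generalizing l'' with
  | nil => simp
  | cons a l ih =>
    rw [List.map_cons, List.cons_append, cones]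
    refine (h_cone_pow_le Λ _ a m i).trans ?_
    have h1 : (GCx.cone a (cones (l.map (· ^ m) ++ l'') K)).h Λ i =
        (cones (l.map (· ^ m) ++ (a :: l'')) K).h Λ i := by
      obtain ⟨φ⟩ := cones_perm (List.perm_middle (a := a) (l₁ := l.map (· ^ m)) (l₂ := l'')) K
      rw [φ.h_eq]
      rfl
    have h2 : (cones (l ++ (a :: l'')) K).h Λ i = (cones (a :: l ++ l'') K).h Λ i := by
      obtain ⟨φ⟩ := cones_perm (List.perm_middle (a := a) (l₁ := l) (l₂ := l'')) K
      rw [φ.h_eq]
      rfl
    rw [h1]
    refine (mul_le_mul_right (ih (a :: l'')) _).trans ?_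
    rw [h2, List.length_cons, pow_succ', mul_assoc]

theorem kh_map_pow_le (C : Type v) [AddCommGroup C] [Module A C] (m : ℕ) (l : List A) (i : ℤ) :
    kh Λ (l.map (· ^ m)) C i ≤ (m : ℝ≥0∞) ^ l.length * kh Λ l C i := by
  have := h_cones_map_pow_le Λ (one A C) m l [] i
  rwa [List.append_nil, List.append_nil] at this


theorem KFin_of_regular (C : Type v) [AddCommGroup C] [Module A C] (l : List A)
    (h : ∀ i : ℤ, 1 ≤ i → kh Λ l C i = 0) (h0 : kh Λ l C 0 ≠ ⊤) : KFin Λ C l := by
  intro i
  rcases lt_trichotomy i 0 with hi | rfl | hi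
  · rw [kh_eq_zero Λ C l i (Or.inl hi)]
    exact ENNReal.zero_ne_top
  · exact h0
  · rw [h i (by omega)]
    exact ENNReal.zero_ne_top

theorem chi_of_regular (C : Type v) [AddCommGroup C] [Module A C] (l : List A)
    (h : ∀ i : ℤ, 1 ≤ i → kh Λ l C i = 0) : chi Λ C l = (kh Λ l C 0).toReal := by
  unfold chi
  rw [Finset.sum_range_succ', Finset.sum_eq_zero]
  · simp
  · intro i _
    rw [h _ (by push_cast; omega)]
    simp



end powers

section regular

variable {A : Type u} [CommRing A] (Λ : AddLen.{u, v} A) {C C'' : Type v} [AddCommGroup C]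
  [Module A C] [AddCommGroup C''] [Module A C'']




end regular

section restrict

variable {A : Type u} [CommRing A] {B : Type w} [CommRing B] (f : A →+* B)

namespace GCx






end GCx




end restrict

end Crest.Agent.R188.KosG
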