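import Crest.Agent.R188.FinA3
import Crest.Agent.R188.PerfC2
import Crest.Agent.R188.Asm3
import Crest.Agent.R188.AsmG2
import Crest.Agent.R188.Tay5

-- ▼ part R188/FinA4
section

/-!
# R188, block FINA (helper414), part 4: Skoda for `W~` and `J`; the count from the Hilbert bound
-/

set_option autoImplicit false
set_option linter.unusedSectionVars false
set_option linter.style.haveILetI false

namespace Crest.Agent.R188.FinA

open scoped ENNReal Pointwise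
open WittVector Function Crest.Agent.R188.Prf Crest.Agent.R188.Wit Crest.Agent.R183
open Crest.Agent.R183.Digit (Convex)

universe u

variable {p : ℕ} [hp : Fact p.Prime] {P : Type u} [CommRing P] (hP : IsPerf p P)

local notation "𝕎" => WittVector p
local notation "τ" => WittVector.teichmuller p

section WImul

include hP

theorem WI_mul {I I' I'' : Ideal P} (hI : Convex p I)
    (h : ∀ x ∈ I, ∀ y ∈ I', x * y ∈ I'') {x y : 𝕎 P} (hx : x ∈ WI hP.p_zero I)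
    (hy : y ∈ WI hP.p_zero I') : x * y ∈ WI hP.p_zero I'' := by
  apply WI_closed hP
  intro n
  induction n generalizing x with
  | zero => exact ⟨0, zero_mem _, by simp⟩
  | succ n ih =>
    obtain ⟨x', hx', hxe⟩ := WI_exists_eq_teich_add hP hI hx
    obtain ⟨z', hz', w, hw⟩ := ih hx'
    refine ⟨τ (x.coeff 0) * y + (p : 𝕎 P) * z', add_mem
      (teich_mul_mem_WI (fun y' hy' => h _ (coeff_zero_mem_of_WI hx) y' hy') hy)
      (Ideal.mul_mem_left _ _ hz'), w, ?_⟩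
    nth_rewrite 1 [hxe]
    rw [pow_succ']
    linear_combination (p : 𝕎 P) * hw

lemma cpl_W : Cpl (p : 𝕎 P) (𝕎 P) := by
  haveI := isAdicComplete hP
  exact cpl_of_isPrecomplete

lemma sep_W : Sep (p : 𝕎 P) (𝕎 P) := by
  intro x hx
  apply eq_zero_of_forall_dvd hP
  intro n
  obtain ⟨y, hy⟩ := hx n
  exact ⟨y, hy⟩

lemma cpl_WI {I : Ideal P} (hI : Convex p I) : Cpl (p : 𝕎 P) ↥(WI hP.p_zero I) := by
  apply Cpl.submodule (cpl_W hP)
  · intro x hx
    apply WI_closed hP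
    intro n
    obtain ⟨y, hy, z, hz⟩ := hx n
    exact ⟨y, hy, z, by rw [hz, smul_eq_mul]; ring⟩
  · intro k z hz
    exact ⟨z, WI_of_p_pow_mul_mem hP hI hz, rfl⟩

lemma sep_WI (I : Ideal P) : Sep (p : 𝕎 P) ↥(WI hP.p_zero I) :=
  Sep.sub (f := (WI hP.p_zero I).subtype) (Submodule.injective_subtype _) (sep_W hP)

/-- Skoda for `W~`. -/
theorem WI_skoda {ι : Type} [Fintype ι] (c : ι → P) {I I' : Ideal P} (hI : Convex p I)
    (hI' : Convex p I') (hmul : ∀ i, ∀ x ∈ I', c i * x ∈ I)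
    (h : ∀ x ∈ I, ∃ a : ι → P, (∀ i, a i ∈ I') ∧ x = ∑ i, c i * a i) {x : 𝕎 P}
    (hx : x ∈ WI hP.p_zero I) :
    ∃ b : ι → 𝕎 P, (∀ i, b i ∈ WI hP.p_zero I') ∧ x = ∑ i, τ (c i) * b i := by
  let f : (ι → ↥(WI hP.p_zero I')) →ₗ[𝕎 P] ↥(WI hP.p_zero I) :=
    LinearMap.codRestrict _ (∑ i, (LinearMap.mulLeft (𝕎 P) (τ (c i))) ∘ₗ
      (WI hP.p_zero I').subtype ∘ₗ LinearMap.proj i) (by
        intro b
        rw [LinearMap.sum_apply]
        refine sum_mem fun i _ => ?_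
        exact teich_mul_mem_WI (hmul i) (b i).2)
  have hf : ∀ b, (f b : 𝕎 P) = ∑ i, τ (c i) * (b i : 𝕎 P) := by
    intro b
    show (∑ i, (LinearMap.mulLeft (𝕎 P) (τ (c i))) ∘ₗ
      (WI hP.p_zero I').subtype ∘ₗ LinearMap.proj i) b = _
    rw [LinearMap.sum_apply]
    rfl
  have hsurj : Surjective f := by
    refine surjective_of_mod (a := (p : 𝕎 P)) (Cpl.pi (cpl_WI hP hI')) (sep_WI hP I) ?_
    rintro ⟨x, hx⟩
    obtain ⟨a, ha, hxa⟩ := h _ (coeff_zero_mem_of_WI hx)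
    have h1 : x - (f fun i => ⟨τ (a i), teich_mem_WI (ha i)⟩ : 𝕎 P) ∈ WI hP.p_zero I :=
      sub_mem hx (f _).2
    have h2 : (p : 𝕎 P) ∣ x - (f fun i => ⟨τ (a i), teich_mem_WI (ha i)⟩ : 𝕎 P) := by
      rw [p_dvd_iff hP, hf]
      have h3 : constantCoeff (x - ∑ i, τ (c i) * τ (a i)) = 0 := by
        rw [map_sub, map_sum]
        have h4 : ∀ i, constantCoeff (τ (c i) * τ (a i)) = c i * a i := by
          intro i
          rw [← map_mul]
          exact teichmuller_coeff_zero p _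
        rw [Finset.sum_congr rfl fun i _ => h4 i, ← hxa]
        exact sub_self _
      exact h3
    obtain ⟨n', hn'⟩ := h2
    refine ⟨fun i => ⟨τ (a i), teich_mem_WI (ha i)⟩, ⟨n', ?_⟩, Subtype.ext ?_⟩
    · apply WI_of_p_mul_mem hP hI
      rw [← hn']
      exact h1
    · show x = (f _ : 𝕎 P) + (p : 𝕎 P) * n'
      rw [← hn']; ring
  obtain ⟨b, hb⟩ := hsurj ⟨x, hx⟩
  refine ⟨fun i => b i, fun i => (b i).2, ?_⟩
  rw [← hf, hb]

end WImul

section JI

variable {hP}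
variable {ξ : WittVector p P}

lemma sh_mem_JI {I : Ideal P} {a : P} (ha : a ∈ I) : sh ξ a ∈ JI hP ξ I :=
  Ideal.mem_map_of_mem _ (teich_mem_WI ha)


lemma JI_mul {I I' I'' : Ideal P} (hI : Convex p I) (h : ∀ x ∈ I, ∀ y ∈ I', x * y ∈ I'')
    {a b : Om ξ} (ha : a ∈ JI hP ξ I) (hb : b ∈ JI hP ξ I') : a * b ∈ JI hP ξ I'' := by
  obtain ⟨x, hx, rfl⟩ := mem_JI.1 ha
  obtain ⟨y, hy, rfl⟩ := mem_JI.1 hb
  exact mem_JI.2 ⟨x * y, WI_mul hP hI h hx hy, map_mul _ _ _⟩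

theorem JI_skoda {ι : Type} [Fintype ι] (c : ι → P) {I I' : Ideal P} (hI : Convex p I)
    (hI' : Convex p I') (hmul : ∀ i, ∀ x ∈ I', c i * x ∈ I)
    (h : ∀ x ∈ I, ∃ a : ι → P, (∀ i, a i ∈ I') ∧ x = ∑ i, c i * a i) :
    JI hP ξ I ≤ Ideal.span (Set.range fun i => sh ξ (c i)) * JI hP ξ I' := by
  intro x hx
  obtain ⟨w, hw, rfl⟩ := mem_JI.1 hx
  obtain ⟨b, hb, rfl⟩ := WI_skoda hP c hI hI' hmul h hw
  rw [map_sum]
  refine sum_mem fun i _ => ?_
  rw [map_mul]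
  exact Ideal.mul_mem_mul (Ideal.subset_span ⟨i, rfl⟩) (Ideal.mem_map_of_mem _ (hb i))

variable (F : Fam p P)

lemma Fam.JI_pow (a b n : ℕ) : JI hP ξ (F.I a b) ^ n ≤ JI hP ξ (F.I (n * a) (n * b)) := by
  induction n with
  | zero =>
    rw [zero_mul, zero_mul, F.top]
    have : JI hP ξ (⊤ : Ideal P) = ⊤ := by
      have h1 : (1 : 𝕎 P) ∈ WI hP.p_zero (⊤ : Ideal P) := by rw [WI_top]; trivial
      have h2 := Ideal.mem_map_of_mem (θ ξ) h1
      rw [map_one] at h2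
      exact (Ideal.eq_top_iff_one _).2 h2
    rw [this]
    exact le_top
  | succ n ih =>
    rw [pow_succ, add_mul, add_mul, one_mul, one_mul]
    refine (Ideal.mul_mono ih le_rfl).trans ?_
    rw [Ideal.mul_le]
    intro x hx y hy
    exact JI_mul (F.convex _ _) (fun x hx y hy => F.mul hx hy) hx hy

/-- the Skoda property of the first index. -/
def Fam.Skoda {ι : Type} [Fintype ι] (c : ι → P) (s : ℕ) : Prop :=
  ∀ n, s ≤ n → ∀ x ∈ F.I (n + 1) 0, ∃ a : ι → P, (∀ i, a i ∈ F.I n 0) ∧ x = ∑ i, c i * a i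

theorem Fam.JI_le_pow {ι : Type} [Fintype ι] {c : ι → P} {s : ℕ} (hS : F.Skoda c s)
    (hc : ∀ i, c i ∈ F.I 1 0) (n : ℕ) :
    JI hP ξ (F.I (s + n) 0) ≤ Ideal.span (Set.range fun i => sh ξ (c i)) ^ n := by
  induction n with
  | zero => rw [pow_zero, Ideal.one_eq_top]; exact le_top
  | succ n ih =>
    rw [← add_assoc, pow_succ']
    refine (JI_skoda c (F.convex _ _) (F.convex _ _) ?_ (hS (s + n) (Nat.le_add_right s n))).trans
      (Ideal.mul_mono le_rfl ih)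
    intro i x hx
    have := F.mul (hc i) hx
    rwa [add_zero, add_comm 1] at this

/-- **the count** from the Hilbert bound. -/
theorem Fam.count {Λ : AddLen.{u, u} (𝕎 P)} {ι : Type} [Fintype ι] {c : ι → P} {s : ℕ}
    (hS : F.Skoda c s) (hc : ∀ i, c i ∈ F.I 1 0)
    {B : Type*} [CommRing B] [IsLocalRing B] {N : Type u} [CommRing N] [Algebra B N]
    (ψ : N →+* Om ξ) (𝔠 𝔶 : Ideal N) (h1 : ∀ i, sh ξ (c i) ∈ 𝔠.map ψ)
    (h2 : ∀ x ∈ 𝔠, ψ x ∈ JI hP ξ (F.I 1 0)) (h3 : ∀ x ∈ 𝔶, ψ x ∈ JI hP ξ (F.I 0 1)) {C D : ℕ}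
    (hHB : ∀ n M : ℕ, Module.length B (↥(𝔠 ^ n) ⧸ (𝔶 ^ M • ⊤ : Submodule N ↥(𝔠 ^ n))) ≤
      C * ((n + M + 1 : ℕ) : ℕ∞) ^ D) (t M : ℕ) (ht : s ≤ t) :
    (Λ.restrict (θ ξ)).L (↥(JI hP ξ (F.I t 0)) ⧸
      (JI hP ξ (F.I t 0) ⊓ JI hP ξ (F.I (t - s) M)).submoduleOf (JI hP ξ (F.I t 0))) ≤
      (C * (Λ.restrict (θ ξ)).L (Om ξ ⧸ (IsLocalRing.maximalIdeal B).map
        (ψ.comp (algebraMap B N)))) * ((t + M + 1 : ℕ) : ℝ≥0∞) ^ D := by
  obtain ⟨n, rfl⟩ := Nat.exists_eq_add_of_le ht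
  rw [Nat.add_sub_cancel_left]
  set J := JI hP ξ (F.I (s + n) 0) with hJ
  set J' := JI hP ξ (F.I n M) with hJ'
  set Q : Ideal (Om ξ) := (𝔠 ^ n).map ψ with hQ
  have hJQ : J ≤ Q := by
    rw [hQ, Ideal.map_pow]
    refine (F.JI_le_pow hS hc n).trans (Ideal.pow_right_mono ?_ n)
    rw [Ideal.span_le]
    rintro _ ⟨i, rfl⟩
    exact h1 i
  have hyM : ∀ r ∈ 𝔶 ^ M, ψ r ∈ JI hP ξ (F.I 0 M) := by
    intro r hr
    have e1 : ψ r ∈ (𝔶.map ψ) ^ M := by
      rw [← Ideal.map_pow]; exact Ideal.mem_map_of_mem _ hr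
    have e2 : 𝔶.map ψ ≤ JI hP ξ (F.I 0 1) := by
      rw [Ideal.map_le_iff_le_comap]; exact h3
    have e3 := F.JI_pow (hP := hP) (ξ := ξ) 0 1 M (Ideal.pow_right_mono e2 M e1)
    rwa [mul_zero, mul_one] at e3
  have hcn : ∀ z ∈ 𝔠 ^ n, ψ z ∈ JI hP ξ (F.I n 0) := by
    intro z hz
    have e1 : ψ z ∈ (𝔠.map ψ) ^ n := by
      rw [← Ideal.map_pow]; exact Ideal.mem_map_of_mem _ hz
    have e2 : 𝔠.map ψ ≤ JI hP ξ (F.I 1 0) := by
      rw [Ideal.map_le_iff_le_comap]; exact h2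
    have e3 := F.JI_pow (hP := hP) (ξ := ξ) 1 0 n (Ideal.pow_right_mono e2 n e1)
    rwa [mul_zero, mul_one] at e3
  -- the additive map
  let f0 : ↥(𝔠 ^ n) →+ ↥Q :=
    { toFun := fun z => ⟨ψ z, Ideal.mem_map_of_mem _ z.2⟩
      map_zero' := Subtype.ext (map_zero _)
      map_add' := fun a b => Subtype.ext (map_add _ _ _) }
  have hf0 : ∀ z ∈ (𝔶 ^ M • ⊤ : Submodule N ↥(𝔠 ^ n)), f0 z ∈ J'.submoduleOf Q := by
    intro z hz
    refine Submodule.smul_induction_on (p := fun z => f0 z ∈ J'.submoduleOf Q) hz ?_ ?_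
    · intro r hr z _
      show ψ (r * (z : N)) ∈ J'
      rw [map_mul]
      refine JI_mul (F.convex 0 M) (fun x hx y hy => ?_) (hyM r hr) (hcn z z.2)
      have := F.mul hx hy
      rwa [zero_add, add_zero] at this
    · intro x y hx hy
      rw [map_add]; exact add_mem hx hy
  let f : (↥(𝔠 ^ n) ⧸ (𝔶 ^ M • ⊤ : Submodule N ↥(𝔠 ^ n))) →+ (↥Q ⧸ J'.submoduleOf Q) :=
    QuotientAddGroup.map _ _ f0 hf0
  have hfmk : ∀ x, f (Submodule.Quotient.mk x) = Submodule.Quotient.mk (f0 x) := fun x => rfl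
  have hlen : (Λ.restrict (θ ξ)).L (↥Q ⧸ J'.submoduleOf Q) ≤
      ((C * (n + M + 1) ^ D : ℕ) : ℝ≥0∞) * (Λ.restrict (θ ξ)).L (Om ξ ⧸
        (IsLocalRing.maximalIdeal B).map (ψ.comp (algebraMap B N))) := by
    refine L_le_length_mul (Λ.restrict (θ ξ)) (ψ.comp (algebraMap B N)) f ?_ ?_ ?_
    · intro r z
      obtain ⟨z, rfl⟩ := Submodule.Quotient.mk_surjective _ z
      rw [← Submodule.Quotient.mk_smul, hfmk, hfmk, ← Submodule.Quotient.mk_smul]
      refine congrArg _ (Subtype.ext ?_)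
      show ψ ((r • z : ↥(𝔠 ^ n)) : N) = ψ (algebraMap B N r) * ψ z
      rw [← map_mul, ← Algebra.smul_def]
      rfl
    · rw [eq_top_iff]
      rintro w _
      obtain ⟨⟨w, hw⟩, rfl⟩ := Submodule.Quotient.mk_surjective _ w
      let T : Ideal (Om ξ) := ((Submodule.span (Om ξ) (Set.range f)).comap
        (J'.submoduleOf Q).mkQ).map Q.subtype
      have hQT : Q ≤ T := by
        refine Ideal.span_le.2 ?_
        rintro _ ⟨z, hz, rfl⟩
        exact ⟨⟨ψ z, Ideal.mem_map_of_mem _ hz⟩,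
          Submodule.subset_span ⟨Submodule.Quotient.mk ⟨z, hz⟩, rfl⟩, rfl⟩
      obtain ⟨⟨w', hw'⟩, h5, h6⟩ := hQT hw
      have h7 : w' = w := h6
      subst h7
      exact h5
    · refine (hHB n M).trans ?_
      push_cast
      exact le_rfl
  have hinj : (Λ.restrict (θ ξ)).L (↥J ⧸ (J ⊓ J').submoduleOf J) ≤
      (Λ.restrict (θ ξ)).L (↥Q ⧸ J'.submoduleOf Q) := by
    have hcond : (J ⊓ J').submoduleOf J ≤
        (J'.submoduleOf Q).comap (Submodule.inclusion hJQ) := by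
      intro x hx
      have hx' : (x : Om ξ) ∈ J ⊓ J' := hx
      exact hx'.2
    refine (Λ.restrict (θ ξ)).L_le_of_injective
      (Submodule.mapQ _ _ (Submodule.inclusion hJQ) hcond) ?_
    rw [injective_iff_map_eq_zero]
    intro x hx
    obtain ⟨x, rfl⟩ := Submodule.Quotient.mk_surjective _ x
    rw [Submodule.mapQ_apply, Submodule.Quotient.mk_eq_zero] at hx
    rw [Submodule.Quotient.mk_eq_zero]
    exact ⟨x.2, hx⟩
  refine hinj.trans (hlen.trans ?_)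
  have h4 : ((C * (n + M + 1) ^ D : ℕ) : ℝ≥0∞) ≤ C * ((s + n + M + 1 : ℕ) : ℝ≥0∞) ^ D := by
    rw [Nat.cast_mul, Nat.cast_pow]
    gcongr
    omega
  refine (mul_le_mul_left h4 _).trans_eq ?_
  ring

end JI

end Crest.Agent.R188.FinA
end

-- ▼ part R188/FinA5

/-!
# R188, block FINA (helper414), part 5: the radical lemma, growth and finiteness over `Ω`
-/

set_option autoImplicit false
set_option linter.unusedSectionVars false
set_option linter.style.haveILetI false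

namespace Crest.Agent.R188.FinA

open scoped ENNReal Pointwise
open WittVector Function Crest.Agent.R188.Prf Crest.Agent.R188.Wit Crest.Agent.R183
open Crest.Agent.R183.Digit (Convex)

universe u

local notation "𝕎" => WittVector
local notation "τ" => WittVector.teichmuller _

section radical

variable {p : ℕ} [hp : Fact p.Prime] {P : Type u} [CommRing P] (hP : IsPerf p P)

/-- `Σ_j (g_j^{1/p^∞})` -/
noncomputable def sId {κ : Type*} (g : κ → P) : Ideal P :=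
  ⨆ n, Ideal.span (Set.range fun j => hP.rtn n (g j))

variable {κ : Type*} [Fintype κ] {g : κ → P}

lemma mem_sId {x : P} : x ∈ sId hP g ↔ ∃ (n : ℕ) (b : κ → P), ∑ j, b j * hP.rtn n (g j) = x := by
  have hmono : Monotone fun n => Ideal.span (Set.range fun j => hP.rtn n (g j)) := by
    refine monotone_nat_of_le_succ fun n => Ideal.span_le.2 ?_
    rintro _ ⟨j, rfl⟩
    have h1 : hP.rtn (n + 1) (g j) ∈ Ideal.span (Set.range fun j => hP.rtn (n + 1) (g j)) :=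
      Ideal.subset_span ⟨j, rfl⟩
    have h2 := Ideal.pow_mem_of_mem _ h1 p hp.out.pos
    rw [hP.rtn_succ_pow] at h2
    exact h2
  unfold sId
  rw [Submodule.mem_iSup_of_directed _ hmono.directed_le]
  exact exists_congr fun n => Ideal.mem_span_range_iff_exists_fun

lemma rtn_mem_sId (n : ℕ) (j : κ) : hP.rtn n (g j) ∈ sId hP g := by
  have h1 : hP.rtn n (g j) ∈ Ideal.span (Set.range fun j => hP.rtn n (g j)) :=
    Ideal.subset_span ⟨j, rfl⟩
  exact le_iSup (fun n => Ideal.span (Set.range fun j => hP.rtn n (g j))) n h1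

lemma sId_radical {x : P} (hx : x ^ p ∈ sId hP g) : x ∈ sId hP g := by
  obtain ⟨n, b, hb⟩ := (mem_sId hP).1 hx
  refine (mem_sId hP).2 ⟨n + 1, fun j => hP.rt (b j), hP.pow_inj ?_⟩
  rw [sum_pow_p hP.p_zero, ← hb]
  exact Finset.sum_congr rfl fun j _ => by rw [mul_pow, hP.rt_pow, hP.rtn_succ_pow]

lemma exists_pow_mem_of_sId {x : P} (hx : x ∈ sId hP g) (m : ℕ) :
    ∃ N : ℕ, x ^ N ∈ Ideal.span (Set.range fun j => g j ^ m) := by
  obtain ⟨n, b, rfl⟩ := (mem_sId hP).1 hx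
  refine ⟨p ^ (n + m), ?_⟩
  rw [sum_pow_pn hP.p_zero]
  refine sum_mem fun j _ => ?_
  rw [mul_pow, pow_add, pow_mul, pow_mul, hP.rtn_pow]
  refine Ideal.mul_mem_left _ _ ?_
  obtain ⟨c, hc⟩ := pow_dvd_pow (g j) (Nat.lt_pow_self hp.out.one_lt (n := m)).le
  rw [hc]
  exact Ideal.mul_mem_right _ _ (Ideal.subset_span ⟨j, rfl⟩)

/-- **RADICAL LEMMA** -/
theorem radical_lemma {ξ : WittVector p P} {π : P} (hξ : IsDist ξ π)
    (hπ : π ∈ Ideal.jacobson (⊥ : Ideal P)) (g : κ → P) {c : ℕ}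
    (hpc : (p : Om ξ) ^ c ∈ Ideal.span (Set.range fun j => sh ξ (g j))) {x : P} {c' : ℕ}
    (hx : sh ξ x ^ c' ∈ Ideal.span (Set.range fun j => sh ξ (g j))) :
    π ∈ sId hP g ∧ x ∈ sId hP g := by
  let R := sId hP g
  let Q := P ⧸ R
  have hQ : IsPerf p Q := hP.quot R fun _ hx => sId_radical hP hx
  let φ : P →+* Q := Ideal.Quotient.mk R
  have hφ : Surjective φ := Ideal.Quotient.mk_surjective
  set ξQ : WittVector p Q := WittVector.map φ ξ with hξQ0
  have hξQ : IsDist ξQ (φ π) := hξ.map φ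
  haveI := Om_isReduced hQ hξQ
  let Θ : Om ξ →+* Om ξQ := Ideal.Quotient.lift (Ideal.span {ξ}) ((θ ξQ).comp (WittVector.map φ)) (by
    intro a ha
    obtain ⟨b, rfl⟩ := Ideal.mem_span_singleton'.1 ha
    rw [RingHom.comp_apply, map_mul, map_mul]
    have : θ ξQ (WittVector.map φ ξ) = 0 := θ_xi ξQ
    rw [this, mul_zero])
  have hΘ : ∀ w, Θ (θ ξ w) = θ ξQ (WittVector.map φ w) := fun w => rfl
  have hΘsh : ∀ a : P, Θ (sh ξ a) = sh ξQ (φ a) := by
    intro a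
    unfold sh
    rw [hΘ, map_teichmuller]
  have hspan : ∀ a ∈ Ideal.span (Set.range fun j => sh ξ (g j)), Θ a = 0 := by
    intro a ha
    have h1 : Ideal.span (Set.range fun j => sh ξ (g j)) ≤ RingHom.ker Θ := by
      rw [Ideal.span_le]
      rintro _ ⟨j, rfl⟩
      show Θ (sh ξ (g j)) = 0
      rw [hΘsh]
      have : φ (g j) = 0 := Ideal.Quotient.eq_zero_iff_mem.2 (by
        simpa using rtn_mem_sId hP (g := g) 0 j)
      rw [this, sh_zero]
    exact h1 ha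
  -- `p = 0` in `Om ξQ`
  have hp0 : (p : Om ξQ) = 0 := by
    have h1 := hspan _ hpc
    rw [map_pow, map_natCast] at h1
    exact eq_zero_of_pow_eq_zero h1
  have hp1 : θ ξQ (p : WittVector p Q) = 0 := by rw [map_natCast]; exact hp0
  obtain ⟨z, hz⟩ := θ_eq_zero_iff.1 hp1
  obtain ⟨u, hu, he⟩ := hξQ.ex
  obtain ⟨z', hz'⟩ := exists_eq_teich_add hQ z
  have hcc : ∀ a : Q, constantCoeff (teichmuller p a) = a := fun a => teichmuller_coeff_zero p a
  have e1 : φ π * z.coeff 0 = 0 := by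
    have h1 := congrArg (constantCoeff (p := p) (R := Q)) hz
    rw [map_natCast, hQ.p_zero, map_mul, he, map_add, hcc, map_mul, map_natCast, hQ.p_zero,
      zero_mul, add_zero] at h1
    exact h1.symm
  have e2 : (1 : WittVector p Q) = teichmuller p (φ π) * z' + u * z := by
    apply eq_of_p_mul hQ
    have h1 : teichmuller p (φ π) * teichmuller p (z.coeff 0) = 0 := by
      rw [← map_mul, e1, teichmuller_zero]
    have h2 : (p : WittVector p Q) * 1 = (teichmuller p (φ π) + (p : WittVector p Q) * u) * z := by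
      rw [mul_one, ← he, ← hz]
    rw [h2, add_mul]
    nth_rewrite 1 [hz']
    linear_combination h1
  have e3 : (1 : Q) = φ π * z'.coeff 0 + u.coeff 0 * z.coeff 0 := by
    have h1 := congrArg (constantCoeff (p := p) (R := Q)) e2
    rw [map_one, map_add, map_mul, map_mul, hcc] at h1
    exact h1
  have e4 : φ π * (1 - φ π * z'.coeff 0) = 0 := by
    linear_combination (φ π) * e3 + (u.coeff 0) * e1
  obtain ⟨w, hw⟩ := hφ (z'.coeff 0)
  have e5 : IsUnit (1 - φ π * z'.coeff 0) := by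
    have h1 := (Ideal.mem_jacobson_bot.1 hπ (-w)).map φ
    rw [map_add, map_mul, map_neg, map_one, hw] at h1
    have h2 : 1 - φ π * z'.coeff 0 = φ π * -z'.coeff 0 + 1 := by ring
    rw [h2]
    exact h1
  have e6 : φ π = 0 := (IsUnit.mul_left_eq_zero e5).1 e4
  refine ⟨Ideal.Quotient.eq_zero_iff_mem.1 e6, ?_⟩
  have h2 := hspan _ hx
  rw [map_pow, hΘsh] at h2
  have h3 : sh ξQ (φ x) = 0 := eq_zero_of_pow_eq_zero h2
  obtain ⟨y, hy⟩ := θ_eq_zero_iff.1 h3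
  rw [he, e6, teichmuller_zero, zero_add] at hy
  have h4 := congrArg (constantCoeff (p := p) (R := Q)) hy
  rw [hcc, map_mul, map_mul, map_natCast, hQ.p_zero, zero_mul, zero_mul] at h4
  exact Ideal.Quotient.eq_zero_iff_mem.1 h4

end radical

/-! ### Koszul lengths -/

section kos

open Crest.Agent.R188.KosG

variable {A : Type u} [CommRing A] (Λ : AddLen.{u, u} A) (C : Type u) [AddCommGroup C] [Module A C]

lemma pas_ne_top {g : ℤ → ℝ≥0∞} (hg : ∀ i, g i ≠ ⊤) (n : ℕ) (i : ℤ) : pas g n i ≠ ⊤ := by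
  unfold pas
  exact ENNReal.sum_ne_top.2 fun j _ => ENNReal.mul_ne_top (ENNReal.natCast_ne_top _) (hg _)

/-- finiteness for `l` from finiteness for `a` if powers of the entries of `a` are
null-homotopic on `K(l; C)`. -/
theorem kh_ne_top_of_pow {l a : List A} (M : ℕ)
    (ha : ∀ x ∈ a, x ^ M ∈ Ideal.span {x | x ∈ l} ⊔ Module.annihilator A C)
    (hfin : ∀ j : ℤ, kh Λ a C j ≠ ⊤) (i : ℤ) : kh Λ l C i ≠ ⊤ := by
  have h1 : ∀ x ∈ a.map (· ^ M), x ∈ (kos l C).NHI := by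
    intro x hx
    obtain ⟨y, hy, rfl⟩ := List.mem_map.1 hx
    exact span_le_NHI C l (ha y hy)
  refine ne_top_of_le_ne_top (pas_ne_top (fun j => ?_) _ _) (kh_le_pas Λ C h1 i)
  exact ne_top_of_le_ne_top (ENNReal.mul_ne_top (ENNReal.pow_ne_top (ENNReal.natCast_ne_top M))
    (hfin j)) (kh_map_pow_le Λ C M a j)

end kos

/-! ### the world -/

section world

open Crest.Agent.R188.Asm Crest.Agent.R188.KosG

variable {p : ℕ} [hp : Fact p.Prime] {k : Type} [Field k] [CharP k p] {b : ℕ} (W : World p k b)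

theorem kh_P_ne_top (j : ℤ) : kh (LP W.Λ) (List.ofFn W.t) W.P j ≠ ⊤ := by
  rcases lt_trichotomy j 0 with hj | rfl | hj
  · rw [kh_eq_zero _ _ _ j (Or.inl hj)]; exact ENNReal.zero_ne_top
  · rw [kh_zero]
    have h1 : {x | x ∈ List.ofFn W.t} = Set.range W.t := Set.ext fun x => List.mem_ofFn
    have h2 : (Ideal.span (Set.range W.t) • (⊤ : Submodule W.P W.P)) =
        Ideal.span (Set.range W.t) := by
      rw [Ideal.smul_eq_mul, Ideal.mul_top]
    rw [h1, h2]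
    exact W.L_ne_top
  · rw [W.L_reg j (by omega)]; exact ENNReal.zero_ne_top

/-- `I → P → P/I` -/
theorem kh_quot_ne_top {I : Ideal W.P}
    (hI : ∀ j : ℤ, kh (LP W.Λ) (List.ofFn W.t) ↥I j ≠ ⊤) (j : ℤ) :
    kh (LP W.Λ) (List.ofFn W.t) (W.P ⧸ I) j ≠ ⊤ := by
  refine ne_top_of_le_ne_top (ENNReal.add_ne_top.2 ⟨kh_P_ne_top W j, hI (j - 1)⟩)
    (kh_right_le (LP W.Λ) (I.subtype) (Submodule.mkQ I) I.injective_subtype
      (Submodule.mkQ_surjective _) (LinearMap.exact_subtype_mkQ I) _ j)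

/-- parameters for `B/β` -/
def ParamB (p : ℕ) [Fact p.Prime] (k : Type) [Field k] (b : ℕ) : Prop :=
  ∀ β : BB p k b, β ≠ 0 → ∃ z : Fin b → BB p k b, (∀ i, z i ∈ mB p k b) ∧
    ∃ N, mB p k b ^ N ≤ Ideal.span {β} ⊔ Ideal.span (Set.range z)

lemma tB_mem_mB (i : Fin (b + 1)) : tB p k b i ∈ mB p k b := Ideal.subset_span ⟨i, rfl⟩

lemma sh_t (i : Fin (b + 1)) :
    sh W.ξ (W.t i) = algebraMap (BB p k b) (Om W.ξ) (tB p k b i) := by
  rw [AsmG.SharpPair.sh_eq (W.t_sharp i), W.tr_zero]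
  rfl

/-- **growth** -/
theorem growth_of (hz : ParamB p k b) {h : W.P} {hr : ℕ → BPlus p k b}
    (hS : SharpPair W.perf W.ι h hr) (h0 : hr 0 ≠ 0) {I : Ideal W.P} {m : ℕ} (hm : h ^ m ∈ I)
    (hfin : ∀ j : ℤ, kh (LP W.Λ) (List.ofFn W.t) (W.P ⧸ I) j ≠ ⊤) :
    ∃ (z : Fin b → BB p k b) (v : Fin b → W.P) (zr : Fin b → ℕ → BPlus p k b),
    (∀ i, z i ∈ mB p k b) ∧
    (∀ i, SharpPair W.perf W.ι (v i) (zr i)) ∧
    (∀ i, zr i 0 = algebraMap (BB p k b) (BPlus p k b) (z i)) ∧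
    ∀ j : ℤ, kh (LP W.Λ) (List.ofFn v) (W.P ⧸ I) j ≠ ⊤ := by
  obtain ⟨c', β, hβ, hcβ⟩ := Tri.bPlus_exists_mul h0
  obtain ⟨z, hzm, N, hN⟩ := hz β hβ
  choose v zr hv hzr using fun i => AsmG.exists_sharpPair W (algebraMap (BB p k b) (BPlus p k b) (z i))
  refine ⟨z, v, zr, hzm, hv, hzr, ?_⟩
  let g : Option (Fin b) → W.P := fun o => o.elim h v
  -- powers of `m_B` lie in `(g^♯)`
  have hgspan : ∀ y ∈ mB p k b ^ N,
      algebraMap (BB p k b) (Om W.ξ) y ∈ Ideal.span (Set.range fun o => sh W.ξ (g o)) := by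
    intro y hy
    have h1 : Ideal.span {β} ⊔ Ideal.span (Set.range z) ≤
        (Ideal.span (Set.range fun o => sh W.ξ (g o))).comap
          (algebraMap (BB p k b) (Om W.ξ)) := by
      refine sup_le (Ideal.span_le.2 (Set.singleton_subset_iff.2 ?_)) (Ideal.span_le.2 ?_)
      · rw [SetLike.mem_coe, Ideal.mem_comap, World.algebraMap_BB, ← hcβ, map_mul,
          ← AsmG.SharpPair.sh_eq hS]
        exact Ideal.mul_mem_right _ _ (Ideal.subset_span ⟨none, rfl⟩)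
      · rintro _ ⟨i, rfl⟩
        rw [SetLike.mem_coe, Ideal.mem_comap, World.algebraMap_BB, ← hzr i,
          ← AsmG.SharpPair.sh_eq (hv i)]
        exact Ideal.subset_span ⟨some i, rfl⟩
    exact h1 (hN hy)
  have hpc : (p : Om W.ξ) ^ N ∈ Ideal.span (Set.range fun o => sh W.ξ (g o)) := by
    have h1 := hgspan _ (Ideal.pow_mem_pow (tB_mem_mB (p := p) (k := k) (b := b) 0) N)
    rw [map_pow] at h1
    have h2 : algebraMap (BB p k b) (Om W.ξ) (tB p k b 0) = (p : Om W.ξ) := by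
      show algebraMap (BB p k b) (Om W.ξ) ((p : BB p k b)) = _
      rw [map_natCast]
    rwa [h2] at h1
  have ht : ∀ i, W.t i ∈ sId W.perf g := by
    intro i
    have h1 := hgspan _ (Ideal.pow_mem_pow (tB_mem_mB (p := p) (k := k) (b := b) i) N)
    rw [map_pow, ← sh_t] at h1
    have hπ : W.π ∈ Ideal.jacobson (⊥ : Ideal W.P) := by
      obtain ⟨u, hu⟩ := W.t_zero
      rw [← hu]
      exact Ideal.mul_mem_right _ _ (W.t_jac 0)
    exact (radical_lemma W.perf W.dist hπ g hpc h1).2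
  choose M hM using fun i => exists_pow_mem_of_sId W.perf (ht i) (m + 1)
  refine kh_ne_top_of_pow (LP W.Λ) (W.P ⧸ I) (∑ i, M i) ?_ hfin
  intro x hx
  obtain ⟨i, rfl⟩ := List.mem_ofFn.1 hx
  have hle : M i ≤ ∑ i, M i := Finset.single_le_sum (fun _ _ => Nat.zero_le _) (Finset.mem_univ i)
  have h1 : W.t i ^ (∑ i, M i) ∈ Ideal.span (Set.range fun o => g o ^ (m + 1)) := by
    obtain ⟨c, hc⟩ := pow_dvd_pow (W.t i) hle
    rw [hc]
    exact Ideal.mul_mem_right _ _ (hM i)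
  have h2 : Ideal.span (Set.range fun o => g o ^ (m + 1)) ≤
      Ideal.span {x | x ∈ List.ofFn v} ⊔ Module.annihilator W.P (W.P ⧸ I) := by
    rw [Ideal.span_le]
    rintro _ ⟨o, rfl⟩
    cases o with
    | none =>
      refine Submodule.mem_sup_right ?_
      rw [Ideal.annihilator_quotient]
      show h ^ (m + 1) ∈ I
      rw [pow_succ]
      exact Ideal.mul_mem_right _ _ hm
    | some i =>
      refine Submodule.mem_sup_left ?_
      show v i ^ (m + 1) ∈ _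
      rw [pow_succ]
      exact Ideal.mul_mem_left _ _ (Ideal.subset_span (List.mem_ofFn.2 ⟨i, rfl⟩))
  exact h2 h1

/-- **finiteness over `Ω`** -/
theorem fin_of {h : W.P} {hr : ℕ → BPlus p k b}
    (hS : SharpPair W.perf W.ι h hr) (h0 : hr 0 ≠ 0) {I : Ideal W.P} (hI : Convex p I) {m : ℕ}
    (hm : h ^ m ∈ I) (hfin : ∀ j : ℤ, kh (LP W.Λ) (List.ofFn W.t) ↥I j ≠ ⊤) (j : ℤ) :
    kh (LOm W.ξ W.Λ) (List.ofFn fun i => algebraMap (BB p k b) (Om W.ξ) (tB p k b i))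
      (Om W.ξ ⧸ Asm.JI W I) j ≠ ⊤ := by
  obtain ⟨u, hu⟩ := W.t_zero
  let l : List W.P := List.ofFn fun i : Fin b => W.t i.succ
  have ht : List.ofFn W.t = W.t 0 :: l := List.ofFn_succ
  have hlist : (List.ofFn fun i => algebraMap (BB p k b) (Om W.ξ) (tB p k b i)) =
      (p : Om W.ξ) :: l.map (sh W.ξ) := by
    rw [List.ofFn_succ, List.map_ofFn]
    congr 1
    · show algebraMap (BB p k b) (Om W.ξ) ((p : BB p k b)) = _
      rw [map_natCast]
    · congr 1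
      funext i
      exact (sh_t W i.succ).symm
  -- the list `π :: l`
  have hπl : ∀ (X : Type) [AddCommGroup X] [Module W.P X],
      (∀ j : ℤ, kh (LP W.Λ) (List.ofFn W.t) X j ≠ ⊤) →
        ∀ j : ℤ, kh (LP W.Λ) (W.π :: l) X j ≠ ⊤ := by
    intro X _ _ hX j
    refine kh_ne_top_of_pow (LP W.Λ) X 1 ?_ hX j
    intro x hx
    rw [pow_one]
    refine Submodule.mem_sup_left ?_
    rw [ht] at hx
    rcases List.mem_cons.1 hx with rfl | hx
    · have h1 : W.t 0 = W.π * ((u⁻¹ : (W.P)ˣ) : W.P) := by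
        rw [← hu, mul_assoc, Units.mul_inv, mul_one]
      rw [h1]
      exact Ideal.mul_mem_right _ _ (Ideal.subset_span (by simp))
    · exact Ideal.subset_span (List.mem_cons_of_mem _ hx)
  rw [hlist]
  have hO : ∀ j : ℤ, kh (LOm W.ξ W.Λ) ((p : Om W.ξ) :: l.map (sh W.ξ)) (Om W.ξ) j ≠ ⊤ := by
    intro j
    rw [PerfC.kh_Om W.perf W.dist W.Λ l j]
    exact hπl _ (kh_P_ne_top W) j
  have hJ : ∀ j : ℤ, kh (LOm W.ξ W.Λ) ((p : Om W.ξ) :: l.map (sh W.ξ)) ↥(Asm.JI W I) j ≠ ⊤ := by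
    intro j
    have := PerfC.kh_J W.perf W.dist W.Λ hI hm l (fun Y _ _ h1 h2 h3 h4 =>
      W.null h hr hS h0 Y (fun y => ⟨1, by rw [pow_one]; exact h1 y, fun i => ?_⟩) h4) j
    · unfold Asm.JI
      rw [this]
      exact hπl _ hfin j
    · rw [pow_one]
      refine Fin.cases ?_ (fun i => ?_) i
      · have h5 : W.t 0 = W.π * ((u⁻¹ : (W.P)ˣ) : W.P) := by
          rw [← hu, mul_assoc, Units.mul_inv, mul_one]
        rw [h5, mul_comm, map_mul, mul_smul, h2, smul_zero]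
      · exact h3 _ (List.mem_ofFn.2 ⟨i, rfl⟩) y
  exact ne_top_of_le_ne_top (ENNReal.add_ne_top.2 ⟨hO j, hJ (j - 1)⟩)
    (kh_right_le (LOm W.ξ W.Λ) (Asm.JI W I).subtype (Submodule.mkQ (Asm.JI W I))
      (Asm.JI W I).injective_subtype (Submodule.mkQ_surjective _)
      (LinearMap.exact_subtype_mkQ _) _ j)

/-- **`Good`** from the finiteness of the Koszul homology of `I` over `P`. -/
theorem good_of (hz : ParamB p k b) {h : W.P} {hr : ℕ → BPlus p k b}
    (hS : SharpPair W.perf W.ι h hr) (h0 : hr 0 ≠ 0) {I : Ideal W.P} (hI : Convex p I)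
    (hm : ∃ m, h ^ m ∈ I) (hfin : ∀ j : ℤ, kh (LP W.Λ) (List.ofFn W.t) ↥I j ≠ ⊤) :
    Good W h I where
  convex := hI
  mem := hm
  growth := by
    obtain ⟨m, hm⟩ := hm
    exact growth_of W hz hS h0 hm (kh_quot_ne_top W hfin)
  fin := by
    obtain ⟨m, hm⟩ := hm
    exact fin_of W hS h0 hI hm hfin

end world

end Crest.Agent.R188.FinA
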