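import Mathlib
import Crest.Agent.R183.AddLen

-- ▼ part R188/KosA
section

/-!
# R188 (Serre positivity), block A4: concrete graded complexes, cones, homology lengths.
helper415

A complex of `A`-modules is a total module `T` with submodules `gr i` (`i : ℤ`) and `D : T → T`,
`D (gr i) ⊆ gr (i-1)`, `D ∘ D = 0`.
-/

set_option autoImplicit false

namespace Crest.Agent.R188.KosG

open Crest.Agent.R183
open scoped ENNReal

universe u v

/-- Concrete graded complexes. -/
structure GCx (A : Type u) [CommRing A] where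
  /-- total module -/
  T : Type v
  [acg : AddCommGroup T]
  [mod : Module A T]
  /-- graded pieces -/
  gr : ℤ → Submodule A T
  /-- differential -/
  D : T →ₗ[A] T
  D_gr : ∀ (i : ℤ) (x : T), x ∈ gr i → D x ∈ gr (i - 1)
  DD : ∀ x : T, D (D x) = 0

attribute [instance] GCx.acg GCx.mod

namespace GCx

variable {A : Type u} [CommRing A] (K K' K'' : GCx.{u, v} A)

/-- cycles -/
def Z (i : ℤ) : Submodule A K.T := K.gr i ⊓ LinearMap.ker K.D

/-- boundaries -/
def B (i : ℤ) : Submodule A K.T := (K.gr (i + 1)).map K.D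

theorem mem_Z {i : ℤ} {x : K.T} : x ∈ K.Z i ↔ x ∈ K.gr i ∧ K.D x = 0 := Iff.rfl

theorem mem_B {i : ℤ} {x : K.T} : x ∈ K.B i ↔ ∃ y ∈ K.gr (i + 1), K.D y = x := Iff.rfl

theorem B_le_Z (i : ℤ) : K.B i ≤ K.Z i := by
  rintro _ ⟨y, hy, rfl⟩
  refine ⟨?_, K.DD y⟩
  have := K.D_gr _ _ hy
  rwa [add_sub_cancel_right] at this

/-- The homology as a submodule of `T ⧸ B i`. -/
def H (i : ℤ) : Submodule A (K.T ⧸ K.B i) := (K.Z i).map (K.B i).mkQ


theorem mkQ_eq_zero {i : ℤ} {x : K.T} : (K.B i).mkQ x = 0 ↔ x ∈ K.B i := by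
  rw [Submodule.mkQ_apply, Submodule.Quotient.mk_eq_zero]

/-- class of a cycle -/
def cls (i : ℤ) : K.Z i →ₗ[A] K.H i := (K.B i).mkQ.submoduleMap (K.Z i)

theorem cls_surj (i : ℤ) : Function.Surjective (K.cls i) :=
  LinearMap.submoduleMap_surjective _ _

@[simp] theorem cls_val (i : ℤ) (z : K.Z i) : ((K.cls i z : K.H i) : K.T ⧸ K.B i) = (K.B i).mkQ z :=
  rfl

theorem cls_eq_zero {i : ℤ} {z : K.Z i} : K.cls i z = 0 ↔ (z : K.T) ∈ K.B i := by
  rw [← K.mkQ_eq_zero, ← cls_val, ZeroMemClass.coe_eq_zero]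

theorem cls_eq_iff {i : ℤ} {z w : K.Z i} : K.cls i z = K.cls i w ↔ (z : K.T) - w ∈ K.B i := by
  rw [← sub_eq_zero, ← map_sub, K.cls_eq_zero, Submodule.coe_sub]

/-- homology lengths -/
noncomputable def h (Λ : AddLen.{u, v} A) (i : ℤ) : ℝ≥0∞ := Λ.L (K.H i)

theorem h_eq_zero_of_gr (Λ : AddLen.{u, v} A) {i : ℤ} (hi : K.gr i = ⊥) : K.h Λ i = 0 := by
  have : Subsingleton (K.H i) := by
    refine ⟨fun x y => ?_⟩
    obtain ⟨⟨x, hx⟩, rfl⟩ := K.cls_surj i x
    obtain ⟨⟨y, hy⟩, rfl⟩ := K.cls_surj i y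
    have hx' : x = 0 := by
      have : x ∈ K.gr i := hx.1
      rwa [hi, Submodule.mem_bot] at this
    have hy' : y = 0 := by
      have : y ∈ K.gr i := hy.1
      rwa [hi, Submodule.mem_bot] at this
    subst hx'
    subst hy'
    rfl
  exact Λ.L_subsingleton

/-- chain maps -/
structure Hom where
  /-- underlying map -/
  f : K.T →ₗ[A] K'.T
  gr : ∀ (i : ℤ) (x : K.T), x ∈ K.gr i → f x ∈ K'.gr i
  comm : ∀ x : K.T, f (K.D x) = K'.D (f x)

variable {K K' K''}

/-- map on cycles -/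
def Hom.mapZ (φ : Hom K K') (i : ℤ) : K.Z i →ₗ[A] K'.Z i :=
  φ.f.restrict (fun x hx => ⟨φ.gr i x hx.1, by
    change K'.D (φ.f x) = 0
    rw [← φ.comm, show K.D x = 0 from hx.2, map_zero]⟩)

theorem Hom.mapB (φ : Hom K K') {i : ℤ} {x : K.T} (hx : x ∈ K.B i) : φ.f x ∈ K'.B i := by
  obtain ⟨y, hy, rfl⟩ := hx
  exact ⟨φ.f y, φ.gr _ _ hy, (φ.comm y).symm⟩

/-- map on homology -/
def Hom.map (φ : Hom K K') (i : ℤ) : K.H i →ₗ[A] K'.H i :=
  (Submodule.mapQ (K.B i) (K'.B i) φ.f (fun _ hx => φ.mapB hx)).restrict (by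
    rintro _ ⟨z, hz, rfl⟩
    exact ⟨φ.f z, (φ.mapZ i ⟨z, hz⟩).2, rfl⟩)

theorem Hom.map_cls (φ : Hom K K') (i : ℤ) (z : K.Z i) :
    φ.map i (K.cls i z) = K'.cls i (φ.mapZ i z) := rfl

/-- isomorphisms -/
structure Iso (K K' : GCx.{u, v} A) where
  /-- underlying equivalence -/
  e : K.T ≃ₗ[A] K'.T
  gr : ∀ (i : ℤ) (x : K.T), e x ∈ K'.gr i ↔ x ∈ K.gr i
  comm : ∀ x : K.T, e (K.D x) = K'.D (e x)

/-- identity -/
def Iso.refl (K : GCx.{u, v} A) : Iso K K := ⟨LinearEquiv.refl A _, fun _ _ => Iff.rfl, fun _ => rfl⟩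

/-- inverse -/
def Iso.symm (φ : Iso K K') : Iso K' K where
  e := φ.e.symm
  gr := fun i x => by
    rw [← φ.gr, LinearEquiv.apply_symm_apply]
  comm := fun x => by
    apply φ.e.injective
    rw [φ.comm, LinearEquiv.apply_symm_apply, LinearEquiv.apply_symm_apply]

/-- composition -/
def Iso.trans (φ : Iso K K') (ψ : Iso K' K'') : Iso K K'' where
  e := φ.e.trans ψ.e
  gr := fun i x => by
    rw [LinearEquiv.trans_apply, ψ.gr, φ.gr]
  comm := fun x => by
    rw [LinearEquiv.trans_apply, LinearEquiv.trans_apply, φ.comm, ψ.comm]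

/-- the chain map of an isomorphism -/
def Iso.hom (φ : Iso K K') : Hom K K' :=
  ⟨φ.e, fun i x hx => (φ.gr i x).2 hx, φ.comm⟩

/-- homology of isomorphic complexes -/
noncomputable def Iso.H (φ : Iso K K') (i : ℤ) : K.H i ≃ₗ[A] K'.H i := by
  refine LinearEquiv.ofBijective (φ.hom.map i) ⟨?_, ?_⟩
  · rw [injective_iff_map_eq_zero]
    intro x hx
    obtain ⟨z, rfl⟩ := K.cls_surj i x
    rw [Hom.map_cls, cls_eq_zero] at hx
    obtain ⟨y, hy, hyz⟩ := hx
    rw [cls_eq_zero]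
    refine ⟨φ.e.symm y, (φ.symm.gr _ _).2 hy, ?_⟩
    apply φ.e.injective
    rw [φ.comm, LinearEquiv.apply_symm_apply]
    exact hyz
  · intro y
    obtain ⟨w, rfl⟩ := K'.cls_surj i y
    refine ⟨K.cls i (φ.symm.hom.mapZ i w), ?_⟩
    rw [Hom.map_cls]
    congr 1
    apply Subtype.ext
    exact φ.e.apply_symm_apply _

theorem Iso.h_eq (φ : Iso K K') (Λ : AddLen.{u, v} A) (i : ℤ) : K.h Λ i = K'.h Λ i :=
  Λ.L_congr (φ.H i)

/-! ### cones -/

/-- The cone of multiplication by `b`. -/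
def cone (b : A) (K : GCx.{u, v} A) : GCx.{u, v} A where
  T := K.T × K.T
  gr := fun i => (K.gr i).prod (K.gr (i - 1))
  D := (K.D.coprod (LinearMap.lsmul A K.T b)).prod (-(K.D.comp (LinearMap.snd A K.T K.T)))
  D_gr := by
    rintro i ⟨x, y⟩ ⟨hx, hy⟩
    refine ⟨?_, ?_⟩
    · exact (K.gr (i - 1)).add_mem (K.D_gr _ _ hx) ((K.gr (i - 1)).smul_mem b hy)
    · exact (K.gr (i - 1 - 1)).neg_mem (K.D_gr _ _ hy)
  DD := by
    rintro ⟨x, y⟩
    refine Prod.ext ?_ ?_
    · change K.D (K.D x + b • y) + b • (-(K.D y)) = 0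
      rw [map_add, K.DD, map_smul, zero_add, smul_neg, add_neg_cancel]
    · change -(K.D (-(K.D y))) = 0
      rw [map_neg, K.DD, neg_zero, neg_zero]



/-- Cones respect isomorphisms. -/
def Iso.cone (b : A) (φ : Iso K K') : Iso (GCx.cone b K) (GCx.cone b K') where
  e := φ.e.prodCongr φ.e
  gr := by
    rintro i ⟨x, y⟩
    change (φ.e x ∈ K'.gr i ∧ φ.e y ∈ K'.gr (i - 1)) ↔ (x ∈ K.gr i ∧ y ∈ K.gr (i - 1))
    rw [φ.gr, φ.gr]
  comm := by
    rintro ⟨x, y⟩
    refine Prod.ext ?_ ?_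
    · change φ.e (K.D x + b • y) = K'.D (φ.e x) + b • φ.e y
      rw [map_add, map_smul, φ.comm]
    · change φ.e (-(K.D y)) = -(K'.D (φ.e y))
      rw [map_neg, φ.comm]

/-- Cones commute. -/
def coneSwap (a b : A) (K : GCx.{u, v} A) : Iso (cone a (cone b K)) (cone b (cone a K)) where
  e := 
    { toFun := fun p => ((p.1.1, p.2.1), (p.1.2, -p.2.2))
      map_add' := by
        rintro ⟨⟨x, y⟩, ⟨z, w⟩⟩ ⟨⟨x', y'⟩, ⟨z', w'⟩⟩
        refine Prod.ext rfl (Prod.ext rfl ?_)
        change -(w + w') = -w + -w'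
        rw [neg_add]
      map_smul' := by
        rintro c ⟨⟨x, y⟩, ⟨z, w⟩⟩
        refine Prod.ext rfl (Prod.ext rfl ?_)
        change -(c • w) = c • (-w)
        rw [smul_neg]
      invFun := fun p => ((p.1.1, p.2.1), (p.1.2, -p.2.2))
      left_inv := by
        rintro ⟨⟨x, y⟩, ⟨z, w⟩⟩
        refine Prod.ext rfl (Prod.ext rfl ?_)
        change - -w = w
        rw [neg_neg]
      right_inv := by
        rintro ⟨⟨x, y⟩, ⟨z, w⟩⟩
        refine Prod.ext rfl (Prod.ext rfl ?_)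
        change - -w = w
        rw [neg_neg] }
  gr := by
    rintro i ⟨⟨x, y⟩, ⟨z, w⟩⟩
    change ((x ∈ K.gr i ∧ z ∈ K.gr (i - 1)) ∧ (y ∈ K.gr (i - 1) ∧ -w ∈ K.gr (i - 1 - 1))) ↔
      ((x ∈ K.gr i ∧ y ∈ K.gr (i - 1)) ∧ (z ∈ K.gr (i - 1) ∧ w ∈ K.gr (i - 1 - 1)))
    rw [neg_mem_iff]
    tauto
  comm := by
    rintro ⟨⟨x, y⟩, ⟨z, w⟩⟩
    refine Prod.ext (Prod.ext ?_ ?_) (Prod.ext ?_ ?_)
    · change K.D x + b • y + a • z = K.D x + a • z + b • y
      abel
    · change -(K.D z + b • w) = -(K.D z) + b • (-w)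
      rw [neg_add, smul_neg]
    · change -(K.D y) + a • w = -(K.D y + a • (-w))
      rw [neg_add, smul_neg, neg_neg]
    · change -(-(-(K.D w))) = -(-(K.D (-w)))
      rw [map_neg]

end GCx

end Crest.Agent.R188.KosG
end

-- ▼ part R188/KosB
section

/-!
# R188 (Serre positivity), block A4: homology of cones, null-homotopies.
helper415
-/

set_option autoImplicit false

namespace Crest.Agent.R188.KosG

open Crest.Agent.R183
open scoped ENNReal

universe u v

/-- `L (X / b X)` -/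
noncomputable def co {A : Type u} [CommRing A] (Λ : AddLen.{u, v} A) (b : A) (X : Type v)
    [AddCommGroup X] [Module A X] : ℝ≥0∞ := Λ.L (X ⧸ LinearMap.range (LinearMap.lsmul A X b))

/-- `L (Ann_X b)` -/
noncomputable def an {A : Type u} [CommRing A] (Λ : AddLen.{u, v} A) (b : A) (X : Type v)
    [AddCommGroup X] [Module A X] : ℝ≥0∞ := Λ.L (LinearMap.ker (LinearMap.lsmul A X b))

namespace GCx

variable {A : Type u} [CommRing A] {K : GCx.{u, v} A}

/-! ### null homotopies -/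

/-- `a` is null-homotopic on `K`. -/
def NH (K : GCx.{u, v} A) (a : A) : Prop :=
  ∃ s : K.T →ₗ[A] K.T, (∀ (i : ℤ) (x : K.T), x ∈ K.gr i → s x ∈ K.gr (i + 1)) ∧
    ∀ x : K.T, K.D (s x) + s (K.D x) = a • x

theorem NH.zero (K : GCx.{u, v} A) : K.NH 0 :=
  ⟨0, fun i x _ => (K.gr (i + 1)).zero_mem, fun x => by simp⟩

theorem NH.add {a b : A} (ha : K.NH a) (hb : K.NH b) : K.NH (a + b) := by
  obtain ⟨s, hs, hs'⟩ := ha
  obtain ⟨t, ht, ht'⟩ := hb
  refine ⟨s + t, fun i x hx => (K.gr (i + 1)).add_mem (hs i x hx) (ht i x hx), fun x => ?_⟩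
  rw [LinearMap.add_apply, LinearMap.add_apply, map_add, add_smul, ← hs', ← ht']
  abel

theorem NH.mul {a : A} (c : A) (ha : K.NH a) : K.NH (c * a) := by
  obtain ⟨s, hs, hs'⟩ := ha
  refine ⟨c • s, fun i x hx => (K.gr (i + 1)).smul_mem c (hs i x hx), fun x => ?_⟩
  rw [LinearMap.smul_apply, LinearMap.smul_apply, map_smul, ← smul_add, hs', smul_smul]

/-- The ideal of null-homotopic elements. -/
def NHI (K : GCx.{u, v} A) : Ideal A where
  carrier := {a | K.NH a}
  zero_mem' := NH.zero K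
  add_mem' := fun ha hb => NH.add ha hb
  smul_mem' := fun c _ ha => NH.mul c ha


theorem NH.of_smul {a : A} (h : ∀ x : K.T, a • x = 0) : K.NH a :=
  ⟨0, fun i x _ => (K.gr (i + 1)).zero_mem, fun x => by
    rw [LinearMap.zero_apply, LinearMap.zero_apply, map_zero, h, add_zero]⟩

theorem NH.self (K : GCx.{u, v} A) (a : A) : (cone a K).NH a := by
  refine ⟨(0 : K.T × K.T →ₗ[A] K.T).prod (LinearMap.fst A K.T K.T), ?_, ?_⟩
  · rintro i ⟨x, y⟩ ⟨hx, hy⟩
    refine ⟨(K.gr (i + 1)).zero_mem, ?_⟩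
    change x ∈ K.gr (i + 1 - 1)
    rw [add_sub_cancel_right]
    exact hx
  · rintro ⟨x, y⟩
    refine Prod.ext ?_ ?_
    · change K.D 0 + a • x + 0 = a • x
      rw [map_zero, zero_add, add_zero]
    · change -(K.D x) + (K.D x + a • y) = a • y
      abel

theorem NH.cone {a : A} (ha : K.NH a) (b : A) : (GCx.cone b K).NH a := by
  obtain ⟨s, hs, hs'⟩ := ha
  refine ⟨(s.comp (LinearMap.fst A K.T K.T)).prod (-(s.comp (LinearMap.snd A K.T K.T))), ?_, ?_⟩
  · rintro i ⟨x, y⟩ ⟨hx, hy⟩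
    refine ⟨hs i x hx, ?_⟩
    have := hs _ _ hy
    change -(s y) ∈ K.gr (i + 1 - 1)
    rw [add_sub_cancel_right]
    change s y ∈ K.gr (i - 1 + 1) at this
    rw [sub_add_cancel] at this
    exact (K.gr i).neg_mem this
  · rintro ⟨x, y⟩
    refine Prod.ext ?_ ?_
    · change K.D (s x) + b • (-(s y)) + s (K.D x + b • y) = a • x
      rw [map_add, map_smul, smul_neg, ← hs']
      abel
    · change -(K.D (-(s y))) + -(s (-(K.D y))) = a • y
      rw [map_neg, map_neg, neg_neg, neg_neg, hs']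

theorem NHI_le_cone (K : GCx.{u, v} A) (b : A) : K.NHI ≤ (GCx.cone b K).NHI :=
  fun _ ha => NH.cone ha b

theorem Iso.NH {K' : GCx.{u, v} A} (φ : Iso K K') {a : A} (ha : K.NH a) : K'.NH a := by
  obtain ⟨s, hs, hs'⟩ := ha
  refine ⟨(φ.e : K.T →ₗ[A] K'.T) ∘ₗ s ∘ₗ (φ.e.symm : K'.T →ₗ[A] K.T), ?_, ?_⟩
  · intro i x hx
    exact (φ.gr _ _).2 (hs _ _ ((φ.symm.gr _ _).2 hx))
  · intro x
    change K'.D (φ.e (s (φ.e.symm x))) + φ.e (s (φ.e.symm (K'.D x))) = a • x
    have h1 : φ.e.symm (K'.D x) = K.D (φ.e.symm x) := φ.symm.comm x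
    rw [h1, ← φ.comm, ← map_add, hs', map_smul, LinearEquiv.apply_symm_apply]

/-- If `a` is null-homotopic then `cone a K ≅ cone 0 K`. -/
theorem cone_iso_zero {a : A} (ha : K.NH a) : Nonempty (Iso (GCx.cone 0 K) (GCx.cone a K)) := by
  obtain ⟨s, hs, hs'⟩ := ha
  refine ⟨⟨
    { toFun := fun p => (p.1 - s p.2, p.2)
      map_add' := ?_
      map_smul' := ?_
      invFun := fun p => (p.1 + s p.2, p.2)
      left_inv := ?_
      right_inv := ?_ }, ?_, ?_⟩⟩
  · rintro ⟨x, y⟩ ⟨x', y'⟩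
    refine Prod.ext ?_ rfl
    change x + x' - s (y + y') = x - s y + (x' - s y')
    rw [map_add]; abel
  · rintro c ⟨x, y⟩
    refine Prod.ext ?_ rfl
    change c • x - s (c • y) = c • (x - s y)
    rw [map_smul, smul_sub]
  · rintro ⟨x, y⟩
    refine Prod.ext ?_ rfl
    change x - s y + s y = x
    abel
  · rintro ⟨x, y⟩
    refine Prod.ext ?_ rfl
    change x + s y - s y = x
    abel
  · rintro i ⟨x, y⟩
    change (x - s y ∈ K.gr i ∧ y ∈ K.gr (i - 1)) ↔ (x ∈ K.gr i ∧ y ∈ K.gr (i - 1))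
    constructor
    · rintro ⟨h1, h2⟩
      have h3 := hs _ _ h2
      rw [sub_add_cancel] at h3
      refine ⟨?_, h2⟩
      have := (K.gr i).add_mem h1 h3
      rwa [sub_add_cancel] at this
    · rintro ⟨h1, h2⟩
      have h3 := hs _ _ h2
      rw [sub_add_cancel] at h3
      exact ⟨(K.gr i).sub_mem h1 h3, h2⟩
  · rintro ⟨x, y⟩
    refine Prod.ext ?_ rfl
    change K.D x + (0 : A) • y - s (-(K.D y)) = K.D (x - s y) + a • y
    rw [zero_smul, add_zero, map_neg, map_sub, ← hs']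
    abel

/-! ### homology of a cone -/

/-- `H_i(K) → H_i(cone b K)` -/
def inl (b : A) (K : GCx.{u, v} A) : Hom K (GCx.cone b K) where
  f := LinearMap.inl A K.T K.T
  gr := fun i x hx => ⟨hx, (K.gr (i - 1)).zero_mem⟩
  comm := fun x => by
    refine Prod.ext ?_ ?_
    · change K.D x = K.D x + b • (0 : K.T)
      rw [smul_zero, add_zero]
    · change (0 : K.T) = -(K.D 0)
      rw [map_zero, neg_zero]

/-- cycles of the cone, second component -/
def sndZ (b : A) (K : GCx.{u, v} A) (i : ℤ) : (GCx.cone b K).Z i →ₗ[A] K.Z (i - 1) :=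
  (LinearMap.snd A K.T K.T).restrict (by
    rintro ⟨x, y⟩ ⟨h1, h2⟩
    refine ⟨h1.2, ?_⟩
    have h3 : -(K.D y) = 0 := congrArg Prod.snd h2
    change K.D y = 0
    rwa [neg_eq_zero] at h3)

/-- `H_i(cone b K) → H_{i-1}(K)` -/
def snd (b : A) (K : GCx.{u, v} A) (i : ℤ) : (GCx.cone b K).H i →ₗ[A] K.H (i - 1) :=
  (Submodule.mapQ ((GCx.cone b K).B i) (K.B (i - 1)) (LinearMap.snd A K.T K.T) (by
    rintro _ ⟨⟨x, y⟩, ⟨hx, hy⟩, rfl⟩
    refine ⟨-y, ?_, ?_⟩
    · rw [sub_add_cancel]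
      change y ∈ K.gr (i + 1 - 1) at hy
      rw [add_sub_cancel_right] at hy
      exact (K.gr i).neg_mem hy
    · change K.D (-y) = -(K.D y)
      rw [map_neg])).restrict (by
    rintro _ ⟨z, hz, rfl⟩
    exact ⟨z.2, (sndZ b K i ⟨z, hz⟩).2, rfl⟩)

theorem snd_cls (b : A) (K : GCx.{u, v} A) (i : ℤ) (z : (GCx.cone b K).Z i) :
    snd b K i ((GCx.cone b K).cls i z) = K.cls (i - 1) (sndZ b K i z) := rfl

theorem ker_inl (b : A) (K : GCx.{u, v} A) (i : ℤ) :
    LinearMap.ker ((inl b K).map i) = LinearMap.range (LinearMap.lsmul A (K.H i) b) := by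
  ext x
  obtain ⟨⟨x, hx⟩, rfl⟩ := K.cls_surj i x
  rw [LinearMap.mem_ker, Hom.map_cls, cls_eq_zero]
  constructor
  · rintro ⟨⟨z, w⟩, ⟨hz, hw⟩, hzw⟩
    have h1 : K.D z + b • w = x := congrArg Prod.fst hzw
    have h2 : -(K.D w) = 0 := congrArg Prod.snd hzw
    change w ∈ K.gr (i + 1 - 1) at hw
    rw [add_sub_cancel_right] at hw
    rw [neg_eq_zero] at h2
    refine ⟨K.cls i ⟨w, hw, h2⟩, ?_⟩
    rw [LinearMap.lsmul_apply, ← map_smul, cls_eq_iff]
    refine ⟨-z, (K.gr (i + 1)).neg_mem hz, ?_⟩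
    change K.D (-z) = b • w - x
    rw [map_neg, ← h1]
    abel
  · rintro ⟨w, hw⟩
    obtain ⟨⟨w, hw1⟩, rfl⟩ := K.cls_surj i w
    rw [LinearMap.lsmul_apply, ← map_smul, cls_eq_iff] at hw
    obtain ⟨z, hz, hz'⟩ := hw
    change K.D z = b • w - x at hz'
    refine ⟨(-z, w), ⟨(K.gr (i + 1)).neg_mem hz, ?_⟩, ?_⟩
    · change w ∈ K.gr (i + 1 - 1)
      rw [add_sub_cancel_right]
      exact hw1.1
    · refine Prod.ext ?_ ?_
      · change K.D (-z) + b • w = x
        rw [map_neg, hz']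
        abel
      · change -(K.D w) = 0
        rw [show K.D w = 0 from hw1.2, neg_zero]

theorem range_inl (b : A) (K : GCx.{u, v} A) (i : ℤ) :
    LinearMap.range ((inl b K).map i) = LinearMap.ker (snd b K i) := by
  ext x
  obtain ⟨⟨⟨x, y⟩, hx⟩, rfl⟩ := (GCx.cone b K).cls_surj i x
  rw [LinearMap.mem_ker, snd_cls, cls_eq_zero]
  have hx1 : x ∈ K.gr i := hx.1.1
  have hx2 : K.D x + b • y = 0 := congrArg Prod.fst hx.2
  constructor
  · rintro ⟨z, hz⟩
    obtain ⟨⟨z, hz1⟩, rfl⟩ := K.cls_surj i z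
    rw [Hom.map_cls, cls_eq_iff] at hz
    obtain ⟨⟨u, w⟩, ⟨hu, hw⟩, huw⟩ := hz
    have h2 : -(K.D w) = 0 - y := congrArg Prod.snd huw
    change w ∈ K.gr (i + 1 - 1) at hw
    rw [add_sub_cancel_right] at hw
    refine ⟨w, by rwa [sub_add_cancel], ?_⟩
    change K.D w = y
    rw [zero_sub] at h2
    exact neg_injective h2
  · rintro ⟨w, hw, hwy⟩
    change K.D w = y at hwy
    rw [sub_add_cancel] at hw
    refine ⟨K.cls i ⟨x + b • w, (K.gr i).add_mem hx1 ((K.gr i).smul_mem b hw), ?_⟩, ?_⟩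
    · change K.D (x + b • w) = 0
      rw [map_add, map_smul, hwy, hx2]
    · rw [Hom.map_cls, cls_eq_iff]
      refine ⟨(0, w), ⟨(K.gr (i + 1)).zero_mem, ?_⟩, ?_⟩
      · change w ∈ K.gr (i + 1 - 1)
        rw [add_sub_cancel_right]
        exact hw
      · refine Prod.ext ?_ ?_
        · change K.D 0 + b • w = x + b • w - x
          rw [map_zero]
          abel
        · change -(K.D w) = 0 - y
          rw [hwy, zero_sub]

theorem range_snd (b : A) (K : GCx.{u, v} A) (i : ℤ) :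
    LinearMap.range (snd b K i) = LinearMap.ker (LinearMap.lsmul A (K.H (i - 1)) b) := by
  ext y
  obtain ⟨⟨y, hy⟩, rfl⟩ := K.cls_surj (i - 1) y
  rw [LinearMap.mem_ker, LinearMap.lsmul_apply, ← map_smul, cls_eq_zero]
  constructor
  · rintro ⟨z, hz⟩
    obtain ⟨⟨⟨x, y'⟩, hx⟩, rfl⟩ := (GCx.cone b K).cls_surj i z
    rw [snd_cls, cls_eq_iff] at hz
    have hx1 : x ∈ K.gr i := hx.1.1
    have hx2 : K.D x + b • y' = 0 := congrArg Prod.fst hx.2
    obtain ⟨u, hu, huy⟩ := hz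
    change K.D u = y' - y at huy
    rw [sub_add_cancel] at hu
    refine ⟨-x - b • u, ?_, ?_⟩
    · rw [sub_add_cancel]
      exact (K.gr i).sub_mem ((K.gr i).neg_mem hx1) ((K.gr i).smul_mem b hu)
    · change K.D (-x - b • u) = b • y
      rw [map_sub, map_neg, map_smul, huy, smul_sub]
      have : -(K.D x) = b • y' := by
        rw [neg_eq_iff_add_eq_zero]
        exact hx2
      rw [this]
      abel
  · rintro ⟨u, hu, huy⟩
    change K.D u = b • y at huy
    rw [sub_add_cancel] at hu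
    have hz : (((-u, y) : K.T × K.T) : (GCx.cone b K).T) ∈ (GCx.cone b K).Z i := by
      refine ⟨⟨(K.gr i).neg_mem hu, hy.1⟩, ?_⟩
      refine Prod.ext ?_ ?_
      · change K.D (-u) + b • y = 0
        rw [map_neg, huy, neg_add_cancel]
      · change -(K.D y) = 0
        rw [show K.D y = 0 from hy.2, neg_zero]
    refine ⟨(GCx.cone b K).cls i ⟨(-u, y), hz⟩, ?_⟩
    rw [snd_cls]
    rfl

/-- **Homology of a cone.** -/
theorem h_cone (Λ : AddLen.{u, v} A) (b : A) (K : GCx.{u, v} A) (i : ℤ) :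
    (GCx.cone b K).h Λ i = co Λ b (K.H i) + an Λ b (K.H (i - 1)) := by
  unfold h co an
  rw [Λ.L_ker_add_range (snd b K i), ← range_inl, range_snd,
    ← Λ.L_congr ((inl b K).map i).quotKerEquivRange, ker_inl]

theorem co_le (Λ : AddLen.{u, v} A) (b : A) (X : Type v) [AddCommGroup X] [Module A X] :
    co Λ b X ≤ Λ.L X := Λ.L_quotient_le _

theorem an_le (Λ : AddLen.{u, v} A) (b : A) (X : Type v) [AddCommGroup X] [Module A X] :
    an Λ b X ≤ Λ.L X := Λ.L_submodule_le _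

theorem h_cone_le (Λ : AddLen.{u, v} A) (b : A) (K : GCx.{u, v} A) (i : ℤ) :
    (GCx.cone b K).h Λ i ≤ K.h Λ i + K.h Λ (i - 1) := by
  rw [h_cone]
  exact add_le_add (co_le Λ b _) (an_le Λ b _)

theorem h_cone_zero (Λ : AddLen.{u, v} A) (K : GCx.{u, v} A) (i : ℤ) :
    (GCx.cone 0 K).h Λ i = K.h Λ i + K.h Λ (i - 1) := by
  rw [h_cone]
  unfold co an h
  congr 1
  · have : LinearMap.range (LinearMap.lsmul A (K.H i) 0) = ⊥ := by
      rw [map_zero, LinearMap.range_zero]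
    rw [this]
    exact Λ.L_congr (Submodule.quotEquivOfEqBot _ rfl)
  · have : LinearMap.ker (LinearMap.lsmul A (K.H (i - 1)) 0) = ⊤ := by
      rw [map_zero, LinearMap.ker_zero]
    rw [this]
    exact Λ.L_congr Submodule.topEquiv

theorem h_cone_NH (Λ : AddLen.{u, v} A) {b : A} (hb : K.NH b) (i : ℤ) :
    (GCx.cone b K).h Λ i = K.h Λ i + K.h Λ (i - 1) := by
  obtain ⟨φ⟩ := cone_iso_zero hb
  rw [← φ.h_eq, h_cone_zero]

/-- A null-homotopic element kills the homology. -/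
theorem NH.smul_H {a : A} (ha : K.NH a) (i : ℤ) (x : K.H i) : a • x = 0 := by
  obtain ⟨s, hs, hs'⟩ := ha
  obtain ⟨⟨x, hx⟩, rfl⟩ := K.cls_surj i x
  rw [← map_smul, cls_eq_zero]
  refine ⟨s x, hs i x hx.1, ?_⟩
  have := hs' x
  rw [show K.D x = 0 from hx.2, map_zero, add_zero] at this
  exact this

end GCx

end Crest.Agent.R188.KosG
end

-- ▼ part R188/KosC

/-!
# R188 (Serre positivity), block A4: Koszul complexes of lists, lengths of Koszul homology.
helper415
-/

set_option autoImplicit false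

namespace Crest.Agent.R188.KosG

open Crest.Agent.R183
open scoped ENNReal

universe u v

variable {A : Type u} [CommRing A]

/-- The module `C` in degree `0`. -/
def one (A : Type u) [CommRing A] (C : Type v) [AddCommGroup C] [Module A C] : GCx.{u, v} A where
  T := C
  gr := fun i => if i = 0 then ⊤ else ⊥
  D := 0
  D_gr := fun _ _ _ => Submodule.zero_mem _
  DD := fun _ => rfl

/-- iterated cones -/
def cones : List A → GCx.{u, v} A → GCx.{u, v} A
  | [], K => K
  | (a :: l), K => GCx.cone a (cones l K)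

theorem cones_append (l l' : List A) (K : GCx.{u, v} A) :
    cones (l ++ l') K = cones l (cones l' K) := by
  induction l with
  | nil => rfl
  | cons a l ih => rw [List.cons_append, cones, cones, ih]

/-- The Koszul complex `K(l; C)`. -/
def kos (l : List A) (C : Type v) [AddCommGroup C] [Module A C] : GCx.{u, v} A := cones l (one A C)

/-- The length of `H_i(l; C)`. -/
noncomputable def kh (Λ : AddLen.{u, v} A) (l : List A) (C : Type v) [AddCommGroup C] [Module A C]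
    (i : ℤ) : ℝ≥0∞ := (kos l C).h Λ i

theorem kos_cons (a : A) (l : List A) (C : Type v) [AddCommGroup C] [Module A C] :
    kos (a :: l) C = GCx.cone a (kos l C) := rfl

theorem cones_perm {l l' : List A} (h : l.Perm l') (K : GCx.{u, v} A) :
    Nonempty (GCx.Iso (cones l K) (cones l' K)) := by
  induction h with
  | nil => exact ⟨GCx.Iso.refl _⟩
  | cons a _ ih =>
    obtain ⟨φ⟩ := ih
    exact ⟨φ.cone a⟩
  | swap a b l => exact ⟨GCx.coneSwap b a (cones l K)⟩
  | trans _ _ ih1 ih2 =>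
    obtain ⟨φ⟩ := ih1
    obtain ⟨ψ⟩ := ih2
    exact ⟨φ.trans ψ⟩

section basic

variable (Λ : AddLen.{u, v} A) (C : Type v) [AddCommGroup C] [Module A C]

theorem kh_perm {l l' : List A} (h : l.Perm l') (i : ℤ) : kh Λ l C i = kh Λ l' C i := by
  obtain ⟨φ⟩ := cones_perm h (one A C)
  exact φ.h_eq Λ i


theorem kos_gr_eq_bot (l : List A) (i : ℤ) (hi : i < 0 ∨ (l.length : ℤ) < i) :
    (kos l C).gr i = ⊥ := by
  induction l generalizing i with
  | nil =>
    change (if i = 0 then (⊤ : Submodule A C) else ⊥) = ⊥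
    rw [if_neg]
    rintro rfl
    simp at hi
  | cons a l ih =>
    change ((kos l C).gr i).prod ((kos l C).gr (i - 1)) = ⊥
    rw [List.length_cons, Nat.cast_add, Nat.cast_one] at hi
    rw [ih i (by omega), ih (i - 1) (by omega), Submodule.prod_bot]

theorem kh_eq_zero (l : List A) (i : ℤ) (hi : i < 0 ∨ (l.length : ℤ) < i) : kh Λ l C i = 0 :=
  GCx.h_eq_zero_of_gr _ Λ (kos_gr_eq_bot C l i hi)

theorem kh_cons (a : A) (l : List A) (i : ℤ) :
    kh Λ (a :: l) C i = co Λ a ((kos l C).H i) + an Λ a ((kos l C).H (i - 1)) :=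
  GCx.h_cone Λ a _ i


/-- Pascal sums. -/
noncomputable def pas (g : ℤ → ℝ≥0∞) (n : ℕ) (i : ℤ) : ℝ≥0∞ :=
  ∑ j ∈ Finset.range (n + 1), (n.choose j : ℝ≥0∞) * g (i - j)

theorem pas_zero (g : ℤ → ℝ≥0∞) (i : ℤ) : pas g 0 i = g i := by
  simp [pas]

theorem pas_succ (g : ℤ → ℝ≥0∞) (n : ℕ) (i : ℤ) : pas g (n + 1) i = pas g n i + pas g n (i - 1) := by
  unfold pas
  rw [Finset.sum_range_succ' _ (n + 1), Finset.sum_range_succ' (fun j : ℕ => (n.choose j : ℝ≥0∞) *
    g (i - j)) n]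
  have h1 : ∀ j ∈ Finset.range (n + 1), ((n + 1).choose (j + 1) : ℝ≥0∞) *
      g (i - ((j + 1 : ℕ) : ℤ)) = (n.choose (j + 1) : ℝ≥0∞) * g (i - ((j + 1 : ℕ) : ℤ)) +
      (n.choose j : ℝ≥0∞) * g (i - 1 - (j : ℤ)) := by
    intro j _
    rw [Nat.choose_succ_succ, Nat.cast_add, add_mul, add_comm]
    congr 3
    push_cast
    ring
  rw [Finset.sum_congr rfl h1, Finset.sum_add_distrib, Finset.sum_range_succ _ n]
  have h2 : (n.choose (n + 1) : ℝ≥0∞) * g (i - ((n + 1 : ℕ) : ℤ)) = 0 := by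
    rw [Nat.choose_succ_self]
    simp
  rw [h2]
  simp only [Nat.choose_zero_right, add_zero]
  ring

/-- **(K2)** -/
theorem h_cones_le (K : GCx.{u, v} A) (l : List A) (i : ℤ) :
    (cones l K).h Λ i ≤ pas (K.h Λ) l.length i := by
  induction l generalizing i with
  | nil => rw [List.length_nil, pas_zero]; rfl
  | cons a l ih =>
    rw [List.length_cons, pas_succ]
    exact (GCx.h_cone_le Λ a _ i).trans (add_le_add (ih i) (ih (i - 1)))

theorem NHI_le_cones (K : GCx.{u, v} A) (l : List A) : K.NHI ≤ (cones l K).NHI := by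
  induction l with
  | nil => exact le_rfl
  | cons a l ih => exact ih.trans (GCx.NHI_le_cone _ a)

/-- **(K1)** -/
theorem h_cones_NHI (K : GCx.{u, v} A) (l : List A) (hl : ∀ a ∈ l, a ∈ K.NHI) (i : ℤ) :
    (cones l K).h Λ i = pas (K.h Λ) l.length i := by
  induction l generalizing i with
  | nil => rw [List.length_nil, pas_zero]; rfl
  | cons a l ih =>
    have h1 := ih (fun b hb => hl b (List.mem_cons_of_mem _ hb))
    rw [List.length_cons, pas_succ, ← h1, ← h1]
    exact GCx.h_cone_NH Λ (NHI_le_cones K l (hl a List.mem_cons_self)) i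

/-- The entries of `l` and the annihilator of `C` are null-homotopic on `K(l; C)`. -/
theorem span_le_NHI (l : List A) : Ideal.span {x | x ∈ l} ⊔ Module.annihilator A C ≤
    (kos l C).NHI := by
  refine sup_le ?_ ?_
  · rw [Ideal.span_le]
    intro a ha
    change a ∈ l at ha
    induction l with
    | nil => exact absurd ha List.not_mem_nil
    | cons b l ih =>
      rcases List.mem_cons.1 ha with rfl | ha
      · exact GCx.NH.self _ _
      · exact (ih ha).cone b
  · intro a ha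
    have h0 : a ∈ (one A C).NHI := GCx.NH.of_smul (fun x => Module.mem_annihilator.1 ha x)
    exact NHI_le_cones _ l h0

theorem kh_append_le (l l' : List A) (i : ℤ) : kh Λ (l ++ l') C i ≤ pas (kh Λ l' C) l.length i := by
  unfold kh kos
  rw [cones_append]
  exact h_cones_le Λ _ l i

theorem kh_append_NHI (l l' : List A) (hl : ∀ a ∈ l, a ∈ (kos l' C).NHI) (i : ℤ) :
    kh Λ (l ++ l') C i = pas (kh Λ l' C) l.length i := by
  unfold kh kos
  rw [cones_append]
  exact h_cones_NHI Λ _ l hl i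

end basic

/-! ### Herbrand quotients -/

section herbrand

variable (Λ : AddLen.{u, v} A) (X : Type v) [AddCommGroup X] [Module A X]

/-- multiplication by `a` -/
abbrev mul (a : A) : X →ₗ[A] X := LinearMap.lsmul A X a

/-- the four lengths -/
theorem herbrand_aux (a b : A) : ∃ s t w : ℝ≥0∞,
    an Λ (a * b) X = an Λ a X + s ∧ an Λ b X = s + t ∧ co Λ a X = t + w ∧
    co Λ (a * b) X = w + co Λ b X := by
  -- s = L (a Ann_{ab}), t = L(image of Ann_b in X/a), w = L(bX/abX)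
  let Kab : Submodule A X := LinearMap.ker (mul X (a * b))
  let Ka : Submodule A X := LinearMap.ker (mul X a)
  let Kb : Submodule A X := LinearMap.ker (mul X b)
  let Ra : Submodule A X := LinearMap.range (mul X a)
  let Rb : Submodule A X := LinearMap.range (mul X b)
  let Rab : Submodule A X := LinearMap.range (mul X (a * b))
  refine ⟨Λ.L (Kab.map (mul X a)), Λ.L (Kb.map Ra.mkQ), Λ.L (Rb.map Rab.mkQ), ?_, ?_, ?_, ?_⟩
  · -- Ka ⊆ Kab
    have hle : Ka ≤ Kab := by
      intro x hx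
      change (a * b) • x = 0
      change a • x = 0 at hx
      rw [mul_comm, mul_smul, hx, smul_zero]
    let f : Kab →ₗ[A] X := (mul X a).comp Kab.subtype
    have hr : LinearMap.range f = Kab.map (mul X a) := by
      rw [LinearMap.range_comp, Submodule.range_subtype]
    have hk : LinearMap.ker f = Ka.submoduleOf Kab := by
      ext x
      rfl
    have h1 := Λ.L_ker_add_range f
    rw [hr, hk, Λ.L_congr (Submodule.submoduleOfEquivOfLe hle)] at h1
    exact h1
  · let f : Kb →ₗ[A] (X ⧸ Ra) := Ra.mkQ.comp Kb.subtype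
    have hr : LinearMap.range f = Kb.map Ra.mkQ := by
      rw [LinearMap.range_comp, Submodule.range_subtype]
    have hle : Kab.map (mul X a) ≤ Kb := by
      rintro _ ⟨x, hx, rfl⟩
      change b • (a • x) = 0
      change (a * b) • x = 0 at hx
      rw [smul_smul, mul_comm]
      exact hx
    have hk : LinearMap.ker f = (Kab.map (mul X a)).submoduleOf Kb := by
      ext x
      rw [LinearMap.mem_ker]
      change Ra.mkQ (x : X) = 0 ↔ (x : X) ∈ Kab.map (mul X a)
      rw [Submodule.mkQ_apply, Submodule.Quotient.mk_eq_zero]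
      constructor
      · rintro ⟨y, hy⟩
        change a • y = x at hy
        refine ⟨y, ?_, hy⟩
        change (a * b) • y = 0
        rw [mul_comm, mul_smul, hy]
        exact x.2
      · rintro ⟨y, _, hy⟩
        exact ⟨y, hy⟩
    have h1 := Λ.L_ker_add_range f
    rw [hr, hk, Λ.L_congr (Submodule.submoduleOfEquivOfLe hle)] at h1
    exact h1
  · -- b : X/aX → X/abX
    let f : (X ⧸ Ra) →ₗ[A] (X ⧸ Rab) := Submodule.mapQ Ra Rab (mul X b) (by
      rintro _ ⟨y, rfl⟩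
      refine ⟨y, ?_⟩
      change (a * b) • y = b • (a • y)
      rw [smul_smul, mul_comm])
    have hr : LinearMap.range f = Rb.map Rab.mkQ := by
      rw [Submodule.range_mapQ]
    have hk : LinearMap.ker f = Kb.map Ra.mkQ := by
      ext x
      obtain ⟨x, rfl⟩ := Ra.mkQ_surjective x
      rw [LinearMap.mem_ker]
      change Rab.mkQ (b • x) = 0 ↔ _
      rw [Submodule.mkQ_apply, Submodule.Quotient.mk_eq_zero]
      constructor
      · rintro ⟨y, hy⟩
        change (a * b) • y = b • x at hy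
        refine ⟨x - a • y, ?_, ?_⟩
        · change b • (x - a • y) = 0
          rw [smul_sub, smul_smul, mul_comm b a, hy, sub_self]
        · rw [← sub_eq_zero, ← map_sub, Submodule.mkQ_apply, Submodule.Quotient.mk_eq_zero]
          refine ⟨-y, ?_⟩
          change a • (-y) = x - a • y - x
          rw [smul_neg]; abel
      · rintro ⟨y, hy, hyx⟩
        rw [← sub_eq_zero, ← map_sub, Submodule.mkQ_apply, Submodule.Quotient.mk_eq_zero] at hyx
        obtain ⟨z, hz⟩ := hyx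
        change a • z = y - x at hz
        refine ⟨-z, ?_⟩
        change (a * b) • (-z) = b • x
        change b • y = 0 at hy
        rw [smul_neg, mul_comm, mul_smul, hz, smul_sub, hy, zero_sub, neg_neg]
    have h1 := Λ.L_ker_add_range f
    rw [hr, hk] at h1
    exact h1
  · have hle : Rab ≤ Rb := by
      rintro _ ⟨y, rfl⟩
      refine ⟨a • y, ?_⟩
      change b • (a • y) = (a * b) • y
      rw [smul_smul, mul_comm]
    exact Λ.L_quotient_add Rb Rab hle

/-- finiteness -/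
def FinH (b : A) : Prop := co Λ b X ≠ ⊤ ∧ an Λ b X ≠ ⊤

/-- Herbrand quotient -/
noncomputable def he (b : A) : ℝ := (co Λ b X).toReal - (an Λ b X).toReal

theorem FinH.mul {a b : A} (ha : FinH Λ X a) (hb : FinH Λ X b) : FinH Λ X (a * b) ∧
    he Λ X (a * b) = he Λ X a + he Λ X b := by
  obtain ⟨s, t, w, h1, h2, h3, h4⟩ := herbrand_aux Λ X a b
  obtain ⟨ha1, ha2⟩ := ha
  obtain ⟨hb1, hb2⟩ := hb
  rw [h3] at ha1
  rw [h2] at hb2
  rw [ENNReal.add_ne_top] at ha1 hb2
  have e1 : FinH Λ X (a * b) := by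
    refine ⟨?_, ?_⟩
    · rw [h4]; exact ENNReal.add_ne_top.2 ⟨ha1.2, hb1⟩
    · rw [h1]; exact ENNReal.add_ne_top.2 ⟨ha2, hb2.1⟩
  refine ⟨e1, ?_⟩
  unfold he
  rw [h1, h2, h3, h4, ENNReal.toReal_add ha1.2 hb1, ENNReal.toReal_add ha2 hb2.1,
    ENNReal.toReal_add ha1.1 ha1.2, ENNReal.toReal_add hb2.1 hb2.2]
  ring

theorem FinH.one : FinH Λ X (1 : A) ∧ he Λ X (1 : A) = 0 := by
  have h1 : co Λ (1 : A) X = 0 := by
    unfold co
    have : LinearMap.range (LinearMap.lsmul A X (1 : A)) = ⊤ := by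
      rw [LinearMap.range_eq_top]
      intro x
      exact ⟨x, one_smul A x⟩
    rw [this]
    exact Λ.L_subsingleton
  have h2 : an Λ (1 : A) X = 0 := by
    unfold an
    have : LinearMap.ker (LinearMap.lsmul A X (1 : A)) = ⊥ := by
      rw [LinearMap.ker_eq_bot']
      intro x hx
      rwa [LinearMap.lsmul_apply, one_smul] at hx
    rw [this]
    exact Λ.L_subsingleton
  refine ⟨⟨?_, ?_⟩, ?_⟩
  · rw [h1]; exact ENNReal.zero_ne_top
  · rw [h2]; exact ENNReal.zero_ne_top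
  · unfold he; rw [h1, h2]; simp

theorem FinH.pow {b : A} (hb : FinH Λ X b) (n : ℕ) : FinH Λ X (b ^ n) ∧
    he Λ X (b ^ n) = n * he Λ X b := by
  induction n with
  | zero =>
    rw [pow_zero]
    refine ⟨(FinH.one Λ X).1, ?_⟩
    rw [(FinH.one Λ X).2]; simp
  | succ n ih =>
    have := FinH.mul Λ X ih.1 hb
    rw [pow_succ]
    refine ⟨this.1, ?_⟩
    rw [this.2, ih.2]
    push_cast
    ring

end herbrand

/-! ### Euler characteristics -/

section chi

variable (Λ : AddLen.{u, v} A) (C : Type v) [AddCommGroup C] [Module A C]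

/-- All Koszul homology lengths are finite. -/
def KFin (l : List A) : Prop := ∀ i : ℤ, kh Λ l C i ≠ ⊤

/-- The Euler characteristic `χ(l; C)`. -/
noncomputable def chi (l : List A) : ℝ :=
  ∑ i ∈ Finset.range (l.length + 1), (-1 : ℝ) ^ i * (kh Λ l C i).toReal

theorem KFin.perm {l l' : List A} (h : l.Perm l') (hl : KFin Λ C l) : KFin Λ C l' := fun i => by
  rw [← kh_perm Λ C h]
  exact hl i

theorem chi_perm {l l' : List A} (h : l.Perm l') : chi Λ C l = chi Λ C l' := by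
  unfold chi
  rw [h.length_eq]
  exact Finset.sum_congr rfl fun i _ => by rw [kh_perm Λ C h]

theorem KFin.cons_FinH {a : A} {l : List A} (h : KFin Λ C (a :: l)) (i : ℤ) :
    FinH Λ ((kos l C).H i) a := by
  have h1 := h i
  have h2 := h (i + 1)
  rw [kh_cons, ENNReal.add_ne_top] at h1 h2
  refine ⟨h1.1, ?_⟩
  have := h2.2
  rwa [add_sub_cancel_right] at this

theorem KFin.of_FinH {a : A} {l : List A} (h : ∀ i : ℤ, FinH Λ ((kos l C).H i) a) :
    KFin Λ C (a :: l) := fun i => by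
  rw [kh_cons]
  exact ENNReal.add_ne_top.2 ⟨(h i).1, (h (i - 1)).2⟩

theorem H_subsingleton (l : List A) (i : ℤ) (hi : i < 0 ∨ (l.length : ℤ) < i) :
    Subsingleton ((kos l C).H i) := by
  refine ⟨fun x y => ?_⟩
  have h0 := kos_gr_eq_bot C l i hi
  obtain ⟨⟨x, hx⟩, rfl⟩ := (kos l C).cls_surj i x
  obtain ⟨⟨y, hy⟩, rfl⟩ := (kos l C).cls_surj i y
  have hx' : x = 0 := by
    have : x ∈ (kos l C).gr i := hx.1
    rwa [h0, Submodule.mem_bot] at this
  have hy' : y = 0 := by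
    have : y ∈ (kos l C).gr i := hy.1
    rwa [h0, Submodule.mem_bot] at this
  subst hx'
  subst hy'
  rfl

theorem chi_cons {a : A} {l : List A} (h : KFin Λ C (a :: l)) :
    chi Λ C (a :: l) = ∑ i ∈ Finset.range (l.length + 1),
      (-1 : ℝ) ^ i * he Λ ((kos l C).H i) a := by
  unfold chi
  have hF := KFin.cons_FinH Λ C h
  have h1 : ∀ i : ℤ, (kh Λ (a :: l) C i).toReal = (co Λ a ((kos l C).H i)).toReal +
      (an Λ a ((kos l C).H (i - 1))).toReal := by
    intro i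
    rw [kh_cons, ENNReal.toReal_add (hF i).1 (hF (i - 1)).2]
  have h2 : (an Λ a ((kos l C).H (-1))).toReal = 0 := by
    have := H_subsingleton C l (-1) (Or.inl (by norm_num))
    unfold an
    rw [Λ.L_subsingleton]
    rfl
  have h3 : (co Λ a ((kos l C).H ((l.length : ℤ) + 1))).toReal = 0 := by
    have := H_subsingleton C l ((l.length : ℤ) + 1) (Or.inr (by omega))
    unfold co
    rw [Λ.L_subsingleton]
    rfl
  rw [List.length_cons]
  simp only [h1, mul_add, Finset.sum_add_distrib]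
  rw [Finset.sum_range_succ _ (l.length + 1)]
  rw [Finset.sum_range_succ' (fun i : ℕ => (-1 : ℝ) ^ i *
    (an Λ a ((kos l C).H ((i : ℤ) - 1))).toReal) (l.length + 1)]
  have h4 : ((0 : ℕ) : ℤ) - 1 = -1 := by norm_num
  rw [h4, h2]
  have h5 : (((l.length + 1 : ℕ) : ℤ)) = (l.length : ℤ) + 1 := by push_cast; ring
  rw [h5, h3]
  have h6 : ∀ i ∈ Finset.range (l.length + 1), (-1 : ℝ) ^ (i + 1) *
      (an Λ a ((kos l C).H (((i + 1 : ℕ) : ℤ) - 1))).toReal =
      -((-1 : ℝ) ^ i * (an Λ a ((kos l C).H (i : ℤ))).toReal) := by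
    intro i _
    have : (((i + 1 : ℕ) : ℤ) - 1) = (i : ℤ) := by push_cast; ring
    rw [this, pow_succ]
    ring
  rw [Finset.sum_congr rfl h6]
  unfold he
  simp only [mul_sub, Finset.sum_sub_distrib, Finset.sum_neg_distrib]
  ring

theorem chi_cons_pow {a : A} {l : List A} (h : KFin Λ C (a :: l)) (n : ℕ) :
    KFin Λ C (a ^ n :: l) ∧ chi Λ C (a ^ n :: l) = n * chi Λ C (a :: l) := by
  have h1 : KFin Λ C (a ^ n :: l) := KFin.of_FinH Λ C (fun i =>
    (FinH.pow Λ _ (KFin.cons_FinH Λ C h i) n).1)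
  refine ⟨h1, ?_⟩
  rw [chi_cons Λ C h1, chi_cons Λ C h, Finset.mul_sum]
  refine Finset.sum_congr rfl fun i _ => ?_
  rw [(FinH.pow Λ _ (KFin.cons_FinH Λ C h i) n).2]
  ring


end chi

end Crest.Agent.R188.KosG
private theorem rz_83604338ea : type_of% @_root_.Crest.Agent.R188.KosG.cones.eq_def := @_root_.Crest.Agent.R188.KosG.cones.eq_def -- L28
private theorem rz_00a63e4adc : type_of% @_root_.Crest.Agent.R188.KosG.cones.eq_1 := @_root_.Crest.Agent.R188.KosG.cones.eq_1 -- L28
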