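import Crest.Agent.R183.CohenEval
import Mathlib

/-!
# R188 (Serre positivity), S-level: the Taylor homomorphism
`W[[x]] → Γ[q]/(q_i^n)`, `x_i ↦ φ(x_i) + q_i`.
helper415
-/

set_option autoImplicit false

namespace Crest.Agent.R188.Tay

noncomputable section

open Crest.Agent.R183.Cohen

universe u v w

/-! ### completeness of power series rings for the ideal of the variables -/

section ps

variable {σ : Type*} [Finite σ] {R : Type*} [CommRing R]

/-- the ideal of the variables -/
def IX (σ R : Type*) [CommRing R] : Ideal (MvPowerSeries σ R) :=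
  Ideal.span (Set.range (MvPowerSeries.X : σ → MvPowerSeries σ R))

/-- power series without terms of degree `< N` -/
def low (σ R : Type*) [CommRing R] (N : ℕ) : Ideal (MvPowerSeries σ R) where
  carrier := {f | ∀ x : σ →₀ ℕ, Finsupp.degree x < N → MvPowerSeries.coeff x f = 0}
  zero_mem' := fun x _ => by simp
  add_mem' := fun {f g} hf hg x hx => by rw [map_add, hf x hx, hg x hx, add_zero]
  smul_mem' := fun c f hf x hx => by
    classical
    rw [smul_eq_mul, MvPowerSeries.coeff_mul]
    refine Finset.sum_eq_zero fun y hy => ?_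
    have hy := Finset.HasAntidiagonal.mem_antidiagonal.1 hy
    rw [hf y.2 ?_, mul_zero]
    rw [← hy, map_add] at hx
    omega

omit [Finite σ] in
theorem mul_mem_low {M N : ℕ} {f g : MvPowerSeries σ R} (hf : f ∈ low σ R M) (hg : g ∈ low σ R N) :
    f * g ∈ low σ R (M + N) := by
  classical
  intro x hx
  rw [MvPowerSeries.coeff_mul]
  refine Finset.sum_eq_zero fun y hy => ?_
  have hy := Finset.HasAntidiagonal.mem_antidiagonal.1 hy
  rw [← hy, map_add] at hx
  by_cases h : Finsupp.degree y.1 < M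
  · rw [hf y.1 h, zero_mul]
  · rw [hg y.2 (by omega), mul_zero]

theorem IX_pow (N : ℕ) : IX σ R ^ N = low σ R N := by
  apply le_antisymm
  · induction N with
    | zero =>
      intro f _ x hx
      omega
    | succ N ih =>
      rw [pow_succ, Ideal.mul_le]
      intro f hf g hg
      refine mul_mem_low (ih hf) ?_
      have h1 : IX σ R ≤ low σ R 1 := by
        rw [IX, Ideal.span_le]
        rintro _ ⟨i, rfl⟩ x hx
        have hx0 : x = 0 := by
          rw [← Finsupp.degree_eq_zero_iff]
          omega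
        classical
        rw [hx0, MvPowerSeries.coeff_X, if_neg]
        intro h
        have := congrArg (fun f => f i) h
        simp at this
      exact h1 hg
  · intro f hf
    exact mem_span_X_pow hf

instance : IsAdicComplete (IX σ R) (MvPowerSeries σ R) where
  haus' := fun f hf => by
    ext x
    have h1 := hf (Finsupp.degree x + 1)
    rw [SModEq.zero, smul_eq_mul, Ideal.mul_top, IX_pow] at h1
    rw [h1 x (Nat.lt_succ_self _), map_zero]
  prec' := fun f hf => by
    let L : MvPowerSeries σ R := fun x => MvPowerSeries.coeff x (f (Finsupp.degree x + 1))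
    refine ⟨L, fun n => ?_⟩
    rw [SModEq.sub_mem, smul_eq_mul, Ideal.mul_top, IX_pow]
    intro x hx
    have h1 := hf (show Finsupp.degree x + 1 ≤ n by omega)
    rw [SModEq.sub_mem, smul_eq_mul, Ideal.mul_top, IX_pow] at h1
    have h2 := h1 x (Nat.lt_succ_self _)
    rw [map_sub, sub_eq_zero] at h2
    rw [map_sub, ← h2, sub_eq_zero]
    rfl

end ps

/-! ### finite algebras over complete Noetherian rings -/

section fin

theorem isPrecomplete_of_surjective {A : Type u} [CommRing A] (I : Ideal A) {M : Type v}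
    {N : Type w} [AddCommGroup M] [Module A M] [AddCommGroup N] [Module A N] [IsPrecomplete I M]
    (f : M →ₗ[A] N) (hf : Function.Surjective f) : IsPrecomplete I N := by
  rw [← AdicCompletion.of_surjective_iff]
  intro y
  obtain ⟨z, rfl⟩ := AdicCompletion.map_surjective I hf y
  obtain ⟨x, rfl⟩ := AdicCompletion.of_surjective I M z
  exact ⟨f x, (AdicCompletion.map_of I f x).symm⟩

variable {A : Type u} [CommRing A] [IsNoetherianRing A] (I : Ideal A) [IsAdicComplete I A]

theorem isAdicComplete_map (B : Type v) [CommRing B] [Algebra A B] [Module.Finite A B] :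
    IsAdicComplete (I.map (algebraMap A B)) B := by
  obtain ⟨n, f, hf⟩ := Module.Finite.exists_fin' A B
  have h1 : IsPrecomplete I (Fin n → A) := isPrecomplete_pi (I := I) n
  have h2 : IsPrecomplete I B := isPrecomplete_of_surjective I f hf
  have h3 : IsHausdorff I B := IsHausdorff.of_le_jacobson I B (IsAdicComplete.le_jacobson_bot I)
  have h4 : IsPrecomplete (I.map (algebraMap A B)) B := IsPrecomplete.map_algebraMap_iff.2 h2
  have h5 : IsHausdorff (I.map (algebraMap A B)) B := IsHausdorff.map_algebraMap_iff.2 h3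
  exact { h4, h5 with }

end fin

/-- Completeness for a larger ideal defining the same topology. -/
theorem isAdicComplete_of_pow_le {B : Type v} [CommRing B] {I J : Ideal B} [hI : IsAdicComplete I B]
    (hIJ : I ≤ J) (M : ℕ) (hJ : ∀ a, J ^ (a + M) ≤ I ^ a) : IsAdicComplete J B where
  haus' := fun x hx => by
    refine hI.haus' x fun n => ?_
    have h1 := hx (n + M)
    rw [SModEq.zero, smul_eq_mul, Ideal.mul_top] at h1 ⊢
    exact hJ n h1
  prec' := fun f hf => by
    obtain ⟨L, hL⟩ := hI.prec' (fun a => f (a + M)) (fun {m n} hmn => by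
      have h1 := hf (show m + M ≤ n + M by omega)
      rw [SModEq.sub_mem, smul_eq_mul, Ideal.mul_top] at h1 ⊢
      exact hJ m h1)
    refine ⟨L, fun n => ?_⟩
    have h1 := hf (show n ≤ n + M by omega)
    have h2 := hL n
    rw [SModEq.sub_mem, smul_eq_mul, Ideal.mul_top] at h1 h2 ⊢
    have h3 := (J ^ n).add_mem h1 (Ideal.pow_right_mono hIJ n h2)
    rwa [sub_add_sub_cancel] at h3

/-- powers of finitely generated ideals -/
theorem span_pow_le {B : Type*} [CommRing B] {ι : Type*} (a : ι → B) (n : ℕ) (s : Finset ι) :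
    Ideal.span (a '' s) ^ (s.card * n + 1) ≤ Ideal.span (Set.range fun i => a i ^ n) := by
  classical
  induction s using Finset.induction_on with
  | empty => simp
  | insert i s hi ih =>
    have h1 : Ideal.span (a '' (insert i s : Finset ι)) = Ideal.span {a i} ⊔ Ideal.span (a '' s) := by
      rw [← Ideal.span_union, Finset.coe_insert, Set.image_insert_eq, Set.insert_eq]
    have h2 : (insert i s : Finset ι).card * n + 1 = n + (s.card * n + 1) := by
      rw [Finset.card_insert_of_notMem hi]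
      ring
    rw [h1, h2]
    refine Ideal.sup_pow_add_le_pow_sup_pow.trans (sup_le ?_ ih)
    rw [Ideal.span_singleton_pow, Ideal.span_le, Set.singleton_subset_iff]
    exact Ideal.subset_span ⟨i, rfl⟩

/-! ### truncated polynomial rings -/

section Q

variable (d n : ℕ) (Γ : Type u) [CommRing Γ]

/-- the ideal `(q_i^n)` -/
def pI : Ideal (MvPolynomial (Fin d) Γ) :=
  Ideal.span (Set.range fun i : Fin d => (MvPolynomial.X i : MvPolynomial (Fin d) Γ) ^ n)

/-- `Γ[q_1, …, q_d]/(q_1^n, …, q_d^n)` -/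
abbrev Q : Type u := MvPolynomial (Fin d) Γ ⧸ pI d n Γ

variable {d n Γ}

/-- the variables -/
def q (i : Fin d) : Q d n Γ := Ideal.Quotient.mk _ (MvPolynomial.X i)

theorem q_pow (i : Fin d) : (q i : Q d n Γ) ^ n = 0 := by
  rw [q, ← map_pow, Ideal.Quotient.eq_zero_iff_mem]
  exact Ideal.subset_span ⟨i, rfl⟩

variable (d n Γ)

/-- the ideal `(q)` -/
def qI : Ideal (Q d n Γ) := Ideal.span (Set.range q)

variable {Γ} in
theorem q_mem (i : Fin d) : (q i : Q d n Γ) ∈ qI d n Γ := Ideal.subset_span ⟨i, rfl⟩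

theorem algebraMap_Q (c : Γ) : algebraMap Γ (Q d n Γ) c = Ideal.Quotient.mk _ (MvPolynomial.C c) :=
  rfl

theorem adjoin_q : Algebra.adjoin Γ (Set.range (q : Fin d → Q d n Γ)) = ⊤ := by
  rw [eq_top_iff]
  rintro x -
  obtain ⟨x, rfl⟩ := Ideal.Quotient.mk_surjective x
  induction x using MvPolynomial.induction_on with
  | C a => exact Subalgebra.algebraMap_mem _ a
  | add f g hf hg => rw [map_add]; exact add_mem hf hg
  | mul_X f i hf =>
    rw [map_mul]
    exact mul_mem hf (Algebra.subset_adjoin ⟨i, rfl⟩)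

instance finite_Q : Module.Finite Γ (Q d n Γ) := by
  have h1 : (⊤ : Subalgebra Γ (Q d n Γ)).toSubmodule.FG := by
    rw [← adjoin_q]
    refine fg_adjoin_of_finite (Set.finite_range _) ?_
    rintro _ ⟨i, rfl⟩
    refine ⟨Polynomial.X ^ n, Polynomial.monic_X_pow n, ?_⟩
    rw [Polynomial.eval₂_pow, Polynomial.eval₂_X, q_pow]
  exact ⟨by simpa using h1⟩


/-- explicit nilpotency exponent -/
theorem qI_pow : qI d n Γ ^ (d * n + 1) = ⊥ := by
  rw [eq_bot_iff]
  have h1 := span_pow_le (q : Fin d → Q d n Γ) n Finset.univ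
  rw [Finset.card_univ, Fintype.card_fin, Finset.coe_univ, Set.image_univ] at h1
  refine h1.trans ?_
  rw [Ideal.span_le]
  rintro _ ⟨i, rfl⟩
  exact Ideal.mem_bot.2 (q_pow i)

variable {d n Γ}

/-- functoriality -/
def Qmap {Γ' : Type v} [CommRing Γ'] (φ : Γ →+* Γ') : Q d n Γ →+* Q d n Γ' :=
  Ideal.quotientMap (pI d n Γ') (MvPolynomial.map φ) (by
    rw [pI, Ideal.span_le]
    rintro _ ⟨i, rfl⟩
    change MvPolynomial.map φ (MvPolynomial.X i ^ n) ∈ pI d n Γ'
    rw [map_pow, MvPolynomial.map_X]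
    exact Ideal.subset_span ⟨i, rfl⟩)

@[simp] theorem Qmap_algebraMap {Γ' : Type v} [CommRing Γ'] (φ : Γ →+* Γ') (c : Γ) :
    Qmap φ (algebraMap Γ (Q d n Γ) c) = algebraMap Γ' (Q d n Γ') (φ c) := by
  rw [algebraMap_Q, Qmap, Ideal.quotientMap_mk, MvPolynomial.map_C]
  rfl

@[simp] theorem Qmap_q {Γ' : Type v} [CommRing Γ'] (φ : Γ →+* Γ') (i : Fin d) :
    Qmap φ (q i : Q d n Γ) = q i := by
  rw [q, Qmap, Ideal.quotientMap_mk, MvPolynomial.map_X]
  rfl

theorem Qmap_qI {Γ' : Type v} [CommRing Γ'] (φ : Γ →+* Γ') :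
    (qI d n Γ).map (Qmap φ) = qI d n Γ' := by
  rw [qI, qI, Ideal.map_span, ← Set.range_comp]
  congr 2
  funext i
  exact Qmap_q φ i

/-- ring homomorphisms out of `Q` -/
theorem Q_hom_ext {B : Type*} [CommRing B] {f g : Q d n Γ →+* B}
    (h1 : ∀ c, f (algebraMap Γ _ c) = g (algebraMap Γ _ c)) (h2 : ∀ i, f (q i) = g (q i)) :
    f = g := by
  apply Ideal.Quotient.ringHom_ext
  apply MvPolynomial.ringHom_ext
  · exact h1
  · exact h2

end Q

/-! ### the Taylor homomorphism -/

theorem eq_of_X {σ : Type*} [Finite σ] {W : Type u} [CommRing W] {B : Type v} [CommRing B]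
    {J : Ideal B} [IsAdicComplete J B] {f g : MvPowerSeries σ W →+* B}
    (hC : ∀ a, f (MvPowerSeries.C a) = g (MvPowerSeries.C a))
    (hX : ∀ i, f (MvPowerSeries.X i) = g (MvPowerSeries.X i))
    (hJ : ∀ i, g (MvPowerSeries.X i) ∈ J) : f = g := by
  have e1 := eq_psEval J (g.comp MvPowerSeries.C) (fun i => g (MvPowerSeries.X i)) hJ f
    (fun a => hC a) hX
  have e2 := eq_psEval J (g.comp MvPowerSeries.C) (fun i => g (MvPowerSeries.X i)) hJ g
    (fun a => rfl) (fun i => rfl)
  exact e1.trans e2.symm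

section tau

variable (d n : ℕ) (W : Type u) [CommRing W] [IsNoetherianRing W]

/-- the ideal `(x, q)` -/
def JQ : Ideal (Q d n (MvPowerSeries (Fin d) W)) :=
  (IX (Fin d) W).map (algebraMap (MvPowerSeries (Fin d) W) (Q d n (MvPowerSeries (Fin d) W))) ⊔
    qI d n (MvPowerSeries (Fin d) W)

instance : IsAdicComplete (JQ d n W) (Q d n (MvPowerSeries (Fin d) W)) := by
  have h1 := isAdicComplete_map (IX (Fin d) W) (Q d n (MvPowerSeries (Fin d) W))
  refine isAdicComplete_of_pow_le (hI := h1) le_sup_left (d * n + 1) fun a => ?_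
  refine Ideal.sup_pow_add_le_pow_sup_pow.trans (sup_le le_rfl ?_)
  rw [qI_pow]
  exact bot_le

omit [IsNoetherianRing W] in
theorem tauS_mem (i : Fin d) : algebraMap (MvPowerSeries (Fin d) W)
    (Q d n (MvPowerSeries (Fin d) W)) (MvPowerSeries.X i) + q i ∈ JQ d n W := by
  refine Ideal.add_mem _ ?_ ?_
  · exact Ideal.mem_sup_left (Ideal.mem_map_of_mem _ (Ideal.subset_span ⟨i, rfl⟩))
  · exact Ideal.mem_sup_right (Ideal.subset_span ⟨i, rfl⟩)

/-- the universal Taylor homomorphism -/
def tauS : MvPowerSeries (Fin d) W →+* Q d n (MvPowerSeries (Fin d) W) :=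
  psEval (JQ d n W) ((algebraMap (MvPowerSeries (Fin d) W)
    (Q d n (MvPowerSeries (Fin d) W))).comp MvPowerSeries.C)
    (fun i => algebraMap (MvPowerSeries (Fin d) W)
      (Q d n (MvPowerSeries (Fin d) W)) (MvPowerSeries.X i) + q i) (tauS_mem d n W)

theorem tauS_C (w : W) : tauS d n W (MvPowerSeries.C w) = algebraMap (MvPowerSeries (Fin d) W)
    (Q d n (MvPowerSeries (Fin d) W)) (MvPowerSeries.C w) :=
  psEval_C _ _ _ _ _

theorem tauS_X (i : Fin d) :
    tauS d n W (MvPowerSeries.X i) = algebraMap (MvPowerSeries (Fin d) W)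
      (Q d n (MvPowerSeries (Fin d) W)) (MvPowerSeries.X i) + q i :=
  psEval_X _ _ _ _ _

theorem comp_tauS {B : Type u} [CommRing B] (π : Q d n (MvPowerSeries (Fin d) W) →+* B)
    (hπ : Function.Surjective π) (hq : ∀ i, π (q i) = 0) :
    π.comp (tauS d n W) = π.comp (algebraMap (MvPowerSeries (Fin d) W)
      (Q d n (MvPowerSeries (Fin d) W))) := by
  let _ : Algebra (MvPowerSeries (Fin d) W) B := (π.comp (algebraMap (MvPowerSeries (Fin d) W)
      (Q d n (MvPowerSeries (Fin d) W)))).toAlgebra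
  let πa : Q d n (MvPowerSeries (Fin d) W) →ₐ[MvPowerSeries (Fin d) W] B :=
    { π with commutes' := fun r => rfl }
  have _ : Module.Finite (MvPowerSeries (Fin d) W) B :=
    Module.Finite.of_surjective πa.toLinearMap hπ
  have h1 := isAdicComplete_map (IX (Fin d) W) B
  have h3 : ∀ i, algebraMap (MvPowerSeries (Fin d) W) B (MvPowerSeries.X i) ∈
      (IX (Fin d) W).map (algebraMap (MvPowerSeries (Fin d) W) B) := fun i =>
    Ideal.mem_map_of_mem _ (Ideal.subset_span ⟨i, rfl⟩)
  have h4 : π.comp (tauS d n W) = algebraMap (MvPowerSeries (Fin d) W) B := by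
    refine eq_of_X ?_ ?_ h3
    · intro a
      rw [RingHom.comp_apply, tauS_C]
      rfl
    · intro i
      rw [RingHom.comp_apply, tauS_X, map_add, hq, add_zero]
      rfl
  exact h4

theorem tauS_sub_mem (f : MvPowerSeries (Fin d) W) :
    tauS d n W f - algebraMap (MvPowerSeries (Fin d) W) (Q d n (MvPowerSeries (Fin d) W)) f ∈
      qI d n (MvPowerSeries (Fin d) W) := by
  have e0 : ∀ i : Fin d, Ideal.Quotient.mk (qI d n (MvPowerSeries (Fin d) W)) (q i) = 0 :=
    fun i => Ideal.Quotient.eq_zero_iff_mem.2 (q_mem d n i)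
  have e2 : Function.Surjective (Ideal.Quotient.mk (qI d n (MvPowerSeries (Fin d) W))) :=
    Ideal.Quotient.mk_surjective
  have e1 := comp_tauS (B := Q d n (MvPowerSeries (Fin d) W) ⧸ qI d n (MvPowerSeries (Fin d) W))
    d n W (Ideal.Quotient.mk (qI d n (MvPowerSeries (Fin d) W))) e2 e0
  have e3 := RingHom.congr_fun e1 f
  rw [← Ideal.Quotient.eq_zero_iff_mem, map_sub, sub_eq_zero]
  exact e3

variable {d W} {Γ : Type v} [CommRing Γ] (φ : MvPowerSeries (Fin d) W →+* Γ)

/-- **the Taylor homomorphism** `x_i ↦ φ(x_i) + q_i` -/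
def tau : MvPowerSeries (Fin d) W →+* Q d n Γ := (Qmap φ).comp (tauS d n W)

theorem tau_C (w : W) :
    tau n φ (MvPowerSeries.C w) = algebraMap Γ (Q d n Γ) (φ (MvPowerSeries.C w)) := by
  rw [tau, RingHom.comp_apply, tauS_C, Qmap_algebraMap]

theorem tau_X (i : Fin d) :
    tau n φ (MvPowerSeries.X i) = algebraMap Γ (Q d n Γ) (φ (MvPowerSeries.X i)) + q i := by
  rw [tau, RingHom.comp_apply, tauS_X, map_add, Qmap_algebraMap, Qmap_q]

theorem tau_sub_mem (f : MvPowerSeries (Fin d) W) :
    tau n φ f - algebraMap Γ (Q d n Γ) (φ f) ∈ qI d n Γ := by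
  have h := Ideal.mem_map_of_mem (Qmap φ) (tauS_sub_mem d n W f)
  rwa [Qmap_qI, map_sub, Qmap_algebraMap] at h


end tau

end

end Crest.Agent.R188.Tay
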