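import Mathlib
import Crest.Agent.R183.Om6
import Crest.Agent.R188.Wit2
import Crest.Agent.R188.Tay1
import Crest.Agent.R183.CohenWitt
import Crest.Agent.R188.Wit1
import Crest.Agent.R188.PrfPerf
import Mathlib.RingTheory.MvPowerSeries.Basic
import Crest.Agent.R188.Asm1
import Crest.Agent.R227.LTComplete

-- ▼ part R188/Lft1
section

/-!
# R188 / Lft1 (helper46) : the Dieudonné–Dwork lift

`S` a `p`-torsion free ring with a lift of Frobenius `F` (`p ∣ F s - s ^ p`).  Then there is a
ring homomorphism `dw : S →+* W(S)` with ghost components `(s, F s, F² s, …)`.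
-/

set_option autoImplicit false
set_option linter.style.haveILetI false
set_option linter.unusedSectionVars false

namespace Crest.Agent.R188.Lft

open WittVector

universe u

variable {p : ℕ} [hp : Fact p.Prime]

/-- `F` is a lift of Frobenius -/
def IsFrobLift (p : ℕ) {S : Type*} [CommRing S] (F : S →+* S) : Prop :=
  ∀ s : S, (p : S) ∣ F s - s ^ p

/-- `p`-torsion free -/
def PTf (p : ℕ) (S : Type*) [CommRing S] : Prop := ∀ s : S, (p : S) * s = 0 → s = 0

lemma PTf.pow {S : Type*} [CommRing S] (h : PTf p S) (n : ℕ) {s : S} (hs : (p : S) ^ n * s = 0) :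
    s = 0 := by
  induction n with
  | zero => simpa using hs
  | succ n ih =>
    apply ih
    apply h
    rw [← mul_assoc, ← pow_succ', hs]

lemma ghost_eq {S : Type*} [CommRing S] (w : WittVector p S) (n : ℕ) :
    ghostComponent n w = ∑ i ∈ Finset.range (n + 1), (p : S) ^ i * w.coeff i ^ p ^ (n - i) := by
  rw [ghostComponent_apply, wittPolynomial_eq_sum_C_mul_X_pow, map_sum]
  refine Finset.sum_congr rfl fun i _ => ?_
  simp

/-- ghost components determine a Witt vector over a `p`-torsion free ring -/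
theorem ghost_ext {S : Type*} [CommRing S] (h : PTf p S) {u v : WittVector p S}
    (huv : ∀ n, ghostComponent n u = ghostComponent n v) : u = v := by
  ext n
  induction n using Nat.strong_induction_on with
  | _ n ih =>
    have h1 := huv n
    rw [ghost_eq, ghost_eq, Finset.sum_range_succ, Finset.sum_range_succ, Nat.sub_self, pow_zero,
      pow_one, pow_one] at h1
    have h2 : ∑ i ∈ Finset.range n, (p : S) ^ i * u.coeff i ^ p ^ (n - i) =
        ∑ i ∈ Finset.range n, (p : S) ^ i * v.coeff i ^ p ^ (n - i) := by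
      refine Finset.sum_congr rfl fun i hi => ?_
      rw [ih i (Finset.mem_range.1 hi)]
    rw [h2] at h1
    have h3 := add_left_cancel h1
    rw [← sub_eq_zero]
    apply h.pow n
    rw [mul_sub, h3, sub_self]

section

variable {S : Type*} [CommRing S] (F : S →+* S)

open Classical in
/-- the Witt coordinates of the Dwork lift -/
noncomputable def dwSeq (p : ℕ) (s : S) : ℕ → S
  | n => if h : (p : S) ^ n ∣ F^[n] s - ∑ i : Fin n, (p : S) ^ (i : ℕ) *
        (dwSeq p s i) ^ p ^ (n - (i : ℕ)) then h.choose else 0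
  decreasing_by exact i.2

lemma dwSeq_spec {p : ℕ} {s : S} {n : ℕ}
    (h : (p : S) ^ n ∣ F^[n] s - ∑ i : Fin n, (p : S) ^ (i : ℕ) *
      (dwSeq F p s i) ^ p ^ (n - (i : ℕ))) :
    F^[n] s - ∑ i : Fin n, (p : S) ^ (i : ℕ) * (dwSeq F p s i) ^ p ^ (n - (i : ℕ)) =
      (p : S) ^ n * dwSeq F p s n := by
  conv_rhs => rw [dwSeq]
  rw [dif_pos h]
  exact h.choose_spec

lemma dwSeq_sum (hF : IsFrobLift p F) (s : S) (n : ℕ) :
    F^[n] s = ∑ i ∈ Finset.range (n + 1), (p : S) ^ i * dwSeq F p s i ^ p ^ (n - i) := by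
  induction n with
  | zero =>
    have := dwSeq_spec F (p := p) (s := s) (n := 0) (by simp)
    simpa using this
  | succ n ih =>
    have h1 : (p : S) ^ (n + 1) ∣ F^[n + 1] s - ∑ i : Fin (n + 1), (p : S) ^ (i : ℕ) *
      (dwSeq F p s i) ^ p ^ (n + 1 - (i : ℕ)) := by
      rw [Function.iterate_succ_apply', ih, map_sum,
        Fin.sum_univ_eq_sum_range
          (fun i => (p : S) ^ i * (dwSeq F p s i) ^ p ^ (n + 1 - i)) (n + 1),
        ← Finset.sum_sub_distrib]
      refine Finset.dvd_sum fun i hi => ?_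
      have hi' : i ≤ n := Nat.lt_succ_iff.1 (Finset.mem_range.1 hi)
      rw [map_mul, map_pow, map_pow, map_natCast, ← mul_sub]
      have h2 : (p : S) ^ (n - i + 1) ∣
          (F (dwSeq F p s i)) ^ p ^ (n - i) - (dwSeq F p s i ^ p) ^ p ^ (n - i) :=
        dvd_sub_pow_of_dvd_sub (hF _) _
      rw [← pow_mul, ← pow_succ'] at h2
      have h3 : n + 1 - i = n - i + 1 := by omega
      rw [h3]
      have h4 : (p : S) ^ (n + 1) = (p : S) ^ i * (p : S) ^ (n - i + 1) := by
        rw [← pow_add]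
        congr 1
        omega
      rw [h4]
      exact mul_dvd_mul_left _ h2
    have h5 := dwSeq_spec F h1
    rw [Finset.sum_range_succ, Nat.sub_self, pow_zero, pow_one, ← h5,
      Fin.sum_univ_eq_sum_range (fun i => (p : S) ^ i * (dwSeq F p s i) ^ p ^ (n + 1 - i)) (n + 1)]
    ring

/-- the Dwork lift, as a function -/
noncomputable def dwFun (p : ℕ) (s : S) : WittVector p S := ⟨dwSeq F p s⟩

lemma ghost_dwFun (hF : IsFrobLift p F) (s : S) (n : ℕ) :
    ghostComponent n (dwFun F p s) = F^[n] s := by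
  rw [ghost_eq, dwSeq_sum F hF s n]
  rfl

/-- **The Dieudonné–Dwork lift.** -/
noncomputable def dw (hF : IsFrobLift p F) (h : PTf p S) : S →+* WittVector p S where
  toFun := dwFun F p
  map_one' := ghost_ext h fun n => by rw [ghost_dwFun F hF, map_one, iterate_map_one]
  map_zero' := ghost_ext h fun n => by rw [ghost_dwFun F hF, map_zero, iterate_map_zero]
  map_mul' x y := ghost_ext h fun n => by
    rw [map_mul, ghost_dwFun F hF, ghost_dwFun F hF, ghost_dwFun F hF, iterate_map_mul]
  map_add' x y := ghost_ext h fun n => by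
    rw [map_add, ghost_dwFun F hF, ghost_dwFun F hF, ghost_dwFun F hF, iterate_map_add]

variable {F} (hF : IsFrobLift p F) (h : PTf p S)

lemma ghost_dw (s : S) (n : ℕ) : ghostComponent n (dw F hF h s) = F^[n] s :=
  ghost_dwFun F hF s n

@[simp]
lemma dw_coeff_zero (s : S) : (dw F hF h s).coeff 0 = s := by
  have := ghost_dw hF h s 0
  rw [ghost_eq] at this
  simpa using this

lemma dw_F (s : S) : dw F hF h (F s) = WittVector.frobenius (dw F hF h s) := by
  apply ghost_ext h
  intro n
  rw [ghost_dw, ghostComponent_frobenius, ghost_dw, Function.iterate_succ_apply]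

lemma dw_of_pow {x : S} (hx : F x = x ^ p) : dw F hF h x = teichmuller p x := by
  apply ghost_ext h
  intro n
  rw [ghost_dw, ghostComponent_teichmuller]
  induction n with
  | zero => simp
  | succ n ih =>
    rw [Function.iterate_succ_apply', ih, map_pow, hx, ← pow_mul, ← pow_succ']

end

end Crest.Agent.R188.Lft
end

-- ▼ part R188/Lft2
section

/-!
# R188 / Lft2 (helper46) : lifting a Frobenius-compatible family `b n : S →+* Ω` to `W(Ω^♭)`

`S` a `p`-torsion free ring with a lift of Frobenius `F`, `Ω` a `p`-complete ring,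
`b n : S →+* Ω` with `b (n + 1) ∘ F = b n`.  Then there is `phi : S →+* W(PreTilt Ω p)` with
`θ ∘ phi = b 0`.
-/

set_option autoImplicit false
set_option linter.style.haveILetI false
set_option linter.unusedSectionVars false

namespace Crest.Agent.R188.Lft

open WittVector Crest.Agent.R183.Om

variable {p : ℕ} [hp : Fact p.Prime]

/-- uniqueness: Frobenius-compatible families agree if they agree modulo `p` -/
theorem family_unique {S : Type*} [CommRing S] {F : S →+* S} (hF : IsFrobLift p F)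
    {T : Type*} [CommRing T] (hsep : ∀ x : T, (∀ n : ℕ, (p : T) ^ n ∣ x) → x = 0)
    (a b : ℕ → (S →+* T)) (ha : ∀ n s, a (n + 1) (F s) = a n s)
    (hb : ∀ n s, b (n + 1) (F s) = b n s) (hab : ∀ n s, (p : T) ∣ a n s - b n s) (n : ℕ) :
    a n = b n := by
  have key : ∀ (c n : ℕ) (s : S), (p : T) ^ (c + 1) ∣ a n s - b n s := by
    intro c
    induction c with
    | zero => intro n s; rw [zero_add, pow_one]; exact hab n s
    | succ c ih =>
      intro n s
      obtain ⟨t, ht⟩ := hF s
      have h1 : F s = s ^ p + p * t := by rw [← ht]; ring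
      rw [← ha n s, ← hb n s, h1, map_add, map_add, map_mul, map_mul, map_pow, map_pow,
        map_natCast, map_natCast]
      have h2 : (p : T) ^ (c + 1 + 1) ∣ (a (n + 1) s) ^ p - (b (n + 1) s) ^ p := by
        obtain ⟨z, hz⟩ := ih (n + 1) s
        have hz' : a (n + 1) s = b (n + 1) s + (p : T) ^ (c + 1) * z := by rw [← hz]; ring
        rw [hz', add_pow, Finset.sum_range_succ, Nat.sub_self, pow_zero, mul_one,
          Nat.choose_self, Nat.cast_one, mul_one, add_sub_cancel_right]
        refine Finset.dvd_sum fun i hi => ?_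
        have hi' : i < p := Finset.mem_range.1 hi
        rcases Nat.eq_zero_or_pos i with rfl | h3
        · rw [Nat.sub_zero, mul_pow, ← pow_mul]
          refine Dvd.dvd.mul_right (Dvd.dvd.mul_left (Dvd.dvd.mul_right ?_ _) _) _
          apply pow_dvd_pow
          have := hp.out.two_le
          nlinarith
        · have h5 : p ∣ p.choose i := hp.out.dvd_choose_self (by omega) hi'
          obtain ⟨q, hq⟩ := h5
          obtain ⟨j, hj⟩ : ∃ j, p - i = j + 1 := ⟨p - i - 1, by omega⟩
          rw [hq, Nat.cast_mul, hj, mul_pow, pow_succ ((p : T) ^ (c + 1)) j, pow_succ (p : T) (c + 1)]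
          exact ⟨b (n + 1) s ^ i * ((p : T) ^ (c + 1)) ^ j * z ^ (j + 1) * q, by ring⟩
      have h6 : (p : T) ^ (c + 1 + 1) ∣ (p : T) * a (n + 1) t - (p : T) * b (n + 1) t := by
        rw [← mul_sub, pow_succ' (p : T) (c + 1)]
        exact mul_dvd_mul_left _ (ih (n + 1) t)
      have h7 := dvd_add h2 h6
      convert h7 using 1
      ring
  ext s
  rw [← sub_eq_zero]
  refine hsep _ fun m => ?_
  exact (pow_dvd_pow _ (Nat.le_succ m)).trans (key m n s)

/-- the Witt vector Frobenius is natural -/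
lemma map_frobenius' {A B : Type*} [CommRing A] [CommRing B] (f : A →+* B) (x : WittVector p A) :
    WittVector.map f (WittVector.frobenius x) = WittVector.frobenius (WittVector.map f x) := by
  ext n
  rw [map_coeff, coeff_frobenius, coeff_frobenius, MvPolynomial.aeval_def, MvPolynomial.aeval_def,
    MvPolynomial.hom_eval₂]
  congr 1
  exact RingHom.ext_int _ _

section Tilt

variable {S : Type*} [CommRing S] {F : S →+* S} (hF : IsFrobLift p F) (hS : PTf p S)
variable {Ω : Type*} [CommRing Ω] [Fact ¬IsUnit (p : Ω)]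
variable (b : ℕ → (S →+* Ω)) (hb : ∀ n s, b (n + 1) (F s) = b n s)











end Tilt

end Crest.Agent.R188.Lft
end

-- ▼ part R188/Lft3
section

/-!
# R188 / Lft3 (helper46) : the lift `S →+* W(P)` for `Om ξ = W(P)/ξ`

`P` a perfect ring, `π`-adically complete, `ξ = [π] + p u`; `S` a `p`-torsion free ring with a
lift of Frobenius `F`, `b n : S →+* Om ξ` with `b (n + 1) ∘ F = b n`.  Then there is
`liftW : S →+* W(P)` with `θ ∘ liftW = b 0`, and `liftW x = [a]` if `F x = x ^ p`.
-/

set_option autoImplicit false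
set_option linter.style.haveILetI false
set_option linter.unusedSectionVars false

namespace Crest.Agent.R188.Lft

open WittVector Crest.Agent.R188.Prf Crest.Agent.R188.Wit

universe u

variable {p : ℕ} [hp : Fact p.Prime] {P : Type u} [CommRing P]

/-- `P = lim P/π` along Frobenius: existence -/
theorem exists_lim (hP : IsPerf p P) {π : P} [IsAdicComplete (Ideal.span {π}) P] (c : ℕ → P)
    (hc : ∀ n, π ∣ c (n + 1) ^ p - c n) : ∃ a, ∀ n, π ∣ hP.rtn n a - c n := by
  have h1 : ∀ n, π ^ p ^ n ∣ c (n + 1) ^ p ^ (n + 1) - c n ^ p ^ n := by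
    intro n
    rw [pow_succ' p n, pow_mul, ← sub_pow_pn hP.p_zero]
    exact pow_dvd_pow_of_dvd (hc n) _
  have h2 : ∀ n m, n ≤ m → π ^ p ^ n ∣ c m ^ p ^ m - c n ^ p ^ n := by
    intro n m hnm
    induction m, hnm using Nat.le_induction with
    | base => rw [sub_self]; exact dvd_zero _
    | succ m hm ih =>
      have h3 := dvd_add ((pow_dvd_pow π (Nat.pow_le_pow_right hp.out.pos hm)).trans (h1 m)) ih
      rwa [sub_add_sub_cancel] at h3
  obtain ⟨a, ha⟩ := IsPrecomplete.prec (I := Ideal.span {π}) (M := P) inferInstance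
    (f := fun n => c n ^ p ^ n) (by
      intro m n hmn
      rw [SModEq.sub_mem, smul_eq_mul, Ideal.mul_top, Ideal.span_singleton_pow,
        Ideal.mem_span_singleton, ← dvd_neg, neg_sub]
      exact (pow_dvd_pow π (Nat.lt_pow_self hp.out.one_lt).le).trans (h2 m n hmn))
  refine ⟨a, fun n => ?_⟩
  have h4 : π ^ p ^ n ∣ a - c n ^ p ^ n := by
    have h5 := ha (p ^ n)
    rw [SModEq.sub_mem, smul_eq_mul, Ideal.mul_top, Ideal.span_singleton_pow,
      Ideal.mem_span_singleton, ← dvd_neg, neg_sub] at h5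
    have h6 := dvd_add h5 (h2 n (p ^ n) (Nat.lt_pow_self hp.out.one_lt).le)
    rwa [sub_add_sub_cancel] at h6
  obtain ⟨t, ht⟩ := h4
  refine ⟨hP.rtn n t, ?_⟩
  apply hP.pow_pn_inj (n := n)
  rw [sub_pow_pn hP.p_zero, hP.rtn_pow, mul_pow, hP.rtn_pow, ht]

/-- `P = lim P/π` along Frobenius: uniqueness -/
theorem lim_unique (hP : IsPerf p P) {π : P} [IsAdicComplete (Ideal.span {π}) P] {a a' : P}
    (h : ∀ n, π ∣ hP.rtn n a - hP.rtn n a') : a = a' := by
  rw [← sub_eq_zero]
  refine IsHausdorff.haus (I := Ideal.span {π}) inferInstance _ fun n => ?_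
  rw [SModEq.zero, smul_eq_mul, Ideal.mul_top, Ideal.span_singleton_pow, Ideal.mem_span_singleton]
  refine (pow_dvd_pow π (Nat.lt_pow_self hp.out.one_lt).le).trans ?_
  have h1 := pow_dvd_pow_of_dvd (h n) (p ^ n)
  rwa [sub_pow_pn hP.p_zero, hP.rtn_pow, hP.rtn_pow] at h1

section Om

variable (hP : IsPerf p P) {ξ : WittVector p P} {π : P} (hξ : IsDist ξ π)

include hP hξ

/-- `W(P)/(p, ξ) = P/π` -/
theorem p_dvd_θ_iff {w : WittVector p P} : (p : Om ξ) ∣ θ ξ w ↔ π ∣ w.coeff 0 := by
  obtain ⟨u, hu, he⟩ := hξ.ex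
  have hc : ∀ x y : WittVector p P, (x + y).coeff 0 = x.coeff 0 + y.coeff 0 := fun x y =>
    (constantCoeff : WittVector p P →+* P).map_add x y
  have hm : ∀ x y : WittVector p P, (x * y).coeff 0 = x.coeff 0 * y.coeff 0 := fun x y =>
    (constantCoeff : WittVector p P →+* P).map_mul x y
  have hpc : ∀ x : WittVector p P, ((p : WittVector p P) * x).coeff 0 = 0 := fun x => by
    rw [mul_comm, mul_p_coeff_zero hP.p_zero]
  constructor
  · rintro ⟨y, hy⟩
    obtain ⟨y, rfl⟩ := θ_surjective ξ y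
    have h1 : θ ξ (w - p * y) = 0 := by
      rw [map_sub, map_mul, map_natCast, ← hy, sub_self]
    obtain ⟨z, hz⟩ := θ_eq_zero_iff.1 h1
    have h2 : w = p * y + ξ * z := by rw [← hz]; ring
    refine ⟨z.coeff 0, ?_⟩
    rw [h2, hc, hpc, zero_add, hm, he, hc, hpc, add_zero, teichmuller_coeff_zero]
  · rintro ⟨t, ht⟩
    obtain ⟨y, hy⟩ := exists_eq_teich_add hP w
    have h3 : w = ξ * teichmuller p t + p * (y - u * teichmuller p t) := by
      rw [hy, ht, map_mul, he]
      ring
    refine ⟨θ ξ (y - u * teichmuller p t), ?_⟩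
    rw [h3, map_add, map_mul, θ_xi, zero_mul, zero_add, map_mul, map_natCast]

lemma p_dvd_θ_sub_sh (w : WittVector p P) : (p : Om ξ) ∣ θ ξ w - sh ξ (w.coeff 0) := by
  obtain ⟨y, hy⟩ := exists_eq_teich_add hP w
  have h1 : θ ξ w = sh ξ (w.coeff 0) + p * θ ξ y := by
    have h2 := congrArg (θ ξ) hy
    rw [map_add, map_mul, map_natCast] at h2
    exact h2
  exact ⟨θ ξ y, by rw [h1, add_sub_cancel_left]⟩

theorem p_dvd_sh_sub_iff {x y : P} : (p : Om ξ) ∣ sh ξ x - sh ξ y ↔ π ∣ x - y := by
  rw [sh, sh, ← map_sub, p_dvd_θ_iff hP hξ]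
  have : (teichmuller p x - teichmuller p y).coeff 0 = x - y := by
    have h1 := (constantCoeff : WittVector p P →+* P).map_sub (teichmuller p x) (teichmuller p y)
    have h2 : ∀ z : WittVector p P, (constantCoeff : WittVector p P →+* P) z = z.coeff 0 :=
      fun z => rfl
    rw [h2, h2, h2, teichmuller_coeff_zero, teichmuller_coeff_zero] at h1
    exact h1
  rw [this]

/-- `Om ξ^♭ = P`: existence -/
theorem exists_tilt_elt [IsAdicComplete (Ideal.span {π}) P] (β : ℕ → Om ξ)
    (hβ : ∀ n, (p : Om ξ) ∣ β (n + 1) ^ p - β n) :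
    ∃ a : P, ∀ n, (p : Om ξ) ∣ sh ξ (hP.rtn n a) - β n := by
  have h1 : ∀ n, ∃ c : P, (p : Om ξ) ∣ β n - sh ξ c := by
    intro n
    obtain ⟨w, hw⟩ := θ_surjective ξ (β n)
    exact ⟨w.coeff 0, by rw [← hw]; exact p_dvd_θ_sub_sh hP hξ w⟩
  choose c hc using h1
  obtain ⟨a, ha⟩ := exists_lim hP (π := π) c (fun n => by
    rw [← p_dvd_sh_sub_iff hP hξ, sh_pow]
    have h2 : (p : Om ξ) ∣ β (n + 1) ^ p - sh ξ (c (n + 1)) ^ p :=
      (hc (n + 1)).trans (sub_dvd_pow_sub_pow _ _ _)
    have h3 := dvd_sub (dvd_add (hβ n) (hc n)) h2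
    convert h3 using 1
    ring)
  refine ⟨a, fun n => ?_⟩
  have h4 := (p_dvd_sh_sub_iff hP hξ).2 (ha n)
  have h5 := dvd_sub h4 (hc n)
  convert h5 using 1
  ring

/-- `Om ξ^♭ = P`: uniqueness -/
theorem tilt_elt_unique [IsAdicComplete (Ideal.span {π}) P] {β : ℕ → Om ξ} {a a' : P}
    (ha : ∀ n, (p : Om ξ) ∣ sh ξ (hP.rtn n a) - β n)
    (ha' : ∀ n, (p : Om ξ) ∣ sh ξ (hP.rtn n a') - β n) : a = a' := by
  refine lim_unique hP (π := π) fun n => ?_
  rw [← p_dvd_sh_sub_iff hP hξ]
  have h := dvd_sub (ha n) (ha' n)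
  rwa [sub_sub_sub_cancel_right] at h

/-- exact root systems are sharps -/
theorem sh_rtn_eq {β : ℕ → Om ξ} (hβ : ∀ n, β (n + 1) ^ p = β n) {a : P}
    (ha : ∀ n, (p : Om ξ) ∣ sh ξ (hP.rtn n a) - β n) (n : ℕ) : sh ξ (hP.rtn n a) = β n := by
  have hβ' : ∀ m, β (n + m) ^ p ^ m = β n := by
    intro m
    induction m with
    | zero => simp
    | succ m ih => rw [pow_succ', pow_mul, ← add_assoc, hβ, ih]
  rw [← sub_eq_zero]
  apply Om_separated hP hξ
  intro m
  have h1 := dvd_sub_pow_of_dvd_sub (ha (n + m)) m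
  rw [← sh_pow, hP.rtn_add_pow, hβ'] at h1
  obtain ⟨b, hb⟩ := (pow_dvd_pow _ (Nat.le_succ m)).trans h1
  exact ⟨b, hb⟩


end Om

section Lift

variable (hP : IsPerf p P) {ξ : WittVector p P} {π : P} (hξ : IsDist ξ π)
variable {S : Type*} [CommRing S] {F : S →+* S} (hF : IsFrobLift p F) (hS : PTf p S)
variable (b : ℕ → (S →+* Om ξ)) (hb : ∀ n s, b (n + 1) (F s) = b n s)

include hF hb in
lemma fam_pow' (n : ℕ) (s : S) : (p : Om ξ) ∣ b (n + 1) s ^ p - b n s := by
  rw [← hb n s, ← map_pow, ← map_sub, ← dvd_neg, ← map_neg, neg_sub]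
  have := map_dvd (b (n + 1)) (hF s)
  rwa [map_natCast] at this

section h

variable [IsAdicComplete (Ideal.span {π}) P]

/-- the map `S → P = Om ξ^♭`, as a function -/
noncomputable def toPFun (s : S) : P :=
  (exists_tilt_elt hP hξ (fun n => b n s) (fam_pow' hF b hb · s)).choose

lemma toPFun_spec (s : S) (n : ℕ) :
    (p : Om ξ) ∣ sh ξ (hP.rtn n (toPFun hP hξ hF b hb s)) - b n s :=
  (exists_tilt_elt hP hξ (fun n => b n s) (fam_pow' hF b hb · s)).choose_spec n

omit [IsAdicComplete (Ideal.span {π}) P] in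
include hP hξ in
lemma sh_add_dvd (x y : P) : (p : Om ξ) ∣ sh ξ (x + y) - (sh ξ x + sh ξ y) := by
  have h1 : sh ξ x + sh ξ y = θ ξ (teichmuller p x + teichmuller p y) := by
    rw [map_add]; rfl
  have h2 := p_dvd_θ_sub_sh hP hξ (teichmuller p x + teichmuller p y)
  have h3 : (teichmuller p x + teichmuller p y).coeff 0 = x + y := by
    have h4 := (constantCoeff : WittVector p P →+* P).map_add (teichmuller p x) (teichmuller p y)
    have h5 : ∀ z : WittVector p P, (constantCoeff : WittVector p P →+* P) z = z.coeff 0 :=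
      fun z => rfl
    rw [h5, h5, h5, teichmuller_coeff_zero, teichmuller_coeff_zero] at h4
    exact h4
  rw [h3, ← h1] at h2
  rwa [← dvd_neg, neg_sub]

/-- the map `S → P = Om ξ^♭` -/
noncomputable def toP : S →+* P where
  toFun := toPFun hP hξ hF b hb
  map_one' := tilt_elt_unique hP hξ (toPFun_spec hP hξ hF b hb 1) fun n => by
    rw [hP.rtn_one, sh_one, map_one, sub_self]
    exact dvd_zero _
  map_zero' := tilt_elt_unique hP hξ (toPFun_spec hP hξ hF b hb 0) fun n => by
    rw [hP.rtn_zero, sh_zero, map_zero, sub_self]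
    exact dvd_zero _
  map_mul' x y := tilt_elt_unique hP hξ (toPFun_spec hP hξ hF b hb (x * y)) fun n => by
    rw [hP.rtn_mul, sh_mul, map_mul]
    obtain ⟨u, hu⟩ := toPFun_spec hP hξ hF b hb x n
    obtain ⟨v, hv⟩ := toPFun_spec hP hξ hF b hb y n
    exact ⟨u * sh ξ (hP.rtn n (toPFun hP hξ hF b hb y)) + b n x * v, by
      linear_combination (sh ξ (hP.rtn n (toPFun hP hξ hF b hb y))) * hu + b n x * hv⟩
  map_add' x y := tilt_elt_unique hP hξ (toPFun_spec hP hξ hF b hb (x + y)) fun n => by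
    rw [hP.rtn_add, map_add]
    have h1 := sh_add_dvd hP hξ (hP.rtn n (toPFun hP hξ hF b hb x))
      (hP.rtn n (toPFun hP hξ hF b hb y))
    have h2 := dvd_add h1 (dvd_add (toPFun_spec hP hξ hF b hb x n)
      (toPFun_spec hP hξ hF b hb y n))
    convert h2 using 1
    ring

lemma toP_spec (s : S) (n : ℕ) :
    (p : Om ξ) ∣ sh ξ (hP.rtn n (toP hP hξ hF b hb s)) - b n s :=
  toPFun_spec hP hξ hF b hb s n

/-- **The lift** `S →+* W(P)`. -/
noncomputable def liftW : S →+* WittVector p P :=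
  (WittVector.map (toP hP hξ hF b hb)).comp (dw F hF hS)

lemma liftW_coeff_zero (s : S) : (liftW hP hξ hF hS b hb s).coeff 0 = toP hP hξ hF b hb s := by
  rw [liftW, RingHom.comp_apply, map_coeff, dw_coeff_zero]

lemma liftW_F (s : S) :
    liftW hP hξ hF hS b hb (F s) = WittVector.frobenius (liftW hP hξ hF hS b hb s) := by
  rw [liftW, RingHom.comp_apply, RingHom.comp_apply, dw_F, map_frobenius']

lemma liftW_of_pow {x : S} (hx : F x = x ^ p) :
    liftW hP hξ hF hS b hb x = teichmuller p (toP hP hξ hF b hb x) := by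
  rw [liftW, RingHom.comp_apply, dw_of_pow hF hS hx, map_teichmuller]

/-- the `p^n`-th root as a ring homomorphism -/
noncomputable def rtnHom (hP : IsPerf p P) (n : ℕ) : P →+* P where
  toFun := hP.rtn n
  map_one' := hP.rtn_one n
  map_zero' := hP.rtn_zero n
  map_mul' := hP.rtn_mul n
  map_add' := hP.rtn_add n

/-- **`θ ∘ liftW = b 0`.** -/
theorem θ_liftW (s : S) : θ ξ (liftW hP hξ hF hS b hb s) = b 0 s := by
  let a : ℕ → (S →+* Om ξ) := fun n =>
    ((θ ξ).comp (WittVector.map (rtnHom hP n))).comp (liftW hP hξ hF hS b hb)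
  have hsep : ∀ x : Om ξ, (∀ n : ℕ, (p : Om ξ) ^ n ∣ x) → x = 0 := fun x hx =>
    Om_separated hP hξ fun n => hx n
  have h := family_unique hF hsep a b ?_ hb ?_ 0
  · have h1 := RingHom.congr_fun h s
    have h2 : rtnHom hP 0 = RingHom.id P := RingHom.ext fun x => rfl
    have h3 : a 0 s = θ ξ (liftW hP hξ hF hS b hb s) := by
      show θ ξ (WittVector.map (rtnHom hP 0) _) = _
      rw [h2]
      congr 1
    rw [← h3, h1]
  · intro n s
    show θ ξ (WittVector.map (rtnHom hP (n + 1)) (liftW hP hξ hF hS b hb (F s))) =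
      θ ξ (WittVector.map (rtnHom hP n) (liftW hP hξ hF hS b hb s))
    rw [liftW_F]
    congr 1
    rcases subsingleton_or_nontrivial P with hs | hn
    · exact WittVector.ext fun i => Subsingleton.elim _ _
    · haveI := charP_of hP.p_zero
      ext i
      rw [map_coeff, map_coeff, coeff_frobenius_charP]
      show hP.rtn (n + 1) _ = hP.rtn n _
      rw [hP.rtn_pow_comm, hP.rtn_succ_pow]
  · intro n s
    show (p : Om ξ) ∣ θ ξ (WittVector.map (rtnHom hP n) (liftW hP hξ hF hS b hb s)) - b n s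
    have h1 := p_dvd_θ_sub_sh hP hξ
      (WittVector.map (rtnHom hP n) (liftW hP hξ hF hS b hb s))
    rw [map_coeff, liftW_coeff_zero] at h1
    change (p : Om ξ) ∣ _ - sh ξ (hP.rtn n (toP hP hξ hF b hb s)) at h1
    have h2 := dvd_add h1 (toP_spec hP hξ hF b hb s n)
    rwa [sub_add_sub_cancel] at h2

end h

end Lift

end Crest.Agent.R188.Lft
end

-- ▼ part R188/Lft4
section

/-!
# R188 / Lft4 (helper46) : the Frobenius-compatible family `b n : W(k)[[x]] →+* T`

`k` perfect, `S = W(k)[[x_1..x_d]]`, `B` Noetherian and complete, `A` a finite `B`-algebra,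
`σ : S → A`, `γ : A →ₐ[B] T` with `T` a `B`-algebra closed under `p`-th roots.  Then there are
`b n : S →+* T` with `b 0 = γ ∘ σ` and `b (n + 1) ∘ F = b n`.
-/

set_option autoImplicit false
set_option linter.style.haveILetI false
set_option linter.unusedSectionVars false

namespace Crest.Agent.R188.Lft

open WittVector Crest.Agent.R188.Prf Crest.Agent.R188.Wit Crest.Agent.R188.Tay
open Crest.Agent.R183.Cohen

universe u v w

/-- Completeness for a larger ideal defining the same topology. -/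
theorem isAdicComplete_of_pow_le' {B : Type v} [CommRing B] {I J : Ideal B}
    [hI : IsAdicComplete I B] (hIJ : I ≤ J) {M : ℕ} (hM : 0 < M) (hJ : J ^ M ≤ I) :
    IsAdicComplete J B where
  haus' := fun x hx => by
    refine hI.haus' x fun n => ?_
    have h1 := hx (M * n)
    rw [SModEq.zero, smul_eq_mul, Ideal.mul_top] at h1 ⊢
    rw [pow_mul] at h1
    exact Ideal.pow_right_mono hJ n h1
  prec' := fun f hf => by
    obtain ⟨L, hL⟩ := hI.prec' (fun a => f (M * a)) (fun {m n} hmn => by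
      have h1 := hf (show M * m ≤ M * n from Nat.mul_le_mul_left M hmn)
      rw [SModEq.sub_mem, smul_eq_mul, Ideal.mul_top] at h1 ⊢
      rw [pow_mul] at h1
      exact Ideal.pow_right_mono hJ m h1)
    refine ⟨L, fun n => ?_⟩
    have h1 := hf (show n ≤ M * n from Nat.le_mul_of_pos_left n hM)
    have h2 := hL n
    rw [SModEq.sub_mem, smul_eq_mul, Ideal.mul_top] at h1 h2 ⊢
    have h3 := (J ^ n).add_mem h1 (Ideal.pow_right_mono hIJ n h2)
    rwa [sub_add_sub_cancel] at h3

section Ev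

variable {σ : Type*} [Finite σ] {W : Type*} [CommRing W] {N : Type*} [CommRing N]
  [IsNoetherianRing N] (I : Ideal N) [IsAdicComplete I N]

theorem isAdicComplete_radical : IsAdicComplete I.radical N := by
  obtain ⟨M, hM⟩ := Ideal.exists_pow_le_of_le_radical_of_fg (I := I.radical) (J := I) le_rfl
    (IsNoetherian.noetherian _)
  exact isAdicComplete_of_pow_le' Ideal.le_radical (M := M + 1) (Nat.succ_pos M)
    ((Ideal.pow_le_pow_right (Nat.le_succ M)).trans hM)

/-- evaluation of power series at elements of the radical -/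
theorem exists_ev (φ : W →+* N) (t : σ → N) (ht : ∀ i, t i ∈ I.radical) :
    ∃ f : MvPowerSeries σ W →+* N, (∀ w, f (MvPowerSeries.C w) = φ w) ∧
      ∀ i, f (MvPowerSeries.X i) = t i := by
  haveI := isAdicComplete_radical I
  exact ⟨psEval I.radical φ t ht, fun w => psEval_C _ _ _ _ w, fun i => psEval_X _ _ _ _ i⟩

theorem ev_unique (f g : MvPowerSeries σ W →+* N)
    (hC : ∀ w, f (MvPowerSeries.C w) = g (MvPowerSeries.C w))
    (hX : ∀ i, f (MvPowerSeries.X i) = g (MvPowerSeries.X i))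
    (ht : ∀ i, g (MvPowerSeries.X i) ∈ I.radical) : f = g := by
  haveI := isAdicComplete_radical I
  rw [eq_psEval I.radical (g.comp MvPowerSeries.C) (fun i => g (MvPowerSeries.X i)) ht f
    (fun a => hC a) hX, ← eq_psEval I.radical (g.comp MvPowerSeries.C)
      (fun i => g (MvPowerSeries.X i)) ht g (fun a => rfl) (fun i => rfl)]

end Ev

section Frob

variable {p : ℕ} [hp : Fact p.Prime] (k : Type u) [Field k] [CharP k p] [PerfectRing k p]
variable (σ : Type) [Finite σ]

lemma X_pow_mem_IX (W : Type*) [CommRing W] (i : σ) {n : ℕ} (hn : 0 < n) :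
    (MvPowerSeries.X i : MvPowerSeries σ W) ^ n ∈ IX σ W :=
  Ideal.pow_mem_of_mem _ (Ideal.subset_span (Set.mem_range_self i)) n hn

/-- the lift of Frobenius on `W(k)[[x]]` with `x_i ↦ x_i ^ p`. -/
noncomputable def frobS (p : ℕ) [hp : Fact p.Prime] (k : Type u) [Field k] [CharP k p]
    (σ : Type) [Finite σ] :
    MvPowerSeries σ (WittVector p k) →+* MvPowerSeries σ (WittVector p k) :=
  psEval (IX σ (WittVector p k)) (MvPowerSeries.C.comp WittVector.frobenius)
    (fun i => MvPowerSeries.X i ^ p) (fun i => X_pow_mem_IX σ _ i hp.out.pos)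

@[simp] lemma frobS_C (w : WittVector p k) :
    frobS p k σ (MvPowerSeries.C w) = MvPowerSeries.C (WittVector.frobenius w) :=
  psEval_C _ _ _ _ w

@[simp] lemma frobS_X (i : σ) : frobS p k σ (MvPowerSeries.X i) = MvPowerSeries.X i ^ p :=
  psEval_X _ _ _ _ i

/-- `W(k)[[x]]` is `p`-torsion free -/
theorem pTf_S : PTf p (MvPowerSeries σ (WittVector p k)) := by
  intro s hs
  ext n
  have h1 := congrArg (MvPowerSeries.coeff n) hs
  rw [map_zero, ← nsmul_eq_mul, map_nsmul, nsmul_eq_mul] at h1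
  rw [map_zero, Wit.p_regular (IsPerf.of_perfectRing (p := p) (R := k)) h1]

theorem isFrobLift_S : IsFrobLift p (frobS p k σ) := by
  haveI : IsNoetherianRing (WittVector p k) := (isCohen_witt p k).isNoetherianRing
  haveI : IsNoetherianRing (MvPowerSeries σ (WittVector p k)) := inferInstance
  let S := MvPowerSeries σ (WittVector p k)
  let Q := S ⧸ Ideal.span {(p : S)}
  intro s
  rw [← Ideal.mem_span_singleton, ← Ideal.Quotient.mk_eq_mk_iff_sub_mem]
  rcases subsingleton_or_nontrivial Q with hs | hn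
  · exact Subsingleton.elim _ _
  have hpQ : (p : Q) = 0 := by
    have : (p : Q) = Ideal.Quotient.mk (Ideal.span {(p : S)}) (p : S) := (map_natCast _ p).symm
    rw [this, Ideal.Quotient.eq_zero_iff_mem]
    exact Ideal.mem_span_singleton_self _
  haveI : CharP Q p := charP_of hpQ
  haveI : IsAdicComplete ((IX σ (WittVector p k)).map (algebraMap S Q)) Q :=
    isAdicComplete_map (IX σ (WittVector p k)) Q
  have h := ev_unique (N := Q) ((IX σ (WittVector p k)).map (algebraMap S Q))
    ((Ideal.Quotient.mk (Ideal.span {(p : S)})).comp (frobS p k σ))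
    ((_root_.frobenius Q p).comp (Ideal.Quotient.mk (Ideal.span {(p : S)}))) ?_ ?_ ?_
  · exact RingHom.congr_fun h s
  · intro w
    rw [RingHom.comp_apply, RingHom.comp_apply, frobS_C, frobenius_def, ← map_pow,
      Ideal.Quotient.mk_eq_mk_iff_sub_mem, Ideal.mem_span_singleton, ← map_pow, ← map_sub]
    have h1 : (p : WittVector p k) ∣ WittVector.frobenius w - w ^ p := by
      rw [Wit.p_dvd_iff (IsPerf.of_perfectRing (p := p) (R := k))]
      have h2 := (constantCoeff : WittVector p k →+* k).map_sub (WittVector.frobenius w) (w ^ p)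
      have h3 : ∀ z : WittVector p k, (constantCoeff : WittVector p k →+* k) z = z.coeff 0 :=
        fun z => rfl
      rw [map_pow, h3, h3, h3, coeff_frobenius_charP, sub_self] at h2
      exact h2
    have h4 := map_dvd (MvPowerSeries.C (σ := σ) (R := WittVector p k)) h1
    rwa [map_natCast] at h4
  · intro i
    rw [RingHom.comp_apply, RingHom.comp_apply, frobS_X, frobenius_def, map_pow]
  · intro i
    apply Ideal.le_radical
    rw [RingHom.comp_apply, frobenius_def, ← map_pow]
    exact Ideal.mem_map_of_mem _ (X_pow_mem_IX σ _ i hp.out.pos)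

end Frob

section Family

variable {p : ℕ} [hp : Fact p.Prime] {k : Type u} [Field k] [CharP k p] [PerfectRing k p]
variable {σ : Type} [Finite σ]
variable {B : Type v} [CommRing B] [IsNoetherianRing B] (m : Ideal B) [IsAdicComplete m B]
  (j : WittVector p k →+* B)
variable {A : Type v} [CommRing A] [Algebra B A] [Module.Finite B A]
variable {T : Type w} [CommRing T] [Algebra B T] (γ : A →ₐ[B] T)
variable (g : MvPowerSeries σ (WittVector p k) →+* A)

/-- the finite subalgebra of `T` in which the `n`-th member of the family takes its values -/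
def NN (s : Finset A) (r : σ → ℕ → T) (n : ℕ) : Subalgebra B T :=
  Algebra.adjoin B ((γ '' (s : Set A)) ∪ Set.range fun i => r i n)

variable {m j γ g}

lemma finite_NN (s : Finset A) (r : σ → ℕ → T) (n : ℕ) (hr : ∀ i, IsIntegral B (r i n)) :
    Module.Finite B (NN γ s r n) := by
  have h1 : ((γ '' (s : Set A)) ∪ Set.range fun i => r i n).Finite :=
    (s.finite_toSet.image _).union (Set.finite_range _)
  have h2 := fg_adjoin_of_finite (R := B) h1 (by
    rintro x (⟨a, _, rfl⟩ | ⟨i, rfl⟩)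
    · exact (Algebra.IsIntegral.isIntegral (R := B) a).map γ
    · exact hr i)
  exact Module.Finite.iff_fg.2 h2

lemma range_le_NN (s : Finset A) (hs : Submodule.span B (s : Set A) = ⊤) (r : σ → ℕ → T) (n : ℕ)
    (a : A) : γ a ∈ NN γ s r n := by
  have h1 : a ∈ Submodule.span B (s : Set A) := by rw [hs]; trivial
  induction h1 using Submodule.span_induction with
  | mem x hx => exact Algebra.subset_adjoin (Or.inl ⟨x, hx, rfl⟩)
  | zero => rw [map_zero]; exact zero_mem _
  | add x y _ _ hx hy => rw [map_add]; exact add_mem hx hy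
  | smul b x _ hx => rw [map_smul]; exact Subalgebra.smul_mem _ hx b

/-- **The Frobenius-compatible family.** -/
theorem exists_family (hg : ∀ w, g (MvPowerSeries.C w) = algebraMap B A (j w))
    (hX : ∀ i, g (MvPowerSeries.X i) ∈ (m.map (algebraMap B A)).radical)
    (r : σ → ℕ → T) (h0 : ∀ i, r i 0 = γ (g (MvPowerSeries.X i)))
    (hr : ∀ i n, r i (n + 1) ^ p = r i n) :
    ∃ b : ℕ → (MvPowerSeries σ (WittVector p k) →+* T), (∀ s, b 0 s = γ (g s)) ∧
      (∀ n s, b (n + 1) (frobS p k σ s) = b n s) ∧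
      (∀ n i, b n (MvPowerSeries.X i) = r i n) := by
  obtain ⟨s, hs⟩ := (Module.Finite.fg_top : (⊤ : Submodule B A).FG)
  have hr' : ∀ i n, r i n ^ p ^ n = r i 0 := by
    intro i n
    induction n with
    | zero => simp
    | succ n ih => rw [pow_succ', pow_mul, hr, ih]
  have hint : ∀ i n, IsIntegral B (r i n) := by
    intro i n
    apply IsIntegral.of_pow (pow_pos hp.out.pos n)
    rw [hr', h0]
    exact (Algebra.IsIntegral.isIntegral (R := B) _).map γ
  haveI : ∀ n, Module.Finite B (NN γ s r n) := fun n => finite_NN s r n fun i => hint i n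
  haveI : ∀ n, IsNoetherianRing (NN γ s r n) := fun n => IsNoetherianRing.of_finite B _
  haveI : ∀ n, IsAdicComplete (m.map (algebraMap B (NN γ s r n))) (NN γ s r n) := fun n =>
    isAdicComplete_map m _
  have hmem : ∀ n i, r i n ∈ NN γ s r n := fun n i =>
    Algebra.subset_adjoin (Or.inr ⟨i, rfl⟩)
  have hrad : ∀ n i, (⟨r i n, hmem n i⟩ : NN γ s r n) ∈
      (m.map (algebraMap B (NN γ s r n))).radical := by
    intro n i
    obtain ⟨K, hK⟩ := hX i
    refine ⟨p ^ n * K, ?_⟩
    let γ' : A →ₐ[B] NN γ s r n := γ.codRestrict _ (range_le_NN s hs r n)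
    have h1 := Ideal.mem_map_of_mem (γ' : A →+* NN γ s r n) hK
    rw [Ideal.map_map] at h1
    have h2 : (γ' : A →+* NN γ s r n).comp (algebraMap B A) = algebraMap B _ :=
      RingHom.ext fun x => γ'.commutes x
    have h3 : (⟨r i n, hmem n i⟩ : NN γ s r n) ^ (p ^ n * K) =
        γ' (g (MvPowerSeries.X i) ^ K) := by
      apply Subtype.ext
      show r i n ^ (p ^ n * K) = γ (g (MvPowerSeries.X i) ^ K)
      rw [pow_mul, hr', h0, map_pow]
    rw [h3, ← h2]
    exact h1
  have hex : ∀ n, ∃ f : MvPowerSeries σ (WittVector p k) →+* NN γ s r n,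
      (∀ w, f (MvPowerSeries.C w) =
        algebraMap B _ (j (((WittVector.frobeniusEquiv p k).symm ^ n) w))) ∧
      ∀ i, f (MvPowerSeries.X i) = ⟨r i n, hmem n i⟩ := by
    intro n
    exact exists_ev (m.map (algebraMap B (NN γ s r n)))
      (((algebraMap B (NN γ s r n)).comp j).comp
        (((WittVector.frobeniusEquiv p k).symm ^ n : WittVector p k ≃+* WittVector p k) :
          WittVector p k →+* WittVector p k)) (fun i => ⟨r i n, hmem n i⟩) (hrad n)
  choose f hfC hfX using hex
  refine ⟨fun n => (NN γ s r n).val.toRingHom.comp (f n), ?_, ?_, ?_⟩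
  · intro x
    let γ' : A →ₐ[B] NN γ s r 0 := γ.codRestrict _ (range_le_NN s hs r 0)
    have h := ev_unique (m.map (algebraMap B (NN γ s r 0))) ((γ' : A →+* NN γ s r 0).comp g) (f 0)
      ?_ ?_ ?_
    · have h1 := congrArg Subtype.val (RingHom.congr_fun h x)
      exact h1.symm
    · intro w
      rw [hfC, pow_zero, RingHom.comp_apply, hg]
      exact γ'.commutes _
    · intro i
      rw [hfX]
      apply Subtype.ext
      exact (h0 i).symm
    · intro i
      rw [hfX]
      exact hrad 0 i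
  · intro n x
    have hle : NN γ s r n ≤ NN γ s r (n + 1) := by
      refine Algebra.adjoin_le ?_
      rintro y (⟨a, ha, rfl⟩ | ⟨i, rfl⟩)
      · exact Algebra.subset_adjoin (Or.inl ⟨a, ha, rfl⟩)
      · show r i n ∈ _
        rw [← hr i n]
        exact pow_mem (hmem (n + 1) i) p
    have h := ev_unique (m.map (algebraMap B (NN γ s r (n + 1)))) ((f (n + 1)).comp (frobS p k σ))
      ((Subalgebra.inclusion hle : NN γ s r n →+* NN γ s r (n + 1)).comp (f n)) ?_ ?_ ?_
    · exact congrArg Subtype.val (RingHom.congr_fun h x)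
    · intro w
      rw [RingHom.comp_apply, RingHom.comp_apply, frobS_C, hfC, hfC]
      apply Subtype.ext
      show algebraMap B T _ = algebraMap B T _
      rw [pow_succ, RingAut.mul_apply]
      congr 3
      exact (WittVector.frobeniusEquiv p k).symm_apply_apply w
    · intro i
      rw [RingHom.comp_apply, RingHom.comp_apply, frobS_X, map_pow, hfX, hfX]
      apply Subtype.ext
      exact hr i n
    · intro i
      rw [RingHom.comp_apply, hfX]
      have h1 : (Subalgebra.inclusion hle : NN γ s r n →+* NN γ s r (n + 1))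
          ⟨r i n, hmem n i⟩ = (⟨r i (n + 1), hmem (n + 1) i⟩ : NN γ s r (n + 1)) ^ p :=
        Subtype.ext (hr i n).symm
      rw [h1]
      exact Ideal.pow_mem_of_mem _ (hrad (n + 1) i) p hp.out.pos
  · intro n i
    show ((f n (MvPowerSeries.X i) : NN γ s r n) : T) = r i n
    rw [hfX]

end Family

end Crest.Agent.R188.Lft
end

-- ▼ part R188/LftE
section

/-!
# R188 (helper645): `φ(E) = unit · ξ` without assuming `P` local
-/

set_option autoImplicit false

namespace Crest.Agent.R188.Lft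

open WittVector Crest.Agent.R188.Prf Crest.Agent.R188.Wit

universe u v

variable {p : ℕ} [hp : Fact p.Prime] {P : Type u} [CommRing P]

local notation "𝕎" => WittVector p
local notation "τ" => WittVector.teichmuller p

/-- units of `W(P)`, `P` perfect, are detected by the zeroth coefficient -/
theorem isUnit_of_coeff_zero (h : IsPerf p P) {z : 𝕎 P} (hz : IsUnit (z.coeff 0)) : IsUnit z := by
  obtain ⟨v, hv⟩ := hz.exists_right_inv
  have h1 : (z * τ v - 1).coeff 0 = 0 := by
    have e : constantCoeff (z * τ v - 1) = z.coeff 0 * v - 1 := by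
      rw [map_sub, map_mul, map_one]
      congr 2
    exact e.trans (by rw [hv, sub_self])
  have h2 : (z * τ v - 1) ∈ Ideal.span {(p : 𝕎 P)} :=
    Ideal.mem_span_singleton.2 ((p_dvd_iff h).2 h1)
  have := Wit.isAdicComplete h
  have h3 : (z * τ v - 1) ∈ Ideal.jacobson (⊥ : Ideal (𝕎 P)) :=
    IsAdicComplete.le_jacobson_bot (Ideal.span {(p : 𝕎 P)}) h2
  have h4 := (Ideal.mem_jacobson_bot.1 h3) 1
  rw [mul_one, sub_add_cancel] at h4
  exact isUnit_of_mul_isUnit_left h4

/-- If `p`-adic first digit of `ξ z` is a unit modulo every maximal ideal containing `π`, then `z`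
is a unit: main lemma. -/
theorem isUnit_of_forall_maximal (h : IsPerf p P) {ξ : 𝕎 P} {π : P} (hξ : IsDist ξ π)
    (hπ : π ∈ Ideal.jacobson (⊥ : Ideal P)) {e z : 𝕎 P} (he : e = ξ * z)
    (hE : ∀ 𝔪 : Ideal P, 𝔪.IsMaximal →
      WittVector.map (Ideal.Quotient.mk 𝔪) e = (p : WittVector p (P ⧸ 𝔪))) : IsUnit z := by
  apply isUnit_of_coeff_zero h
  by_contra hz
  obtain ⟨𝔪, h𝔪, hz𝔪⟩ := exists_max_ideal_of_mem_nonunits hz
  have h1 := hE 𝔪 h𝔪
  have hπ𝔪 : π ∈ 𝔪 := by
    rw [Ideal.mem_jacobson_bot] at hπ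
    by_contra hcon
    have h2 : 𝔪 ⊔ Ideal.span {π} = ⊤ := by
      apply h𝔪.1.2
      rw [lt_iff_le_and_ne]
      refine ⟨le_sup_left, fun heq => hcon ?_⟩
      rw [heq]
      exact Ideal.mem_sup_right (Ideal.mem_span_singleton_self _)
    obtain ⟨x, hx, y, hy, hxy⟩ := Submodule.mem_sup.1 ((Ideal.eq_top_iff_one _).1 h2)
    obtain ⟨c, rfl⟩ := Ideal.mem_span_singleton'.1 hy
    have h3 := hπ (-c)
    have h4 : π * -c + 1 = x := by rw [← hxy]; ring
    rw [h4] at h3
    exact h𝔪.ne_top (Ideal.eq_top_of_isUnit_mem _ hx h3)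
  have hnt : Nontrivial (P ⧸ 𝔪) := Ideal.Quotient.nontrivial_iff.2 h𝔪.ne_top
  have hp0 : (p : P ⧸ 𝔪) = 0 := by
    have := congrArg (Ideal.Quotient.mk 𝔪) h.p_zero
    rwa [map_natCast, map_zero] at this
  obtain ⟨u, hu, rfl⟩ := hξ.ex
  rw [he, map_mul, map_add, map_mul, map_natCast, map_teichmuller,
    Ideal.Quotient.eq_zero_iff_mem.2 hπ𝔪, WittVector.teichmuller_zero, zero_add] at h1
  have h5 : ((p : WittVector p (P ⧸ 𝔪)) * WittVector.map (Ideal.Quotient.mk 𝔪) u *
      WittVector.map (Ideal.Quotient.mk 𝔪) z).coeff 1 =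
      (p : WittVector p (P ⧸ 𝔪)).coeff 1 :=
    congrArg (fun t : WittVector p (P ⧸ 𝔪) => t.coeff 1) h1
  have h6 : ((p : WittVector p (P ⧸ 𝔪)) * WittVector.map (Ideal.Quotient.mk 𝔪) u *
      WittVector.map (Ideal.Quotient.mk 𝔪) z).coeff 1 = 0 := by
    rw [mul_assoc, mul_comm (p : WittVector p (P ⧸ 𝔪))]
    rw [show (1 : ℕ) = 0 + 1 from rfl, mul_p_coeff_succ hp0]
    have e : (WittVector.map (Ideal.Quotient.mk 𝔪) u *
        WittVector.map (Ideal.Quotient.mk 𝔪) z).coeff 0 = 0 := by
      rw [WittVector.mul_coeff_zero, WittVector.map_coeff, WittVector.map_coeff,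
        Ideal.Quotient.eq_zero_iff_mem.2 hz𝔪, mul_zero]
    rw [e, zero_pow hp.out.ne_zero]
  rw [h6] at h5
  have h7 : ((p : WittVector p (P ⧸ 𝔪))).coeff 1 = 1 := by
    have e : (p : WittVector p (P ⧸ 𝔪)) = 1 * (p : WittVector p (P ⧸ 𝔪)) := (one_mul _).symm
    rw [e, show (1 : ℕ) = 0 + 1 from rfl, mul_p_coeff_succ hp0, WittVector.one_coeff_zero, one_pow]
  rw [h7] at h5
  exact zero_ne_one h5

/-- **`φ(E) = unit · ξ`**: `E = p - f`, `f ∈ (x)`, `φ(x_i) = [a_i]`, `a_i` and `π` in the Jacobson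
radical, `φ(E) ∈ (ξ)`. -/
theorem associated_of_dvd (h : IsPerf p P) {ξ : 𝕎 P} {π : P} (hξ : IsDist ξ π)
    (hπ : π ∈ Ideal.jacobson (⊥ : Ideal P)) {σ : Type*} {W₀ : Type v} [CommRing W₀]
    (φ : MvPowerSeries σ W₀ →+* 𝕎 P) (a : σ → P)
    (ha : ∀ i, a i ∈ Ideal.jacobson (⊥ : Ideal P)) (hφ : ∀ i, φ (MvPowerSeries.X i) = τ (a i))
    (f : MvPowerSeries σ W₀)
    (hf : f ∈ Ideal.span (Set.range (MvPowerSeries.X : σ → MvPowerSeries σ W₀)))
    (hE : ξ ∣ φ (MvPowerSeries.C (p : W₀) - f)) :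
    Associated ξ (φ (MvPowerSeries.C (p : W₀) - f)) := by
  obtain ⟨z, hz⟩ := hE
  have hu : IsUnit z := by
    refine isUnit_of_forall_maximal h hξ hπ hz fun 𝔪 h𝔪 => ?_
    have hjac : ∀ x ∈ Ideal.jacobson (⊥ : Ideal P), x ∈ 𝔪 := by
      intro x hx
      have h1 : Ideal.jacobson (⊥ : Ideal P) ≤ 𝔪 := sInf_le ⟨bot_le, h𝔪⟩
      exact h1 hx
    let ψ : MvPowerSeries σ W₀ →+* WittVector p (P ⧸ 𝔪) :=
      (WittVector.map (Ideal.Quotient.mk 𝔪)).comp φ
    have hψX : ∀ i, ψ (MvPowerSeries.X i) = 0 := by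
      intro i
      change WittVector.map (Ideal.Quotient.mk 𝔪) (φ (MvPowerSeries.X i)) = 0
      rw [hφ, map_teichmuller, Ideal.Quotient.eq_zero_iff_mem.2 (hjac _ (ha i)),
        WittVector.teichmuller_zero]
    have hψf : ψ f = 0 := by
      have h1 : Ideal.span (Set.range (MvPowerSeries.X : σ → MvPowerSeries σ W₀)) ≤
          RingHom.ker ψ := by
        rw [Ideal.span_le]
        rintro _ ⟨i, rfl⟩
        exact hψX i
      exact h1 hf
    change ψ (MvPowerSeries.C (p : W₀) - f) = _
    rw [map_sub, hψf, sub_zero, map_natCast, map_natCast]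
  exact ⟨hu.unit, hz.symm⟩

end Crest.Agent.R188.Lft
end

-- ▼ part R188/Lft5

/-!
# R188 / Lft5 (helper46) : the lift of a character `S → A → B^+ → Ω` to `S → W(P)`
-/

set_option autoImplicit false
set_option linter.style.haveILetI false
set_option linter.unusedSectionVars false

namespace Crest.Agent.R188.Lft

open WittVector Crest.Agent.R188.Prf Crest.Agent.R188.Wit Crest.Agent.R188.Asm
open IsLocalRing

section roots

/-- `p`-power root systems in `B^+` -/
theorem exists_root_system {B : Type} [CommRing B] [IsDomain B] {p : ℕ} (hp : 0 < p)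
    (x : Tri.BPlus B) : ∃ r : ℕ → Tri.BPlus B, r 0 = x ∧ ∀ n, r (n + 1) ^ p = r n := by
  have h : ∀ y : Tri.BPlus B, ∃ z : Tri.BPlus B, z ^ p = y := by
    intro y
    obtain ⟨z, hz⟩ := IsAlgClosed.exists_pow_nat_eq (y : Tri.FB B) hp
    have hint : IsIntegral B z := by
      apply IsIntegral.of_pow hp
      rw [hz]
      exact y.2
    exact ⟨⟨z, hint⟩, Subtype.ext hz⟩
  choose g hg using h
  refine ⟨fun n => g^[n] x, rfl, fun n => ?_⟩
  show (g^[n + 1] x) ^ p = g^[n] x
  rw [Function.iterate_succ_apply', hg]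

end roots

section radical

/-- `A` local, integral over the local ring `B`: `m_A ⊆ rad (m_B A)` -/
theorem maximalIdeal_le_radical (B A : Type*) [CommRing B] [IsLocalRing B] [CommRing A]
    [IsLocalRing A] [Algebra B A] [Algebra.IsIntegral B A] :
    maximalIdeal A ≤ ((maximalIdeal B).map (algebraMap B A)).radical := by
  intro x hx
  rw [Ideal.radical_eq_sInf, Ideal.mem_sInf]
  rintro q ⟨hq, hqp⟩
  have h1 : maximalIdeal B ≤ q.comap (algebraMap B A) := Ideal.map_le_iff_le_comap.1 hq
  have h2 : q.comap (algebraMap B A) = maximalIdeal B :=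
    ((maximalIdeal.isMaximal B).eq_of_le (Ideal.comap_isPrime _ q).ne_top h1).symm
  have h3 : (q.comap (algebraMap B A)).IsMaximal := h2 ▸ maximalIdeal.isMaximal B
  have h4 : q.IsMaximal := Ideal.isMaximal_of_isIntegral_of_isMaximal_comap q h3
  rwa [IsLocalRing.eq_maximalIdeal h4]

end radical

variable {p : ℕ} [hp : Fact p.Prime] {k : Type} [Field k] [CharP k p] {b : ℕ}

attribute [instance] World.ringP

/-- the lift of `g : S → B^+` to `W(P)`, `S = W(k)[[x_1..x_d]]`, `g (E) = 0`. -/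
structure Lift (W : World p k b) {d : ℕ} (g : MvPowerSeries (Fin d) (WittVector p k) →+* BPlus p k b)
    (E : MvPowerSeries (Fin d) (WittVector p k)) where
  φ : MvPowerSeries (Fin d) (WittVector p k) →+* WittVector p W.P
  θ_φ : ∀ s, θ W.ξ (φ s) = W.ι (g s)
  a : Fin d → W.P
  φ_X : ∀ i, φ (MvPowerSeries.X i) = teichmuller p (a i)
  r : Fin d → ℕ → BPlus p k b
  r_zero : ∀ i, r i 0 = g (MvPowerSeries.X i)
  a_sharp : ∀ i, SharpPair W.perf W.ι (a i) (r i)
  a_rad : ∀ i, a i ∈ (Ideal.span (Set.range W.t)).radical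
  a_jac : ∀ i, a i ∈ Ideal.jacobson (⊥ : Ideal W.P)
  assoc : Associated W.ξ (φ E)

section max

/-- the maximal ideal of `B` is generated by `(p, X_1, …, X_b)` -/
theorem maximalIdeal_BB_le [PerfectRing k p] :
    maximalIdeal (BB p k b) ≤ Ideal.span (Set.range (tB p k b)) := by
  rw [Crest.Agent.R227.maximalIdeal_mv, Crest.Agent.R183.Cohen.maximalIdeal_witt,
    Crest.Agent.R227.idIX, Ideal.map_span, Set.image_singleton, sup_le_iff]
  constructor
  · rw [Ideal.span_le, Set.singleton_subset_iff, map_natCast]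
    exact Ideal.subset_span ⟨0, rfl⟩
  · rw [Crest.Agent.R227.idX, Ideal.span_le]
    rintro _ ⟨i, rfl⟩
    exact Ideal.subset_span ⟨i.succ, rfl⟩

end max

section W

variable (W : World p k b)

lemma W_pi_mem : W.π ∈ Ideal.span (Set.range W.t) := by
  obtain ⟨u, hu⟩ := W.t_zero
  rw [← hu]
  exact Ideal.mul_mem_right _ _ (Ideal.subset_span ⟨0, rfl⟩)

lemma W_xi_coeff_zero : W.ξ.coeff 0 = W.π := by
  obtain ⟨u, _, he⟩ := W.dist.ex
  have h1 := (constantCoeff : WittVector p W.P →+* W.P).map_add (teichmuller p W.π)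
    ((p : WittVector p W.P) * u)
  have h3 : ∀ z : WittVector p W.P, (constantCoeff : WittVector p W.P →+* W.P) z = z.coeff 0 :=
    fun z => rfl
  have h4 : ((p : WittVector p W.P) * u).coeff 0 = 0 := by
    rw [mul_comm, mul_p_coeff_zero W.perf.p_zero]
  rw [h3, h3, h3, teichmuller_coeff_zero, h4, add_zero] at h1
  rw [he, h1]

/-- from `Ω` down to `P` -/
lemma coeff_zero_mem {w : WittVector p W.P}
    (h : θ W.ξ w ∈ Ideal.span (Set.range fun i => sh W.ξ (W.t i))) :
    w.coeff 0 ∈ Ideal.span (Set.range W.t) := by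
  have h1 : Ideal.span (Set.range fun i => sh W.ξ (W.t i)) =
      (Ideal.span (Set.range fun i => teichmuller p (W.t i))).map (θ W.ξ) := by
    rw [Ideal.map_span, ← Set.range_comp]
    rfl
  rw [h1, Ideal.mem_map_iff_of_surjective _ (θ_surjective W.ξ)] at h
  obtain ⟨v, hv, hvw⟩ := h
  have h2 : θ W.ξ (w - v) = 0 := by rw [map_sub, hvw, sub_self]
  obtain ⟨y, hy⟩ := θ_eq_zero_iff.1 h2
  have h3 : ∀ z : WittVector p W.P, (constantCoeff : WittVector p W.P →+* W.P) z = z.coeff 0 :=
    fun z => rfl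
  have h4 : w = v + W.ξ * y := by rw [← hy]; ring
  have h5 : w.coeff 0 = v.coeff 0 + W.π * y.coeff 0 := by
    rw [← h3 w, h4, map_add, map_mul, h3, h3, h3, W_xi_coeff_zero]
  rw [h5]
  refine add_mem ?_ (Ideal.mul_mem_right _ _ (W_pi_mem W))
  have h6 := Ideal.mem_map_of_mem (constantCoeff : WittVector p W.P →+* W.P) hv
  rw [Ideal.map_span, ← Set.range_comp] at h6
  have h7 : (⇑(constantCoeff : WittVector p W.P →+* W.P) ∘ fun i => teichmuller p (W.t i)) =
      W.t := by
    funext i
    exact teichmuller_coeff_zero p _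
  rwa [h7] at h6

lemma t_span_le_jac : Ideal.span (Set.range W.t) ≤ Ideal.jacobson (⊥ : Ideal W.P) := by
  rw [Ideal.span_le]
  rintro _ ⟨i, rfl⟩
  exact W.t_jac i

lemma t_radical_le_jac :
    (Ideal.span (Set.range W.t)).radical ≤ Ideal.jacobson (⊥ : Ideal W.P) := by
  rw [← (Ideal.isRadical_jacobson (⊥ : Ideal W.P)).radical]
  exact Ideal.radical_mono (t_span_le_jac W)

/-- `(m_B Ω) = ((t_i)^♯)` -/
lemma map_maximalIdeal_le [PerfectRing k p] :
    ((maximalIdeal (BB p k b)).map (algebraMap (BB p k b) (BPlus p k b))).map W.ι ≤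
      Ideal.span (Set.range fun i => sh W.ξ (W.t i)) := by
  refine (Ideal.map_mono (Ideal.map_mono maximalIdeal_BB_le)).trans ?_
  rw [Ideal.map_span, Ideal.map_span, Ideal.span_le]
  rintro _ ⟨_, ⟨_, ⟨i, rfl⟩, rfl⟩, rfl⟩
  refine Ideal.subset_span ⟨i, ?_⟩
  have := (W.t_sharp i).2 0
  rw [W.tr_zero] at this
  exact this

/-- **sharp pairs over `rad (m_B B^+)` are in `rad (t)`** -/
theorem sharp_mem_radical [PerfectRing k p] {a : W.P} {r : ℕ → BPlus p k b}
    (h : SharpPair W.perf W.ι a r)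
    (hr : r 0 ∈ ((maximalIdeal (BB p k b)).map (algebraMap (BB p k b) (BPlus p k b))).radical) :
    a ∈ (Ideal.span (Set.range W.t)).radical := by
  obtain ⟨K, hK⟩ := hr
  refine ⟨K, ?_⟩
  have h1 := map_maximalIdeal_le W (Ideal.mem_map_of_mem W.ι hK)
  have h2 : W.ι (r 0 ^ K) = θ W.ξ (teichmuller p (a ^ K)) := by
    have := h.2 0
    rw [map_pow, ← this]
    show sh W.ξ a ^ K = sh W.ξ (a ^ K)
    rw [sh_pow]
  rw [h2] at h1
  have h3 := coeff_zero_mem W h1
  rwa [teichmuller_coeff_zero] at h3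

end W

section main

variable [PerfectRing k p] (W : World p k b) {A : Type} [CommRing A] [Nontrivial A]
  [Algebra (BB p k b) A] [Module.Finite (BB p k b) A] {d : ℕ}
  (σ : MvPowerSeries (Fin d) (WittVector p k) →+* A) (γ : A →ₐ[BB p k b] BPlus p k b)

/-- **LIFT**: every character `γ ∘ σ : S → A → B^+` lifts to `φ : S → W(P)`. -/
theorem nonempty_lift (hσ : Function.Surjective σ)
    (hC : ∀ w : WittVector p k,
      algebraMap (BB p k b) A (MvPowerSeries.C w) = σ (MvPowerSeries.C w))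
    (f : MvPowerSeries (Fin d) (WittVector p k))
    (hf : f ∈ Ideal.span (Set.range
      (MvPowerSeries.X : Fin d → MvPowerSeries (Fin d) (WittVector p k))))
    (hE : σ (MvPowerSeries.C (p : WittVector p k) - f) = 0) :
    Nonempty (Lift W ((γ : A →+* BPlus p k b).comp σ)
      (MvPowerSeries.C (p : WittVector p k) - f)) := by
  haveI := W.complete
  haveI : IsLocalRing A := IsLocalRing.of_surjective' σ hσ
  haveI hloc : IsLocalHom σ := IsLocalHom.of_surjective σ hσ
  haveI : IsNoetherianRing (WittVector p k) := (Crest.Agent.R183.Cohen.isCohen_witt p k).isNoetherianRing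
  haveI : IsAdicComplete (maximalIdeal (WittVector p k)) (WittVector p k) :=
    (Crest.Agent.R183.Cohen.isCohen_witt p k).complete
  haveI : IsNoetherianRing (BB p k b) := inferInstance
  haveI : IsAdicComplete (maximalIdeal (BB p k b)) (BB p k b) :=
    Crest.Agent.R227.isAdicComplete_maximalIdeal_mv
  have hXm : ∀ i : Fin d, (MvPowerSeries.X i : MvPowerSeries (Fin d) (WittVector p k)) ∈
      maximalIdeal (MvPowerSeries (Fin d) (WittVector p k)) := by
    intro i
    rw [Crest.Agent.R227.maximalIdeal_mv]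
    exact Ideal.mem_sup_right (Ideal.subset_span ⟨i, rfl⟩)
  have hX : ∀ i, σ (MvPowerSeries.X i) ∈
      ((maximalIdeal (BB p k b)).map (algebraMap (BB p k b) A)).radical := by
    intro i
    apply maximalIdeal_le_radical (BB p k b) A
    exact (IsLocalRing.mem_maximalIdeal _).2 fun h => (IsLocalRing.mem_maximalIdeal _).1 (hXm i)
      (isUnit_of_map_unit σ _ h)
  choose r h0 hr using fun i => exists_root_system hp.out.pos (γ (σ (MvPowerSeries.X i)))
  obtain ⟨c, hc0, hcF, hcX⟩ := exists_family (m := maximalIdeal (BB p k b))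
    (j := (MvPowerSeries.C : WittVector p k →+* BB p k b)) (γ := γ) (g := σ)
    (fun w => (hC w).symm) hX r h0 hr
  let β : ℕ → (MvPowerSeries (Fin d) (WittVector p k) →+* Om W.ξ) := fun n => W.ι.comp (c n)
  have hβ : ∀ n s, β (n + 1) (frobS p k (Fin d) s) = β n s := fun n s => by
    show W.ι (c (n + 1) _) = W.ι (c n s)
    rw [hcF]
  let φ := liftW W.perf W.dist (isFrobLift_S k (Fin d)) (pTf_S k (Fin d)) β hβ
  let a : Fin d → W.P := fun i => toP W.perf W.dist (isFrobLift_S k (Fin d)) β hβ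
    (MvPowerSeries.X i)
  have hθ : ∀ s, θ W.ξ (φ s) = W.ι (γ (σ s)) := by
    intro s
    rw [θ_liftW]
    show W.ι (c 0 s) = _
    rw [hc0]
  have hsharp : ∀ i, SharpPair W.perf W.ι (a i) (r i) := by
    intro i
    refine ⟨hr i, ?_⟩
    refine sh_rtn_eq W.perf W.dist (β := fun n => W.ι (r i n)) (fun n => ?_) fun n => ?_
    · rw [← map_pow, hr]
    · have h1 := toP_spec W.perf W.dist (isFrobLift_S k (Fin d)) β hβ (MvPowerSeries.X i) n
      have h2 : β n (MvPowerSeries.X i) = W.ι (r i n) := by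
        show W.ι (c n _) = _
        rw [hcX]
      rwa [h2] at h1
  have hφX : ∀ i, φ (MvPowerSeries.X i) = teichmuller p (a i) := fun i =>
    liftW_of_pow W.perf W.dist (isFrobLift_S k (Fin d)) (pTf_S k (Fin d)) β hβ
      (frobS_X k (Fin d) i)
  have harad : ∀ i, a i ∈ (Ideal.span (Set.range W.t)).radical := by
    intro i
    refine sharp_mem_radical W (hsharp i) ?_
    obtain ⟨K, hK⟩ := hX i
    refine ⟨K, ?_⟩
    rw [h0, ← map_pow]
    have h1 := Ideal.mem_map_of_mem (γ : A →+* BPlus p k b) hK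
    rw [Ideal.map_map] at h1
    have h2 : (γ : A →+* BPlus p k b).comp (algebraMap (BB p k b) A) =
        algebraMap (BB p k b) (BPlus p k b) := RingHom.ext fun x => γ.commutes x
    rw [h2] at h1
    exact h1
  have hajac : ∀ i, a i ∈ Ideal.jacobson (⊥ : Ideal W.P) := fun i => t_radical_le_jac W (harad i)
  refine ⟨⟨φ, hθ, a, hφX, r, h0, hsharp, harad, hajac, ?_⟩⟩
  refine associated_of_dvd W.perf W.dist (t_span_le_jac W (W_pi_mem W)) φ a hajac hφX f hf ?_
  have h3 : θ W.ξ (φ (MvPowerSeries.C (p : WittVector p k) - f)) = 0 := by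
    rw [hθ, hE, map_zero, map_zero]
  obtain ⟨y, hy⟩ := θ_eq_zero_iff.1 h3
  exact ⟨y, hy⟩

end main

section use

variable {W : World p k b} {d : ℕ} {g : MvPowerSeries (Fin d) (WittVector p k) →+* BPlus p k b}
  {E : MvPowerSeries (Fin d) (WittVector p k)}

/-- membership in `φ(I) W(P)` may be checked in `Ω` if `E ∈ I` -/
theorem Lift.mem_map (Λ : Lift W g E) {I : Ideal (MvPowerSeries (Fin d) (WittVector p k))}
    (hE : E ∈ I) {w : WittVector p W.P} (hw : θ W.ξ w ∈ (I.map g).map W.ι) :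
    w ∈ I.map Λ.φ := by
  have h1 : (I.map g).map W.ι = (I.map Λ.φ).map (θ W.ξ) := by
    rw [Ideal.map_map, Ideal.map_map]
    congr 1
    exact RingHom.ext fun s => (Λ.θ_φ s).symm
  rw [h1, Ideal.mem_map_iff_of_surjective _ (θ_surjective W.ξ)] at hw
  obtain ⟨v, hv, hvw⟩ := hw
  have h2 : θ W.ξ (w - v) = 0 := by rw [map_sub, hvw, sub_self]
  obtain ⟨y, hy⟩ := θ_eq_zero_iff.1 h2
  have h4 : w = v + W.ξ * y := by rw [← hy]; ring
  rw [h4]
  refine add_mem hv (Ideal.mul_mem_right _ _ ?_)
  obtain ⟨u, hu⟩ := Λ.assoc.symm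
  rw [← hu]
  exact Ideal.mul_mem_right _ _ (Ideal.mem_map_of_mem _ hE)


end use

end Crest.Agent.R188.Lft
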