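import Crest.Agent.R188.KosD
import Crest.Agent.R188.Tay1
import Crest.Agent.R188.Eq1
import Crest.Agent.R188.Tay5
import Crest.Agent.R188.ChiMat
import Crest.Agent.R188.ChiRes

-- ▼ part R188/Tay2
section

/-!
# R188 (Serre positivity), S-level (e): lengths of `Y ⊗_W Q` for `Q` of finite length over a local
ring `W` with principal maximal ideal `(ϖ)` and `Y` with `Λ`-null `ϖ`-torsion.
helper415
-/

set_option autoImplicit false

namespace Crest.Agent.R188.Tay

open Crest.Agent.R183 TensorProduct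
open scoped ENNReal

universe u v

section tens

variable {W : Type u} [CommRing W] {Γ : Type u} [CommRing Γ] [Algebra W Γ] {Y : Type u}
  [AddCommGroup Y] [Module W Y] [Module Γ Y] [IsScalarTower W Γ Y]

omit [Algebra W Γ] [Module Γ Y] [IsScalarTower W Γ Y] in
theorem exact_ker (ϖ : W) {Q : Type u} [AddCommGroup Q] [Module W Q] (N : Submodule W Q) (q0 : Q)
    (h1 : ∀ w : W, w • q0 ∈ N ↔ ϖ ∣ w) (h2 : ∀ x : Q, ∃ w : W, x - w • q0 ∈ N)
    (hm : ϖ • q0 ∈ N) (z : Y ⊗[W] N) (hz : N.subtype.lTensor Y z = 0) :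
    ∃ y : Y, ϖ • y = 0 ∧ z = y ⊗ₜ[W] (⟨ϖ • q0, hm⟩ : N) := by
  let f : W →ₗ[W] N × W := LinearMap.prod (LinearMap.toSpanSingleton W N ⟨ϖ • q0, hm⟩)
    (-(LinearMap.toSpanSingleton W W ϖ))
  let g : N × W →ₗ[W] Q := LinearMap.coprod N.subtype (LinearMap.toSpanSingleton W Q q0)
  have hg : Function.Surjective g := by
    intro x
    obtain ⟨w, hw⟩ := h2 x
    exact ⟨(⟨_, hw⟩, w), sub_add_cancel _ _⟩
  have hfg : Function.Exact f g := by
    rintro ⟨n, w⟩
    constructor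
    · intro h
      have h' : (n : Q) + w • q0 = 0 := h
      have h3 : w • q0 ∈ N := by
        have : w • q0 = -(n : Q) := by
          rw [eq_neg_iff_add_eq_zero, add_comm]
          exact h'
        rw [this]
        exact N.neg_mem n.2
      obtain ⟨c, rfl⟩ := (h1 w).1 h3
      refine ⟨-c, Prod.ext (Subtype.ext ?_) ?_⟩
      · change (-c) • (ϖ • q0) = (n : Q)
        rw [smul_smul, neg_mul, neg_smul, mul_comm c ϖ]
        exact (eq_neg_of_add_eq_zero_left h').symm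
      · change -((-c) • ϖ) = ϖ * c
        rw [neg_smul, neg_neg, smul_eq_mul, mul_comm]
    · rintro ⟨c, hc⟩
      have hc1 : c • (ϖ • q0) = (n : Q) := congrArg (fun t => (t.1 : Q)) hc
      have hc2 : -(c • ϖ) = w := congrArg Prod.snd hc
      change (n : Q) + w • q0 = 0
      rw [← hc1, ← hc2, neg_smul, smul_eq_mul, smul_smul, add_neg_cancel]
  have hex := lTensor_exact Y hfg hg
  have h4 : (g.lTensor Y) ((LinearMap.inl W N W).lTensor Y z) = 0 := by
    rw [← LinearMap.lTensor_comp_apply]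
    have : g ∘ₗ LinearMap.inl W N W = N.subtype := by
      ext n
      change (n : Q) + (0 : W) • q0 = n
      rw [zero_smul, add_zero]
    rw [this, hz]
  obtain ⟨t, ht⟩ := (hex _).1 h4
  obtain ⟨y, rfl⟩ : ∃ y : Y, y ⊗ₜ[W] (1 : W) = t := ⟨TensorProduct.rid W Y t, by
    have := (TensorProduct.rid W Y).symm_apply_apply t
    rwa [TensorProduct.rid_symm_apply] at this⟩
  refine ⟨y, ?_, ?_⟩
  · have h5 := congrArg ((LinearMap.snd W N W).lTensor Y) ht
    rw [← LinearMap.lTensor_comp_apply, ← LinearMap.lTensor_comp_apply,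
      LinearMap.snd_comp_inl, LinearMap.lTensor_zero, LinearMap.zero_apply,
      LinearMap.lTensor_tmul] at h5
    have h6 := congrArg (TensorProduct.rid W Y) h5
    rw [TensorProduct.rid_tmul, map_zero] at h6
    have h7 : (-((1 : W) • ϖ)) • y = 0 := h6
    rw [one_smul, neg_smul, neg_eq_zero] at h7
    exact h7
  · have h5 := congrArg ((LinearMap.fst W N W).lTensor Y) ht
    rw [← LinearMap.lTensor_comp_apply, ← LinearMap.lTensor_comp_apply,
      LinearMap.fst_comp_inl, LinearMap.lTensor_id, LinearMap.id_apply,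
      LinearMap.lTensor_tmul] at h5
    rw [← h5]
    congr 1
    change (1 : W) • (⟨ϖ • q0, hm⟩ : N) = _
    rw [one_smul]

variable (Γ Y) in
/-- `y ↦ y ⊗ q` -/
def tmulR {Q : Type u} [AddCommGroup Q] [Module W Q] (q : Q) : Y →ₗ[Γ] Y ⊗[W] Q where
  toFun := fun y => y ⊗ₜ q
  map_add' := fun _ _ => TensorProduct.add_tmul _ _ _
  map_smul' := fun _ _ => rfl

/-- `Γ`-linear `Y ⊗ f` -/
def lT (Γ : Type u) [CommRing Γ] [Algebra W Γ] (Y : Type u)
    [AddCommGroup Y] [Module W Y] [Module Γ Y] [IsScalarTower W Γ Y]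
    {Q Q' : Type u} [AddCommGroup Q] [Module W Q] [AddCommGroup Q'] [Module W Q']
    (f : Q →ₗ[W] Q') : Y ⊗[W] Q →ₗ[Γ] Y ⊗[W] Q' := AlgebraTensorModule.lTensor Γ Y f

theorem lT_apply {Q Q' : Type u} [AddCommGroup Q] [Module W Q] [AddCommGroup Q'] [Module W Q']
    (f : Q →ₗ[W] Q') (z : Y ⊗[W] Q) : lT Γ Y f z = f.lTensor Y z := rfl

variable (Λ : AddLen.{u, u} Γ)

/-- `ϖ`-torsion -/
def tor (Γ : Type u) [CommRing Γ] [Algebra W Γ] (Y : Type u)
    [AddCommGroup Y] [Module W Y] [Module Γ Y] [IsScalarTower W Γ Y] (ϖ : W) : Submodule Γ Y :=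
  LinearMap.ker (LinearMap.lsmul Γ Y (algebraMap W Γ ϖ))

theorem mem_tor {ϖ : W} {y : Y} : y ∈ tor Γ Y ϖ ↔ ϖ • y = 0 := by
  rw [tor, LinearMap.mem_ker, LinearMap.lsmul_apply, algebraMap_smul]

/-- the module `Y / ϖ Y` -/
abbrev modϖ (Γ : Type u) [CommRing Γ] [Algebra W Γ] (Y : Type u)
    [AddCommGroup Y] [Module W Y] [Module Γ Y] [IsScalarTower W Γ Y] (ϖ : W) : Type u :=
  Y ⧸ LinearMap.range (LinearMap.lsmul Γ Y (algebraMap W Γ ϖ))

theorem L_step {ϖ : W} (hY : Λ.L (tor Γ Y ϖ) = 0) {Q : Type u} [AddCommGroup Q] [Module W Q]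
    (N : Submodule W Q) (q0 : Q) (h1 : ∀ w : W, w • q0 ∈ N ↔ ϖ ∣ w)
    (h2 : ∀ x : Q, ∃ w : W, x - w • q0 ∈ N) :
    Λ.L (Y ⊗[W] Q) = Λ.L (Y ⊗[W] N) + Λ.L (modϖ Γ Y ϖ) := by
  have hm : ϖ • q0 ∈ N := (h1 ϖ).2 dvd_rfl
  have e1 : Λ.L (Y ⊗[W] N) = Λ.L (LinearMap.range (lT Γ Y N.subtype)) := by
    rw [Λ.L_ker_add_range (lT Γ Y N.subtype)]
    have : Λ.L (LinearMap.ker (lT Γ Y N.subtype)) = 0 := by
      let φ : tor Γ Y ϖ →ₗ[Γ] LinearMap.ker (lT Γ Y N.subtype) :=
        ((tmulR Γ Y (⟨ϖ • q0, hm⟩ : N)) ∘ₗ (tor Γ Y ϖ).subtype).codRestrict _ (by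
          rintro ⟨y, hy⟩
          rw [mem_tor] at hy
          rw [LinearMap.mem_ker, lT_apply]
          change N.subtype.lTensor Y (y ⊗ₜ (⟨ϖ • q0, hm⟩ : N)) = 0
          rw [LinearMap.lTensor_tmul]
          change y ⊗ₜ[W] (ϖ • q0) = 0
          rw [← TensorProduct.smul_tmul, hy, TensorProduct.zero_tmul])
      have hφ : Function.Surjective φ := by
        rintro ⟨z, hz⟩
        rw [LinearMap.mem_ker, lT_apply] at hz
        obtain ⟨y, hy, rfl⟩ := exact_ker ϖ N q0 h1 h2 hm z hz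
        exact ⟨⟨y, mem_tor.2 hy⟩, rfl⟩
      exact le_antisymm ((Λ.L_le_of_surjective φ hφ).trans hY.le) zero_le
    rw [this, zero_add]
  have e2 : Λ.L ((Y ⊗[W] Q) ⧸ LinearMap.range (lT Γ Y N.subtype)) = Λ.L (modϖ Γ Y ϖ) := by
    refine (KosG.L_of_surj Λ ((LinearMap.range (lT Γ Y N.subtype)).mkQ ∘ₗ tmulR Γ Y q0) ?_ _ ?_).symm
    · intro x
      obtain ⟨x, rfl⟩ := (LinearMap.range (lT Γ Y N.subtype)).mkQ_surjective x
      induction x using TensorProduct.induction_on with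
      | zero => exact ⟨0, by simp⟩
      | tmul y q =>
        obtain ⟨w, hw⟩ := h2 q
        refine ⟨w • y, ?_⟩
        change (LinearMap.range (lT Γ Y N.subtype)).mkQ ((w • y) ⊗ₜ q0) = _
        rw [← sub_eq_zero, ← map_sub, Submodule.mkQ_apply, Submodule.Quotient.mk_eq_zero]
        refine ⟨-(y ⊗ₜ (⟨_, hw⟩ : N)), ?_⟩
        rw [map_neg, lT_apply, LinearMap.lTensor_tmul]
        change -(y ⊗ₜ[W] (q - w • q0)) = _
        rw [TensorProduct.tmul_sub, TensorProduct.smul_tmul]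
        abel
      | add x x' hx hx' =>
        obtain ⟨y, hy⟩ := hx
        obtain ⟨y', hy'⟩ := hx'
        exact ⟨y + y', by rw [map_add, map_add, hy, hy']⟩
    · -- kernel
      ext y
      rw [LinearMap.mem_ker]
      change (LinearMap.range (lT Γ Y N.subtype)).mkQ (y ⊗ₜ q0) = 0 ↔ _
      rw [Submodule.mkQ_apply, Submodule.Quotient.mk_eq_zero]
      constructor
      · rintro ⟨z, hz⟩
        rw [lT_apply] at hz
        -- map to Y ⊗ W/ϖ
        let ρ : Q →ₗ[W] Q ⧸ N := N.mkQ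
        have hz1 : (N.mkQ).lTensor Y (y ⊗ₜ[W] q0) = 0 := by
          rw [← hz, ← LinearMap.lTensor_comp_apply]
          have : N.mkQ ∘ₗ N.subtype = 0 := by
            ext n
            simp
          rw [this, LinearMap.lTensor_zero, LinearMap.zero_apply]
        rw [LinearMap.lTensor_tmul] at hz1
        -- Q/N ≅ W/(ϖ)
        have hs : Function.Surjective (LinearMap.toSpanSingleton W (Q ⧸ N) (N.mkQ q0)) := by
          intro x
          obtain ⟨x, rfl⟩ := N.mkQ_surjective x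
          obtain ⟨w, hw⟩ := h2 x
          refine ⟨w, ?_⟩
          rw [LinearMap.toSpanSingleton_apply, ← map_smul, ← sub_eq_zero, ← map_sub,
            Submodule.mkQ_apply, Submodule.Quotient.mk_eq_zero, ← neg_mem_iff, neg_sub]
          exact hw
        have hk : LinearMap.ker (LinearMap.toSpanSingleton W (Q ⧸ N) (N.mkQ q0)) =
            Ideal.span {ϖ} := by
          ext w
          rw [LinearMap.mem_ker, LinearMap.toSpanSingleton_apply, ← map_smul,
            Submodule.mkQ_apply, Submodule.Quotient.mk_eq_zero, h1, Ideal.mem_span_singleton]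
        let e : (W ⧸ (Ideal.span {ϖ} : Ideal W)) ≃ₗ[W] (Q ⧸ N) :=
          (Submodule.quotEquivOfEq _ _ hk.symm).trans
            (LinearMap.quotKerEquivOfSurjective _ hs)
        have he : e (Ideal.Quotient.mk _ 1) = N.mkQ q0 := by
          change LinearMap.toSpanSingleton W (Q ⧸ N) (N.mkQ q0) 1 = _
          rw [LinearMap.toSpanSingleton_apply, one_smul]
        have h5 : (y ⊗ₜ[W] (Ideal.Quotient.mk (Ideal.span {ϖ}) (1 : W)) :
            Y ⊗[W] (W ⧸ (Ideal.span {ϖ} : Ideal W))) = 0 := by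
          have : (e.lTensor Y) (y ⊗ₜ[W] (Ideal.Quotient.mk (Ideal.span {ϖ}) (1 : W))) = 0 := by
            rw [LinearEquiv.lTensor_tmul, he, hz1]
          exact (LinearEquiv.map_eq_zero_iff _).1 this
        have h6 := congrArg (TensorProduct.tensorQuotEquivQuotSMul Y (Ideal.span {ϖ})) h5
        rw [map_zero] at h6
        have h7 : TensorProduct.tensorQuotEquivQuotSMul Y (Ideal.span {ϖ})
            (y ⊗ₜ[W] (Ideal.Quotient.mk (Ideal.span {ϖ}) (1 : W))) =
            Submodule.Quotient.mk ((1 : W) • y) :=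
          TensorProduct.tensorQuotEquivQuotSMul_tmul_mk _ _ _
        rw [h7, one_smul, Submodule.Quotient.mk_eq_zero, Submodule.ideal_span_singleton_smul] at h6
        obtain ⟨y', _, hy'⟩ := h6
        refine ⟨y', ?_⟩
        rw [LinearMap.lsmul_apply, algebraMap_smul]
        exact hy'
      · rintro ⟨y', rfl⟩
        rw [LinearMap.lsmul_apply, algebraMap_smul]
        refine ⟨y' ⊗ₜ (⟨ϖ • q0, hm⟩ : N), ?_⟩
        rw [lT_apply, LinearMap.lTensor_tmul, TensorProduct.smul_tmul]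
        rfl
  rw [Λ.L_eq_add_quotient (LinearMap.range (lT Γ Y N.subtype)), ← e1, e2]

/-- **Length of `Y ⊗_W Q`**, `Q` of finite length over a local `W`-algebra `S` with residue field
`W/ϖ`. -/
theorem L_tensor {S : Type u} [CommRing S] [Algebra W S] [IsLocalRing S] {ϖ : W}
    (hs1 : ∀ w : W, algebraMap W S w ∈ IsLocalRing.maximalIdeal S ↔ ϖ ∣ w)
    (hs2 : ∀ s : S, ∃ w : W, s - algebraMap W S w ∈ IsLocalRing.maximalIdeal S)
    (hY : Λ.L (tor Γ Y ϖ) = 0) {Q : Type u} [AddCommGroup Q] [Module S Q]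
    (hQ : IsFiniteLength S Q) (iQ : Module W Q) (iQ' : IsScalarTower W S Q) :
    ∃ n : ℕ, Module.length S Q = n ∧ Λ.L (Y ⊗[W] Q) = n * Λ.L (modϖ Γ Y ϖ) := by
  induction hQ with
  | of_subsingleton =>
    refine ⟨0, by simp, ?_⟩
    rw [Nat.cast_zero, zero_mul]
    exact Λ.L_subsingleton
  | @of_simple_quotient Q _ _ N hs hN ih =>
    obtain ⟨n, hn, hn'⟩ := ih (N.restrictScalars W).module
      ⟨fun w s x => Subtype.ext (smul_assoc w s (x : Q))⟩
    obtain ⟨I, hI, ⟨e⟩⟩ := isSimpleModule_iff_quot_maximal.1 hs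
    have hI' : I = IsLocalRing.maximalIdeal S := IsLocalRing.eq_maximalIdeal hI
    subst hI'
    obtain ⟨q0, hq0⟩ := N.mkQ_surjective (e.symm (Ideal.Quotient.mk _ 1))
    have hw : ∀ w : S, N.mkQ (w • q0) = e.symm (Ideal.Quotient.mk _ w) := by
      intro w
      rw [map_smul, hq0, ← map_smul]
      congr 1
      change w • (Submodule.Quotient.mk 1 : S ⧸ IsLocalRing.maximalIdeal S) =
        Submodule.Quotient.mk w
      rw [← Submodule.Quotient.mk_smul, smul_eq_mul, mul_one]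
    have h1' : ∀ w : S, w • q0 ∈ N ↔ w ∈ IsLocalRing.maximalIdeal S := by
      intro w
      rw [← Submodule.Quotient.mk_eq_zero, ← Submodule.mkQ_apply, hw, LinearEquiv.map_eq_zero_iff,
        Ideal.Quotient.eq_zero_iff_mem]
    have h1 : ∀ w : W, w • q0 ∈ N.restrictScalars W ↔ ϖ ∣ w := by
      intro w
      rw [Submodule.restrictScalars_mem, ← algebraMap_smul S w q0, h1', hs1]
    have h2 : ∀ x : Q, ∃ w : W, x - w • q0 ∈ N.restrictScalars W := by
      intro x
      obtain ⟨s, hs'⟩ := Ideal.Quotient.mk_surjective (e (N.mkQ x))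
      obtain ⟨w, hw'⟩ := hs2 s
      refine ⟨w, ?_⟩
      have h3 : x - s • q0 ∈ N := by
        rw [← Submodule.Quotient.mk_eq_zero, ← Submodule.mkQ_apply, map_sub, hw, hs',
          LinearEquiv.symm_apply_apply, sub_self]
      have h4 : (s - algebraMap W S w) • q0 ∈ N := (h1' _).2 hw'
      rw [sub_smul, algebraMap_smul] at h4
      have h5 := N.add_mem h3 h4
      rwa [sub_add_sub_cancel] at h5
    refine ⟨n + 1, ?_, ?_⟩
    · rw [Module.length_eq_add_of_exact N.subtype N.mkQ N.subtype_injective N.mkQ_surjective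
        (LinearMap.exact_subtype_mkQ N), hn, Module.length_eq_one S (Q ⧸ N)]
      push_cast
      rfl
    · rw [L_step Λ hY (N.restrictScalars W) q0 h1 h2]
      have h6 : Λ.L (Y ⊗[W] (N.restrictScalars W)) = n * Λ.L (modϖ Γ Y ϖ) := hn'
      rw [h6]
      push_cast
      ring

end tens

end Crest.Agent.R188.Tay
end

-- ▼ part R188/Tay3
section

/-!
# R188 (Serre positivity), S-level (e): the lower bound for `Q_n(Γ) / τ(I) Q_n(Γ)`.
helper415
-/

set_option autoImplicit false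
set_option linter.unusedSectionVars false

namespace Crest.Agent.R188.Tay

open Crest.Agent.R183 TensorProduct
open scoped ENNReal

noncomputable section

universe u

/-- nilpotent ideals are complete -/
theorem isAdicComplete_of_pow_eq_bot {B : Type u} [CommRing B] {J : Ideal B} {N : ℕ}
    (hJ : J ^ N = ⊥) : IsAdicComplete J B where
  haus' := fun x hx => by
    have h1 := hx N
    rw [SModEq.zero, smul_eq_mul, Ideal.mul_top, hJ, Ideal.mem_bot] at h1
    exact h1
  prec' := fun f hf => by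
    refine ⟨f N, fun n => ?_⟩
    rcases le_total n N with h | h
    · exact hf h
    · have h1 := hf h
      rw [SModEq.sub_mem, smul_eq_mul, Ideal.mul_top] at h1 ⊢
      rw [hJ, Ideal.mem_bot, sub_eq_zero] at h1
      rw [← h1, sub_self]
      exact Ideal.zero_mem _

theorem sub_pow_zero {B : Type*} [CommRing B] {a b : B} {h n : ℕ} (ha : a ^ h = 0)
    (hb : b ^ h = 0) (hn : 2 * h ≤ n) : (a - b) ^ n = 0 := by
  rw [sub_eq_add_neg]
  refine (Commute.all _ _).add_pow_eq_zero_of_add_le_succ_of_pow_eq_zero ha (n := h) ?_ (by omega)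
  rw [neg_pow, hb, mul_zero]

section psi

variable {d : ℕ} {n : ℕ} {W : Type u} [CommRing W] {Γ : Type u} [CommRing Γ]
  [Algebra W Γ] (φ : MvPowerSeries (Fin d) W →+* Γ)
  (B₁ : Type u) [CommRing B₁] [Algebra W B₁] [Algebra Γ B₁] [IsScalarTower W Γ B₁]
  (B₂ : Type u) [CommRing B₂] [Algebra W B₂] [Algebra (MvPowerSeries (Fin d) W) B₂]
  [IsScalarTower W (MvPowerSeries (Fin d) W) B₂]

/-- the image of `x_i` -/
def ta (i : Fin d) : B₁ ⊗[W] B₂ :=
  (1 : B₁) ⊗ₜ[W] (algebraMap (MvPowerSeries (Fin d) W) B₂ (MvPowerSeries.X i))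

/-- the image of `x_i'` -/
def tb (i : Fin d) : B₁ ⊗[W] B₂ :=
  (algebraMap Γ B₁ (φ (MvPowerSeries.X i))) ⊗ₜ[W] (1 : B₂)

/-- the image of `q_i` -/
def tq (i : Fin d) : B₁ ⊗[W] B₂ := ta B₁ B₂ i - tb φ B₁ B₂ i

variable {φ B₁ B₂}

theorem ta_pow {h : ℕ}
    (hx : ∀ i : Fin d, (algebraMap (MvPowerSeries (Fin d) W) B₂ (MvPowerSeries.X i)) ^ h = 0)
    (i : Fin d) : (ta B₁ B₂ i : B₁ ⊗[W] B₂) ^ h = 0 := by
  rw [ta, Algebra.TensorProduct.tmul_pow, hx, TensorProduct.tmul_zero]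

theorem tb_pow {ϖ : W} {h k : ℕ} (hk : algebraMap W B₂ ϖ ^ k = 0)
    (hx' : ∀ i : Fin d, algebraMap Γ B₁ (φ (MvPowerSeries.X i)) ^ h ∈
      Ideal.span {algebraMap W B₁ ϖ ^ k})
    (i : Fin d) : (tb φ B₁ B₂ i : B₁ ⊗[W] B₂) ^ h = 0 := by
  rw [tb, Algebra.TensorProduct.tmul_pow, one_pow]
  obtain ⟨g, hg⟩ := Ideal.mem_span_singleton'.1 (hx' i)
  have e1 : (ϖ ^ k) • g = algebraMap Γ B₁ (φ (MvPowerSeries.X i)) ^ h := by
    rw [← hg, Algebra.smul_def, map_pow, mul_comm]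
  have e2 : (ϖ ^ k) • (1 : B₂) = 0 := by
    rw [Algebra.smul_def, map_pow, hk, zero_mul]
  rw [← e1, TensorProduct.smul_tmul, e2, TensorProduct.tmul_zero]

variable (n) in
/-- the ring homomorphism `Q_n(Γ) → B₁ ⊗_W B₂` -/
def psi (hq : ∀ i : Fin d, (tq φ B₁ B₂ i : B₁ ⊗[W] B₂) ^ n = 0) : Q d n Γ →+* B₁ ⊗[W] B₂ :=
  Ideal.Quotient.lift (pI d n Γ) (MvPolynomial.eval₂Hom
    ((Algebra.TensorProduct.includeLeftRingHom).comp (algebraMap Γ B₁)) (tq φ B₁ B₂)) (by
    intro a ha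
    have h1 : pI d n Γ ≤ RingHom.ker (MvPolynomial.eval₂Hom
      ((Algebra.TensorProduct.includeLeftRingHom).comp (algebraMap Γ B₁)) (tq φ B₁ B₂)) := by
      rw [pI, Ideal.span_le]
      rintro _ ⟨i, rfl⟩
      change MvPolynomial.eval₂Hom _ _ (MvPolynomial.X i ^ n) = 0
      rw [map_pow, MvPolynomial.eval₂Hom_X', hq]
    exact RingHom.mem_ker.1 (h1 ha))

theorem psi_algebraMap (hq : ∀ i : Fin d, (tq φ B₁ B₂ i : B₁ ⊗[W] B₂) ^ n = 0) (c : Γ) :
    psi n hq (algebraMap Γ (Q d n Γ) c) = (algebraMap Γ B₁ c) ⊗ₜ[W] (1 : B₂) := by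
  rw [algebraMap_Q, psi, Ideal.Quotient.lift_mk, MvPolynomial.eval₂Hom_C]
  rfl

theorem psi_q (hq : ∀ i : Fin d, (tq φ B₁ B₂ i : B₁ ⊗[W] B₂) ^ n = 0) (i : Fin d) :
    psi n hq (q i) = tq φ B₁ B₂ i := by
  rw [q, psi, Ideal.Quotient.lift_mk, MvPolynomial.eval₂Hom_X']

theorem psi_tau [IsNoetherianRing W] (hq : ∀ i : Fin d, (tq φ B₁ B₂ i : B₁ ⊗[W] B₂) ^ n = 0)
    (hφ : ∀ w, φ (MvPowerSeries.C w) = algebraMap W Γ w) {h : ℕ}
    (hx : ∀ i : Fin d, (algebraMap (MvPowerSeries (Fin d) W) B₂ (MvPowerSeries.X i)) ^ h = 0)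
    (f : MvPowerSeries (Fin d) W) :
    psi n hq (tau n φ f) = (1 : B₁) ⊗ₜ[W] (algebraMap (MvPowerSeries (Fin d) W) B₂ f) := by
  have ha : ∀ i, (ta B₁ B₂ i : B₁ ⊗[W] B₂) ^ h = 0 := ta_pow hx
  have hJ : Ideal.span (Set.range (ta B₁ B₂ : Fin d → B₁ ⊗[W] B₂)) ^ (d * h + 1) = ⊥ := by
    rw [eq_bot_iff]
    have h1 := span_pow_le (ta B₁ B₂ : Fin d → B₁ ⊗[W] B₂) h Finset.univ
    rw [Finset.card_univ, Fintype.card_fin, Finset.coe_univ, Set.image_univ] at h1
    refine h1.trans ?_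
    rw [Ideal.span_le]
    rintro _ ⟨i, rfl⟩
    exact Ideal.mem_bot.2 (ha i)
  have hc : IsAdicComplete (Ideal.span (Set.range (ta B₁ B₂ : Fin d → B₁ ⊗[W] B₂)))
    (B₁ ⊗[W] B₂) := isAdicComplete_of_pow_eq_bot hJ
  let g : MvPowerSeries (Fin d) W →+* B₁ ⊗[W] B₂ :=
    (Algebra.TensorProduct.includeRight.toRingHom).comp (algebraMap (MvPowerSeries (Fin d) W) B₂)
  have key : (psi n hq).comp (tau n φ) = g := by
    refine eq_of_X (J := Ideal.span (Set.range (ta B₁ B₂ : Fin d → B₁ ⊗[W] B₂))) ?_ ?_ ?_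
    · intro w
      rw [RingHom.comp_apply, tau_C, psi_algebraMap, hφ]
      change (algebraMap Γ B₁ (algebraMap W Γ w)) ⊗ₜ[W] (1 : B₂) =
        (1 : B₁) ⊗ₜ[W] (algebraMap (MvPowerSeries (Fin d) W) B₂ (MvPowerSeries.C w))
      have e1 : algebraMap Γ B₁ (algebraMap W Γ w) = w • (1 : B₁) := by
        rw [Algebra.smul_def, mul_one, ← IsScalarTower.algebraMap_apply]
      have e2 : algebraMap (MvPowerSeries (Fin d) W) B₂ (MvPowerSeries.C w) = w • (1 : B₂) := by
        rw [Algebra.smul_def, mul_one, IsScalarTower.algebraMap_apply W (MvPowerSeries (Fin d) W) B₂]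
        rfl
      rw [e1, e2, TensorProduct.smul_tmul]
    · intro i
      rw [RingHom.comp_apply, tau_X, map_add, psi_algebraMap, psi_q, tq]
      change tb φ B₁ B₂ i + (ta B₁ B₂ i - tb φ B₁ B₂ i) = ta B₁ B₂ i
      abel
    · intro i
      exact Ideal.subset_span ⟨i, rfl⟩
  exact RingHom.congr_fun key f

theorem psi_surjective [IsNoetherianRing W]
    (hq : ∀ i : Fin d, (tq φ B₁ B₂ i : B₁ ⊗[W] B₂) ^ n = 0)
    (hφ : ∀ w, φ (MvPowerSeries.C w) = algebraMap W Γ w) {h : ℕ}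
    (hx : ∀ i : Fin d, (algebraMap (MvPowerSeries (Fin d) W) B₂ (MvPowerSeries.X i)) ^ h = 0)
    (h1 : Function.Surjective (algebraMap Γ B₁))
    (h2 : Function.Surjective (algebraMap (MvPowerSeries (Fin d) W) B₂)) :
    Function.Surjective (psi n hq) := by
  intro z
  induction z using TensorProduct.induction_on with
  | zero => exact ⟨0, map_zero _⟩
  | tmul y s =>
    obtain ⟨y, rfl⟩ := h1 y
    obtain ⟨s, rfl⟩ := h2 s
    refine ⟨algebraMap Γ (Q d n Γ) y * tau n φ s, ?_⟩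
    rw [map_mul, psi_algebraMap, psi_tau hq hφ hx, Algebra.TensorProduct.tmul_mul_tmul,
      mul_one, one_mul]
  | add x y hx hy =>
    obtain ⟨a, rfl⟩ := hx
    obtain ⟨b, rfl⟩ := hy
    exact ⟨a + b, map_add _ _ _⟩

/-- `Γ`-linear version -/
def psiL (hq : ∀ i : Fin d, (tq φ B₁ B₂ i : B₁ ⊗[W] B₂) ^ n = 0) :
    Q d n Γ →ₗ[Γ] B₁ ⊗[W] B₂ where
  toFun := psi n hq
  map_add' := map_add _
  map_smul' := fun c x => by
    have h1 : c • x = algebraMap Γ (Q d n Γ) c * x := by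
      obtain ⟨x, rfl⟩ := Ideal.Quotient.mk_surjective x
      rw [algebraMap_Q, ← map_mul, ← MvPolynomial.smul_eq_C_mul]
      rfl
    rw [RingHom.id_apply, h1, map_mul, psi_algebraMap]
    generalize psi n hq x = z
    induction z using TensorProduct.induction_on with
    | zero => rw [mul_zero, smul_zero]
    | tmul y s =>
      rw [Algebra.TensorProduct.tmul_mul_tmul, one_mul, TensorProduct.smul_tmul', Algebra.smul_def]
    | add x y hx hy => rw [mul_add, smul_add, hx, hy]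


end psi

section final

variable {d : ℕ} {n : ℕ} {W : Type u} [CommRing W] [IsLocalRing W] [IsNoetherianRing W]
  {Γ : Type u} [CommRing Γ] [Algebra W Γ] {φ : MvPowerSeries (Fin d) W →+* Γ}


end final

end

end Crest.Agent.R188.Tay
end

-- ▼ part R188/Tay4
section

/-!
# R188 (Serre positivity), S-level (e), Noetherian part: `e (l^m) W = m^{|l|} e l W` and
`length (W/(l^m)W) ≥ m^{|l|}` if `dim W = |l|`.
helper415
-/

set_option autoImplicit false

namespace Crest.Agent.R188.Tay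

open IsLocalRing Module Function Crest.Agent.R188.Eq
open scoped Pointwise

universe u v

section ideals

variable {R : Type u} [CommRing R]

theorem sup_span_pow_le (I : Ideal R) (q : R) (m : ℕ) :
    (I ⊔ Ideal.span {q}) ^ m ≤ I ⊔ Ideal.span {q ^ m} := by
  induction m with
  | zero =>
    rw [pow_zero, pow_zero, Ideal.span_singleton_one]
    exact le_sup_of_le_right le_top
  | succ m ih =>
    rw [pow_succ]
    refine (Ideal.mul_mono_left ih).trans ?_
    rw [Ideal.sup_mul, Ideal.mul_sup (Ideal.span {q ^ m}), Ideal.span_singleton_mul_span_singleton,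
      ← pow_succ]
    exact sup_le (le_sup_of_le_left Ideal.mul_le_left) (sup_le (le_sup_of_le_left
      Ideal.mul_le_right) le_sup_right)

/-- `(I + (l))^K ≤ I^k + (l^m)` for `K ≥ k + |l| m`. -/
theorem pow_ofList_le (I : Ideal R) (k m : ℕ) (l : List R) :
    (I ⊔ Ideal.ofList l) ^ (k + l.length * m) ≤ I ^ k ⊔ Ideal.ofList (l.map (· ^ m)) := by
  induction l with
  | nil => simp
  | cons a l ih =>
    have e1 : k + (a :: l).length * m = (k + l.length * m) + m := by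
      rw [List.length_cons]
      ring
    have e2 : I ⊔ Ideal.ofList (a :: l) = (I ⊔ Ideal.ofList l) ⊔ Ideal.span {a} := by
      rw [Ideal.ofList_cons, sup_assoc, sup_comm (Ideal.span {a})]
    have e3 : Ideal.span {a} ^ m = Ideal.span {a ^ m} := Ideal.span_singleton_pow a m
    have h := Ideal.sup_pow_add_le_pow_sup_pow (I := I ⊔ Ideal.ofList l) (J := Ideal.span {a})
      (n := k + l.length * m) (m := m)
    rw [e1, e2, List.map_cons, Ideal.ofList_cons]
    refine h.trans ?_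
    rw [e3]
    refine sup_le (ih.trans ?_) ?_
    · exact sup_le le_sup_left (le_sup_of_le_right le_sup_right)
    · exact le_sup_of_le_right le_sup_left

end ideals

variable {A : Type u} [CommRing A] [IsLocalRing A]

theorem Good.pow_cons {q : A} {l : List A} {W : Type v} [AddCommGroup W] [Module A W]
    (h : Good (q :: l) W) (m : ℕ) : Good (q ^ m :: l) W := by
  obtain ⟨h1, n, hn⟩ := h
  refine ⟨h1, n * m, ?_⟩
  rw [Ideal.ofList_cons, sup_left_comm, sup_comm] at hn ⊢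
  rw [pow_mul]
  exact (Ideal.pow_right_mono hn m).trans (sup_span_pow_le _ q m)

theorem Good.cons_left {a b : A} {l : List A} {W : Type v} [AddCommGroup W] [Module A W]
    (h : Good (a * b :: l) W) : Good (a :: l) W := by
  obtain ⟨h1, n, hn⟩ := h
  refine ⟨h1, n, hn.trans (sup_le_sup_left ?_ _)⟩
  rw [Ideal.ofList_cons, Ideal.ofList_cons]
  refine sup_le_sup_right ?_ _
  rw [Ideal.span_singleton_le_span_singleton]
  exact dvd_mul_right a b

theorem Good.cons_right {a b : A} {l : List A} {W : Type v} [AddCommGroup W] [Module A W]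
    (h : Good (a * b :: l) W) : Good (b :: l) W := by
  rw [mul_comm] at h
  exact Good.cons_left h

theorem Good.map_pow {l : List A} {W : Type v} [AddCommGroup W] [Module A W]
    (h : Good l W) (m : ℕ) : Good (l.map (· ^ m)) W := by
  obtain ⟨h1, n, hn⟩ := h
  refine ⟨h1, n * (1 + l.length * m), ?_⟩
  rw [pow_mul]
  refine (Ideal.pow_right_mono hn _).trans ?_
  have := pow_ofList_le (Module.annihilator A W) 1 m l
  rwa [pow_one] at this

variable [IsNoetherianRing A]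

/-- the kernel-cokernel sequence -/
theorem e_cons_mul (a b : A) (l : List A) (W : Type v) [AddCommGroup W] [Module A W]
    (h : Good (a * b :: l) W) : e (a * b :: l) W = e (a :: l) W + e (b :: l) W := by
  have ha : Good (a :: l) W := Good.cons_left h
  have hb : Good (b :: l) W := Good.cons_right h
  let f1 : Submodule.torsionBy A W a →ₗ[A] Submodule.torsionBy A W (a * b) :=
    Submodule.inclusion (fun (x : W) hx => by
      rw [Submodule.mem_torsionBy_iff] at hx ⊢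
      rw [mul_comm, mul_smul, hx, smul_zero])
  let f2 : Submodule.torsionBy A W (a * b) →ₗ[A] Submodule.torsionBy A W b :=
    (LinearMap.lsmul A W a).restrict (fun x hx => by
      rw [Submodule.mem_torsionBy_iff] at hx ⊢
      rw [LinearMap.lsmul_apply, smul_smul, mul_comm, hx])
  let f3 : Submodule.torsionBy A W b →ₗ[A] QuotSMulTop a W :=
    (Submodule.mkQ (a • (⊤ : Submodule A W))).comp (Submodule.torsionBy A W b).subtype
  let f4 : QuotSMulTop a W →ₗ[A] QuotSMulTop (a * b) W :=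
    Submodule.mapQ (a • (⊤ : Submodule A W)) ((a * b) • (⊤ : Submodule A W))
      (LinearMap.lsmul A W b) (by
        rintro _ ⟨x, _, rfl⟩
        change b • a • x ∈ (a * b) • (⊤ : Submodule A W)
        rw [smul_smul, mul_comm]
        exact ⟨x, trivial, rfl⟩)
  let f5 : QuotSMulTop (a * b) W →ₗ[A] QuotSMulTop b W :=
    Submodule.mapQ ((a * b) • (⊤ : Submodule A W)) (b • (⊤ : Submodule A W)) LinearMap.id (by
        rintro _ ⟨x, _, rfl⟩
        change (a * b) • x ∈ b • (⊤ : Submodule A W)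
        rw [mul_comm, mul_smul]
        exact ⟨a • x, trivial, rfl⟩)
  have hmem : ∀ (c : A) (x : W), Submodule.mkQ (c • (⊤ : Submodule A W)) x = 0 ↔ ∃ y, c • y = x := by
    intro c x
    rw [Submodule.mkQ_apply, Submodule.Quotient.mk_eq_zero,
      Submodule.mem_smul_pointwise_iff_exists]
    exact ⟨fun ⟨y, _, hy⟩ => ⟨y, hy⟩, fun ⟨y, hy⟩ => ⟨y, trivial, hy⟩⟩
  have hf1 : Injective f1 := Submodule.inclusion_injective _
  have h12 : Exact f1 f2 := by
    intro ⟨x, hx⟩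
    constructor
    · intro h0
      exact ⟨⟨x, congrArg Subtype.val h0⟩, rfl⟩
    · rintro ⟨⟨y, hy⟩, hy'⟩
      apply Subtype.ext
      have h1 : y = x := congrArg Subtype.val hy'
      subst h1
      exact hy
  have h23 : Exact f2 f3 := by
    rintro ⟨x, hx⟩
    constructor
    · intro h0
      obtain ⟨y, hy⟩ := (hmem a x).1 h0
      refine ⟨⟨y, ?_⟩, Subtype.ext hy⟩
      rw [Submodule.mem_torsionBy_iff] at hx ⊢
      rw [mul_comm, mul_smul, hy, hx]
    · rintro ⟨⟨y, hy⟩, hy'⟩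
      have h1 : a • y = x := congrArg Subtype.val hy'
      exact (hmem a x).2 ⟨y, h1⟩
  have h34 : Exact f3 f4 := by
    intro x
    obtain ⟨x, rfl⟩ := Submodule.mkQ_surjective _ x
    constructor
    · intro h0
      have h1 : Submodule.mkQ ((a * b) • (⊤ : Submodule A W)) (b • x) = 0 := h0
      obtain ⟨y, hy⟩ := (hmem _ _).1 h1
      refine ⟨⟨x - a • y, ?_⟩, ?_⟩
      · rw [Submodule.mem_torsionBy_iff, smul_sub, smul_smul, mul_comm b a, hy, sub_self]
      · change Submodule.mkQ (a • (⊤ : Submodule A W)) (x - a • y) = _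
        rw [map_sub, (hmem a (a • y)).2 ⟨y, rfl⟩, sub_zero]
    · rintro ⟨⟨y, hy⟩, hy'⟩
      rw [← hy']
      change Submodule.mkQ ((a * b) • (⊤ : Submodule A W)) (b • y) = 0
      rw [Submodule.mem_torsionBy_iff] at hy
      rw [hy, map_zero]
  have h45 : Exact f4 f5 := by
    intro x
    obtain ⟨x, rfl⟩ := Submodule.mkQ_surjective _ x
    constructor
    · intro h0
      have h1 : Submodule.mkQ (b • (⊤ : Submodule A W)) x = 0 := h0
      obtain ⟨y, rfl⟩ := (hmem _ _).1 h1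
      exact ⟨Submodule.mkQ (a • (⊤ : Submodule A W)) y, rfl⟩
    · rintro ⟨y, hy⟩
      obtain ⟨y, rfl⟩ := Submodule.mkQ_surjective _ y
      rw [← hy]
      exact (hmem b _).2 ⟨y, rfl⟩
  have hf5 : Surjective f5 := by
    intro x
    obtain ⟨x, rfl⟩ := Submodule.mkQ_surjective _ x
    exact ⟨Submodule.mkQ ((a * b) • (⊤ : Submodule A W)) x, rfl⟩
  have e1 : e l (Submodule.torsionBy A W a) = e l (LinearMap.range f1) :=
    e_congr l (LinearEquiv.ofInjective _ hf1)
  have e2 := e_range l f1 f2 h12 h.tor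
  have e3 := e_range l f2 f3 h23 hb.tor
  have e4 := e_range l f3 f4 h34 ha.quot
  have e5 := e_range l f4 f5 h45 h.quot
  have e6 : e l (LinearMap.range f5) = e l (QuotSMulTop b W) :=
    e_congr l ((LinearEquiv.ofEq _ _ (LinearMap.range_eq_top.2 hf5)).trans Submodule.topEquiv)
  rw [e, e, e]
  omega

omit [IsLocalRing A] [IsNoetherianRing A] in
theorem e_cons_one (l : List A) (W : Type v) [AddCommGroup W] [Module A W] :
    e (1 :: l) W = 0 := by
  have h1 : Subsingleton (QuotSMulTop (1 : A) W) := by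
    refine ⟨fun x y => ?_⟩
    have h0 : ∀ x : QuotSMulTop (1 : A) W, x = 0 := by
      intro x
      obtain ⟨x, rfl⟩ := Submodule.mkQ_surjective _ x
      rw [Submodule.mkQ_apply, Submodule.Quotient.mk_eq_zero]
      exact ⟨x, trivial, one_smul A x⟩
    rw [h0 x, h0 y]
  have h2 : Subsingleton (Submodule.torsionBy A W (1 : A)) := by
    refine ⟨fun x y => Subtype.ext ?_⟩
    have h0 : ∀ x : Submodule.torsionBy A W (1 : A), (x : W) = 0 := by
      rintro ⟨x, hx⟩
      rw [Submodule.mem_torsionBy_iff, one_smul] at hx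
      exact hx
    rw [h0 x, h0 y]
  rw [e, e_subsingleton, e_subsingleton, sub_zero]

theorem e_cons_pow (q : A) (l : List A) (W : Type v) [AddCommGroup W] [Module A W]
    (h : Good (q :: l) W) (m : ℕ) : e (q ^ m :: l) W = m * e (q :: l) W := by
  induction m with
  | zero => rw [pow_zero, e_cons_one, Nat.cast_zero, zero_mul]
  | succ m ih =>
    rw [pow_succ, e_cons_mul, ih]
    · push_cast
      ring
    · rw [← pow_succ]
      exact Good.pow_cons h (m + 1)

/-- `e (l^m) W = m^{|l|} e l W` -/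
theorem e_map_pow (m : ℕ) : ∀ (l : List A) (W : Type v) [AddCommGroup W] [Module A W]
    (_ : Good l W), e (l.map (· ^ m)) W = (m : ℤ) ^ l.length * e l W
  | [], W, _, _, _ => by simp
  | (q :: l), W, _, _, h => by
    have h1 : Good (q :: l.map (· ^ m)) W := by
      obtain ⟨h1, n, hn⟩ := h
      refine ⟨h1, n * (1 + l.length * m), ?_⟩
      rw [pow_mul]
      refine (Ideal.pow_right_mono hn _).trans ?_
      rw [Ideal.ofList_cons, ← sup_assoc, Ideal.ofList_cons, ← sup_assoc]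
      have := pow_ofList_le (Module.annihilator A W ⊔ Ideal.span {q}) 1 m l
      rwa [pow_one] at this
    rw [List.map_cons, e_cons_pow _ _ _ h1, e, e, e_map_pow m l _ h.quot, e_map_pow m l _ h.tor,
      List.length_cons]
    ring

/-- `e l W ≤ length (W/(l)W)` -/
theorem e_le_length : ∀ (l : List A) (_ : ∀ a ∈ l, a ∈ maximalIdeal A) (W : Type v) [AddCommGroup W]
    [Module A W] (_ : Good l W),
    Module.length A (W ⧸ (Ideal.ofList l • (⊤ : Submodule A W))) ≠ ⊤ ∧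
    e l W ≤ (Module.length A (W ⧸ (Ideal.ofList l • (⊤ : Submodule A W)))).toNat
  | [], _, W, _, _, h => by
    have h1 : Module.length A (W ⧸ (Ideal.ofList ([] : List A) • (⊤ : Submodule A W))) =
        Module.length A W :=
      (Submodule.quotEquivOfEqBot _ (by rw [Ideal.ofList_nil, Submodule.bot_smul])).length_eq
    rw [h1, e]
    exact ⟨h.length_ne_top, le_rfl⟩
  | (q :: l), hl, W, _, _, h => by
    have hl' : ∀ a ∈ l, a ∈ maximalIdeal A := fun a ha => hl a (List.mem_cons_of_mem _ ha)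
    obtain ⟨h1, h2⟩ := e_le_length l hl' (QuotSMulTop q W) h.quot
    have h3 := (Submodule.quotOfListConsSMulTopEquivQuotSMulTopInner W q l).length_eq
    rw [h3]
    refine ⟨h1, le_trans ?_ h2⟩
    rw [e]
    have := (e_serre l hl' _ h.tor).1
    omega

/-- **Noetherian lower bound** -/
theorem pow_le_length (l : List A) (hl : ∀ a ∈ l, a ∈ maximalIdeal A) (W : Type v) [AddCommGroup W]
    [Module A W] (h : Good l W) (hd : Module.supportDim A W = (l.length : ℕ)) (m : ℕ) (hm : 0 < m) :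
    Module.length A (W ⧸ (Ideal.ofList (l.map (· ^ m)) • (⊤ : Submodule A W))) ≠ ⊤ ∧
    m ^ l.length ≤
      (Module.length A (W ⧸ (Ideal.ofList (l.map (· ^ m)) • (⊤ : Submodule A W)))).toNat := by
  have h1 : ∀ a ∈ l.map (· ^ m), a ∈ maximalIdeal A := by
    intro a ha
    rw [List.mem_map] at ha
    obtain ⟨b, hb, rfl⟩ := ha
    exact Ideal.pow_mem_of_mem _ (hl b hb) m hm
  obtain ⟨h2, h3⟩ := e_le_length _ h1 W (Good.map_pow h m)
  refine ⟨h2, ?_⟩
  rw [e_map_pow m l W h] at h3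
  have h4 : 0 < e l W := (e_serre l hl W h).2.2 hd
  have h5 : ((m ^ l.length : ℕ) : ℤ) ≤ (m : ℤ) ^ l.length * e l W := by
    push_cast
    have : (0 : ℤ) ≤ (m : ℤ) ^ l.length := by positivity
    nlinarith
  exact_mod_cast h5.trans h3

end Crest.Agent.R188.Tay
end

-- ▼ part R188/Tay6
section

/-!
# R188 (Serre positivity), S-level (e): the asymptotic lower bound
`n^d · L(Γ/(ϖ,v)) ≤ C^d · L(Q_n(Γ)/τ(I))`, `d = dim S/I + |v|`.
helper415
-/

set_option autoImplicit false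

namespace Crest.Agent.R188.KosG

open Crest.Agent.R183
open scoped ENNReal

universe u v

variable {A : Type u} [CommRing A] (Λ : AddLen.{u, v} A)

theorem KFin.pow_append (C : Type v) [AddCommGroup C] [Module A C] (l' l'' : List A)
    (h : KFin Λ C (l' ++ l'')) (n : ℕ) : KFin Λ C (l'.map (· ^ n) ++ l'') ∧
      chi Λ C (l'.map (· ^ n) ++ l'') = (n : ℝ) ^ l'.length * chi Λ C (l' ++ l'') := by
  induction l' generalizing l'' with
  | nil => exact ⟨h, by simp⟩
  | cons a l ih =>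
    have h1 : (a :: l ++ l'').Perm (l ++ (a :: l'')) := List.perm_middle.symm
    obtain ⟨h2, h3⟩ := ih (a :: l'') (h.perm Λ C h1)
    have h4 : (l.map (· ^ n) ++ (a :: l'')).Perm (a :: (l.map (· ^ n) ++ l'')) := List.perm_middle
    obtain ⟨h5, h6⟩ := chi_cons_pow Λ C (h2.perm Λ C h4) n
    refine ⟨h5, ?_⟩
    rw [List.map_cons, List.cons_append, h6, ← chi_perm Λ C h4, h3, ← chi_perm Λ C h1,
      List.length_cons]
    ring

/-- `H_0` of `(b, v^m)` and `b`-torsion of `C/(v^m)C`, when `(b, v)` is `Λ`-regular on `C`. -/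
theorem quot_map_pow (C : Type v) [AddCommGroup C] [Module A C] (b : A) (v : List A)
    (h : ∀ i : ℤ, 1 ≤ i → kh Λ (b :: v) C i = 0) (h0 : kh Λ (b :: v) C 0 ≠ ⊤) (m : ℕ) :
    an Λ b (C ⧸ (Ideal.ofList (v.map (· ^ m)) • (⊤ : Submodule A C))) = 0 ∧
    co Λ b (C ⧸ (Ideal.ofList (v.map (· ^ m)) • (⊤ : Submodule A C))) =
      (m : ℝ≥0∞) ^ v.length * kh Λ (b :: v) C 0 := by
  have p1 : (b :: v).Perm (v ++ [b]) := (List.perm_append_singleton b v).symm
  have p2 : (b :: v.map (· ^ m)).Perm (v.map (· ^ m) ++ [b]) :=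
    (List.perm_append_singleton b _).symm
  have h1 : ∀ i : ℤ, 1 ≤ i → kh Λ (b :: v.map (· ^ m)) C i = 0 := by
    intro i hi
    rw [kh_perm Λ C p2]
    refine le_antisymm ((h_cones_map_pow_le Λ (one A C) m v [b] i).trans ?_) zero_le
    have : (cones (v ++ [b]) (one A C)).h Λ i = 0 := by
      change kh Λ (v ++ [b]) C i = 0
      rw [← kh_perm Λ C p1, h i hi]
    rw [this, mul_zero]
  obtain ⟨φ, hφ, hk⟩ := exists_H0 C (v.map (· ^ m))
  let e : (C ⧸ (Ideal.ofList (v.map (· ^ m)) • (⊤ : Submodule A C))) ≃ₗ[A]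
    (kos (v.map (· ^ m)) C).H 0 :=
    (Submodule.quotEquivOfEq _ _ hk.symm).trans (φ.quotKerEquivOfSurjective hφ)
  constructor
  · have h2 := h1 1 le_rfl
    rw [kh_cons, add_eq_zero, sub_self] at h2
    rw [← h2.2]
    exact an_congr Λ b e
  · have h2 : kh Λ (b :: v.map (· ^ m)) C 0 = co Λ b ((kos (v.map (· ^ m)) C).H 0) := by
      rw [kh_cons]
      have : Subsingleton ((kos (v.map (· ^ m)) C).H (0 - 1)) :=
        H_subsingleton C _ _ (Or.inl (by norm_num))
      have h3 : an Λ b ((kos (v.map (· ^ m)) C).H (0 - 1)) = 0 :=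
        le_antisymm ((an_le' Λ b _).trans Λ.L_subsingleton.le) zero_le
      rw [h3, add_zero]
    rw [co_congr Λ b e, ← h2]
    have hF := KFin_of_regular Λ C (b :: v) h h0
    obtain ⟨h3, h4⟩ := KFin.pow_append Λ C v [b] (hF.perm Λ C p1) m
    rw [← chi_perm Λ C p2, ← chi_perm Λ C p1, chi_of_regular Λ C _ h1,
      chi_of_regular Λ C _ h] at h4
    have h5 : kh Λ (b :: v.map (· ^ m)) C 0 ≠ ⊤ := (h3.perm Λ C p2.symm) 0
    rw [← ENNReal.toReal_eq_toReal_iff' h5 (ENNReal.mul_ne_top (by simp) h0), h4,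
      ENNReal.toReal_mul, ENNReal.toReal_pow, ENNReal.toReal_natCast]

end Crest.Agent.R188.KosG

namespace Crest.Agent.R188.Tay

open Crest.Agent.R183 TensorProduct IsLocalRing
open scoped ENNReal

noncomputable section

universe u

section exps

variable {d : ℕ} {W : Type u} [CommRing W] [IsLocalRing W]
  {Γ : Type u} [CommRing Γ] (φ : MvPowerSeries (Fin d) W →+* Γ)

/-- the exponents -/
theorem exists_exps {ϖ : W} (hϖ : ϖ ∈ maximalIdeal W) {J : Ideal (MvPowerSeries (Fin d) W)}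
    (t : List (MvPowerSeries (Fin d) W)) {N : ℕ}
    (hJ : maximalIdeal (MvPowerSeries (Fin d) W) ^ N ≤ J ⊔ Ideal.ofList t)
    (v : List Γ) {K : ℕ} {c : Γ}
    (hv : ∀ i : Fin d, φ (MvPowerSeries.X i) ^ K ∈ Ideal.span {c} ⊔ Ideal.ofList v) :
    ∃ H : ℕ, ∀ m : ℕ, 0 < m → ∃ h k : ℕ, h ≤ H * m ∧
      (∀ i : Fin d, (MvPowerSeries.X i) ^ h ∈ J ⊔ Ideal.ofList (t.map (· ^ m))) ∧
      (MvPowerSeries.C ϖ) ^ k ∈ J ⊔ Ideal.ofList (t.map (· ^ m)) ∧
      (∀ i : Fin d, φ (MvPowerSeries.X i) ^ h ∈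
        Ideal.ofList (v.map (· ^ m)) ⊔ Ideal.span {c ^ k}) := by
  refine ⟨N * (1 + t.length) + K * (N * (1 + t.length) + v.length), fun m hm => ?_⟩
  let k := N * (1 + t.length * m)
  have hk : maximalIdeal (MvPowerSeries (Fin d) W) ^ k ≤ J ⊔ Ideal.ofList (t.map (· ^ m)) := by
    rw [pow_mul]
    refine (Ideal.pow_right_mono hJ _).trans ?_
    have := pow_ofList_le J 1 m t
    rwa [pow_one] at this
  have hk1 : k ≤ N * (1 + t.length) * m := by
    have : 1 + t.length * m ≤ (1 + t.length) * m := by nlinarith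
    calc k ≤ N * ((1 + t.length) * m) := Nat.mul_le_mul_left _ this
      _ = _ := by ring
  refine ⟨k + K * (k + v.length * m), k, ?_, fun i => ?_, ?_, fun i => ?_⟩
  · nlinarith
  · refine hk ?_
    refine Ideal.pow_le_pow_right (Nat.le_add_right _ _) (Ideal.pow_mem_pow ?_ _)
    rw [mem_maximalIdeal, mem_nonunits_iff, MvPowerSeries.isUnit_iff_constantCoeff,
      MvPowerSeries.constantCoeff_X]
    exact not_isUnit_zero
  · refine hk (Ideal.pow_mem_pow ?_ _)
    rw [mem_maximalIdeal, mem_nonunits_iff, MvPowerSeries.isUnit_iff_constantCoeff,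
      MvPowerSeries.constantCoeff_C]
    exact hϖ
  · have h1 := pow_ofList_le (Ideal.span {c}) k m v (Ideal.pow_mem_pow (hv i) (k + v.length * m))
    rw [Ideal.span_singleton_pow, sup_comm, ← pow_mul] at h1
    rw [pow_add]
    exact Ideal.mul_mem_left _ _ h1

end exps

section length

variable {S : Type u} [CommRing S]


end length

section final

variable {d : ℕ} {W : Type u} [CommRing W] [IsLocalRing W] [IsNoetherianRing W]
  {Γ : Type u} [CommRing Γ] [Algebra W Γ] {φ : MvPowerSeries (Fin d) W →+* Γ}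
  [IsNoetherianRing (MvPowerSeries (Fin d) W)]



end final

end

end Crest.Agent.R188.Tay
end

-- ▼ part R188/Tay7
section

/-!
# R188 (Serre positivity), S-level (e) for a general finitely generated module `M`.
helper415
-/

set_option autoImplicit false
set_option linter.unusedSectionVars false

namespace Crest.Agent.R188.Tay

open Crest.Agent.R183 Crest.Agent.R183.Res TensorProduct IsLocalRing
open scoped ENNReal

noncomputable section

universe u v w

section HX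

variable {R : Type w} [CommRing R] {Γ : Type u} [CommRing Γ] {A : Type u} [CommRing A] (f : Γ →+* A)
  (Λ : AddLen.{u, v} Γ) (F : MCx R) {X : Type v} [AddCommGroup X] [Module A X] [Module R X]
  [SMulCommClass R A X] {T : Type v} [AddCommGroup T] [Module Γ T]

/-- a quotient of `H_0(F ⊗ X)` -/
theorem L_le_hX_zero (g : (F.ι 0 → X) →+ T) (hs : Function.Surjective g)
    (hg : ∀ (c : Γ) (x : F.ι 0 → X), g (f c • x) = c • g x)
    (h0 : ∀ y : F.ι 1 → X, g (F.dA A X 0 y) = 0) :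
    Λ.L T ≤ Chi.hX (Λ.restrict f) F X 0 := by
  let _ : Module Γ (Chi.HX A F X 0) := Module.compHom _ f
  let g0 : ↥(Chi.Z (C := fun n => F.ι n → X) (F.dA A X) 0) →+ T :=
    g.comp (Chi.Z (C := fun n => F.ι n → X) (F.dA A X) 0).subtype.toAddMonoidHom
  let N := (Chi.B (C := fun n => F.ι n → X) (F.dA A X) 0).comap
    (Chi.Z (C := fun n => F.ι n → X) (F.dA A X) 0).subtype
  have hN : N.toAddSubgroup ≤ g0.ker := by
    rintro z ⟨y, hy⟩
    change g z.1 = 0
    rw [show z.1 = F.dA A X 0 y from hy.symm]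
    exact h0 y
  let G0 : Chi.HX A F X 0 →+ T := QuotientAddGroup.lift N.toAddSubgroup g0 hN
  let G : Chi.HX A F X 0 →ₗ[Γ] T :=
    { toFun := G0
      map_add' := map_add G0
      map_smul' := by
        intro c x
        obtain ⟨z, rfl⟩ := Submodule.mkQ_surjective _ x
        exact hg c z.1 }
  have hG : Function.Surjective G := by
    intro y
    obtain ⟨x, rfl⟩ := hs y
    exact ⟨Submodule.mkQ N ⟨x, trivial⟩, rfl⟩
  exact Λ.L_le_of_surjective G hG

end HX

section ev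

variable {d : ℕ} {n : ℕ} {W : Type u} [CommRing W] {Γ : Type u} [CommRing Γ]
  [Algebra W Γ] {φ : MvPowerSeries (Fin d) W →+* Γ}
  {B₁ : Type u} [CommRing B₁] [Algebra W B₁] [Algebra Γ B₁] [IsScalarTower W Γ B₁]
  {B₂ : Type u} [CommRing B₂] [Algebra W B₂] [Algebra (MvPowerSeries (Fin d) W) B₂]
  [IsScalarTower W (MvPowerSeries (Fin d) W) B₂]
  {M : Type u} [AddCommGroup M] [Module B₂ M] [Module (MvPowerSeries (Fin d) W) M] [Module W M]
  [IsScalarTower W B₂ M] [IsScalarTower (MvPowerSeries (Fin d) W) B₂ M]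

/-- `b ↦ b m` -/
def fm (W : Type u) [CommRing W] {B₂ : Type u} [CommRing B₂] [Algebra W B₂] {M : Type u}
    [AddCommGroup M] [Module B₂ M] [Module W M] [IsScalarTower W B₂ M] (m : M) : B₂ →ₗ[W] M :=
  (LinearMap.toSpanSingleton B₂ M m).restrictScalars W

theorem Q_smul {d n : ℕ} {Γ : Type u} [CommRing Γ] (c : Γ) (x : Q d n Γ) :
    c • x = algebraMap Γ (Q d n Γ) c * x := by
  obtain ⟨x, rfl⟩ := Ideal.Quotient.mk_surjective x
  rw [algebraMap_Q, ← map_mul, ← MvPolynomial.smul_eq_C_mul]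
  rfl

theorem fm_apply (m : M) (b : B₂) : fm W m b = b • m := rfl

/-- `x ↦ ψ(x) m` -/
def ev (hq : ∀ i : Fin d, (tq φ B₁ B₂ i : B₁ ⊗[W] B₂) ^ n = 0) (m : M) :
    Q d n Γ →ₗ[Γ] B₁ ⊗[W] M := (lT Γ B₁ (fm W m)) ∘ₗ psiL hq

theorem lT_fm_smul (s : MvPowerSeries (Fin d) W) (m : M) (z : B₁ ⊗[W] B₂) :
    lT Γ B₁ (fm W (B₂ := B₂) (s • m)) z = lT Γ B₁ (fm W m)
      (((1 : B₁) ⊗ₜ[W] (algebraMap (MvPowerSeries (Fin d) W) B₂ s)) * z) := by
  induction z using TensorProduct.induction_on with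
  | zero => rw [mul_zero, map_zero, map_zero]
  | tmul y b =>
    rw [Algebra.TensorProduct.tmul_mul_tmul, one_mul, lT_apply, lT_apply, LinearMap.lTensor_tmul,
      LinearMap.lTensor_tmul, fm_apply, fm_apply, ← algebraMap_smul B₂ s m, smul_smul, mul_comm]
  | add x y hx hy => rw [mul_add, map_add, map_add, hx, hy]

theorem lT_fm_add (m m' : M) (z : B₁ ⊗[W] B₂) :
    lT Γ B₁ (fm W (B₂ := B₂) (m + m')) z = lT Γ B₁ (fm W m) z + lT Γ B₁ (fm W m') z := by
  induction z using TensorProduct.induction_on with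
  | zero => rw [map_zero, map_zero, map_zero, add_zero]
  | tmul y b =>
    rw [lT_apply, lT_apply, lT_apply, LinearMap.lTensor_tmul,
      LinearMap.lTensor_tmul, LinearMap.lTensor_tmul, fm_apply, fm_apply, fm_apply, smul_add,
      TensorProduct.tmul_add]
  | add x y hx hy =>
    rw [map_add, map_add, map_add, hx, hy]
    abel

/-- additivity in `m` -/
def evA (hq : ∀ i : Fin d, (tq φ B₁ B₂ i : B₁ ⊗[W] B₂) ^ n = 0) (x : Q d n Γ) :
    M →+ B₁ ⊗[W] M :=
  AddMonoidHom.mk' (fun m => ev hq m x) (fun m m' => lT_fm_add m m' (psiL hq x))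


theorem ev_smul [IsNoetherianRing W]
    (hq : ∀ i : Fin d, (tq φ B₁ B₂ i : B₁ ⊗[W] B₂) ^ n = 0)
    (hφ : ∀ w, φ (MvPowerSeries.C w) = algebraMap W Γ w) {h : ℕ}
    (hx : ∀ i : Fin d, (algebraMap (MvPowerSeries (Fin d) W) B₂ (MvPowerSeries.X i)) ^ h = 0)
    (s : MvPowerSeries (Fin d) W) (m : M) (x : Q d n Γ) :
    ev hq (s • m) x = ev hq m (tau n φ s * x) := by
  have h1 : psiL hq (tau n φ s * x) = ((1 : B₁) ⊗ₜ[W] (algebraMap (MvPowerSeries (Fin d) W) B₂ s)) *
      psiL hq x := by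
    change psi n hq _ = _ * psi n hq x
    rw [map_mul, psi_tau hq hφ hx]
  rw [ev, ev, LinearMap.comp_apply, LinearMap.comp_apply, h1, lT_fm_smul]

end ev

section main

variable {d : ℕ} {n : ℕ} {W : Type u} [CommRing W] [IsNoetherianRing W] {Γ : Type u} [CommRing Γ]
  [Algebra W Γ] {φ : MvPowerSeries (Fin d) W →+* Γ}
  {B₁ : Type u} [CommRing B₁] [Algebra W B₁] [Algebra Γ B₁] [IsScalarTower W Γ B₁]
  {B₂ : Type u} [CommRing B₂] [Algebra W B₂] [Algebra (MvPowerSeries (Fin d) W) B₂]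
  [IsScalarTower W (MvPowerSeries (Fin d) W) B₂]
  {M : Type u} [AddCommGroup M] [Module B₂ M] [Module (MvPowerSeries (Fin d) W) M] [Module W M]
  [IsScalarTower W B₂ M] [IsScalarTower (MvPowerSeries (Fin d) W) B₂ M]

/-- `H_0(F ⊗ Q_n(Γ))` surjects onto `B₁ ⊗_W M̄` for a quotient `M̄` of `H_0(F)`. -/
theorem L_le_hX (Λ : AddLen.{u, u} Γ)
    (hq : ∀ i : Fin d, (tq φ B₁ B₂ i : B₁ ⊗[W] B₂) ^ n = 0)
    (hφ : ∀ w, φ (MvPowerSeries.C w) = algebraMap W Γ w) {h : ℕ}
    (hx : ∀ i : Fin d, (algebraMap (MvPowerSeries (Fin d) W) B₂ (MvPowerSeries.X i)) ^ h = 0)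
    (h1 : Function.Surjective (algebraMap Γ B₁))
    (h2 : Function.Surjective (algebraMap (MvPowerSeries (Fin d) W) B₂))
    (F : MCx (MvPowerSeries (Fin d) W))
    (ε : (F.ι 0 → MvPowerSeries (Fin d) W) →ₗ[MvPowerSeries (Fin d) W] M)
    (hε : Function.Surjective ε)
    (hd : ∀ y, ε (F.dM (MvPowerSeries (Fin d) W) 0 y) = 0) :
    Λ.L (B₁ ⊗[W] M) ≤
      Chi.hX (Λ.restrict (algebraMap Γ (Q d n Γ))) (F.map (tau n φ)) (Q d n Γ) 0 := by
  let g : ((F.map (tau n φ)).ι 0 → Q d n Γ) →+ B₁ ⊗[W] M :=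
    { toFun := fun x => ∑ a : F.ι 0, ev hq (ε (Pi.single a 1)) (x a)
      map_zero' := by
        refine Finset.sum_eq_zero fun a _ => ?_
        exact map_zero _
      map_add' := fun x y => by
        rw [← Finset.sum_add_distrib]
        exact Finset.sum_congr rfl fun a _ => map_add _ _ _ }
  have hgx : ∀ x : F.ι 0 → Q d n Γ, g x = ∑ a : F.ι 0, ev hq (ε (Pi.single a 1)) (x a) :=
    fun _ => rfl
  have hgen : ∀ v : F.ι 0 → MvPowerSeries (Fin d) W, ε v = ∑ a, v a • ε (Pi.single a 1) := by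
    intro v
    have h3 : v = ∑ a, v a • (Pi.single a (1 : MvPowerSeries (Fin d) W) :
        F.ι 0 → MvPowerSeries (Fin d) W) := by
      funext b
      rw [Finset.sum_apply]
      simp [Pi.single_apply]
    conv_lhs => rw [h3]
    rw [map_sum]
    exact Finset.sum_congr rfl fun a _ => map_smul _ _ _
  refine L_le_hX_zero (algebraMap Γ (Q d n Γ)) Λ (F.map (tau n φ)) g ?_ ?_ ?_
  · -- surjectivity
    intro z
    induction z using TensorProduct.induction_on with
    | zero => exact ⟨0, map_zero g⟩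
    | tmul y m =>
      obtain ⟨v, rfl⟩ := hε m
      choose x hx1 using fun a : F.ι 0 => psi_surjective hq hφ hx h1 h2
        (y ⊗ₜ[W] (algebraMap (MvPowerSeries (Fin d) W) B₂ (v a)))
      refine ⟨x, ?_⟩
      rw [hgx, hgen, TensorProduct.tmul_sum]
      refine Finset.sum_congr rfl fun a _ => ?_
      rw [ev, LinearMap.comp_apply]
      have h3 : psiL hq (x a) = y ⊗ₜ[W] (algebraMap (MvPowerSeries (Fin d) W) B₂ (v a)) := hx1 a
      rw [h3, lT_apply, LinearMap.lTensor_tmul, fm_apply, algebraMap_smul]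
    | add x y hx hy =>
      obtain ⟨a, rfl⟩ := hx
      obtain ⟨b, rfl⟩ := hy
      exact ⟨a + b, map_add _ _ _⟩
  · intro c x
    change (∑ a : F.ι 0, ev hq (ε (Pi.single a 1)) ((algebraMap Γ (Q d n Γ) c • x) a)) =
      c • ∑ a : F.ι 0, ev hq (ε (Pi.single a 1)) (x a)
    rw [Finset.smul_sum]
    refine Finset.sum_congr rfl fun a _ => ?_
    refine Eq.trans ?_ (map_smul _ _ _)
    exact congrArg _ (Q_smul c (x a)).symm
  · intro y
    change (∑ a : F.ι 0, ev hq (ε (Pi.single a 1))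
        (((F.map (tau n φ)).dA (Q d n Γ) (Q d n Γ) 0 y) a)) = 0
    have h3 : ∀ a : F.ι 0, ((F.map (tau n φ)).dA (Q d n Γ) (Q d n Γ) 0 y) a =
        ∑ b : F.ι 1, tau n φ (F.d 0 a b) * y b := fun a => rfl
    have h4 : ∀ a : F.ι 0, ev hq (ε (Pi.single a 1))
        (((F.map (tau n φ)).dA (Q d n Γ) (Q d n Γ) 0 y) a) =
        ∑ b : F.ι 1, ev hq (F.d 0 a b • ε (Pi.single a 1)) (y b) := by
      intro a
      rw [h3, map_sum]
      exact Finset.sum_congr rfl fun b _ => (ev_smul hq hφ hx _ _ _).symm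
    rw [Finset.sum_congr rfl fun a _ => h4 a, Finset.sum_comm]
    refine Finset.sum_eq_zero fun b _ => ?_
    have h5 : ∀ a : F.ι 0, ev hq (F.d 0 a b • ε (Pi.single a 1)) (y b) =
      evA hq (y b) (F.d 0 a b • ε (Pi.single a 1)) := fun a => rfl
    rw [Finset.sum_congr rfl fun a _ => h5 a, ← map_sum]
    have h6 : (∑ a : F.ι 0, F.d 0 a b • ε (Pi.single a 1)) = 0 := by
      rw [← hd (Pi.single b 1), hgen]
      refine Finset.sum_congr rfl fun a _ => ?_
      congr 1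
      change _ = ∑ c, F.d 0 a c • (Pi.single b (1 : MvPowerSeries (Fin d) W) :
        F.ι 1 → MvPowerSeries (Fin d) W) c
      simp [Pi.single_apply]
    rw [h6, map_zero]

end main

end

end Crest.Agent.R188.Tay
end

-- ▼ part R188/Tay8

/-!
# R188 (Serre positivity), S-level (e) for a general finitely generated module `M`: final form.
helper415
-/

set_option autoImplicit false
set_option linter.unusedSectionVars false

namespace Crest.Agent.R188.Tay

open Crest.Agent.R183 Crest.Agent.R183.Res TensorProduct IsLocalRing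
open scoped ENNReal

noncomputable section

universe u v w

section final

variable {d : ℕ} {W : Type u} [CommRing W] [IsLocalRing W] [IsNoetherianRing W]
  {Γ : Type u} [CommRing Γ] [Algebra W Γ] {φ : MvPowerSeries (Fin d) W →+* Γ}

/-- **Lower bound (e)** for a general module. -/
theorem lower_bound_M {n : ℕ} (Λ : AddLen.{u, u} Γ) {ϖ : W}
    (hϖ : IsLocalRing.maximalIdeal W = Ideal.span {ϖ})
    (hφ : ∀ w, φ (MvPowerSeries.C w) = algebraMap W Γ w)
    {𝔞 : Ideal (MvPowerSeries (Fin d) W)} {𝔟 : Ideal Γ} {h k : ℕ} (hn : 2 * h ≤ n)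
    (hx : ∀ i : Fin d, (MvPowerSeries.X i) ^ h ∈ 𝔞)
    (hk : (MvPowerSeries.C ϖ) ^ k ∈ 𝔞)
    (hx' : ∀ i : Fin d, φ (MvPowerSeries.X i) ^ h ∈ 𝔟 ⊔ Ideal.span {algebraMap W Γ ϖ ^ k})
    (M : Type u) [AddCommGroup M] [Module (MvPowerSeries (Fin d) W) M]
    (hfin : IsFiniteLength (MvPowerSeries (Fin d) W)
      (M ⧸ (𝔞 • (⊤ : Submodule (MvPowerSeries (Fin d) W) M))))
    (htor : Λ.L (tor Γ (Γ ⧸ 𝔟) ϖ) = 0)
    (F : MCx (MvPowerSeries (Fin d) W))
    (ε : (F.ι 0 → MvPowerSeries (Fin d) W) →ₗ[MvPowerSeries (Fin d) W] M)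
    (hε : Function.Surjective ε)
    (hd : ∀ y, ε (F.dM (MvPowerSeries (Fin d) W) 0 y) = 0) :
    ∃ N : ℕ, Module.length (MvPowerSeries (Fin d) W)
        (M ⧸ (𝔞 • (⊤ : Submodule (MvPowerSeries (Fin d) W) M))) = N ∧
      N * Λ.L (modϖ Γ (Γ ⧸ 𝔟) ϖ) ≤
        Chi.hX (Λ.restrict (algebraMap Γ (Q d n Γ))) (F.map (tau n φ)) (Q d n Γ) 0 := by
  have hmem : ∀ s : MvPowerSeries (Fin d) W, s ∈ IsLocalRing.maximalIdeal (MvPowerSeries (Fin d) W) ↔
      ϖ ∣ MvPowerSeries.constantCoeff s := by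
    intro s
    rw [IsLocalRing.mem_maximalIdeal, mem_nonunits_iff, MvPowerSeries.isUnit_iff_constantCoeff,
      ← mem_nonunits_iff, ← IsLocalRing.mem_maximalIdeal, hϖ, Ideal.mem_span_singleton]
  let iW : Module W (M ⧸ (𝔞 • (⊤ : Submodule (MvPowerSeries (Fin d) W) M))) :=
    Module.compHom _ (MvPowerSeries.C (σ := Fin d) (R := W))
  have iT : IsScalarTower W (MvPowerSeries (Fin d) W)
      (M ⧸ (𝔞 • (⊤ : Submodule (MvPowerSeries (Fin d) W) M))) := by
    refine ⟨fun w s x => ?_⟩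
    have h1 : w • s = (MvPowerSeries.C w) * s := MvPowerSeries.smul_eq_C_mul _ _
    rw [h1, mul_smul]
    rfl
  have iT2 : IsScalarTower W (MvPowerSeries (Fin d) W ⧸ 𝔞)
      (M ⧸ (𝔞 • (⊤ : Submodule (MvPowerSeries (Fin d) W) M))) := by
    refine ⟨fun w s x => ?_⟩
    obtain ⟨s, rfl⟩ := Ideal.Quotient.mk_surjective s
    obtain ⟨x, rfl⟩ := Submodule.mkQ_surjective _ x
    change Submodule.mkQ _ ((w • s) • x) = w • (Submodule.mkQ _ (s • x))
    rw [map_smul, map_smul, smul_assoc]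
  obtain ⟨N, hN, hN'⟩ := L_tensor (S := MvPowerSeries (Fin d) W) (Y := Γ ⧸ 𝔟) Λ (ϖ := ϖ)
    (fun w => by
      rw [hmem]
      change ϖ ∣ MvPowerSeries.constantCoeff (MvPowerSeries.C w) ↔ _
      rw [MvPowerSeries.constantCoeff_C])
    (fun s => ⟨MvPowerSeries.constantCoeff s, by
      rw [hmem, map_sub]
      change ϖ ∣ MvPowerSeries.constantCoeff s -
        MvPowerSeries.constantCoeff (MvPowerSeries.C (MvPowerSeries.constantCoeff s))
      rw [MvPowerSeries.constantCoeff_C, sub_self]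
      exact dvd_zero ϖ⟩) htor hfin iW iT
  refine ⟨N, hN, ?_⟩
  rw [← hN']
  have e1 : ∀ i : Fin d, (algebraMap (MvPowerSeries (Fin d) W) (MvPowerSeries (Fin d) W ⧸ 𝔞)
      (MvPowerSeries.X i)) ^ h = 0 := fun i => by
    rw [← map_pow]
    exact Ideal.Quotient.eq_zero_iff_mem.2 (hx i)
  have e2 : algebraMap W (MvPowerSeries (Fin d) W ⧸ 𝔞) ϖ ^ k = 0 := by
    rw [← map_pow]
    refine Ideal.Quotient.eq_zero_iff_mem.2 ?_
    change MvPowerSeries.C (ϖ ^ k) ∈ 𝔞
    rw [map_pow]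
    exact hk
  have e3 : ∀ i : Fin d, algebraMap Γ (Γ ⧸ 𝔟) (φ (MvPowerSeries.X i)) ^ h ∈
      Ideal.span {algebraMap W (Γ ⧸ 𝔟) ϖ ^ k} := fun i => by
    have h1 := Ideal.mem_map_of_mem (Ideal.Quotient.mk 𝔟) (hx' i)
    rw [Ideal.map_sup, Ideal.map_quotient_self, bot_sup_eq, Ideal.map_span, Set.image_singleton,
      map_pow, map_pow] at h1
    exact h1
  have hq : ∀ i : Fin d, (tq φ (Γ ⧸ 𝔟) (MvPowerSeries (Fin d) W ⧸ 𝔞) i :
      (Γ ⧸ 𝔟) ⊗[W] (MvPowerSeries (Fin d) W ⧸ 𝔞)) ^ n = 0 := fun i =>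
    sub_pow_zero (ta_pow e1 i) (tb_pow e2 e3 i) hn
  refine L_le_hX (B₂ := MvPowerSeries (Fin d) W ⧸ 𝔞) Λ hq hφ e1 Ideal.Quotient.mk_surjective
    Ideal.Quotient.mk_surjective F
    ((Submodule.mkQ (𝔞 • (⊤ : Submodule (MvPowerSeries (Fin d) W) M))) ∘ₗ ε)
    ((Submodule.mkQ_surjective _).comp hε) ?_
  intro y
  rw [LinearMap.comp_apply, hd, map_zero]

variable [IsNoetherianRing (MvPowerSeries (Fin d) W)]

/-- **(e)** for a general module: the asymptotic lower bound. -/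
theorem lower_asymp_M (Λ : AddLen.{u, u} Γ) {ϖ : W}
    (hϖ : maximalIdeal W = Ideal.span {ϖ})
    (hφ : ∀ w, φ (MvPowerSeries.C w) = algebraMap W Γ w)
    (M : Type u) [AddCommGroup M] [Module (MvPowerSeries (Fin d) W) M]
    [Module.Finite (MvPowerSeries (Fin d) W) M]
    {F : MCx (MvPowerSeries (Fin d) W)}
    {ε : (F.ι 0 → MvPowerSeries (Fin d) W) →ₗ[MvPowerSeries (Fin d) W] M} (hF : Chi.IsRes F ε)
    (t : List (MvPowerSeries (Fin d) W))
    (ht : ∀ a ∈ t, a ∈ maximalIdeal (MvPowerSeries (Fin d) W))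
    (hM : ∃ N : ℕ, maximalIdeal (MvPowerSeries (Fin d) W) ^ N ≤
      Module.annihilator (MvPowerSeries (Fin d) W) M ⊔ Ideal.ofList t)
    (hdim : Module.supportDim (MvPowerSeries (Fin d) W) M = (t.length : ℕ))
    (v : List Γ) (hv : ∃ K : ℕ, ∀ i : Fin d,
      φ (MvPowerSeries.X i) ^ K ∈ Ideal.span {algebraMap W Γ ϖ} ⊔ Ideal.ofList v)
    (hreg : ∀ i : ℤ, 1 ≤ i → KosG.kh Λ (algebraMap W Γ ϖ :: v) Γ i = 0)
    (htop : KosG.kh Λ (algebraMap W Γ ϖ :: v) Γ 0 ≠ ⊤) :
    ∃ C : ℕ, 0 < C ∧ ∀ n : ℕ, C ≤ n →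
      (n : ℝ≥0∞) ^ (t.length + v.length) * KosG.kh Λ (algebraMap W Γ ϖ :: v) Γ 0 ≤
        (C : ℝ≥0∞) ^ (t.length + v.length) *
          Chi.hX (Λ.restrict (algebraMap Γ (Q d n Γ))) (F.map (tau n φ)) (Q d n Γ) 0 := by
  obtain ⟨N, hN⟩ := hM
  obtain ⟨K, hK⟩ := hv
  obtain ⟨H, hH⟩ := exists_exps φ (ϖ := ϖ)
    (by rw [hϖ]; exact Ideal.mem_span_singleton_self ϖ) t hN v hK
  have hgood : Eq.Good t M := ⟨inferInstance, N, hN⟩
  -- the bound for each `m`
  have key : ∀ m n : ℕ, 0 < m → 2 * H * m ≤ n →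
      (m : ℝ≥0∞) ^ (t.length + v.length) * KosG.kh Λ (algebraMap W Γ ϖ :: v) Γ 0 ≤
        Chi.hX (Λ.restrict (algebraMap Γ (Q d n Γ))) (F.map (tau n φ)) (Q d n Γ) 0 := by
    intro m n hm hn
    obtain ⟨h, k, hh, h1, h2, h3⟩ := hH m hm
    obtain ⟨h4, h5⟩ := pow_le_length t ht M hgood hdim m hm
    have hsm : (Module.annihilator (MvPowerSeries (Fin d) W) M ⊔ Ideal.ofList (t.map (· ^ m))) •
        (⊤ : Submodule (MvPowerSeries (Fin d) W) M) = Ideal.ofList (t.map (· ^ m)) • ⊤ := by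
      have h0 : Module.annihilator (MvPowerSeries (Fin d) W) M •
          (⊤ : Submodule (MvPowerSeries (Fin d) W) M) = ⊥ := by
        rw [eq_bot_iff, Submodule.smul_le]
        intro r hr x _
        exact (Submodule.mem_bot _).2 (Module.mem_annihilator.1 hr x)
      rw [Submodule.sup_smul, h0, bot_sup_eq]
    rw [← hsm] at h4 h5
    obtain ⟨h6, h7⟩ := KosG.quot_map_pow Λ Γ (algebraMap W Γ ϖ) v hreg htop m
    have h8 : (Ideal.ofList (v.map (· ^ m)) • (⊤ : Submodule Γ Γ)) = Ideal.ofList (v.map (· ^ m)) := by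
      rw [smul_eq_mul, Ideal.mul_top]
    rw [h8] at h6 h7
    obtain ⟨N', hN', hle⟩ := lower_bound_M (φ := φ) Λ hϖ hφ
      (𝔞 := Module.annihilator (MvPowerSeries (Fin d) W) M ⊔ Ideal.ofList (t.map (· ^ m)))
      (𝔟 := Ideal.ofList (v.map (· ^ m))) (h := h) (k := k) (n := n)
      (by nlinarith) h1 h2 (fun i => by
        have := h3 i
        rwa [← map_pow] at this ⊢) M (Module.length_ne_top_iff.1 h4) h6 F ε hF.surj hF.ε_d
    refine le_trans ?_ hle
    rw [hN', ENat.toNat_natCast] at h5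
    have h9 : Λ.L (modϖ Γ (Γ ⧸ Ideal.ofList (v.map (· ^ m))) ϖ) =
      (m : ℝ≥0∞) ^ v.length * KosG.kh Λ (algebraMap W Γ ϖ :: v) Γ 0 := h7
    rw [h9, pow_add, mul_assoc]
    gcongr
    exact_mod_cast h5
  refine ⟨2 * (2 * H + 1), by omega, fun n hn => ?_⟩
  have hm : 0 < n / (2 * H + 1) := Nat.div_pos (by omega) (by omega)
  have h1 := key (n / (2 * H + 1)) n hm (by
    have := Nat.mul_div_le n (2 * H + 1)
    nlinarith)
  refine le_trans ?_ (mul_le_mul_right h1 _)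
  rw [← mul_assoc, ← mul_pow]
  gcongr
  have h2 : n ≤ 2 * (2 * H + 1) * (n / (2 * H + 1)) := by
    have h3 := Nat.div_add_mod n (2 * H + 1)
    have h4 := Nat.mod_lt n (show 0 < 2 * H + 1 by omega)
    nlinarith
  exact_mod_cast h2

/-- **(e)** for a general module, helper546's form. -/
theorem lower_asymp_M' (Λ : AddLen.{u, u} Γ) {ϖ : W}
    (hϖ : maximalIdeal W = Ideal.span {ϖ})
    (hφ : ∀ w, φ (MvPowerSeries.C w) = algebraMap W Γ w)
    (M : Type u) [AddCommGroup M] [Module (MvPowerSeries (Fin d) W) M]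
    [Module.Finite (MvPowerSeries (Fin d) W) M]
    {F : MCx (MvPowerSeries (Fin d) W)}
    {ε : (F.ι 0 → MvPowerSeries (Fin d) W) →ₗ[MvPowerSeries (Fin d) W] M} (hF : Chi.IsRes F ε)
    (t : List (MvPowerSeries (Fin d) W))
    (ht : ∀ a ∈ t, a ∈ maximalIdeal (MvPowerSeries (Fin d) W))
    (hM : ∃ N : ℕ, maximalIdeal (MvPowerSeries (Fin d) W) ^ N ≤
      Module.annihilator (MvPowerSeries (Fin d) W) M ⊔ Ideal.ofList t)
    (hdim : Module.supportDim (MvPowerSeries (Fin d) W) M = (t.length : ℕ))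
    (v : List Γ) (hv : ∃ K : ℕ, ∀ i : Fin d,
      φ (MvPowerSeries.X i) ^ K ∈ Ideal.span {algebraMap W Γ ϖ} ⊔ Ideal.ofList v)
    (hreg : ∀ i : ℤ, 1 ≤ i → KosG.kh Λ (algebraMap W Γ ϖ :: v) Γ i = 0)
    (htop : KosG.kh Λ (algebraMap W Γ ϖ :: v) Γ 0 ≠ ⊤)
    (hpos : KosG.kh Λ (algebraMap W Γ ϖ :: v) Γ 0 ≠ 0) (hd : t.length + v.length = d) :
    ∃ c : ℝ, 0 < c ∧ ∃ n₀ : ℕ, ∀ n : ℕ, n₀ ≤ n →
      ENNReal.ofReal (c * (n : ℝ) ^ d) ≤
          Chi.hX (Λ.restrict (algebraMap Γ (Q d n Γ))) (F.map (tau n φ)) (Q d n Γ) 0 := by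
  obtain ⟨C, hC, h⟩ := lower_asymp_M Λ hϖ hφ M hF t ht hM hdim v hv hreg htop
  rw [hd] at h
  have hC0 : ((C : ℝ≥0∞) ^ d) ≠ 0 := by
    have : (C : ℝ≥0∞) ≠ 0 := by exact_mod_cast hC.ne'
    exact pow_ne_zero _ this
  have hC1 : ((C : ℝ≥0∞) ^ d) ≠ ⊤ := by simp
  refine ⟨((KosG.kh Λ (algebraMap W Γ ϖ :: v) Γ 0) / (C : ℝ≥0∞) ^ d).toReal,
    ENNReal.toReal_pos (ENNReal.div_ne_zero.2 ⟨hpos, hC1⟩) (ENNReal.div_ne_top htop hC0), C,
    fun n hn => ?_⟩
  rw [ENNReal.ofReal_mul ENNReal.toReal_nonneg, ENNReal.ofReal_pow (Nat.cast_nonneg n),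
    ENNReal.ofReal_natCast, ENNReal.ofReal_toReal (ENNReal.div_ne_top htop hC0),
    ENNReal.div_eq_inv_mul, mul_assoc]
  refine (mul_le_mul_right (?_ : _ ≤ _) _).trans ((ENNReal.inv_mul_le_iff hC0 hC1).2 (h n hn))
  rw [mul_comm]

end final

end

end Crest.Agent.R188.Tay
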