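import Crest.Agent.R188.SX10_Mg
import Crest.Agent.R188.Chr5
import Crest.Agent.R188.AsmU1
import Crest.Agent.R188.Tay8
import Crest.Agent.R188.Lft5
import Crest.Agent.R188.Asm3
import Crest.Agent.R188.FinA5
import Crest.Agent.R188.PerfC3
import Crest.Agent.R188.FlgKos
import Crest.Agent.R188.KosC
import Crest.Agent.R188.UB5
import Crest.Agent.R188.FinA3
import Crest.Agent.R188.Noe6
import Mathlib
import Crest.Agent.R183.M1
import Crest.Agent.R183.G11
import Crest.Agent.R183.RD8

-- ▼ part R188/Last1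
section

set_option autoImplicit false

namespace Crest.Agent.R188.Last

open Crest.Agent.R188 Crest.Agent.R188.Asm

/-- `CORE` from a world with `Twist` (`LeftSide`: helper111, `Transfer`: helper622, `SVanish`,
`SPositive`: helper546, helper415) -/
theorem core_of_world
    (hW : ∀ (p : ℕ) [Fact p.Prime] (k : Type) [Field k] [IsAlgClosed k] [CharP k p] (b : ℕ),
      ∃ W : World p k b, Twist W) : Top.CORE :=
  Asm.core_of fun p _ k _ _ _ b => by
    obtain ⟨W, hT⟩ := hW p k b
    exact ⟨W, hT, PerfC.leftSide W, Slt.transfer W SX.svanish SX.spositive⟩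

/-- **S0288 from a world with `Twist`** -/
theorem s288_of_world
    (hW : ∀ (p : ℕ) [Fact p.Prime] (k : Type) [Field k] [IsAlgClosed k] [CharP k p] (b : ℕ),
      ∃ W : World p k b, Twist W) (R : Type) [CommRing R] [IsRegularLocalRing R] : Eq.S288 R :=
  Chr.s288_of_core (core_of_world hW) R

end Crest.Agent.R188.Last
end

-- ▼ part R188/Tay9
section

/-!
# R188 (Serre positivity), S-level (e), closed form: the lower bound under the hypotheses of
`Asm.SPositive`.   helper415
-/

set_option autoImplicit false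
set_option linter.unusedSectionVars false

namespace Crest.Agent.R188.Tay

open WittVector Crest.Agent.R183 Crest.Agent.R183.Res IsLocalRing Crest.Agent.R188.Asm
open Crest.Agent.R188.KosG Crest.Agent.R188.Chi
open scoped ENNReal

noncomputable section

section exps

variable {R Γ : Type} [CommRing R] [CommRing Γ] {ι : Type} [Fintype ι]


end exps

variable {p : ℕ} [hp : Fact p.Prime] {k : Type} [Field k] [CharP k p] [PerfectRing k p] {d : ℕ}


instance isNoetherianRing_witt : IsNoetherianRing (WittVector p k) :=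
  (Cohen.isCohen_witt p k).isNoetherianRing



end

end Crest.Agent.R188.Tay
end

-- ▼ part R188/FinA6
section

/-!
# R188, block FINA (helper414), part 6: finiteness of `I(t,0)/I(t,m)` from the Hilbert bound
-/

set_option autoImplicit false
set_option linter.unusedSectionVars false
set_option linter.style.haveILetI false

namespace Crest.Agent.R188.FinA

open scoped ENNReal Pointwise
open WittVector Function Crest.Agent.R188.Prf Crest.Agent.R188.Wit Crest.Agent.R183
open Crest.Agent.R183.Digit (Convex)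
open Crest.Agent.R188.Asm

/-- the Hilbert bound over the finite subalgebras of `B⁺` (helper162, HB7). -/
def HBound (p : ℕ) [Fact p.Prime] (k : Type) [Field k] [CharP k p] (b : ℕ) : Prop :=
  ∀ s : Set (BPlus p k b), s.Finite → ∃ (N : Type) (_ : CommRing N) (_ : Algebra (BB p k b) N)
    (f : N →+* BPlus p k b), (∀ x, f (algebraMap (BB p k b) N x) =
      algebraMap (BB p k b) (BPlus p k b) x) ∧ s ⊆ Set.range f ∧
    ∀ 𝔠 : Ideal N, ∃ C : ℕ, ∀ t M : ℕ, Module.length (BB p k b)
      (↥(𝔠 ^ t) ⧸ (((mB p k b).map (algebraMap (BB p k b) N)) ^ M • ⊤ : Submodule N ↥(𝔠 ^ t))) ≤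
      C * ((t + M + 1 : ℕ) : ℕ∞) ^ (b + 1)

section world

variable {p : ℕ} [hp : Fact p.Prime] {k : Type} [Field k] [CharP k p] [IsAlgClosed k] {b : ℕ}
  (W : World p k b)

theorem fin_of_fam (hB : HBound p k b) (F : Fam p W.P) {ι : Type} [Fintype ι] (c : ι → W.P)
    (r : ι → ℕ → BPlus p k b) (hcr : ∀ i, SharpPair W.perf W.ι (c i) (r i))
    (hc : ∀ i, c i ∈ F.I 1 0) {s : ℕ} (hS : F.Skoda c s) (hs : 1 ≤ s)
    (ht : ∀ i, W.t i ∈ F.I 0 1) {h : W.P} {hr : ℕ → BPlus p k b}
    (hh : SharpPair W.perf W.ι h hr) (h0 : hr 0 ≠ 0) (hI : h ∈ F.I s 0) {t : ℕ} (ht1 : 1 ≤ t)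
    (m : ℕ) : (LP W.Λ).L (↥(F.I t 0) ⧸ (F.I t m).submoduleOf (F.I t 0)) ≠ ⊤ := by
  obtain ⟨N', _, _, f, hf, hsN, hN⟩ := hB (Set.range fun i => r i 0) (Set.finite_range _)
  let ψ : N' →+* Om W.ξ := W.ι.comp f
  have hex : ∀ i, ∃ x, f x = r i 0 := fun i => hsN ⟨i, rfl⟩
  choose c' hc' using hex
  let 𝔠 : Ideal N' := Ideal.span (Set.range c')
  let 𝔶 : Ideal N' := (mB p k b).map (algebraMap (BB p k b) N')
  obtain ⟨C, hC⟩ := hN 𝔠
  have hψc : ∀ i, ψ (c' i) = sh W.ξ (c i) := fun i => by
    rw [AsmG.SharpPair.sh_eq (hcr i), ← hc']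
    rfl
  have hψB : ∀ x : BB p k b, ψ (algebraMap (BB p k b) N' x) = algebraMap (BB p k b) (Om W.ξ) x :=
    fun x => congrArg W.ι (hf x)
  have hπ : W.π ∈ F.I 0 1 := by
    obtain ⟨u, hu⟩ := W.t_zero
    rw [← hu]
    exact Ideal.mul_mem_right _ _ (ht 0)
  have hmax : (IsLocalRing.maximalIdeal (BB p k b)).map (ψ.comp (algebraMap (BB p k b) N')) =
      Ideal.ofList (PerfC.tOm W) := by
    rw [← PerfC.maxBB p k b]
    have h1 : ψ.comp (algebraMap (BB p k b) N') = algebraMap (BB p k b) (Om W.ξ) :=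
      RingHom.ext hψB
    rw [h1, Ideal.map_ofList, PerfC.map_tB]
  have hLtop : (LOm W.ξ W.Λ).L (Om W.ξ ⧸ (IsLocalRing.maximalIdeal (BB p k b)).map
      (ψ.comp (algebraMap (BB p k b) N'))) ≠ ⊤ := by
    rw [hmax]
    have h1 := PerfC.kfin_tOm W 0
    rw [KosG.kh_zero] at h1
    have h2 : (Ideal.ofList (PerfC.tOm W) • (⊤ : Submodule (Om W.ξ) (Om W.ξ))) =
        Ideal.ofList (PerfC.tOm W) := by
      rw [smul_eq_mul, Ideal.mul_top]
    rwa [h2] at h1
  have hcount := fun t M => F.count (hP := W.perf) (Λ := W.Λ) (ξ := W.ξ) hS hc ψ 𝔠 𝔶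
    (fun i => by
      rw [← hψc]
      exact Ideal.mem_map_of_mem _ (Ideal.subset_span ⟨i, rfl⟩))
    (fun x hx => by
      have h1 : 𝔠 ≤ (JI W.perf W.ξ (F.I 1 0)).comap ψ := by
        rw [Ideal.span_le]
        rintro _ ⟨i, rfl⟩
        rw [SetLike.mem_coe, Ideal.mem_comap, hψc]
        exact sh_mem_JI (hc i)
      exact h1 hx)
    (fun x hx => by
      have h1 : 𝔶 ≤ (JI W.perf W.ξ (F.I 0 1)).comap ψ := by
        rw [Ideal.map_le_iff_le_comap, mB, Ideal.span_le]
        rintro _ ⟨i, rfl⟩
        rw [SetLike.mem_coe, Ideal.mem_comap, Ideal.mem_comap, hψB, ← sh_t]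
        exact sh_mem_JI (ht i)
      exact h1 hx) hC t M
  have key := fin_bound (Λ := W.Λ) W.cont W.dist F (D := b + 1) W.frob W.t ht hπ W.L_ne_top hs hI
    (W.null h hr hh h0) _ hcount ht1 m
  refine ne_top_of_le_ne_top ?_ key
  exact ENNReal.mul_ne_top (ENNReal.mul_ne_top (ENNReal.natCast_ne_top _) hLtop)
    (ENNReal.pow_ne_top (ENNReal.natCast_ne_top _))

end world

end Crest.Agent.R188.FinA
end

-- ▼ part R188/FinB1
section

/-!
# R188, FinB1 (helper546): the Koszul complex on `Finset (Fin s) → X` is `KosG.kos (List.ofFn g) X`,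
and the strand lemma `KosNull + finite colength ⇒ finite Koszul lengths`.
-/

set_option autoImplicit false

namespace Crest.Agent.R188.FinB

open Crest.Agent.R183 Crest.Agent.R188.Flg Crest.Agent.R188.KosG
open scoped ENNReal

universe u v

variable {A : Type u} [CommRing A]

/-- The Koszul complex on finsets, as a graded complex. -/
def fsk {s : ℕ} (g : Fin s → A) (X : Type v) [AddCommGroup X] [Module A X] : GCx.{u, v} A where
  T := Finset (Fin s) → X
  gr := fun i =>
    { carrier := {f | ∀ B : Finset (Fin s), (B.card : ℤ) ≠ i → f B = 0}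
      add_mem' := by
        intro f f' h h' B hB
        rw [Pi.add_apply, h B hB, h' B hB, add_zero]
      zero_mem' := fun B _ => rfl
      smul_mem' := by
        intro a f h B hB
        rw [Pi.smul_apply, h B hB, smul_zero] }
  D := kD g
  D_gr := by
    intro i f hf B hB
    rw [kD_apply]
    refine Finset.sum_eq_zero fun j hj => ?_
    rw [Finset.mem_compl] at hj
    rw [hf _ (by rw [Finset.card_insert_of_notMem hj]; push_cast; omega), smul_zero]
  DD := fun f => kD_kD g f


/-! ### splitting off `0` -/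

section split

variable {s : ℕ}

/-- `B ↦ B.map succ` -/
def up (B : Finset (Fin s)) : Finset (Fin (s + 1)) := B.map (Fin.succEmb s)

/-- `B ↦ {0} ∪ B.map succ` -/
def up0 (B : Finset (Fin s)) : Finset (Fin (s + 1)) := insert 0 (up B)

/-- the preimage under `succ` -/
def dn (B : Finset (Fin (s + 1))) : Finset (Fin s) := Finset.univ.filter fun i => i.succ ∈ B

lemma mem_up {B : Finset (Fin s)} {i : Fin s} : i.succ ∈ up B ↔ i ∈ B := by
  unfold up
  rw [Finset.mem_map]
  constructor
  · rintro ⟨j, hj, e⟩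
    have : j = i := Fin.succ_injective _ e
    rwa [← this]
  · intro h; exact ⟨i, h, rfl⟩

lemma zero_notMem_up (B : Finset (Fin s)) : (0 : Fin (s + 1)) ∉ up B := by
  unfold up
  rw [Finset.mem_map]
  rintro ⟨j, _, e⟩
  exact Fin.succ_ne_zero j e

lemma mem_up0 {B : Finset (Fin s)} {i : Fin s} : i.succ ∈ up0 B ↔ i ∈ B := by
  unfold up0
  rw [Finset.mem_insert, mem_up]
  constructor
  · rintro (h | h)
    · exact absurd h (Fin.succ_ne_zero i)
    · exact h
  · exact fun h => Or.inr h

lemma mem_dn {B : Finset (Fin (s + 1))} {i : Fin s} : i ∈ dn B ↔ i.succ ∈ B := by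
  simp [dn]

lemma up_dn {B : Finset (Fin (s + 1))} (h : (0 : Fin (s + 1)) ∉ B) : up (dn B) = B := by
  ext i
  refine Fin.cases ?_ (fun j => ?_) i
  · exact ⟨fun h' => absurd h' (zero_notMem_up _), fun h' => absurd h' h⟩
  · rw [mem_up, mem_dn]

lemma up0_dn {B : Finset (Fin (s + 1))} (h : (0 : Fin (s + 1)) ∈ B) : up0 (dn B) = B := by
  ext i
  refine Fin.cases ?_ (fun j => ?_) i
  · exact ⟨fun _ => h, fun _ => Finset.mem_insert_self _ _⟩
  · rw [mem_up0, mem_dn]

lemma dn_up (B : Finset (Fin s)) : dn (up B) = B := by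
  ext i; rw [mem_dn, mem_up]

lemma dn_up0 (B : Finset (Fin s)) : dn (up0 B) = B := by
  ext i; rw [mem_dn, mem_up0]

lemma card_up (B : Finset (Fin s)) : (up B).card = B.card := Finset.card_map _

lemma card_up0 (B : Finset (Fin s)) : (up0 B).card = B.card + 1 := by
  unfold up0
  rw [Finset.card_insert_of_notMem (zero_notMem_up B), card_up]

lemma insert_up (i : Fin s) (B : Finset (Fin s)) : insert i.succ (up B) = up (insert i B) := by
  ext j
  refine Fin.cases ?_ (fun j => ?_) j
  · constructor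
    · intro h
      rcases Finset.mem_insert.1 h with h | h
      · exact absurd h.symm (Fin.succ_ne_zero i)
      · exact absurd h (zero_notMem_up B)
    · intro h; exact absurd h (zero_notMem_up _)
  · rw [Finset.mem_insert, mem_up, mem_up, Finset.mem_insert, Fin.succ_inj]

lemma insert_up0 (i : Fin s) (B : Finset (Fin s)) : insert i.succ (up0 B) = up0 (insert i B) := by
  unfold up0
  rw [Finset.insert_comm, insert_up]

lemma sg_up (i : Fin s) (B : Finset (Fin s)) : sg A i.succ (up B) = sg A i B := by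
  unfold sg
  congr 1
  have : (up B).filter (· < i.succ) = up (B.filter (· < i)) := by
    ext j
    refine Fin.cases ?_ (fun j => ?_) j
    · constructor
      · intro h; exact absurd (Finset.mem_filter.1 h).1 (zero_notMem_up B)
      · intro h; exact absurd h (zero_notMem_up _)
    · rw [Finset.mem_filter, mem_up, mem_up, Finset.mem_filter, Fin.succ_lt_succ_iff]
  rw [this, card_up]

lemma sg_up0 (i : Fin s) (B : Finset (Fin s)) : sg A i.succ (up0 B) = - sg A i B := by
  unfold up0
  rw [sg_insert_of_lt (zero_notMem_up B) (Fin.succ_pos i), sg_up]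

lemma sg_zero (B : Finset (Fin (s + 1))) : sg A (0 : Fin (s + 1)) B = 1 := by
  unfold sg
  have : B.filter (· < (0 : Fin (s + 1))) = ∅ := by
    rw [Finset.filter_eq_empty_iff]
    intro x _
    exact Fin.not_lt_zero x
  rw [this, Finset.card_empty, pow_zero]

lemma compl_up (B : Finset (Fin s)) : (up B)ᶜ = insert 0 (up Bᶜ) := by
  ext i
  refine Fin.cases ?_ (fun j => ?_) i
  · constructor
    · intro _; exact Finset.mem_insert_self _ _
    · intro _; rw [Finset.mem_compl]; exact zero_notMem_up B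
  · change _ ↔ j.succ ∈ up0 Bᶜ
    rw [Finset.mem_compl, mem_up, mem_up0, Finset.mem_compl]

lemma compl_up0 (B : Finset (Fin s)) : (up0 B)ᶜ = up Bᶜ := by
  ext i
  refine Fin.cases ?_ (fun j => ?_) i
  · constructor
    · intro h; rw [Finset.mem_compl] at h; exact absurd (Finset.mem_insert_self _ _) h
    · intro h; exact absurd h (zero_notMem_up _)
  · rw [Finset.mem_compl, mem_up0, mem_up, Finset.mem_compl]

variable {X : Type v} [AddCommGroup X] [Module A X]

theorem kD_up (g : Fin (s + 1) → A) (f : Finset (Fin (s + 1)) → X) (B : Finset (Fin s)) :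
    kD g f (up B) = kD (fun i => g i.succ) (fun C => f (up C)) B + g 0 • f (up0 B) := by
  rw [kD_apply, compl_up, Finset.sum_insert (zero_notMem_up _), sg_zero, one_mul, add_comm]
  congr 1
  rw [kD_apply]
  unfold up
  rw [Finset.sum_map]
  refine Finset.sum_congr rfl fun i _ => ?_
  change (sg A i.succ (up B) * g i.succ) • f (insert i.succ (up B)) = _
  rw [sg_up, insert_up]
  rfl

theorem kD_up0 (g : Fin (s + 1) → A) (f : Finset (Fin (s + 1)) → X) (B : Finset (Fin s)) :
    kD g f (up0 B) = -kD (fun i => g i.succ) (fun C => f (up0 C)) B := by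
  rw [kD_apply, compl_up0, kD_apply, ← Finset.sum_neg_distrib]
  unfold up
  rw [Finset.sum_map]
  refine Finset.sum_congr rfl fun i _ => ?_
  change (sg A i.succ (up0 B) * g i.succ) • f (insert i.succ (up0 B)) = _
  rw [sg_up0, insert_up0, neg_mul, neg_smul]

/-- splitting off the index `0` -/
def splitE (s : ℕ) (A : Type u) [CommRing A] (X : Type v) [AddCommGroup X] [Module A X] :
    (Finset (Fin (s + 1)) → X) ≃ₗ[A] ((Finset (Fin s) → X) × (Finset (Fin s) → X)) where
  toFun f := (fun B => f (up B), fun B => f (up0 B))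
  map_add' _ _ := rfl
  map_smul' _ _ := rfl
  invFun p B := if (0 : Fin (s + 1)) ∈ B then p.2 (dn B) else p.1 (dn B)
  left_inv f := by
    funext B
    by_cases h : (0 : Fin (s + 1)) ∈ B
    · simp only [if_pos h, up0_dn h]
    · simp only [if_neg h, up_dn h]
  right_inv p := by
    refine Prod.ext ?_ ?_
    · funext B
      simp only [if_neg (zero_notMem_up B), dn_up]
    · funext B
      have : (0 : Fin (s + 1)) ∈ up0 B := Finset.mem_insert_self _ _
      simp only [if_pos this, dn_up0]

/-- the cone decomposition -/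
def splitIso (g : Fin (s + 1) → A) (X : Type v) [AddCommGroup X] [Module A X] :
    GCx.Iso (fsk g X) (GCx.cone (g 0) (fsk (fun i => g i.succ) X)) where
  e := splitE s A X
  gr := by
    intro i f
    constructor
    · rintro ⟨h1, h2⟩ B hB
      by_cases h : (0 : Fin (s + 1)) ∈ B
      · have := h2 (dn B) (by
          have e := card_up0 (dn B)
          rw [up0_dn h] at e
          intro e'
          apply hB
          rw [e]
          push_cast
          omega)
        change f (up0 (dn B)) = 0 at this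
        rwa [up0_dn h] at this
      · have := h1 (dn B) (by
          have e := card_up (dn B)
          rw [up_dn h] at e
          rw [← e]
          exact hB)
        change f (up (dn B)) = 0 at this
        rwa [up_dn h] at this
    · intro h
      refine ⟨fun B hB => h _ (by rw [card_up]; exact hB), fun B hB => h _ (by
        rw [card_up0]
        push_cast
        omega)⟩
  comm := by
    intro f
    refine Prod.ext ?_ ?_
    · funext B
      exact kD_up g f B
    · funext B
      exact kD_up0 g f B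

/-- no generators -/
def zeroIso (g : Fin 0 → A) (X : Type v) [AddCommGroup X] [Module A X] :
    GCx.Iso (fsk g X) (one A X) where
  e :=
    { toFun := fun f => f ∅
      map_add' := fun _ _ => rfl
      map_smul' := fun _ _ => rfl
      invFun := fun x _ => x
      left_inv := fun f => by
        funext B
        rw [Finset.eq_empty_of_isEmpty B]
      right_inv := fun _ => rfl }
  gr := by
    intro i f
    change (f ∅ : X) ∈ (if i = 0 then (⊤ : Submodule A X) else ⊥) ↔ _
    by_cases hi : i = 0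
    · rw [if_pos hi]
      subst hi
      refine ⟨fun _ B hB => ?_, fun _ => trivial⟩
      rw [Finset.eq_empty_of_isEmpty B] at hB
      exact absurd rfl hB
    · rw [if_neg hi, Submodule.mem_bot]
      constructor
      · intro h B _
        rw [Finset.eq_empty_of_isEmpty B]
        exact h
      · intro h
        exact h ∅ (by rw [Finset.card_empty]; exact fun e => hi e.symm)
  comm := by
    intro f
    exact (kD_apply g f ∅).trans (Finset.sum_eq_zero fun i _ => i.elim0)

end split

/-- **The Koszul complex on finsets is the iterated cone.** -/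
theorem exists_iso (X : Type v) [AddCommGroup X] [Module A X] : ∀ {s : ℕ} (g : Fin s → A),
    Nonempty (GCx.Iso (fsk g X) (kos (List.ofFn g) X))
  | 0, g => by
    rw [List.ofFn_zero]
    exact ⟨zeroIso g X⟩
  | s + 1, g => by
    obtain ⟨φ⟩ := exists_iso X (fun i : Fin s => g i.succ)
    rw [List.ofFn_succ, kos_cons]
    exact ⟨(splitIso g X).trans (φ.cone (g 0))⟩

theorem kh_eq (Λ : AddLen.{u, v} A) (X : Type v) [AddCommGroup X] [Module A X] {s : ℕ}
    (g : Fin s → A) (i : ℤ) : (fsk g X).h Λ i = kh Λ (List.ofFn g) X i := by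
  obtain ⟨φ⟩ := exists_iso X g
  exact φ.h_eq Λ i

theorem fsk_smul_H {s : ℕ} (g : Fin s → A) (X : Type v) [AddCommGroup X] [Module A X] (j : Fin s)
    (i : ℤ) (x : (fsk g X).H i) : g j • x = 0 := by
  obtain ⟨φ⟩ := exists_iso X g
  have h1 : g j ∈ (kos (List.ofFn g) X).NHI := by
    refine span_le_NHI X (List.ofFn g) (Submodule.mem_sup_left (Ideal.subset_span ?_))
    change g j ∈ List.ofFn g
    rw [List.mem_ofFn]
    exact ⟨j, rfl⟩
  have h2 : (fsk g X).NH (g j) := φ.symm.NH h1
  exact GCx.NH.smul_H h2 i x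

/-! ### the strand lemma -/

section strand

variable (Λ : AddLen.{u, v} A) {X : Type v} [AddCommGroup X] [Module A X] {s : ℕ}

/-- the graded piece modulo the strand is a finite power of `X ⧸ I q` -/
theorem L_gr_quot_ne_top (I : ℕ → Submodule A X) (q : ℕ)
    (hfin : Λ.L (X ⧸ I q) ≠ ⊤) (Z : Submodule A (Finset (Fin s) → X))
    (N : Submodule A Z)
    (hN : ∀ z : Z, (∀ B, (z : Finset (Fin s) → X) B ∈ I q) → z ∈ N) :
    Λ.L (Z ⧸ N) ≠ ⊤ := by
  classical
  -- `Z → ∏_B X/I q`, kernel in `N`
  let π : Z →ₗ[A] (Finset (Fin s) → (X ⧸ I q)) :=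
    LinearMap.pi (fun B => (I q).mkQ.comp ((LinearMap.proj B).comp Z.subtype))
  have hker : LinearMap.ker π ≤ N := by
    intro z hz
    refine hN z fun B => ?_
    have := congrFun (LinearMap.mem_ker.1 hz) B
    change (I q).mkQ ((z : Finset (Fin s) → X) B) = 0 at this
    rwa [Submodule.mkQ_apply, Submodule.Quotient.mk_eq_zero] at this
  -- `Z/N` is a quotient of `Z/ker π`, which embeds into the product
  have h1 : Λ.L (Z ⧸ N) ≤ Λ.L (Z ⧸ LinearMap.ker π) := by
    refine Λ.L_le_of_surjective (Submodule.factor hker) (Submodule.factor_surjective hker)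
  have h2 : Λ.L (Z ⧸ LinearMap.ker π) ≤ Λ.L (Finset (Fin s) → (X ⧸ I q)) := by
    refine Λ.L_le_of_injective (Submodule.liftQ _ π le_rfl) ?_
    rw [← LinearMap.ker_eq_bot]
    exact Submodule.ker_liftQ_eq_bot _ _ _ le_rfl
  have h3 : Λ.L (Finset (Fin s) → (X ⧸ I q)) ≠ ⊤ := by
    rw [Λ.L_pi_const]
    exact ENNReal.mul_ne_top (ENNReal.natCast_ne_top _) hfin
  exact ne_top_of_le_ne_top h3 (h1.trans h2)

/-- **STRAND LEMMA**: an almost exact strand of finite colength gives finite Koszul lengths. -/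
theorem h_ne_top (𝔞 : Ideal A) (g : Fin s → A) (I : ℕ → Submodule A X) (hK : KosNull 𝔞 g I)
    (hnull : ∀ (V : Type v) [AddCommGroup V] [Module A V], (∀ a ∈ 𝔞, ∀ x : V, a • x = 0) →
      (∀ j, ∀ x : V, g j • x = 0) → Λ.L V = 0)
    (hfin : ∀ q ≤ s, Λ.L (X ⧸ I q) ≠ ⊤) (i : ℤ) : (fsk g X).h Λ i ≠ ⊤ := by
  classical
  rcases lt_or_ge i 0 with hi | hi
  · rw [kh_eq, kh_eq_zero Λ X _ i (Or.inl hi)]
    exact ENNReal.zero_ne_top
  obtain ⟨q, rfl⟩ := Int.eq_ofNat_of_zero_le hi
  rcases Nat.lt_or_ge s q with hq | hq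
  · rw [kh_eq, kh_eq_zero Λ X _ _ (Or.inr (by rw [List.length_ofFn]; exact_mod_cast hq))]
    exact ENNReal.zero_ne_top
  let K := fsk g X
  let N : Submodule A (K.Z q) := (kK I s q).comap (K.Z q).subtype
  have hNmem : ∀ z : K.Z q, (∀ B, (show Finset (Fin s) → X from (z : K.T)) B ∈ I q) → z ∈ N := by
    intro z hz
    refine ⟨hz, fun B hB => ?_⟩
    exact z.2.1 B (by exact_mod_cast hB)
  have h1 : Λ.L (K.Z q ⧸ N) ≠ ⊤ :=
    L_gr_quot_ne_top Λ I q (hfin q hq) (K.Z q) N hNmem
  -- the image of `N` in the homology is null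
  let N' : Submodule A (K.H q) := N.map (K.cls q)
  have h2 : Λ.L N' = 0 := by
    refine hnull N' ?_ ?_
    · rintro a ha ⟨_, ⟨z, hz, rfl⟩⟩
      apply Subtype.ext
      change a • K.cls q z = 0
      rw [← map_smul, GCx.cls_eq_zero]
      obtain ⟨f', hf', hD⟩ := hK q (z : K.T) hz z.2.2 a ha
      refine ⟨f', ?_, hD⟩
      intro B hB
      exact hf'.2 B (by
        intro e
        apply hB
        rw [e]
        push_cast
        rfl)
    · rintro j ⟨y, hy⟩
      apply Subtype.ext
      exact fsk_smul_H g X j q y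
  have h3 : Λ.L (K.H q ⧸ N') ≤ Λ.L (K.Z q ⧸ N) := by
    refine Λ.L_le_of_surjective (Submodule.mapQ N N' (K.cls q) (Submodule.le_comap_map _ _)) ?_
    intro y
    obtain ⟨y, rfl⟩ := N'.mkQ_surjective y
    obtain ⟨z, rfl⟩ := K.cls_surj q y
    exact ⟨N.mkQ z, rfl⟩
  change Λ.L (K.H q) ≠ ⊤
  rw [Λ.L_eq_add_quotient N', h2, zero_add]
  exact ne_top_of_le_ne_top h1 h3

theorem kh_ne_top (𝔞 : Ideal A) (g : Fin s → A) (I : ℕ → Submodule A X) (hK : KosNull 𝔞 g I)
    (hnull : ∀ (V : Type v) [AddCommGroup V] [Module A V], (∀ a ∈ 𝔞, ∀ x : V, a • x = 0) →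
      (∀ j, ∀ x : V, g j • x = 0) → Λ.L V = 0)
    (hfin : ∀ q ≤ s, Λ.L (X ⧸ I q) ≠ ⊤) (i : ℤ) : kh Λ (List.ofFn g) X i ≠ ⊤ := by
  rw [← kh_eq]
  exact h_ne_top Λ 𝔞 g I hK hnull hfin i

end strand

/-! ### powers -/

/-- finiteness for `l' ` whose entries are null-homotopic on `K(l)`, and conversely -/
theorem kh_ne_top_of_map_pow (Λ : AddLen.{u, v} A) (C : Type v) [AddCommGroup C] [Module A C]
    (l : List A) (n : ℕ) (hn : 0 < n) (h : ∀ i, kh Λ (l.map (· ^ n)) C i ≠ ⊤) (i : ℤ) :
    kh Λ l C i ≠ ⊤ := by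
  have h1 : kh Λ (l.map (· ^ n) ++ l) C i = pas (kh Λ l C) (l.map (· ^ n)).length i := by
    refine kh_append_NHI Λ C _ l ?_ i
    intro a ha
    obtain ⟨b, hb, rfl⟩ := List.mem_map.1 ha
    exact Ideal.pow_mem_of_mem _ (span_le_NHI C l
      (Submodule.mem_sup_left (Ideal.subset_span hb))) n hn
  have h2 : kh Λ l C i ≤ pas (kh Λ l C) (l.map (· ^ n)).length i := by
    unfold pas
    refine le_trans ?_ (Finset.single_le_sum (f := fun j : ℕ =>
      (((l.map (· ^ n)).length.choose j : ℕ) : ℝ≥0∞) * kh Λ l C (i - j)) (fun _ _ => zero_le)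
      (Finset.mem_range.2 (Nat.succ_pos _)))
    simp
  have h3 : kh Λ (l.map (· ^ n) ++ l) C i = kh Λ (l ++ l.map (· ^ n)) C i :=
    kh_perm Λ C List.perm_append_comm i
  have h4 := kh_append_le Λ C l (l.map (· ^ n)) i
  refine ne_top_of_le_ne_top ?_ (h2.trans ((h1.symm.trans h3).le.trans h4))
  unfold pas
  exact ENNReal.sum_ne_top.2 fun j _ => ENNReal.mul_ne_top (ENNReal.natCast_ne_top _) (h _)

/-- **the final form**: generators `y j ^ n` -/
theorem kh_ne_top_of_pow (Λ : AddLen.{u, v} A) {X : Type v} [AddCommGroup X] [Module A X] {s : ℕ}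
    (𝔞 : Ideal A) (y : Fin s → A) (n : ℕ) (hn : 0 < n) (I : ℕ → Submodule A X)
    (hK : KosNull 𝔞 (fun j => y j ^ n) I)
    (hnull : ∀ (V : Type v) [AddCommGroup V] [Module A V], (∀ a ∈ 𝔞, ∀ x : V, a • x = 0) →
      (∀ j, ∀ x : V, y j ^ n • x = 0) → Λ.L V = 0)
    (hfin : ∀ q ≤ s, Λ.L (X ⧸ I q) ≠ ⊤) (i : ℤ) : kh Λ (List.ofFn y) X i ≠ ⊤ := by
  refine kh_ne_top_of_map_pow Λ X (List.ofFn y) n hn (fun i => ?_) i
  have e : (List.ofFn y).map (· ^ n) = List.ofFn fun j => y j ^ n := by
    rw [List.map_ofFn]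
    rfl
  rw [e]
  exact kh_ne_top Λ 𝔞 (fun j => y j ^ n) I hK hnull hfin i

end Crest.Agent.R188.FinB
end

-- ▼ part R188/FinB2
section

/-!
# R188, FinB2 (helper546): the strand lemma for submodules, and in a `World`.
-/

set_option autoImplicit false

namespace Crest.Agent.R188.FinB

open Crest.Agent.R183 Crest.Agent.R188.Flg Crest.Agent.R188.KosG Crest.Agent.R188.Asm
open Crest.Agent.R188.Prf Crest.Agent.R188.Wit WittVector
open scoped ENNReal

universe u v

section sub

variable {A : Type u} [CommRing A] {M : Type v} [AddCommGroup M] [Module A M] {s : ℕ}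

lemma kD_coe (g : Fin s → A) (X : Submodule A M) (f : Finset (Fin s) → X) (B : Finset (Fin s)) :
    ((kD g f B : X) : M) = kD g (fun C => (f C : M)) B := by
  rw [kD_apply, kD_apply]
  push_cast
  rfl

/-- restriction of an almost exact strand to a submodule that contains it -/
theorem kosNull_sub {𝔞 : Ideal A} {g : Fin s → A} {I : ℕ → Submodule A M}
    (hK : KosNull 𝔞 g I) (X : Submodule A M) (hI : ∀ q ≤ s, I q ≤ X) :
    KosNull 𝔞 g (fun q => (I q).submoduleOf X) := by
  intro q f hf h0 a ha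
  obtain ⟨f', hf', hD⟩ := hK q (fun B => (f B : M)) ⟨fun B => hf.1 B, fun B hB =>
    congrArg Subtype.val (hf.2 B hB)⟩ (by
      funext B
      rw [← kD_coe, h0]
      rfl) a ha
  have hX : ∀ B, f' B ∈ X := by
    intro B
    by_cases hB : B.card = q + 1
    · refine hI (q + 1) ?_ (hf'.1 B)
      have := Finset.card_le_univ B
      rw [Fintype.card_fin] at this
      omega
    · rw [hf'.2 B hB]; exact zero_mem _
  refine ⟨fun B => ⟨f' B, hX B⟩, ⟨fun B => hf'.1 B, fun B hB => Subtype.ext (hf'.2 B hB)⟩, ?_⟩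
  funext B
  apply Subtype.ext
  rw [kD_coe]
  exact congrFun hD B

/-- **STRAND LEMMA for submodules** -/
theorem kh_sub_ne_top (Λ : AddLen.{u, v} A) (𝔞 : Ideal A) (y : Fin s → A) (n : ℕ) (hn : 0 < n)
    (X : Submodule A M) (I : ℕ → Submodule A M) (hI : ∀ q ≤ s, I q ≤ X)
    (hK : KosNull 𝔞 (fun j => y j ^ n) I)
    (hnull : ∀ (V : Type v) [AddCommGroup V] [Module A V], (∀ a ∈ 𝔞, ∀ x : V, a • x = 0) →
      (∀ j, ∀ x : V, y j ^ n • x = 0) → Λ.L V = 0)
    (hfin : ∀ q ≤ s, Λ.L (X ⧸ (I q).submoduleOf X) ≠ ⊤) (i : ℤ) :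
    kh Λ (List.ofFn y) X i ≠ ⊤ :=
  kh_ne_top_of_pow Λ 𝔞 y n hn (fun q => (I q).submoduleOf X) (kosNull_sub hK X hI) hnull hfin i

end sub

section world

variable {p : ℕ} [hp : Fact p.Prime] {k : Type} [Field k] [CharP k p] {b : ℕ} (W : World p k b)

/-- the null criterion on `P`-modules -/
theorem null_P {h : W.P} {hr : ℕ → BPlus p k b} (hs : SharpPair W.perf W.ι h hr) (h0 : hr 0 ≠ 0)
    (V : Type) [AddCommGroup V] [Module W.P V]
    (hV : ∀ n, ∀ x : V, W.perf.rtn n h • x = 0)
    (ht : ∀ x : V, ∃ N : ℕ, ∀ i, W.t i ^ N • x = 0) : (LP W.Λ).L V = 0 := by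
  let _ : Module (WittVector p W.P) V := Module.compHom V (constantCoeff (p := p) (R := W.P))
  have hsm : ∀ (w : WittVector p W.P) (x : V), w • x = constantCoeff (p := p) (R := W.P) w • x :=
    fun _ _ => rfl
  have hpp : ∀ N : ℕ, 0 < N → constantCoeff (p := p) (R := W.P) ((p : WittVector p W.P) ^ N) = 0 := by
    intro N hN
    rw [map_pow, map_natCast, W.perf.p_zero, zero_pow hN.ne']
  refine W.null h hr hs h0 V (fun x => ?_) (fun n x => ?_)
  · obtain ⟨N, hN⟩ := ht x
    refine ⟨N + 1, ?_, fun i => ?_⟩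
    · rw [hsm, hpp _ (Nat.succ_pos N), zero_smul]
    · rw [hsm, map_pow]
      change W.t i ^ (N + 1) • x = 0
      rw [pow_succ', mul_smul, hN i, smul_zero]
  · rw [hsm]
    exact hV n x

/-- **FinB** (final form for helper414): an `h`-almost exact strand for `(t_j^n)` of submodules of
`X` of finite colength gives finite Koszul lengths `H_i(t; X)`. -/
theorem kh_world_ne_top {h : W.P} {hr : ℕ → BPlus p k b} (hs : SharpPair W.perf W.ι h hr)
    (h0 : hr 0 ≠ 0) {M : Type} [AddCommGroup M] [Module W.P M] (n : ℕ) (hn : 0 < n)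
    (X : Submodule W.P M) (I : ℕ → Submodule W.P M) (hI : ∀ q ≤ b + 1, I q ≤ X)
    (hK : KosNull (Ideal.span (Set.range fun n => W.perf.rtn n h)) (fun j => W.t j ^ n) I)
    (hfin : ∀ q ≤ b + 1, (LP W.Λ).L (X ⧸ (I q).submoduleOf X) ≠ ⊤) (i : ℤ) :
    kh (LP W.Λ) (List.ofFn W.t) X i ≠ ⊤ := by
  refine kh_sub_ne_top (LP W.Λ) _ W.t n hn X I hI hK (fun V _ _ hV ht => ?_) hfin i
  exact null_P W hs h0 V (fun n x => hV _ (Ideal.subset_span ⟨n, rfl⟩) x)
    (fun x => ⟨n, fun j => ht j x⟩)

end world

end Crest.Agent.R188.FinB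
end

-- ▼ part R188/FinC1
section

set_option autoImplicit false
set_option linter.unusedSectionVars false
set_option linter.unusedVariables false
set_option linter.unusedFintypeInType false
set_option linter.style.haveILetI false

namespace Crest.Agent.R188.FinC

open WittVector Crest.Agent.R188.Prf Crest.Agent.R188.Wit Crest.Agent.R188.Flg
open Crest.Agent.R188.Cmp Crest.Agent.R188.UB
open Crest.Agent.R183.Digit (Convex)

/-! ### combinatorics -/

/-- below a function of large sum there is one of prescribed sum. -/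
lemma exists_le_sum_eq {α : Type} [Fintype α] [DecidableEq α] (f : α → ℕ) :
    ∀ T : ℕ, T ≤ ∑ i, f i → ∃ β : α → ℕ, (∀ i, β i ≤ f i) ∧ ∑ i, β i = T := by
  intro T
  induction T with
  | zero => intro _; exact ⟨fun _ => 0, fun _ => Nat.zero_le _, by simp⟩
  | succ T ih =>
    intro h
    obtain ⟨β, h1, h2⟩ := ih (by omega)
    have : ∃ i, β i < f i := by
      by_contra hcon
      push Not at hcon
      have h3 : ∑ i, f i ≤ ∑ i, β i := Finset.sum_le_sum fun i _ => hcon i
      omega
    obtain ⟨i, hi⟩ := this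
    refine ⟨β + Pi.single i 1, fun j => ?_, ?_⟩
    · by_cases hj : j = i
      · subst hj; simp; omega
      · simp [hj]; exact h1 j
    · rw [Finset.sum_congr rfl fun j _ => Pi.add_apply β _ j, Finset.sum_add_distrib, h2,
        Finset.sum_pi_single']
      simp

/-- rounding down nonnegative reals of large sum. -/
lemma exists_floor {m : ℕ} (a : Fin m → ℝ) (ha : ∀ i, 0 ≤ a i) {T n : ℕ}
    (hn : m ≤ n) (hs : ((n + 1 : ℕ) : ℝ) * T ≤ ∑ i, a i) :
    ∃ β : Fin m → ℕ, (∀ i, (β i : ℝ) ≤ a i) ∧ ∑ i, β i = T := by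
  rcases Nat.eq_zero_or_pos T with h0 | h0
  · subst h0
    exact ⟨fun _ => 0, fun i => by simpa using ha i, by simp⟩
  · have h1 : (∑ i, a i) ≤ (∑ i, (⌊a i⌋₊ : ℝ)) + m := by
      have : ∀ i, a i ≤ (⌊a i⌋₊ : ℝ) + 1 := fun i => (Nat.lt_floor_add_one (a i)).le
      calc (∑ i, a i) ≤ ∑ i : Fin m, ((⌊a i⌋₊ : ℝ) + 1) := Finset.sum_le_sum fun i _ => this i
        _ = _ := by rw [Finset.sum_add_distrib]; simp
    have h2 : T ≤ ∑ i, ⌊a i⌋₊ := by
      have h3 : ((T : ℕ) : ℝ) ≤ ((∑ i, ⌊a i⌋₊ : ℕ) : ℝ) := by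
        push_cast
        have h4 : ((m : ℕ) : ℝ) ≤ n := by exact_mod_cast hn
        have h5 : (1 : ℝ) ≤ T := by exact_mod_cast h0
        have h6 : (0 : ℝ) ≤ n := Nat.cast_nonneg n
        push_cast at hs
        nlinarith
      exact_mod_cast h3
    obtain ⟨β, h3, h4⟩ := exists_le_sum_eq (fun i => ⌊a i⌋₊) T h2
    exact ⟨β, fun i => le_trans (by exact_mod_cast h3 i) (Nat.floor_le (ha i)), h4⟩

/-! ### the extended system of generators -/

section opt

variable {κ : Type} [Fintype κ] [DecidableEq κ] (s : κ → ℕ) (s₀ : ℕ)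

/-- the sizes of the blocks, with the additional block. -/
def sO : Option κ → ℕ
  | none => s₀
  | some k => s k

variable {P : Type} {s s₀}

/-- the generators, with the additional block. -/
def gO (g : (Σ k, Fin (s k)) → P) (y : Fin s₀ → P) : (Σ o, Fin (sO s s₀ o)) → P
  | ⟨none, j⟩ => y j
  | ⟨some k, i⟩ => g ⟨k, i⟩

/-- the degrees `(t T, m)`. -/
def NT (T : κ → ℕ) (t m : ℕ) : Option κ → ℕ
  | none => m
  | some k => t * T k

lemma NT_add (T : κ → ℕ) (a b c d : ℕ) : NT T (a + c) (b + d) = NT T a b + NT T c d := by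
  funext o
  cases o with
  | none => rfl
  | some k => exact add_mul a c (T k)

lemma NT_zero (T : κ → ℕ) : NT T 0 0 = 0 := by
  funext o
  cases o with
  | none => rfl
  | some k => exact zero_mul _

lemma NT_nsmul (T : κ → ℕ) (n a b : ℕ) : NT T (n * a) (n * b) = n • NT T a b := by
  funext o
  cases o with
  | none => rfl
  | some k => exact mul_assoc n a (T k)

lemma NT_mono (T : κ → ℕ) {a b c d : ℕ} (h1 : a ≤ c) (h2 : b ≤ d) : NT T a b ≤ NT T c d := by
  intro o
  cases o with
  | none => exact h2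
  | some k => exact Nat.mul_le_mul_right _ h1

variable {p : ℕ} [hp : Fact p.Prime]

/-- restriction of exponents to the old blocks -/
def resE (a : Ex (sO s s₀) p) : Ex s p := fun x => a ⟨some x.1, x.2⟩

/-- extension of exponents by zero on the new block -/
def extE (a : Ex s p) : Ex (sO s s₀) p
  | ⟨none, _⟩ => 0
  | ⟨some k, i⟩ => a ⟨k, i⟩

omit hp [Fintype κ] [DecidableEq κ] in
lemma resE_extE (a : Ex s p) : resE (extE (s₀ := s₀) a) = a := rfl

omit hp [Fintype κ] [DecidableEq κ] in
lemma deg_some (a : Ex (sO s s₀) p) (k : κ) : deg (some k) a = deg k (resE a) := rfl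

omit hp [Fintype κ] [DecidableEq κ] in
lemma deg_none_ext (a : Ex s p) : deg (none : Option κ) (extE (s₀ := s₀) a) = 0 := by
  rw [deg_apply]
  exact Finset.sum_eq_zero fun i _ => rfl

variable [CommRing P] [CharP P p] (hP : IsPerf p P) (g : (Σ k, Fin (s k)) → P) (y : Fin s₀ → P)

omit [DecidableEq κ] in
lemma mono_gO (a : Ex (sO s s₀) p) :
    mono hP (gO g y) a = (∏ j : Fin s₀, fp hP (y j) (a ⟨none, j⟩)) * mono hP g (resE a) := by
  unfold mono
  rw [← Finset.univ_sigma_univ, Finset.prod_sigma, Fintype.prod_option, ← Finset.univ_sigma_univ,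
    Finset.prod_sigma]
  rfl

omit [DecidableEq κ] in
lemma mono_gO_ext (a : Ex s p) : mono hP (gO g y) (extE a) = mono hP g a := by
  rw [mono_gO, resE_extE]
  have : (∏ j : Fin s₀, fp hP (y j) (extE a ⟨none, j⟩)) = 1 := by
    refine Finset.prod_eq_one fun j _ => ?_
    show fp hP (y j) 0 = 1
    exact fp_zero hP _
  rw [this, one_mul]

/-! ### the ideals -/

/-- natural degrees: `D.I (eν (toR T))`. -/
noncomputable abbrev In {κ : Type} [Fintype κ] [DecidableEq κ] {s : κ → ℕ}
    (g : (Σ k, Fin (s k)) → P) (T : κ → ℕ) : Ideal P :=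
  (UB.D hP g).I (eν hP g (toR T))

section gen

variable {κ' : Type} [Fintype κ'] [DecidableEq κ'] {s' : κ' → ℕ} (g' : (Σ k, Fin (s' k)) → P)

lemma In_zero : In hP g' 0 = ⊤ := by
  rw [Ideal.eq_top_iff_one]
  unfold In
  rw [eν_toR_zero]
  have h := (UB.D hP g').i_mem 1
  exact ⟨_, h, (UB.D hP g').εi 1⟩

lemma toR_mono {T T' : κ' → ℕ} (h : T ≤ T') : toR T ≤ toR T' :=
  fun k => Nat.cast_le.2 (h k)

lemma In_anti {T T' : κ' → ℕ} (h : T ≤ T') : In hP g' T' ≤ In hP g' T :=
  I_anti hP g' (toR_nonneg T) (toR_mono h)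

lemma In_mul {T T' : κ' → ℕ} {x y : P} (hx : x ∈ In hP g' T) (hy : y ∈ In hP g' T') :
    x * y ∈ In hP g' (T + T') := by
  obtain ⟨z, hz, rfl⟩ := hx
  obtain ⟨w, hw, rfl⟩ := hy
  refine ⟨z * w, ?_, map_mul _ _ _⟩
  rw [toR_add, eν_add]
  exact mul_mem_Gr hz hw

lemma In_root {T : κ' → ℕ} {x : P} (hx : x ^ p ∈ In hP g' (p • T)) : x ∈ In hP g' T := by
  have h1 : eν hP g' (toR (p • T)) = eν hP g' (toR T) ^ p ^ 1 := by
    rw [eν_pow, pow_one]
    congr 1
    funext k
    simp [toR]
  unfold In at hx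
  rw [h1] at hx
  have h2 := (UB.D hP g').rtn_mem_I hx
  rwa [(UB.D hP g').hP.rtn_eq_of_pow (n := 1) (y := x) (by rw [pow_one])] at h2

lemma mono_mem_In {T : κ' → ℕ} {a : Ex s' p} (ha : ∀ k, (T k : ℝ) ≤ deg k a) :
    mono hP g' a ∈ In hP g' T := mono_mem_I hP g' (toR_nonneg T) ha

lemma gen_mem_In (k : κ') (i : Fin (s' k)) : g' ⟨k, i⟩ ∈ In hP g' (Pi.single k 1) := by
  have h1 : mono hP g' (Eσ (DD.nat p 1) k i) = g' ⟨k, i⟩ := by
    rw [mono_Eσ, fp_nat, pow_one]
  rw [← h1]
  apply mono_mem_In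
  intro k'
  by_cases h : k' = k
  · subst h
    rw [deg_Eσ_same, Pi.single_eq_same, DD.nat_coe]
  · rw [deg_Eσ_ne _ h, Pi.single_eq_of_ne h]; simp

/-- induction principle: `In` is spanned by monomials. -/
lemma In_induction {T : κ' → ℕ} {motive : P → Prop} {x : P} (hx : x ∈ In hP g' T)
    (hm : ∀ a : Ex s' p, (∀ k, (T k : ℝ) ≤ deg k a) → motive (mono hP g' a))
    (h0 : motive 0) (ha : ∀ x y, motive x → motive y → motive (x + y))
    (hs : ∀ c x, motive x → motive (c * x)) : motive x := by
  unfold In at hx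
  rw [I_eq_span hP g' (toR_nonneg T)] at hx
  refine Submodule.span_induction (p := fun x _ => motive x) ?_ h0 (fun x y _ _ => ha x y)
    (fun c x _ => hs c x) hx
  rintro _ ⟨a, ha, rfl⟩
  exact hm a ha

end gen

/-- the ideal of degree `(t T, m)`. -/
noncomputable def IO (T : κ → ℕ) (t m : ℕ) : Ideal P := In hP (gO g y) (NT T t m)

/-- **the family `Fam`.** -/
noncomputable def fam (T : κ → ℕ) : FinA.Fam p P where
  I t m := IO hP g y T t m
  convex t m := (UB.D hP (gO g y)).I_convex _
  top := by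
    unfold IO
    rw [NT_zero]
    exact In_zero hP _
  anti h1 h2 := In_anti hP _ (NT_mono T h1 h2)
  mul hx hy := by
    unfold IO
    rw [NT_add]
    exact In_mul hP _ hx hy
  root hx := by
    unfold IO at hx
    rw [NT_nsmul] at hx
    exact In_root hP _ hx


/-- the degree `(T, 0)` part is the old ideal. -/
theorem IO_one_zero (T : κ → ℕ) : IO hP g y T 1 0 = In hP g T := by
  apply le_antisymm
  · intro x hx
    refine In_induction hP (gO g y) hx (motive := fun x => x ∈ In hP g T) ?_ (zero_mem _)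
      (fun _ _ => add_mem) (fun c _ => Ideal.mul_mem_left _ c)
    intro a ha
    rw [mono_gO]
    refine Ideal.mul_mem_left _ _ (mono_mem_In hP g fun k => ?_)
    have := ha (some k)
    rw [deg_some] at this
    simpa [NT] using this
  · intro x hx
    refine In_induction hP g hx (motive := fun x => x ∈ IO hP g y T 1 0) ?_ (zero_mem _)
      (fun _ _ => add_mem) (fun c _ => Ideal.mul_mem_left _ c)
    intro a ha
    rw [← mono_gO_ext hP g y]
    refine mono_mem_In hP _ fun o => ?_
    cases o with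
    | none => rw [deg_none_ext]; simp [NT]
    | some k => rw [deg_some, resE_extE]; simpa [NT] using ha k

/-- the new generators are in `I 0 1`. -/
lemma y_mem (T : κ → ℕ) (j : Fin s₀) : y j ∈ IO hP g y T 0 1 := by
  have h := gen_mem_In hP (gO g y) none j
  have : NT T 0 1 = Pi.single none 1 := by
    funext o
    cases o with
    | none => simp [NT]
    | some k => simp [NT]
  unfold IO
  rw [this]
  exact h

/-- products of the old generators. -/
lemma hc_mem (T : κ → ℕ) (i₀ : ∀ k, Fin (s k)) {t n : ℕ} (hn : ∀ k, t * T k ≤ n) :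
    hc g i₀ ^ n ∈ IO hP g y T t 0 := by
  rw [← mono_Ec_nat hP g i₀ n, ← mono_gO_ext hP g y]
  refine mono_mem_In hP _ fun o => ?_
  cases o with
  | none => rw [deg_none_ext]; simp [NT]
  | some k =>
    rw [deg_some, resE_extE, deg_Ec, DD.nat_coe]
    exact_mod_cast hn k

/-! ### Skoda -/

/-- the integral exponents of degree exactly `T`. -/
def Exps (s : κ → ℕ) (T : κ → ℕ) : Type :=
  {β : ∀ x : (Σ k, Fin (s k)), Fin (T x.1 + 1) // ∀ k, ∑ i : Fin (s k), (β ⟨k, i⟩ : ℕ) = T k}

noncomputable instance (s : κ → ℕ) (T : κ → ℕ) : Fintype (Exps s T) := by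
  classical
  exact inferInstanceAs (Fintype {β : ∀ x : (Σ k, Fin (s k)), Fin (T x.1 + 1) //
    ∀ k, ∑ i : Fin (s k), (β ⟨k, i⟩ : ℕ) = T k})

/-- the monomial with integral exponents. -/
def gen (g : (Σ k, Fin (s k)) → P) (T : κ → ℕ) (β : Exps s T) : P := ∏ x, g x ^ (β.1 x : ℕ)

/-- the exponent of a generator -/
def eE (T : κ → ℕ) (β : Exps s T) : Ex s p := fun x => DD.nat p (β.1 x : ℕ)

lemma gen_eq (T : κ → ℕ) (β : Exps s T) : gen g T β = mono hP g (eE T β) := by
  unfold gen mono
  exact Finset.prod_congr rfl fun x _ => (fp_nat hP _ _).symm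

lemma deg_eE (T : κ → ℕ) (β : Exps s T) (k : κ) : deg k (eE (p := p) T β) = T k := by
  rw [deg_apply]
  have h := β.2 k
  have : (∑ i : Fin (s k), ((eE (p := p) T β ⟨k, i⟩ : DD p) : ℝ)) =
      ((∑ i : Fin (s k), (β.1 ⟨k, i⟩ : ℕ) : ℕ) : ℝ) := by
    push_cast
    exact Finset.sum_congr rfl fun i _ => DD.nat_coe _
  rw [this, h]

lemma gen_mem (T : κ → ℕ) (β : Exps s T) : gen g T β ∈ IO hP g y T 1 0 := by
  rw [IO_one_zero, gen_eq hP]
  exact mono_mem_In hP g fun k => (deg_eE T β k).ge

/-- **Skoda** -/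
theorem skoda (T : κ → ℕ) {n : ℕ} (hn : ∀ k, s k ≤ n) {x : P} (hx : x ∈ IO hP g y T (n + 1) 0) :
    ∃ a : Exps s T → P, (∀ β, a β ∈ IO hP g y T n 0) ∧ x = ∑ β, gen g T β * a β := by
  classical
  refine In_induction hP (gO g y) hx (motive := fun x => ∃ a : Exps s T → P,
    (∀ β, a β ∈ IO hP g y T n 0) ∧ x = ∑ β, gen g T β * a β) ?_ ?_ ?_ ?_
  · intro a ha
    have h1 : ∀ k, ∃ β : Fin (s k) → ℕ, (∀ i, (β i : ℝ) ≤ a ⟨some k, i⟩) ∧ ∑ i, β i = T k := by
      intro k
      refine exists_floor _ (fun i => DD_nonneg (a ⟨some k, i⟩).2) (hn k) ?_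
      have := ha (some k)
      rw [deg_some, deg_apply] at this
      simp only [NT] at this
      push_cast at this ⊢
      exact this
    choose β h2 h3 using h1
    have h4 : ∀ k i, β k i < T k + 1 := by
      intro k i
      have : β k i ≤ ∑ i, β k i := Finset.single_le_sum (fun _ _ => Nat.zero_le _)
        (Finset.mem_univ i)
      have := h3 k
      omega
    let β' : Exps s T := ⟨fun x => ⟨β x.1 x.2, h4 x.1 x.2⟩, h3⟩
    -- the difference
    let a' : Ex (sO s s₀) p := fun x => match x with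
      | ⟨none, j⟩ => a ⟨none, j⟩
      | ⟨some k, i⟩ => ⟨(a ⟨some k, i⟩ : ℝ) - (β k i : ℝ),
          DD_sub (a ⟨some k, i⟩).2 (natCast_mem_DD _) (h2 k i)⟩
    have haa : a = extE (eE T β') + a' := by
      funext x
      rcases x with ⟨o, i⟩
      cases o with
      | none =>
        show a ⟨none, i⟩ = 0 + a ⟨none, i⟩
        rw [zero_add]
      | some k =>
        apply Subtype.ext
        show (a ⟨some k, i⟩ : ℝ) = ((DD.nat p (β k i) : DD p) : ℝ) +
          ((a ⟨some k, i⟩ : ℝ) - (β k i : ℝ))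
        rw [DD.nat_coe]; ring
    have h5 : mono hP (gO g y) a' ∈ IO hP g y T n 0 := by
      refine mono_mem_In hP _ fun o => ?_
      cases o with
      | none =>
        simp only [NT, Nat.cast_zero]
        exact deg_nonneg _ _
      | some k =>
        have h6 := ha (some k)
        have h7 : deg (some k) a = deg (some k) (extE (s₀ := s₀) (eE (p := p) T β')) +
          deg (some k) a' := by
          conv_lhs => rw [haa]
          rw [map_add]
        rw [deg_some (extE (eE T β')) k, resE_extE, deg_eE] at h7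
        simp only [NT] at h6 ⊢
        push_cast at h6 ⊢
        linarith
    refine ⟨fun γ => if γ = β' then mono hP (gO g y) a' else 0, fun γ => ?_, ?_⟩
    · by_cases h : γ = β'
      · simp only [if_pos h]; exact h5
      · simp only [if_neg h]; exact zero_mem _
    · rw [Finset.sum_eq_single_of_mem β' (Finset.mem_univ _)]
      · simp only [if_pos]
        rw [gen_eq hP, ← mono_gO_ext hP g y, ← mono_add, ← haa]
      · intro γ _ h
        simp only [if_neg h, mul_zero]
  · exact ⟨fun _ => 0, fun _ => zero_mem _, by simp⟩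
  · rintro x x' ⟨a, h1, rfl⟩ ⟨a', h1', rfl⟩
    refine ⟨fun β => a β + a' β, fun β => add_mem (h1 β) (h1' β), ?_⟩
    rw [← Finset.sum_add_distrib]
    exact Finset.sum_congr rfl fun β _ => by ring
  · rintro c x ⟨a, h1, rfl⟩
    refine ⟨fun β => c * a β, fun β => Ideal.mul_mem_left _ _ (h1 β), ?_⟩
    rw [Finset.mul_sum]
    exact Finset.sum_congr rfl fun β _ => by ring

/-! ### the strand of the new block -/

/-- the extended choice of one generator in each block. -/
def cO (i₀ : ∀ k, Fin (s k)) (j₀ : Fin s₀) : ∀ o, Fin (sO s s₀ o)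
  | none => j₀
  | some k => i₀ k

omit [CharP P p] hp in
lemma hc_gO (i₀ : ∀ k, Fin (s k)) (j₀ : Fin s₀) : hc (gO g y) (cO i₀ j₀) = y j₀ * hc g i₀ := by
  unfold hc
  rw [Fintype.prod_option]
  rfl

lemma NT_sub (T : κ → ℕ) (t q : ℕ) :
    (NT T t s₀ - Pi.single none q : Option κ → ℕ) = NT T t (s₀ - q) := by
  funext o
  cases o with
  | none => simp [NT]
  | some k => simp [NT]

lemma NT_sub_add (T : κ → ℕ) (t q : ℕ) (hq : q < s₀) :
    (NT T t (s₀ - (q + 1)) + Pi.single none 1 : Option κ → ℕ) = NT T t (s₀ - q) := by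
  funext o
  cases o with
  | none => simp [NT]; omega
  | some k => simp [NT]

/-- **the strand of the `y`-block**: `n = 1`, ideals `I 1 (s₀ - q)`. -/
theorem strand (T : κ → ℕ) (t : ℕ) (hs₀ : 0 < s₀) (i₀ : ∀ k, Fin (s k)) (j₀ : Fin s₀) :
    KosNull (Ideal.span (Set.range fun n => hP.rtn n (y j₀ * hc g i₀))) y
      (fun q => (IO hP g y T t (s₀ - q) : Submodule P P)) := by
  have hK : (UB.D hP (gO g y)).KosEx (ΘS hP (gO g y) (DD.nat p 1) (none : Option κ))
      (fun q => eν hP (gO g y) (toR (NT T t (s₀ - q)))) := by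
    have := kosEx_nat hP (gO g y) (k := none) (NT T t s₀) hs₀ le_rfl
    simp only [NT_sub] at this
    exact this
  have hv : ∀ q < s₀, eν hP (gO g y) (Pi.single none ((DD.nat p 1 : DD p) : ℝ)) *
      eν hP (gO g y) (toR (NT T t (s₀ - (q + 1)))) = eν hP (gO g y) (toR (NT T t (s₀ - q))) := by
    intro q hq
    rw [eν_toR_single, NT_sub_add T t q hq]
  have hN : ∀ ν : Option κ → ℝ, (UB.D hP (gO g y)).Nul (eν hP (gO g y) ν)
      (hc (gO g y) (cO i₀ j₀)) := fun ν => nul hP (gO g y) ν (cO i₀ j₀)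
  have h := kosNullP (UB.D hP (gO g y)) (s := s₀)
    (g := ΘS hP (gO g y) (DD.nat p 1) (none : Option κ))
    (e := fun q => eν hP (gO g y) (toR (NT T t (s₀ - q))))
    (v := eν hP (gO g y) (Pi.single none ((DD.nat p 1 : DD p) : ℝ)))
    (ΘS_mem hP (gO g y) (DD.nat p 1) none) hv hK (h₀ := hc (gO g y) (cO i₀ j₀))
    (fun q _ => hN _) (by rw [← eν_add]; exact hN _)
  have e1 : (fun j : Fin s₀ => (UB.D hP (gO g y)).ε
      (ΘS hP (gO g y) (DD.nat p 1) (none : Option κ) j)) = y := by
    funext j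
    exact ε_ΘS_one hP (gO g y) none j
  rw [hc_gO] at h
  rw [e1] at h
  exact h

end opt

end Crest.Agent.R188.FinC
private theorem rz_6cdb5c7169 : type_of% @_root_.Crest.Agent.R188.FinC.NT.eq_1 := @_root_.Crest.Agent.R188.FinC.NT.eq_1 -- L86
end

-- ▼ part R188/PerfC6
section

set_option autoImplicit false
set_option linter.unusedSectionVars false

namespace Crest.Agent.R188.PerfC

open IsLocalRing
open WittVector Crest.Agent.R183 Crest.Agent.R183.Res Crest.Agent.R183.Cohen
open Crest.Agent.R188.Asm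

theorem mB_eq (p : ℕ) [hp : Fact p.Prime] (k : Type) [Field k] [CharP k p] [PerfectRing k p]
    (b : ℕ) : mB p k b = maximalIdeal (BB p k b) := by
  rw [← maxBB]
  unfold mB Ideal.ofList
  congr 1
  ext x
  change x ∈ Set.range (tB p k b) ↔ x ∈ List.ofFn (tB p k b)
  rw [List.mem_ofFn, Set.mem_range]

/-- **parameters of `B/β`** -/
theorem paramB (p : ℕ) [hp : Fact p.Prime] (k : Type) [Field k] [CharP k p] [PerfectRing k p]
    (b : ℕ) : FinA.ParamB p k b := by
  intro β hβ
  by_cases hu : IsUnit β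
  · refine ⟨fun _ => 0, fun _ => zero_mem _, 0, ?_⟩
    rw [Ideal.span_singleton_eq_top.2 hu, top_sup_eq]
    exact le_top
  · have := regBB p k b
    have hm : Ideal.span {β} ≤ maximalIdeal (BB p k b) := by
      rw [Ideal.span_singleton_le_iff_mem]
      exact (mem_maximalIdeal _).2 hu
    have hdim : ringKrullDim (BB p k b ⧸ Ideal.span {β}) ≤ (b : ℕ) := by
      have h1 := ringKrullDim_quotient_succ_le_of_nonZeroDivisor (mem_nonZeroDivisors_of_ne_zero hβ)
      rw [dimBB] at h1
      push_cast at h1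
      exact ENat.WithBot.add_le_add_natCast_right_iff.mp h1
    obtain ⟨z, hz, c, hc⟩ := Noe.exists_sop hm hdim
    refine ⟨z, fun i => by rw [mB_eq]; exact hz i, c, by rw [mB_eq]; exact hc⟩

end Crest.Agent.R188.PerfC
end

-- ▼ part R188/FinA7
section

/-!
# R188, block FINA (helper414), part 7: `Good` for the monomial ideals, and `Twist`
-/

set_option autoImplicit false
set_option linter.unusedSectionVars false
set_option linter.style.haveILetI false

namespace Crest.Agent.R188.FinA

open scoped ENNReal Pointwise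
open WittVector Function Crest.Agent.R188.Prf Crest.Agent.R188.Wit Crest.Agent.R183
open Crest.Agent.R183.Digit (Convex)
open Crest.Agent.R188.Asm Crest.Agent.R188.AsmG Crest.Agent.R188.KosG

section sharp

variable {p : ℕ} [hp : Fact p.Prime] {P : Type} [CommRing P] {h : IsPerf p P}
  {ξ : WittVector p P} {A : Type} [CommRing A] {ι : A →+* Om ξ}

lemma sharpPair_pow {a : P} {r : ℕ → A} (h1 : SharpPair h ι a r) (n : ℕ) :
    SharpPair h ι (a ^ n) (fun m => r m ^ n) := by
  induction n with
  | zero => simpa using SharpPair.one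
  | succ n ih =>
    have := SharpPair.mul ih h1
    simpa only [pow_succ] using this

end sharp

section world

variable {p : ℕ} [hp : Fact p.Prime] {k : Type} [Field k] [CharP k p] {b : ℕ} (W : World p k b)

lemma tr_zero_ne (i : Fin (b + 1)) : W.tr i 0 ≠ 0 := by
  rw [W.tr_zero]
  intro h
  have h1 : tB p k b i = 0 := by
    apply FaithfulSMul.algebraMap_injective (BB p k b) (BPlus p k b)
    rw [h, map_zero]
  revert h1
  refine Fin.cases ?_ (fun i => ?_) i
  · intro h1
    have h2 : (p : BB p k b) = 0 := h1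
    have h3 : (MvPowerSeries.constantCoeff (p : BB p k b)) = 0 := by rw [h2, map_zero]
    rw [map_natCast] at h3
    exact WittVector.p_nonzero p k h3
  · intro h1
    have h2 : (MvPowerSeries.X i : BB p k b) = 0 := h1
    have h3 := congrArg (MvPowerSeries.coeff (Finsupp.single i 1)) h2
    rw [MvPowerSeries.coeff_index_single_self_X, map_zero] at h3
    exact one_ne_zero h3

variable [IsAlgClosed k] {κ : Type} [Fintype κ] [DecidableEq κ] {s : κ → ℕ}
  {c : ∀ j, Fin (s j) → BPlus p k b}

theorem kh_IT_ne_top (hB : HBound p k b) (F : SharpFam W s c) (i₀ : ∀ j, Fin (s j))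
    (hi₀ : ∀ j, c j (i₀ j) ≠ 0) (T : κ → ℕ) (i : ℤ) :
    kh (LP W.Λ) (List.ofFn W.t) ↥(AsmU.IT W F.a T) i ≠ ⊤ := by
  obtain ⟨h1, h2⟩ := F.prod i₀ hi₀
  have hIT : AsmU.IT W F.a T = (FinC.fam W.perf F.a W.t T).I 1 0 :=
    (FinC.IO_one_zero W.perf F.a W.t T).symm
  rw [hIT]
  set G := FinC.fam W.perf F.a W.t T with hG
  have hy : ∀ j, W.t j ∈ G.I 0 1 := fun j => FinC.y_mem W.perf F.a W.t T j
  have hsh := SharpPair.mul (W.t_sharp 0) h1
  refine FinB.kh_world_ne_top W hsh (mul_ne_zero (tr_zero_ne W 0) h2) 1 one_pos (G.I 1 0)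
    (fun q => G.I 1 (b + 1 - q)) (fun q _ => G.anti le_rfl (Nat.zero_le _)) ?_ (fun q _ => ?_) i
  · simp only [pow_one]
    exact FinC.strand W.perf F.a W.t T 1 (Nat.succ_pos b) i₀ 0
  · refine fin_of_fam W hB G (c := FinC.gen F.a T)
      (r := fun β n => ∏ x, F.rr x n ^ (β.1 x : ℕ)) (fun β => ?_) (fun β => ?_)
      (s := 1 + ∑ j, s j) ?_ (Nat.le_add_right 1 _) hy
      (h := (∏ j, F.a ⟨j, i₀ j⟩) ^ (∑ j, (1 + ∑ j, s j) * T j))
      (sharpPair_pow h1 _) (pow_ne_zero _ h2) ?_ le_rfl _
    · exact SharpPair.prod _ fun x _ => sharpPair_pow (F.sharp x) _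
    · exact FinC.gen_mem W.perf F.a W.t T β
    · intro n hn x hx
      refine FinC.skoda W.perf F.a W.t T (fun j => ?_) hx
      have : s j ≤ ∑ j, s j := Finset.single_le_sum (fun _ _ => Nat.zero_le _) (Finset.mem_univ j)
      omega
    · exact FinC.hc_mem W.perf F.a W.t T i₀ fun j =>
        Finset.single_le_sum (f := fun j => (1 + ∑ j, s j) * T j) (fun _ _ => Nat.zero_le _)
          (Finset.mem_univ j)

/-- **`Good`** for the monomial ideals. -/
theorem good_IT (hB : HBound p k b) (F : SharpFam W s c) (i₀ : ∀ j, Fin (s j))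
    (hi₀ : ∀ j, c j (i₀ j) ≠ 0) (T : κ → ℕ) :
    Good W (UB.hc F.a i₀) (AsmU.IT W F.a T) := by
  obtain ⟨h1, h2⟩ := F.prod i₀ hi₀
  exact good_of W (PerfC.paramB p k b) h1 h2 (AsmU.convex_IT W F.a T)
    (AsmU.exists_pow_mem_IT W F.a i₀ T) (kh_IT_ne_top W hB F i₀ hi₀ T)

/-- **`Twist`** -/
theorem twist (hB : HBound p k b) : Twist W :=
  AsmU.twist_of_good W fun _ _ _ _ F i₀ hi₀ T => good_IT W hB F i₀ hi₀ T

end world

end Crest.Agent.R188.FinA
end

-- ▼ part R188/HB1
section

/-!
# R188 (Serre positivity), block HB: dimension of algebraic extensions of finite type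

`ringKrullDim_adjoin_finset_le` : `S` a Noetherian domain, `L ⊇ S` a domain, `F ⊂ L` finite,
all elements of `F` algebraic over `S`: `dim S[F] ≤ dim S`.
-/

set_option autoImplicit false

namespace Crest.Agent.R188.HB

open Polynomial

theorem withBot_le_of_add_one_le {a b : WithBot ℕ∞} (h : a + 1 ≤ b + 1) : a ≤ b := by
  induction a with
  | bot => exact bot_le
  | coe a =>
    induction b with
    | bot => simp at h
    | coe b =>
      have h' : a + 1 ≤ b + 1 := by exact_mod_cast h
      have : a ≤ b := (ENat.add_le_add_iff_right ENat.one_ne_top).1 h'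
      exact_mod_cast this

/-- adjoining one algebraic element does not increase the dimension. -/
theorem ringKrullDim_adjoin_singleton_le {S L : Type*} [CommRing S] [IsNoetherianRing S]
    [CommRing L] [IsDomain L] [Algebra S L] [FaithfulSMul S L] (x : L) (hx : IsAlgebraic S x) :
    ringKrullDim (Algebra.adjoin S {x}) ≤ ringKrullDim S := by
  have hinj : Function.Injective (algebraMap S L) := FaithfulSMul.algebraMap_injective S L
  have : IsDomain S := hinj.isDomain
  obtain ⟨p, hp0, hp⟩ := hx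
  have e : (S[X] ⧸ RingHom.ker (aeval (R := S) x)) ≃ₐ[S] (aeval (R := S) x).range :=
    Ideal.quotientKerEquivRange _
  have e2 : (aeval (R := S) x).range ≃ₐ[S] Algebra.adjoin S {x} :=
    Subalgebra.equivOfEq _ _ (Algebra.adjoin_singleton_eq_range_aeval S x).symm
  rw [← ringKrullDim_eq_of_ringEquiv (e.trans e2).toRingEquiv]
  have hle : Ideal.span {p} ≤ RingHom.ker (aeval (R := S) x) := by
    rw [Ideal.span_singleton_le_iff_mem, RingHom.mem_ker]
    exact hp
  have h1 : ringKrullDim (S[X] ⧸ RingHom.ker (aeval (R := S) x)) ≤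
      ringKrullDim (S[X] ⧸ Ideal.span {p}) :=
    ringKrullDim_le_of_surjective (Ideal.Quotient.factor hle)
      (Ideal.Quotient.factor_surjective hle)
  have h2 := ringKrullDim_quotient_succ_le_of_nonZeroDivisor
    (mem_nonZeroDivisors_of_ne_zero hp0)
  rw [Polynomial.ringKrullDim_of_isNoetherianRing] at h2
  exact h1.trans (withBot_le_of_add_one_le h2)

theorem isNoetherianRing_adjoin_finset {S L : Type*} [CommRing S] [IsNoetherianRing S]
    [CommRing L] [Algebra S L] (F : Finset L) :
    IsNoetherianRing (Algebra.adjoin S (F : Set L)) := by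
  have : Algebra.FiniteType S (Algebra.adjoin S (F : Set L)) :=
    (Subalgebra.fg_iff_finiteType _).1 ⟨F, rfl⟩
  exact Algebra.FiniteType.isNoetherianRing S _

theorem ringKrullDim_adjoin_finset_le {S L : Type*} [CommRing S] [IsNoetherianRing S]
    [CommRing L] [IsDomain L] [Algebra S L] [FaithfulSMul S L] (F : Finset L)
    (hF : ∀ x ∈ F, IsAlgebraic S x) :
    ringKrullDim (Algebra.adjoin S (F : Set L)) ≤ ringKrullDim S := by
  classical
  have hinj : Function.Injective (algebraMap S L) := FaithfulSMul.algebraMap_injective S L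
  induction F using Finset.induction with
  | empty =>
    have e : Algebra.adjoin S ((∅ : Finset L) : Set L) ≃ₐ[S] S :=
      (Subalgebra.equivOfEq _ _ (by simp)).trans (Algebra.botEquivOfInjective hinj)
    exact (ringKrullDim_eq_of_ringEquiv e.toRingEquiv).le
  | insert x F hx ih =>
    have ih' := ih fun z hz => hF z (Finset.mem_insert_of_mem hz)
    have hN : IsNoetherianRing (Algebra.adjoin S (F : Set L)) := isNoetherianRing_adjoin_finset F
    have hinj2 : Function.Injective (algebraMap S (Algebra.adjoin S (F : Set L))) := by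
      intro a b hab
      exact hinj (congrArg Subtype.val hab)
    have halg : IsAlgebraic (Algebra.adjoin S (F : Set L)) x :=
      (hF x (Finset.mem_insert_self _ _)).extendScalars hinj2
    have h1 := ringKrullDim_adjoin_singleton_le (S := Algebra.adjoin S (F : Set L)) x halg
    have h2 : (Algebra.adjoin (Algebra.adjoin S (F : Set L)) ({x} : Set L)).restrictScalars S =
        Algebra.adjoin S ((insert x F : Finset L) : Set L) := by
      rw [← Algebra.adjoin_union_eq_adjoin_adjoin]
      congr 1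
      ext z
      simp
    have e := Subalgebra.equivOfEq _ _ h2
    rw [← ringKrullDim_eq_of_ringEquiv e.toRingEquiv]
    exact h1.trans ih'

end Crest.Agent.R188.HB
end

-- ▼ part R188/HB2
section

/-!
# R188 (Serre positivity), block HB: the multi-Rees algebra

For ideals `n k` (`k : κ`, finite) of a commutative ring `A` and `τ : κ →₀ ℕ` let
`E n τ = ∏ k, n k ^ τ k`. `Rees n` is the subalgebra of `A[X_k]` of the polynomials whose
coefficient at `τ` lies in `E n τ`; `RJ n J` is the ideal of those with coefficient in `J * E n τ`.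
It is of finite type over `A`, and if `A` is a Noetherian domain and all `n k ≠ 0` then
`dim Rees n ≤ dim A + |κ|`.
-/

set_option autoImplicit false
set_option linter.unusedSectionVars false

namespace Crest.Agent.R188.HB

open MvPolynomial

universe u v

variable {κ : Type v} [Fintype κ] {A : Type u} [CommRing A]

/-- `∏ k, n k ^ τ k` -/
def E (n : κ → Ideal A) (τ : κ →₀ ℕ) : Ideal A := ∏ k, n k ^ τ k

@[simp] theorem E_zero (n : κ → Ideal A) : E n 0 = ⊤ := by simp [E, Ideal.one_eq_top]

theorem E_add (n : κ → Ideal A) (σ τ : κ →₀ ℕ) : E n (σ + τ) = E n σ * E n τ := by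
  simp [E, pow_add, Finset.prod_mul_distrib]

theorem E_single (n : κ → Ideal A) (k : κ) (e : ℕ) :
    E n (Finsupp.single k e) = n k ^ e := by
  classical
  rw [E, Finset.prod_eq_single k]
  · simp
  · intro j _ hj
    simp [hj.symm]
  · intro h
    exact absurd (Finset.mem_univ k) h

/-- the multi-Rees algebra. -/
def Rees (n : κ → Ideal A) : Subalgebra A (MvPolynomial κ A) where
  carrier := {f | ∀ τ, f.coeff τ ∈ E n τ}
  mul_mem' := by
    classical
    intro f g hf hg τ
    rw [coeff_mul]
    refine Ideal.sum_mem _ fun x hx => ?_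
    rw [Finset.HasAntidiagonal.mem_antidiagonal] at hx
    rw [← hx, E_add]
    exact Ideal.mul_mem_mul (hf _) (hg _)
  add_mem' := by
    intro f g hf hg τ
    rw [coeff_add]
    exact Ideal.add_mem _ (hf τ) (hg τ)
  algebraMap_mem' := by
    classical
    intro a τ
    rw [algebraMap_eq, coeff_C]
    split_ifs with h
    · rw [← h]; simp
    · exact zero_mem _


theorem monomial_mem_Rees {n : κ → Ideal A} {τ : κ →₀ ℕ} {a : A} (ha : a ∈ E n τ) :
    monomial τ a ∈ Rees n := by
  classical
  intro σ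
  rw [coeff_monomial]
  split_ifs with h
  · rw [← h]; exact ha
  · exact zero_mem _

/-- the generators `a T_k`. -/
def gens (G : κ → Set A) : Set (MvPolynomial κ A) :=
  {f | ∃ k, ∃ a ∈ G k, f = monomial (Finsupp.single k 1) a}

theorem gens_subset_Rees {n : κ → Ideal A} {G : κ → Set A} (hG : ∀ k, G k ⊆ n k) :
    gens G ⊆ Rees n := by
  rintro _ ⟨k, a, ha, rfl⟩
  refine monomial_mem_Rees ?_
  rw [E_single, pow_one]
  exact hG k ha

theorem monomial_single_mem_adjoin {n : κ → Ideal A} {G : κ → Set A}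
    (hG : ∀ k, Ideal.span (G k) = n k) (k : κ) {a : A} (ha : a ∈ n k) :
    monomial (Finsupp.single k 1) a ∈ Algebra.adjoin A (gens G) := by
  rw [← hG k] at ha
  induction ha using Submodule.span_induction with
  | mem x hx => exact Algebra.subset_adjoin ⟨k, x, hx, rfl⟩
  | zero => simp
  | add x y _ _ hx hy => rw [map_add]; exact add_mem hx hy
  | smul r x _ hx =>
    rw [map_smul]
    exact Subalgebra.smul_mem _ hx r

theorem monomial_mem_adjoin {n : κ → Ideal A} {G : κ → Set A}
    (hG : ∀ k, Ideal.span (G k) = n k) (τ : κ →₀ ℕ) {a : A} (ha : a ∈ E n τ) :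
    monomial τ a ∈ Algebra.adjoin A (gens G) := by
  classical
  induction τ using Finsupp.induction_linear generalizing a with
  | zero =>
    exact Subalgebra.algebraMap_mem _ a
  | add σ τ hσ hτ =>
    rw [E_add] at ha
    refine Submodule.mul_induction_on ha (fun x hx y hy => ?_) fun x y hx hy => ?_
    · rw [← monomial_mul]
      exact mul_mem (hσ hx) (hτ hy)
    · rw [map_add]; exact add_mem hx hy
  | single k e =>
    rw [E_single] at ha
    induction e generalizing a with
    | zero =>
      rw [Finsupp.single_zero]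
      exact Subalgebra.algebraMap_mem _ a
    | succ e ih =>
      rw [pow_succ] at ha
      refine Submodule.mul_induction_on ha (fun x hx y hy => ?_) fun x y hx hy => ?_
      · rw [Finsupp.single_add, ← monomial_mul]
        exact mul_mem (ih hx) (monomial_single_mem_adjoin hG k hy)
      · rw [map_add]; exact add_mem hx hy

theorem Rees_eq_adjoin {n : κ → Ideal A} {G : κ → Set A}
    (hG : ∀ k, Ideal.span (G k) = n k) : Rees n = Algebra.adjoin A (gens G) := by
  apply le_antisymm
  · intro f hf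
    rw [f.as_sum]
    exact sum_mem fun τ _ => monomial_mem_adjoin hG τ (hf τ)
  · rw [Algebra.adjoin_le_iff]
    exact gens_subset_Rees fun k => by rw [← hG k]; exact Ideal.subset_span

theorem gens_finite {G : κ → Set A} (hG : ∀ k, (G k).Finite) : (gens G).Finite := by
  have : gens G = ⋃ k, (monomial (Finsupp.single k 1)) '' (G k) := by
    ext f
    simp only [gens, Set.mem_ofPred_eq, Set.mem_iUnion, Set.mem_image]
    constructor
    · rintro ⟨k, a, ha, rfl⟩
      exact ⟨k, a, ha, rfl⟩
    · rintro ⟨k, a, ha, rfl⟩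
      exact ⟨k, a, ha, rfl⟩
  rw [this]
  exact Set.finite_iUnion fun k => (hG k).image _

variable [IsNoetherianRing A]

theorem Rees_fg (n : κ → Ideal A) : (Rees n).FG := by
  classical
  have h : ∀ k, ∃ G : Finset A, Ideal.span (G : Set A) = n k := fun k =>
    (isNoetherianRing_iff_ideal_fg A).1 inferInstance (n k)
  choose G hG using h
  rw [Rees_eq_adjoin (G := fun k => (G k : Set A)) hG]
  exact ⟨(gens_finite fun k => (G k).finite_toSet).toFinset, by simp⟩

instance (n : κ → Ideal A) : Algebra.FiniteType A (Rees n) :=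
  (Subalgebra.fg_iff_finiteType _).1 (Rees_fg n)

instance isNoetherianRing_Rees (n : κ → Ideal A) : IsNoetherianRing (Rees n) :=
  Algebra.FiniteType.isNoetherianRing A _

section dim

variable [IsDomain A]

/-- `X_k ↦ μ_k X_k`. -/
noncomputable def scale (μ : κ → A) : MvPolynomial κ A →ₐ[A] MvPolynomial κ A :=
  aeval fun k => monomial (Finsupp.single k 1) (μ k)

theorem scale_monomial (μ : κ → A) (τ : κ →₀ ℕ) (a : A) :
    scale μ (monomial τ a) = monomial τ (a * ∏ k, μ k ^ τ k) := by
  classical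
  rw [scale, aeval_monomial, algebraMap_eq, Finsupp.prod_fintype _ _ (by simp)]
  have : ∀ k, (monomial (Finsupp.single k 1) (μ k)) ^ τ k =
      monomial (Finsupp.single k (τ k)) (μ k ^ τ k) := by
    intro k
    rw [monomial_pow]
    simp
  simp_rw [this]
  rw [← C_mul_monomial]
  congr 1
  have h2 : ∀ s : Finset κ, ∏ k ∈ s, monomial (Finsupp.single k (τ k)) (μ k ^ τ k) =
      monomial (∑ k ∈ s, Finsupp.single k (τ k)) (∏ k ∈ s, μ k ^ τ k) := by
    intro s
    induction s using Finset.induction with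
    | empty => simp
    | insert k s hk ih =>
      rw [Finset.prod_insert hk, Finset.prod_insert hk, Finset.sum_insert hk, ih, monomial_mul]
  rw [h2 Finset.univ, Finsupp.univ_sum_single]

theorem coeff_scale (μ : κ → A) (f : MvPolynomial κ A) (τ : κ →₀ ℕ) :
    (scale μ f).coeff τ = f.coeff τ * ∏ k, μ k ^ τ k := by
  classical
  induction f using MvPolynomial.induction_on' with
  | monomial σ a =>
    rw [scale_monomial, coeff_monomial, coeff_monomial]
    split_ifs with h
    · rw [h]
    · rw [zero_mul]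
  | add p q hp hq => rw [map_add, coeff_add, coeff_add, hp, hq, add_mul]

theorem scale_injective {μ : κ → A} (hμ : ∀ k, μ k ≠ 0) : Function.Injective (scale μ) := by
  intro f g hfg
  ext τ
  have := congrArg (fun p => p.coeff τ) hfg
  simp only [coeff_scale] at this
  exact mul_right_cancel₀ (Finset.prod_ne_zero_iff.2 fun k _ => pow_ne_zero _ (hμ k)) this

omit [Fintype κ] [IsNoetherianRing A] in
theorem isAlgebraic_of_mul_mem {L : Type*} [CommRing L] [IsDomain L] [Algebra A L]
    (S : Subalgebra A L) {s x : L} (hs : s ∈ S) (hs0 : s ≠ 0) (hx : s * x ∈ S) :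
    IsAlgebraic S x := by
  refine ⟨Polynomial.C ⟨s, hs⟩ * Polynomial.X - Polynomial.C ⟨s * x, hx⟩, ?_, ?_⟩
  · intro h
    have h1 := congrArg (fun p => p.coeff 1) h
    simp only [Polynomial.coeff_sub, Polynomial.coeff_C_mul, Polynomial.coeff_X_one, mul_one,
      Polynomial.coeff_C_succ, sub_zero, Polynomial.coeff_zero] at h1
    exact hs0 (congrArg Subtype.val h1)
  · simp only [map_sub, map_mul, Polynomial.aeval_C, Polynomial.aeval_X]
    exact sub_self _

omit [Fintype κ] [IsNoetherianRing A] [IsDomain A] in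
theorem adjoin_le_of_subalgebra {L : Type*} [CommRing L] [Algebra A L]
    (S : Subalgebra A L) (F : Set L) {f : L} (hf : f ∈ Algebra.adjoin A F) :
    f ∈ Algebra.adjoin S F := by
  induction hf using Algebra.adjoin_induction with
  | mem x hx => exact Algebra.subset_adjoin hx
  | algebraMap r => exact Subalgebra.algebraMap_mem (Algebra.adjoin S F) (algebraMap A S r)
  | add x y _ _ hx hy => exact add_mem hx hy
  | mul x y _ _ hx hy => exact mul_mem hx hy

omit [Fintype κ] [IsNoetherianRing A] [IsDomain A] in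
theorem adjoin_subalgebra_le {L : Type*} [CommRing L] [Algebra A L]
    (S T : Subalgebra A L) (F : Set L) (hS : S ≤ T) (hF : F ⊆ T) {f : L}
    (hf : f ∈ Algebra.adjoin S F) : f ∈ T := by
  induction hf using Algebra.adjoin_induction with
  | mem x hx => exact hF hx
  | algebraMap r => exact hS r.2
  | add x y _ _ hx hy => exact add_mem hx hy
  | mul x y _ _ hx hy => exact mul_mem hx hy

omit [Fintype κ] [IsNoetherianRing A] [IsDomain A] in
theorem ringKrullDim_le_adjoin {L : Type*} [CommRing L] [Algebra A L]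
    (S T : Subalgebra A L) (F : Set L) (hS : S ≤ T) (hF : F ⊆ T)
    (hT : T = Algebra.adjoin A F) : ringKrullDim T ≤ ringKrullDim (Algebra.adjoin S F) := by
  let g : Algebra.adjoin S F →+* T :=
    { toFun := fun f => ⟨f.1, adjoin_subalgebra_le S T F hS hF f.2⟩
      map_one' := rfl
      map_mul' := fun _ _ => rfl
      map_zero' := rfl
      map_add' := fun _ _ => rfl }
  refine ringKrullDim_le_of_surjective g fun f => ?_
  have h : f.1 ∈ Algebra.adjoin A F := by rw [← hT]; exact f.2
  exact ⟨⟨f.1, adjoin_le_of_subalgebra S F h⟩, rfl⟩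

theorem range_scale_le {n : κ → Ideal A} {μ : κ → A} (hμ : ∀ k, μ k ∈ n k) :
    (scale μ).range ≤ Rees n := by
  rintro _ ⟨p, rfl⟩
  intro τ
  show ((scale μ) p).coeff τ ∈ _
  rw [coeff_scale]
  exact Ideal.mul_mem_left _ _ (Ideal.prod_mem_prod fun k _ => Ideal.pow_mem_pow (hμ k) _)

theorem ringKrullDim_Rees_le (n : κ → Ideal A) (hn : ∀ k, n k ≠ ⊥) :
    ringKrullDim (Rees n) ≤ ringKrullDim A + Fintype.card κ := by
  classical
  have h : ∀ k, ∃ G : Finset A, Ideal.span (G : Set A) = n k := fun k =>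
    (isNoetherianRing_iff_ideal_fg A).1 inferInstance (n k)
  choose G hG using h
  have h0 : ∀ k, ∃ μ ∈ n k, μ ≠ 0 := fun k => Submodule.exists_mem_ne_zero_of_ne_bot (hn k)
  choose μ hμ hμ0 using h0
  have hS : IsNoetherianRing (scale μ).range := by
    have : Function.Surjective (scale μ).rangeRestrict := (scale μ).rangeRestrict_surjective
    exact isNoetherianRing_of_surjective _ _ (scale μ).rangeRestrict.toRingHom this
  have hdS : ringKrullDim (scale μ).range = ringKrullDim A + Fintype.card κ := by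
    rw [← ringKrullDim_eq_of_ringEquiv
      (AlgEquiv.ofInjective (scale μ) (scale_injective hμ0)).toRingEquiv,
      MvPolynomial.ringKrullDim_of_isNoetherianRing, Nat.card_eq_fintype_card]
  let F : Finset (MvPolynomial κ A) := (gens_finite fun k => (G k).finite_toSet).toFinset
  have hF : (F : Set (MvPolynomial κ A)) = gens fun k => (G k : Set A) :=
    Set.Finite.coe_toFinset _
  have hFS : ∀ x ∈ F, IsAlgebraic (scale μ).range x := by
    intro x hx
    obtain ⟨k, a, ha, rfl⟩ := (Set.Finite.mem_toFinset _).1 hx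
    refine isAlgebraic_of_mul_mem (scale μ).range (s := C (μ k))
      (Subalgebra.algebraMap_mem _ (μ k)) (fun h => hμ0 k (C_injective _ _ (h.trans C_0.symm))) ?_
    refine ⟨C a * X k, ?_⟩
    show scale μ (C a * X k) = _
    rw [X, C_mul_monomial, mul_one, scale_monomial, C_mul_monomial]
    congr 1
    rw [Finset.prod_eq_single k (fun j _ hj => by simp [hj.symm])
      (fun h => absurd (Finset.mem_univ k) h)]
    simp [mul_comm]
  have h1 := ringKrullDim_adjoin_finset_le (S := (scale μ).range) F hFS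
  rw [hdS] at h1
  refine le_trans ?_ h1
  rw [hF]
  exact ringKrullDim_le_adjoin _ _ _ (range_scale_le hμ)
    (gens_subset_Rees (fun k => by rw [← hG k]; exact Ideal.subset_span))
    (Rees_eq_adjoin (G := fun k => (G k : Set A)) hG)

end dim

end Crest.Agent.R188.HB
end

-- ▼ part R188/HB3
section

/-!
# R188 (Serre positivity), block HB: Hilbert-Samuel growth at a maximal ideal

`growth_at_maximal` : `R` Noetherian, `dim R ≤ D`, `P` a maximal ideal with `A → R/P` onto,
`M` a finite `R`-module: `length_A (M/P^s M) ≤ C s^D`.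
-/

set_option autoImplicit false
set_option linter.unusedSectionVars false

namespace Crest.Agent.R188.HB

open IsLocalRing Crest.Agent.R183.M

theorem length_quot_le_one {A R : Type*} [CommRing A] [CommRing R] [Algebra A R]
    (P : Ideal R) [P.IsMaximal] (hs : Function.Surjective (algebraMap A (R ⧸ P))) :
    Module.length A (R ⧸ P) ≤ 1 := by
  have hsurj : Function.Surjective (Algebra.linearMap A (R ⧸ P)) := hs
  rw [← (LinearMap.quotKerEquivOfSurjective _ hsurj).length_eq]
  have hmax : IsCoatom (LinearMap.ker (Algebra.linearMap A (R ⧸ P))) := by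
    let _ : Field (R ⧸ P) := Ideal.Quotient.field P
    have h6 : (RingHom.ker (algebraMap A (R ⧸ P))).IsMaximal :=
      RingHom.ker_isMaximal_of_surjective _ hs
    exact Ideal.isMaximal_def.1 h6
  have : IsSimpleModule A (A ⧸ (LinearMap.ker (Algebra.linearMap A (R ⧸ P)))) := by
    rw [isSimpleModule_iff_isCoatom]
    exact hmax
  exact (Module.length_eq_one A _).le

theorem le_of_smul_eq_zero {R : Type*} [CommRing R]
    (P : Ideal R) [P.IsMaximal] {X : Type*} [AddCommGroup X] [Module R X]
    (s : ℕ) (hX : ∀ r ∈ P ^ s, ∀ x : X, r • x = 0) (I : Ideal R) (e : X ≃ₗ[R] R ⧸ I)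
    [I.IsMaximal] : P = I := by
  have h3 : P ^ s ≤ I := by
    intro r hr
    have h4 : r • (e (e.symm (Ideal.Quotient.mk I 1))) = 0 := by
      rw [← map_smul, hX r hr, map_zero]
    rw [e.apply_symm_apply] at h4
    have h5 : Ideal.Quotient.mk I (r • (1 : R)) = 0 := h4
    rw [smul_eq_mul, mul_one] at h5
    exact Ideal.Quotient.eq_zero_iff_mem.1 h5
  have hPI : P ≤ I := Ideal.IsPrime.le_of_pow_le h3
  exact Ideal.IsMaximal.eq_of_le inferInstance (Ideal.IsMaximal.ne_top inferInstance) hPI

theorem length_le_aux {A R : Type*} [CommRing A] [CommRing R] [Algebra A R]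
    (P : Ideal R) [P.IsMaximal] (hs : Function.Surjective (algebraMap A (R ⧸ P)))
    (X : Type*) [AddCommGroup X] [Module R X] (s : ℕ) (hfl : IsFiniteLength R X) :
    ∀ [Module A X] [IsScalarTower A R X], (∀ r ∈ P ^ s, ∀ x : X, r • x = 0) →
    Module.length A X ≤ Module.length R X := by
  induction hfl with
  | of_subsingleton =>
    intro _ _ hX
    rw [Module.length_eq_zero]
    exact zero_le
  | @of_simple_quotient M _ _ N hsim hN ih =>
    intro _ _ hX
    have h1 : Module.length A N ≤ Module.length R N :=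
      ih fun r hr x => Subtype.ext (hX r hr x)
    have h2 : Module.length A (M ⧸ N) ≤ 1 := by
      obtain ⟨I, hI, ⟨e⟩⟩ := isSimpleModule_iff_quot_maximal.1 hsim
      have hX' : ∀ r ∈ P ^ s, ∀ x : M ⧸ N, r • x = 0 := by
        intro r hr x
        obtain ⟨m, rfl⟩ := N.mkQ_surjective x
        rw [← map_smul, hX r hr m, map_zero]
      have hI' : P = I := le_of_smul_eq_zero P s hX' I e
      subst hI'
      rw [(e.restrictScalars A).length_eq]
      exact length_quot_le_one P hs
    have hA : Module.length A M = Module.length A N + Module.length A (M ⧸ N) :=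
      Module.length_eq_add_of_exact (N.subtype.restrictScalars A) (N.mkQ.restrictScalars A)
        (fun x y h => N.subtype_injective h) (fun x => N.mkQ_surjective x)
        (fun x => (LinearMap.exact_subtype_mkQ N) x)
    have hR : Module.length R M = Module.length R N + Module.length R (M ⧸ N) :=
      Module.length_eq_add_of_exact N.subtype N.mkQ
        (Submodule.subtype_injective _) (Submodule.mkQ_surjective _)
        (LinearMap.exact_subtype_mkQ N)
    rw [hA, hR, Module.length_eq_one R (M ⧸ N)]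
    exact add_le_add h1 h2

/-- length over `A` is at most the length over `R` for modules killed by a power of the maximal
ideal `P`, if `A → R/P` is onto. -/
theorem length_le_of_surjective_residue {A R : Type*} [CommRing A] [CommRing R] [Algebra A R]
    (P : Ideal R) [P.IsMaximal] (hs : Function.Surjective (algebraMap A (R ⧸ P)))
    (X : Type*) [AddCommGroup X] [Module R X] [Module A X] [IsScalarTower A R X]
    (s : ℕ) (hX : ∀ r ∈ P ^ s, ∀ x : X, r • x = 0) :
    Module.length A X ≤ Module.length R X := by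
  by_cases htop : Module.length R X = ⊤
  · rw [htop]; exact le_top
  · exact length_le_aux P hs X s (Module.length_ne_top_iff.1 htop) hX

theorem mem_of_smul_mem_pow {R : Type*} [CommRing R] (P : Ideal R) [P.IsMaximal]
    {M : Type*} [AddCommGroup M] [Module R M] (s : ℕ) {v : R} (hv : v ∉ P) {m : M}
    (h3 : v • m ∈ (P ^ s • ⊤ : Submodule R M)) : m ∈ (P ^ s • ⊤ : Submodule R M) := by
  have h5 : IsCoprime (Ideal.span {v}) (P ^ s) := by
    apply IsCoprime.pow_right
    rw [Ideal.isCoprime_iff_sup_eq]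
    by_contra hne
    obtain ⟨Q, hQ, hle⟩ := Ideal.exists_le_maximal _ hne
    have h6 : P = Q := Ideal.IsMaximal.eq_of_le inferInstance hQ.ne_top (le_sup_right.trans hle)
    subst h6
    exact hv (hle (Submodule.mem_sup_left (Ideal.mem_span_singleton_self _)))
  obtain ⟨a, ha, z, hz, haz⟩ := Ideal.isCoprime_iff_exists.1 h5
  obtain ⟨w, rfl⟩ := Ideal.mem_span_singleton'.1 ha
  have : m = w • (v • m) + z • m := by
    rw [smul_smul, ← add_smul, haz, one_smul]
  rw [this]
  exact Submodule.add_mem _ (Submodule.smul_mem _ _ h3)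
    (Submodule.smul_mem_smul hz Submodule.mem_top)

/-- `M/P^s M` embeds into the localisation. -/
theorem length_le_lenQ_localization {R : Type*} [CommRing R] (P : Ideal R) [P.IsMaximal]
    (M : Type*) [AddCommGroup M] [Module R M] (s : ℕ) :
    Module.length R (M ⧸ (P ^ s • ⊤ : Submodule R M)) ≤
      lenQ (maximalIdeal (Localization.AtPrime P) ^ s) (LocalizedModule P.primeCompl M) := by
  set f : M →ₗ[R] LocalizedModule P.primeCompl M :=
    LocalizedModule.mkLinearMap P.primeCompl M with hf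
  set W : Submodule (Localization.AtPrime P) (LocalizedModule P.primeCompl M) :=
    maximalIdeal (Localization.AtPrime P) ^ s • ⊤ with hWdef
  have hI : (P ^ s : Ideal R).localized' (Localization.AtPrime P) P.primeCompl
      (Algebra.linearMap R (Localization.AtPrime P)) = maximalIdeal (Localization.AtPrime P) ^ s := by
    rw [← Localization.AtPrime.map_eq_maximalIdeal, ← Ideal.map_pow]
    apply le_antisymm
    · rintro _ ⟨r, hr, t, rfl⟩
      rw [← IsLocalization.mk'_eq_mk', IsLocalization.mk'_eq_mul_mk'_one]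
      exact Ideal.mul_mem_right _ _ (Ideal.mem_map_of_mem _ hr)
    · rw [Ideal.map_le_iff_le_comap]
      intro r hr
      exact ⟨r, hr, 1, by simp⟩
  have hW : W = (P ^ s • ⊤ : Submodule R M).localized' (Localization.AtPrime P)
      P.primeCompl f := by
    rw [Submodule.localized'_smul, Submodule.localized'_top, hI]
  have hker : LinearMap.ker ((W.mkQ.restrictScalars R).comp f) ≤ P ^ s • ⊤ := by
    intro m hm
    have h1 : f m ∈ W := by
      rw [LinearMap.mem_ker] at hm
      exact (Submodule.Quotient.mk_eq_zero W).1 hm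
    rw [hW] at h1
    obtain ⟨n, hn, t, hnt⟩ := h1
    have h2 : f ((t : R) • m) = f n := by
      rw [IsLocalizedModule.mk'_eq_iff] at hnt
      rw [hnt]
      exact map_smul f (t : R) m
    obtain ⟨u, hu⟩ := (IsLocalizedModule.eq_iff_exists P.primeCompl f).1 h2
    have h3 : ((u * t : P.primeCompl) : R) • m ∈ (P ^ s • ⊤ : Submodule R M) := by
      have : ((u * t : P.primeCompl) : R) • m = u • n := by
        rw [← hu]
        simp [Submonoid.smul_def, mul_smul]
      rw [this]
      exact Submodule.smul_mem _ _ hn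
    exact mem_of_smul_mem_pow P s (u * t : P.primeCompl).2 h3
  have h1 : Module.length R (M ⧸ (P ^ s • ⊤ : Submodule R M)) ≤
      Module.length R (LocalizedModule P.primeCompl M ⧸ W) := by
    refine (Module.length_le_of_surjective (Submodule.factor hker)
      (Submodule.factor_surjective hker)).trans ?_
    refine Module.length_le_of_injective
      ((LinearMap.ker ((W.mkQ.restrictScalars R).comp f)).liftQ _ le_rfl) ?_
    rw [← LinearMap.ker_eq_bot]
    exact Submodule.ker_liftQ_eq_bot _ _ _ le_rfl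
  refine h1.trans ?_
  have hsurj : Function.Surjective (algebraMap R
      (Localization.AtPrime P ⧸ maximalIdeal (Localization.AtPrime P))) := by
    intro x
    obtain ⟨r, hr⟩ := (IsLocalization.AtPrime.equivQuotMaximalIdeal P
      (Localization.AtPrime P)).surjective x
    obtain ⟨r, rfl⟩ := Ideal.Quotient.mk_surjective r
    refine ⟨r, ?_⟩
    rw [← hr, IsLocalization.AtPrime.equivQuotMaximalIdeal_apply_mk]
    rfl
  refine length_le_of_surjective_residue (maximalIdeal (Localization.AtPrime P)) hsurj _ s ?_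
  intro r hr x
  obtain ⟨y, rfl⟩ := W.mkQ_surjective x
  rw [← map_smul, Submodule.mkQ_apply, Submodule.Quotient.mk_eq_zero]
  exact Submodule.smul_mem_smul hr Submodule.mem_top

/-- Hilbert-Samuel growth at a maximal ideal, lengths over a subring with the same residue
field. -/
theorem growth_at_maximal {A R : Type*} [CommRing A] [CommRing R] [Algebra A R]
    [IsNoetherianRing R] (P : Ideal R) [P.IsMaximal]
    (hs : Function.Surjective (algebraMap A (R ⧸ P)))
    (M : Type*) [AddCommGroup M] [Module R M] [Module.Finite R M] [Module A M]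
    [IsScalarTower A R M] (D : ℕ) (hD : ringKrullDim R ≤ D) :
    ∃ C : ℕ, ∀ s : ℕ, Module.length A (M ⧸ (P ^ s • ⊤ : Submodule R M)) ≤ C * (s : ℕ∞) ^ D := by
  have hdim : Module.supportDim (Localization.AtPrime P) (LocalizedModule P.primeCompl M) ≤ D := by
    refine (Module.supportDim_le_ringKrullDim _ _).trans (le_trans ?_ hD)
    rw [IsLocalization.AtPrime.ringKrullDim_eq_height P (Localization.AtPrime P)]
    exact Ideal.height_le_ringKrullDim_of_ne_top (Ideal.IsMaximal.ne_top inferInstance)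
  obtain ⟨C, hC⟩ := growth_module (Localization.AtPrime P) (LocalizedModule P.primeCompl M) D hdim
  refine ⟨C, fun s => ?_⟩
  refine le_trans ?_ (hC s)
  refine le_trans ?_ (length_le_lenQ_localization P M s)
  refine length_le_of_surjective_residue P hs _ s ?_
  intro r hr x
  obtain ⟨y, rfl⟩ := (P ^ s • ⊤ : Submodule R M).mkQ_surjective x
  rw [← map_smul, Submodule.mkQ_apply, Submodule.Quotient.mk_eq_zero]
  exact Submodule.smul_mem_smul hr Submodule.mem_top

end Crest.Agent.R188.HB
end

-- ▼ part R188/HB4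
section

/-!
# R188 (Serre positivity), block HB: the total Hilbert bound for the multi-Rees algebra

`total_bound` : `A` Noetherian local domain, `dim A ≤ b`, ideals `n k ≠ 0`, `m^c ≤ q`, `J` an ideal:
`∑_{τ ∈ T} length (J E_τ / q^N J E_τ) ≤ C (t + N)^(b + |κ|)` for `T ⊆ {|τ| ≤ t}`.
-/

set_option autoImplicit false
set_option linter.unusedSectionVars false

namespace Crest.Agent.R188.HB

open MvPolynomial IsLocalRing Crest.Agent.R183.M

universe u v

variable {κ : Type v} [Fintype κ] {A : Type u} [CommRing A]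

/-- the multi-Rees algebra as a type. -/
def RR (n : κ → Ideal A) : Type (max u v) := ↥(Rees n)

noncomputable instance (n : κ → Ideal A) : CommRing (RR n) := inferInstanceAs (CommRing ↥(Rees n))

noncomputable instance (n : κ → Ideal A) : Algebra A (RR n) :=
  inferInstanceAs (Algebra A ↥(Rees n))

instance [IsNoetherianRing A] (n : κ → Ideal A) : IsNoetherianRing (RR n) :=
  inferInstanceAs (IsNoetherianRing ↥(Rees n))

variable {n : κ → Ideal A}

/-- coefficients -/
def cf (f : RR n) (τ : κ →₀ ℕ) : A := f.1.coeff τ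

theorem cf_mem (f : RR n) (τ : κ →₀ ℕ) : cf f τ ∈ E n τ := f.2 τ


@[simp] theorem cf_add (f g : RR n) (τ : κ →₀ ℕ) : cf (f + g) τ = cf f τ + cf g τ :=
  coeff_add τ f.1 g.1

@[simp] theorem cf_zero (τ : κ →₀ ℕ) : cf (0 : RR n) τ = 0 := coeff_zero τ

@[simp] theorem cf_smul (a : A) (f : RR n) (τ : κ →₀ ℕ) : cf (a • f) τ = a * cf f τ :=
  coeff_smul τ a f.1

theorem cf_mul [DecidableEq κ] (f g : RR n) (τ : κ →₀ ℕ) :
    cf (f * g) τ = ∑ x ∈ Finset.HasAntidiagonal.antidiagonal τ, cf f x.1 * cf g x.2 :=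
  coeff_mul f.1 g.1 τ

/-- monomials -/
noncomputable def mon (τ : κ →₀ ℕ) (a : A) (ha : a ∈ E n τ) : RR n :=
  ⟨monomial τ a, monomial_mem_Rees ha⟩

theorem cf_mon [DecidableEq κ] (τ σ : κ →₀ ℕ) (a : A) (ha : a ∈ E n τ) :
    cf (mon τ a ha) σ = if τ = σ then a else 0 := coeff_monomial σ τ a


theorem cf_one (τ : κ →₀ ℕ) [DecidableEq κ] : cf (1 : RR n) τ = if 0 = τ then 1 else 0 :=
  coeff_one τ

theorem algebraMap_eq_smul (a : A) : algebraMap A (RR n) a = a • 1 := Algebra.algebraMap_eq_smul_one a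

theorem cf_algebraMap [DecidableEq κ] (a : A) (τ : κ →₀ ℕ) :
    cf (algebraMap A (RR n) a) τ = if 0 = τ then a else 0 := by
  rw [algebraMap_eq_smul, cf_smul, cf_one]
  split_ifs <;> simp

@[simp] theorem cf_sum {ι : Type*} (s : Finset ι) (f : ι → RR n) (τ : κ →₀ ℕ) :
    cf (∑ i ∈ s, f i) τ = ∑ i ∈ s, cf (f i) τ := by
  classical
  induction s using Finset.induction with
  | empty => simp
  | insert i s hi ih => rw [Finset.sum_insert hi, Finset.sum_insert hi, cf_add, ih]

variable (n)

/-- `{f | coeff τ f ∈ J τ}` as an ideal of the multi-Rees algebra. -/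
def Fil (J : (κ →₀ ℕ) → Ideal A) (hJ : ∀ σ τ, E n σ * J τ ≤ J (σ + τ)) : Ideal (RR n) where
  carrier := {f | ∀ τ, cf f τ ∈ J τ}
  add_mem' := by
    intro f g hf hg τ
    rw [cf_add]
    exact Ideal.add_mem _ (hf τ) (hg τ)
  zero_mem' := by
    intro τ
    rw [cf_zero]
    exact zero_mem _
  smul_mem' := by
    classical
    intro r f hf τ
    rw [smul_eq_mul, cf_mul]
    refine Ideal.sum_mem _ fun x hx => ?_
    rw [Finset.HasAntidiagonal.mem_antidiagonal] at hx
    rw [← hx]
    exact hJ _ _ (Ideal.mul_mem_mul (cf_mem r _) (hf _))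

variable {n}



theorem hJmul (n : κ → Ideal A) (J : Ideal A) (σ τ : κ →₀ ℕ) :
    E n σ * (J * E n τ) ≤ J * E n (σ + τ) := by
  rw [E_add, mul_left_comm]

variable (n)

/-- the ideal `⊕ J E_τ T^τ`. -/
def MJ (J : Ideal A) : Ideal (RR n) := Fil n (fun τ => J * E n τ) (hJmul n J)

variable {n}


theorem mem_E_of_mem {J : Ideal A} {τ : κ →₀ ℕ} {a : A} (ha : a ∈ J * E n τ) : a ∈ E n τ :=
  (Ideal.mul_le_right : J * E n τ ≤ E n τ) ha

theorem mon_mem_MJ {J : Ideal A} {τ : κ →₀ ℕ} {a : A} (ha : a ∈ J * E n τ) :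
    mon τ a (mem_E_of_mem ha) ∈ MJ n J := by
  classical
  intro σ
  rw [cf_mon]
  split_ifs with h
  · rw [← h]; exact ha
  · exact zero_mem _

variable (n)

/-- the augmentation. -/
noncomputable def aug : RR n →+* A :=
  (constantCoeff (σ := κ) (R := A)).comp (Rees n).val.toRingHom

variable {n}

theorem aug_apply (f : RR n) : aug n f = cf f 0 := rfl

theorem aug_algebraMap (a : A) : aug n (algebraMap A (RR n) a) = a := by
  classical
  rw [aug_apply, cf_algebraMap, if_pos rfl]

section local_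

variable [IsLocalRing A]

variable (n)

/-- the graded maximal ideal. -/
noncomputable def Pm : Ideal (RR n) := (maximalIdeal A).comap (aug n)

instance : (Pm n).IsMaximal :=
  Ideal.comap_isMaximal_of_surjective (aug n) fun a => ⟨_, aug_algebraMap a⟩

theorem surj_Pm : Function.Surjective (algebraMap A (RR n ⧸ Pm n)) := by
  intro x
  obtain ⟨f, rfl⟩ := Ideal.Quotient.mk_surjective x
  refine ⟨aug n f, ?_⟩
  show Ideal.Quotient.mk (Pm n) (algebraMap A (RR n) (aug n f)) = _
  rw [Ideal.Quotient.eq]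
  show aug n (algebraMap A (RR n) (aug n f) - f) ∈ maximalIdeal A
  rw [map_sub, aug_algebraMap, sub_self]
  exact zero_mem _

theorem hJ_pow (J : Ideal A) (s : ℕ) (σ τ : κ →₀ ℕ) :
    E n σ * (maximalIdeal A ^ (s - τ.degree) * (J * E n τ)) ≤
      maximalIdeal A ^ (s - (σ + τ).degree) * (J * E n (σ + τ)) := by
  rw [mul_left_comm]
  refine Ideal.mul_mono (Ideal.pow_le_pow_right ?_) (hJmul n J σ τ)
  rw [map_add]
  omega

theorem Pm_pow_smul_le (J : Ideal A) (s : ℕ) (x : MJ n J)
    (hx : x ∈ (Pm n ^ s • ⊤ : Submodule (RR n) (MJ n J))) :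
    ∀ τ, cf x.1 τ ∈ maximalIdeal A ^ (s - τ.degree) * (J * E n τ) := by
  classical
  induction s generalizing x with
  | zero =>
    intro τ
    simp only [Nat.zero_sub, pow_zero, Ideal.one_eq_top, Ideal.top_mul]
    exact x.2 τ
  | succ s ih =>
    rw [pow_succ', mul_smul] at hx
    have key : x ∈ Submodule.comap (Submodule.subtype (MJ n J))
        (Fil n (fun τ => maximalIdeal A ^ (s + 1 - τ.degree) * (J * E n τ))
        (hJ_pow n J (s + 1))) := by
      refine Submodule.smul_induction_on hx (fun r hr y hy => ?_) fun y z hy hz => ?_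
      · intro τ
        show cf (r * y.1) τ ∈ _
        rw [cf_mul]
        refine Ideal.sum_mem _ fun p hp => ?_
        rw [Finset.HasAntidiagonal.mem_antidiagonal] at hp
        rw [← hp]
        have h1 := ih y hy p.2
        by_cases h0 : p.1 = 0
        · have h2 : cf r p.1 ∈ maximalIdeal A := by
            rw [h0]; exact hr
          have h3 := Ideal.mul_mem_mul h2 h1
          rw [← mul_assoc, ← pow_succ'] at h3
          rw [h0, zero_add]
          rw [h0] at h3
          refine Ideal.mul_mono_left (Ideal.pow_le_pow_right ?_) h3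
          omega
        · have h2 := Ideal.mul_mem_mul (cf_mem r p.1) h1
          rw [mul_left_comm] at h2
          refine Ideal.mul_mono (Ideal.pow_le_pow_right ?_) (hJmul n J p.1 p.2) h2
          rw [map_add]
          have : 0 < p.1.degree := by
            rw [pos_iff_ne_zero, Ne, Finsupp.degree_eq_zero_iff]
            exact h0
          omega
      · exact Submodule.add_mem _ hy hz
    exact key

variable {n}

/-- the coefficient map. -/
noncomputable def coeffMap (J : Ideal A) (τ : κ →₀ ℕ) :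
    MJ n J →ₗ[A] ↥(J * E n τ) where
  toFun := fun x => ⟨cf x.1 τ, x.2 τ⟩
  map_add' := fun x y => Subtype.ext (cf_add x.1 y.1 τ)
  map_smul' := fun a x => Subtype.ext (cf_smul a x.1 τ)

theorem mem_smul_top_of_mem_mul (I K : Ideal A) (x : K) (hx : x.1 ∈ I * K) :
    x ∈ (I • ⊤ : Submodule A K) := by
  have h : (I • ⊤ : Submodule A K).map K.subtype = I * K := by
    rw [Submodule.map_smul'', Submodule.map_top, Submodule.range_subtype, smul_eq_mul]
  rw [← h] at hx
  obtain ⟨y, hy, hyx⟩ := hx
  have : y = x := Subtype.ext hyx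
  rw [← this]
  exact hy

theorem total_le (J : Ideal A) (q : Ideal A) (c : ℕ)
    (hc : maximalIdeal A ^ c ≤ q) (T : Finset (κ →₀ ℕ)) (N t : ℕ) (hT : ∀ τ ∈ T, τ.degree ≤ t) :
    ∑ τ ∈ T, lenQ (q ^ N) ↥(J * E n τ) ≤
      Module.length A (MJ n J ⧸ (Pm n ^ (t + c * N) • ⊤ : Submodule (RR n) (MJ n J))) := by
  classical
  let Φ : MJ n J →ₗ[A] ((τ : T) → (↥(J * E n τ.1) ⧸ (q ^ N • ⊤ : Submodule A ↥(J * E n τ.1)))) :=
    LinearMap.pi fun τ => (Submodule.mkQ _).comp (coeffMap J τ.1)
  have hsurj : Function.Surjective Φ := by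
    intro z
    have h : ∀ τ : T, ∃ y : ↥(J * E n τ.1), Submodule.mkQ _ y = z τ := fun τ =>
      Submodule.mkQ_surjective _ (z τ)
    choose y hy using h
    refine ⟨⟨∑ τ : T, mon τ.1 (y τ).1 (mem_E_of_mem (y τ).2),
      Ideal.sum_mem _ fun τ _ => mon_mem_MJ (y τ).2⟩, ?_⟩
    funext σ
    rw [LinearMap.pi_apply, LinearMap.comp_apply, ← hy σ]
    congr 1
    apply Subtype.ext
    show cf (∑ τ : T, mon τ.1 (y τ).1 (mem_E_of_mem (y τ).2)) σ.1 = _
    rw [cf_sum, Finset.sum_eq_single σ]
    · rw [cf_mon, if_pos rfl]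
    · intro b _ hb
      rw [cf_mon, if_neg]
      intro h
      exact hb (Subtype.ext h)
    · intro h
      exact absurd (Finset.mem_univ _) h
  have hker : (Pm n ^ (t + c * N) • ⊤ : Submodule (RR n) (MJ n J)).restrictScalars A ≤
      LinearMap.ker Φ := by
    intro x hx
    rw [LinearMap.mem_ker]
    funext τ
    rw [LinearMap.pi_apply, LinearMap.comp_apply, Pi.zero_apply, Submodule.mkQ_apply,
      Submodule.Quotient.mk_eq_zero]
    apply mem_smul_top_of_mem_mul
    have h1 := Pm_pow_smul_le n J _ x hx τ.1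
    refine Ideal.mul_mono_left ?_ h1
    calc maximalIdeal A ^ (t + c * N - τ.1.degree) ≤ maximalIdeal A ^ (c * N) :=
          Ideal.pow_le_pow_right (by have := hT τ.1 τ.2; omega)
      _ = (maximalIdeal A ^ c) ^ N := pow_mul _ _ _
      _ ≤ q ^ N := Ideal.pow_right_mono hc N
  have h2 : Function.Surjective (Submodule.liftQ _ Φ hker) := by
    rw [← LinearMap.range_eq_top, Submodule.range_liftQ, LinearMap.range_eq_top]
    exact hsurj
  have h3 := Module.length_le_of_surjective _ h2
  rw [Module.length_pi_of_fintype] at h3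
  have h4 : ∑ τ ∈ T, lenQ (q ^ N) ↥(J * E n τ) = ∑ τ : T, lenQ (q ^ N) ↥(J * E n τ.1) :=
    (Finset.sum_coe_sort T fun τ => lenQ (q ^ N) ↥(J * E n τ)).symm
  rw [h4]
  refine h3.trans (le_of_eq ?_)
  exact (Submodule.Quotient.restrictScalarsEquiv A
    (Pm n ^ (t + c * N) • ⊤ : Submodule (RR n) (MJ n J))).length_eq

theorem total_bound [IsNoetherianRing A] [IsDomain A] (hn : ∀ k, n k ≠ ⊥)
    (J : Ideal A) (q : Ideal A) (c : ℕ) (hc : maximalIdeal A ^ c ≤ q) (b : ℕ)
    (hb : ringKrullDim A ≤ b) :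
    ∃ C : ℕ, ∀ (T : Finset (κ →₀ ℕ)) (N t : ℕ), (∀ τ ∈ T, τ.degree ≤ t) →
      ∑ τ ∈ T, lenQ (q ^ N) ↥(J * E n τ) ≤ C * ((t + N : ℕ) : ℕ∞) ^ (b + Fintype.card κ) := by
  have hdim : ringKrullDim (RR n) ≤ ((b + Fintype.card κ : ℕ) : WithBot ℕ∞) := by
    refine (ringKrullDim_Rees_le n hn).trans ?_
    push_cast
    gcongr
  obtain ⟨C, hC⟩ := growth_at_maximal (A := A) (Pm n) (surj_Pm n) (MJ n J) _ hdim
  refine ⟨C * (c + 1) ^ (b + Fintype.card κ), fun T N t hT => ?_⟩
  refine (total_le J q c hc T N t hT).trans ((hC _).trans ?_)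
  have h1 : (t + c * N : ℕ) ≤ (c + 1) * (t + N) := by nlinarith [Nat.zero_le (c * t)]
  calc (C : ℕ∞) * ((t + c * N : ℕ) : ℕ∞) ^ (b + Fintype.card κ)
      ≤ (C : ℕ∞) * (((c + 1) * (t + N) : ℕ) : ℕ∞) ^ (b + Fintype.card κ) := by
        gcongr
    _ = _ := by
        push_cast
        rw [mul_pow, mul_assoc]

end local_

end Crest.Agent.R188.HB
end

-- ▼ part R188/HB5
section

/-!
# R188 (Serre positivity), block HB: superficial elements in the multi-Rees algebra
-/

set_option autoImplicit false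
set_option linter.unusedSectionVars false

namespace Crest.Agent.R188.HB

open MvPolynomial IsLocalRing Crest.Agent.R183.M

universe u v

section avoid

variable {A : Type*} [CommRing A] [IsLocalRing A] [Infinite (ResidueField A)]

theorem infinite_of_nontrivial (Q : Type*) [AddCommGroup Q] [Module A Q] [Module.Finite A Q]
    [Nontrivial Q] : Infinite Q := by
  obtain ⟨c, hc, -⟩ := (eq_top_or_exists_le_coatom (⊥ : Submodule A Q)).resolve_left bot_ne_top
  have hsim : IsSimpleModule A (Q ⧸ c) := isSimpleModule_iff_isCoatom.2 hc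
  obtain ⟨I, hI, ⟨e⟩⟩ := isSimpleModule_iff_quot_maximal.1 hsim
  have hI' : I = maximalIdeal A := eq_maximalIdeal hI
  subst hI'
  have : Infinite (A ⧸ maximalIdeal A) := inferInstanceAs (Infinite (ResidueField A))
  have : Infinite (Q ⧸ c) := e.toEquiv.infinite_iff.2 this
  exact Infinite.of_surjective _ c.mkQ_surjective

theorem exists_notMem_of_ne_top {M : Type*} [AddCommGroup M] [Module A M] [Module.Finite A M]
    {ι : Type*} (s : Finset ι) (p : ι → Submodule A M) (hp : ∀ i ∈ s, p i ≠ ⊤) :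
    ∃ x : M, ∀ i ∈ s, x ∉ p i := by
  by_contra! hcon
  have hcov : ⋃ i ∈ s, (p i : Set M) = Set.univ := by
    ext x
    simp only [Set.mem_iUnion, Set.mem_univ, iff_true]
    obtain ⟨i, hi, hx⟩ := hcon x
    exact ⟨i, hi, hx⟩
  obtain ⟨k, hk, hfi⟩ := Submodule.exists_finiteIndex_of_cover hcov
  have h1 : Finite (M ⧸ p k) := AddSubgroup.finite_quotient_of_finiteIndex
  have h2 : Nontrivial (M ⧸ p k) := Submodule.Quotient.nontrivial_iff.mpr (hp k hk)
  have h3 : Infinite (M ⧸ p k) := infinite_of_nontrivial (A := A) _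
  exact not_finite (M ⧸ p k)

end avoid

variable {κ : Type v} [Fintype κ] {A : Type u} [CommRing A] {n : κ → Ideal A}

theorem mon_add (τ : κ →₀ ℕ) {a b : A} (ha : a ∈ E n τ) (hb : b ∈ E n τ) :
    mon τ (a + b) (add_mem ha hb) = mon τ a ha + mon τ b hb :=
  Subtype.ext (map_add (monomial τ) a b)


/-- membership in `K • ⊤ ⊆ L` for an ideal `L`. -/
theorem mem_smul_top_iff {R : Type*} [CommRing R] (K L : Ideal R) (x : L) :
    x ∈ (K • ⊤ : Submodule R L) ↔ x.1 ∈ K * L := by
  have h : (K • ⊤ : Submodule R L).map (Submodule.subtype L) = K * L := by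
    rw [Submodule.map_smul'', Submodule.map_top, Submodule.range_subtype, smul_eq_mul]
  constructor
  · intro hx
    rw [← h]
    exact ⟨x, hx, rfl⟩
  · intro hx
    rw [← h] at hx
    obtain ⟨y, hy, hyx⟩ := hx
    have : y = x := Subtype.ext hyx
    rw [← this]
    exact hy

/-- `I` extended to the multi-Rees algebra. -/
noncomputable abbrev ext (n : κ → Ideal A) (I : Ideal A) : Ideal (RR n) :=
  I.map (algebraMap A (RR n))

theorem cf_mem_of_mem_ext_mul {I J : Ideal A} {f : RR n} (hf : f ∈ ext n I * MJ n J)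
    (τ : κ →₀ ℕ) : cf f τ ∈ I * (J * E n τ) := by
  classical
  have hJ : ∀ σ τ, E n σ * (I * (J * E n τ)) ≤ I * (J * E n (σ + τ)) := by
    intro σ τ
    rw [E_add, mul_left_comm, mul_left_comm (E n σ)]
  have h : ext n I * MJ n J ≤ Fil n (fun τ => I * (J * E n τ)) hJ := by
    rw [Ideal.mul_le]
    intro r hr m hm
    induction hr using Submodule.span_induction with
    | mem r hr =>
      obtain ⟨a, ha, rfl⟩ := hr
      intro τ
      rw [algebraMap_eq_smul, smul_mul_assoc, one_mul, cf_smul]
      exact Ideal.mul_mem_mul ha (hm τ)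
    | zero => rw [zero_mul]; exact zero_mem _
    | add x y _ _ hx hy => rw [add_mul]; exact add_mem hx hy
    | smul r x _ hx =>
      rw [smul_mul_assoc]
      exact Submodule.smul_mem _ r hx
  exact h hf τ

theorem mon_mem_ext_mul {I J : Ideal A} {τ : κ →₀ ℕ} {z : A} (hz : z ∈ I * (J * E n τ)) :
    ∃ h : z ∈ E n τ, mon τ z h ∈ ext n I * MJ n J := by
  refine Submodule.mul_induction_on hz (fun x hx y hy => ?_) fun x y hx hy => ?_
  · have hy' : y ∈ E n τ := mem_E_of_mem hy
    refine ⟨Ideal.mul_mem_left _ x hy', ?_⟩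
    have : mon τ (x * y) (Ideal.mul_mem_left _ x hy') =
        algebraMap A (RR n) x * mon τ y hy' := by
      rw [algebraMap_eq_smul, smul_mul_assoc, one_mul]
      apply Subtype.ext
      show monomial τ (x * y) = x • monomial τ y
      rw [smul_monomial, smul_eq_mul]
    rw [this]
    exact Ideal.mul_mem_mul (Ideal.mem_map_of_mem _ hx) (mon_mem_MJ hy)
  · obtain ⟨h1, h1'⟩ := hx
    obtain ⟨h2, h2'⟩ := hy
    exact ⟨add_mem h1 h2, by rw [mon_add τ h1 h2]; exact add_mem h1' h2'⟩

variable (n) in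
/-- `n k → Rees`, `a ↦ a T_k`. -/
noncomputable def lin (k : κ) : ↥(n k) →ₗ[A] RR n where
  toFun a := mon (Finsupp.single k 1) a.1 (by rw [E_single, pow_one]; exact a.2)
  map_add' a b := Subtype.ext (map_add (monomial _) a.1 b.1)
  map_smul' r a := Subtype.ext (by
    show monomial _ (r • a.1) = r • monomial _ a.1
    rw [smul_monomial])

variable (n) in
/-- the ideal generated by `n_k T_k`. -/
noncomputable def aa (k : κ) : Ideal (RR n) := Ideal.span (Set.range (lin n k))

theorem mon_mem_aa_pow_mul {J : Ideal A} (k : κ) (t : ℕ) (τ : κ →₀ ℕ) {z : A}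
    (hz : z ∈ J * E n (Finsupp.single k t + τ)) :
    ∃ h : z ∈ E n (Finsupp.single k t + τ),
      mon (Finsupp.single k t + τ) z h ∈ aa n k ^ t * MJ n J := by
  induction t generalizing z with
  | zero =>
    refine ⟨mem_E_of_mem hz, ?_⟩
    rw [pow_zero, one_mul]
    exact mon_mem_MJ hz
  | succ t ih =>
    have hτ : Finsupp.single k (t + 1) + τ = Finsupp.single k 1 + (Finsupp.single k t + τ) := by
      rw [← add_assoc, ← Finsupp.single_add, add_comm 1 t]
    have h1 : J * E n (Finsupp.single k (t + 1) + τ) =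
        n k * (J * E n (Finsupp.single k t + τ)) := by
      rw [hτ, E_add, E_single, pow_one, mul_left_comm]
    rw [h1] at hz
    refine Submodule.mul_induction_on hz (fun x hx y hy => ?_) fun x y hx hy => ?_
    · obtain ⟨h2, h3⟩ := ih hy
      have h4 : x * y ∈ E n (Finsupp.single k (t + 1) + τ) := by
        rw [hτ, E_add, E_single, pow_one]
        exact Ideal.mul_mem_mul hx h2
      refine ⟨h4, ?_⟩
      have : mon (Finsupp.single k (t + 1) + τ) (x * y) h4 =
          lin n k ⟨x, hx⟩ * mon (Finsupp.single k t + τ) y h2 := by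
        apply Subtype.ext
        show monomial _ (x * y) = monomial _ x * monomial _ y
        rw [monomial_mul, hτ]
      rw [this, pow_succ', mul_assoc]
      exact Ideal.mul_mem_mul (Ideal.subset_span ⟨_, rfl⟩) h3
    · obtain ⟨h1, h1'⟩ := hx
      obtain ⟨h2, h2'⟩ := hy
      exact ⟨add_mem h1 h2, by rw [mon_add _ h1 h2]; exact add_mem h1' h2'⟩

variable [IsLocalRing A] [IsNoetherianRing A] [Infinite (ResidueField A)]

theorem exists_superficial (J I : Ideal A) (k : κ) :
    ∃ x ∈ n k, ∃ t₀ : ℕ, ∀ τ : κ →₀ ℕ, t₀ ≤ τ k → ∀ z ∈ J * E n τ,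
      x * z ∈ I * (J * E n (Finsupp.single k 1 + τ)) → z ∈ I * (J * E n τ) := by
  classical
  let M := MJ n J
  let U : Submodule (RR n) M := ext n I • ⊤
  let G := M ⧸ U
  have hfin := associatedPrimes.finite (RR n) G
  let S : Finset (Ideal (RR n)) := hfin.toFinset.filter fun P => ¬ aa n k ≤ P
  have hW : ∀ P ∈ S, Submodule.comap (lin n k) (P.restrictScalars A) ≠ ⊤ := by
    intro P hP htop
    rw [Finset.mem_filter] at hP
    refine hP.2 ?_
    rw [aa, Ideal.span_le]
    rintro _ ⟨a, rfl⟩
    have : a ∈ Submodule.comap (lin n k) (P.restrictScalars A) := by rw [htop]; trivial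
    exact this
  obtain ⟨x, hx⟩ := exists_notMem_of_ne_top S _ hW
  let u : RR n := lin n k x
  let K : Submodule (RR n) G := LinearMap.ker (LinearMap.lsmul (RR n) G u)
  have hK : aa n k ≤ (Module.annihilator (RR n) K).radical := by
    rw [← Ideal.sInf_minimalPrimes]
    refine le_sInf fun P hP => ?_
    have hPK : P ∈ associatedPrimes (RR n) K :=
      Module.associatedPrimes.minimalPrimes_annihilator_subset_associatedPrimes (RR n) K hP
    have hPG : P ∈ associatedPrimes (RR n) G :=
      associatedPrimes.subset_of_injective K.subtype_injective hPK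
    by_contra hle
    have hPS : P ∈ S := by
      rw [Finset.mem_filter]
      exact ⟨hfin.mem_toFinset.2 hPG, hle⟩
    have huP : u ∈ P := by
      refine hP.1.2 ?_
      rw [Module.mem_annihilator]
      intro g
      exact Subtype.ext g.2
    exact hx P hPS huP
  obtain ⟨c, hc⟩ := Ideal.exists_pow_le_of_le_radical_of_fg hK
    ((isNoetherianRing_iff_ideal_fg (RR n)).1 inferInstance _)
  obtain ⟨k0, hk0⟩ := Ideal.exists_pow_inf_eq_pow_smul (aa n k) K
  refine ⟨x.1, x.2, k0 + c, fun τ hτ z hz hxz => ?_⟩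
  obtain ⟨σ, hσ⟩ : ∃ σ, τ = Finsupp.single k (k0 + c) + σ :=
    ⟨τ - Finsupp.single k (k0 + c), by
      rw [add_tsub_cancel_of_le]
      rwa [Finsupp.single_le_iff]⟩
  have hz' := hz
  rw [hσ] at hz'
  obtain ⟨h1, h2⟩ := mon_mem_aa_pow_mul k (k0 + c) σ hz'
  let f : M := ⟨mon τ z (mem_E_of_mem hz), mon_mem_MJ hz⟩
  have hf : f ∈ (aa n k ^ (k0 + c) • ⊤ : Submodule (RR n) M) := by
    rw [mem_smul_top_iff]
    have : mon τ z (mem_E_of_mem hz) = mon (Finsupp.single k (k0 + c) + σ) z h1 := by
      apply Subtype.ext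
      show monomial τ z = monomial _ z
      rw [hσ]
    show mon τ z (mem_E_of_mem hz) ∈ _
    rw [this]
    exact h2
  have hg1 : U.mkQ f ∈ (aa n k ^ (k0 + c) • ⊤ : Submodule (RR n) G) := by
    have := Submodule.mem_map_of_mem (f := U.mkQ) hf
    rw [Submodule.map_smul''] at this
    exact Submodule.smul_mono le_rfl le_top this
  have hg2 : U.mkQ f ∈ K := by
    show u • U.mkQ f = 0
    rw [← map_smul, Submodule.mkQ_apply, Submodule.Quotient.mk_eq_zero, mem_smul_top_iff]
    obtain ⟨h3, h4⟩ := mon_mem_ext_mul hxz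
    have : ((u • f : M) : RR n) = mon (Finsupp.single k 1 + τ) (x.1 * z) h3 := by
      apply Subtype.ext
      show monomial _ x.1 * monomial τ z = monomial _ _
      rw [monomial_mul]
    rw [this]
    exact h4
  have hg3 : U.mkQ f = 0 := by
    have h5 : U.mkQ f ∈ aa n k ^ (k0 + c) • ⊤ ⊓ K := ⟨hg1, hg2⟩
    rw [hk0 (k0 + c) (by omega), Nat.add_sub_cancel_left] at h5
    have h6 : aa n k ^ c • (aa n k ^ k0 • ⊤ ⊓ K) ≤ (⊥ : Submodule (RR n) G) := by
      refine (Submodule.smul_mono le_rfl inf_le_right).trans ?_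
      rw [Submodule.smul_le]
      intro r hr g hg
      have := Module.mem_annihilator.1 (hc hr) ⟨g, hg⟩
      rw [Submodule.mem_bot]
      exact congrArg Subtype.val this
    exact (Submodule.mem_bot _).1 (h6 h5)
  rw [Submodule.mkQ_apply, Submodule.Quotient.mk_eq_zero, mem_smul_top_iff] at hg3
  have h7 := cf_mem_of_mem_ext_mul hg3 τ
  have h8 : cf (f : RR n) τ = z := by
    show cf (mon τ z (mem_E_of_mem hz)) τ = z
    rw [cf_mon, if_pos rfl]
  rw [h8] at h7
  exact h7

end Crest.Agent.R188.HB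
end

-- ▼ part R188/HB6
section

/-!
# R188 (Serre positivity), block HB: the Hilbert bound

`hilbert_bound` : `A` Noetherian local domain with infinite residue field, `dim A ≤ b`, `𝔠` an ideal,
`m^c ≤ q`: `∃ C, ∀ t N, length (𝔠^t / q^N 𝔠^t) ≤ C (t + N + 1)^b`.
-/

set_option autoImplicit false
set_option linter.unusedSectionVars false

namespace Crest.Agent.R188.HB

open MvPolynomial IsLocalRing Crest.Agent.R183.M

universe u v

variable {κ : Type v} [Fintype κ] {A : Type u} [CommRing A] {n : κ → Ideal A}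

/-- add one ideal. -/
def optI (n : κ → Ideal A) (q : Ideal A) : Option κ → Ideal A := fun o => o.elim q n

/-- the exponent `(τ, j)`. -/
noncomputable def optE (τ : κ →₀ ℕ) (j : ℕ) : Option κ →₀ ℕ :=
  Finsupp.equivFunOnFinite.symm fun o => o.elim j τ

theorem E_optE (n : κ → Ideal A) (q : Ideal A) (τ : κ →₀ ℕ) (j : ℕ) :
    E (optI n q) (optE τ j) = q ^ j * E n τ := by
  rw [E, Fintype.prod_option, E]
  rfl

theorem optE_add_single (τ : κ →₀ ℕ) (j : ℕ) (k : κ) :
    Finsupp.single (some k) 1 + optE τ j = optE (Finsupp.single k 1 + τ) j := by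
  classical
  ext o
  cases o with
  | none => simp [optE]
  | some i => simp [optE, Finsupp.single_apply]

/-- length of `K / q^N K` for an ideal `K`. -/
theorem lenQ_le_of_injective_mod {J K q : Ideal A} {x : A} (N : ℕ)
    (h1 : ∀ z ∈ J, x * z ∈ K) (h2 : ∀ z ∈ J, x * z ∈ q ^ N * K → z ∈ q ^ N * J) :
    lenQ (q ^ N) ↥J ≤ lenQ (q ^ N) ↥K := by
  let φ : ↥J →ₗ[A] ↥K :=
    { toFun := fun z => ⟨x * z.1, h1 z.1 z.2⟩
      map_add' := fun a b => Subtype.ext (mul_add x a.1 b.1)
      map_smul' := fun r a => Subtype.ext (by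
        show x * (r * a.1) = r * (x * a.1)
        ring) }
  let ψ := ((q ^ N • ⊤ : Submodule A ↥K).mkQ).comp φ
  have hker : LinearMap.ker ψ ≤ q ^ N • ⊤ := by
    intro z hz
    rw [LinearMap.mem_ker, LinearMap.comp_apply, Submodule.mkQ_apply,
      Submodule.Quotient.mk_eq_zero, mem_smul_top_iff] at hz
    rw [mem_smul_top_iff]
    exact h2 z.1 z.2 hz
  unfold lenQ
  refine (Module.length_le_of_surjective (Submodule.factor hker)
    (Submodule.factor_surjective hker)).trans ?_
  refine Module.length_le_of_injective ((LinearMap.ker ψ).liftQ _ le_rfl) ?_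
  rw [← LinearMap.ker_eq_bot]
  exact Submodule.ker_liftQ_eq_bot _ _ _ le_rfl

variable [IsLocalRing A] [IsNoetherianRing A] [Infinite (ResidueField A)]

/-- eventual monotonicity in each variable. -/
theorem exists_mono (n : κ → Ideal A) (J q : Ideal A) (k : κ) :
    ∃ t₀ : ℕ, ∀ (N : ℕ) (τ : κ →₀ ℕ), t₀ ≤ τ k →
      lenQ (q ^ N) ↥(J * E n τ) ≤ lenQ (q ^ N) ↥(J * E n (Finsupp.single k 1 + τ)) := by
  obtain ⟨x, hx, t₀, h⟩ := exists_superficial (n := optI n q) J q (some k)
  have hx' : x ∈ n k := hx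
  refine ⟨t₀, fun N τ hτ => ?_⟩
  refine lenQ_le_of_injective_mod (x := x) N (fun z hz => ?_) fun z hz hxz => ?_
  · rw [E_add, E_single, pow_one, mul_left_comm]
    exact Ideal.mul_mem_mul hx' hz
  · induction N with
    | zero => simpa using hz
    | succ N ih =>
      have h1 : z ∈ q ^ N * (J * E n τ) :=
        ih (Ideal.mul_mono_left (Ideal.pow_le_pow_right (Nat.le_succ N)) hxz)
      have h2 : z ∈ J * E (optI n q) (optE τ N) := by
        rw [E_optE, mul_left_comm]; exact h1
      have h3 := h (optE τ N) hτ z h2 (by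
        rw [optE_add_single, E_optE, mul_left_comm J, ← mul_assoc, ← pow_succ']
        exact hxz)
      rw [E_optE, mul_left_comm J, ← mul_assoc, ← pow_succ'] at h3
      exact h3

theorem enat_le_of_mul_le {m : ℕ} (hm : m ≠ 0) {a b : ℕ∞} (h : (m : ℕ∞) * a ≤ m * b) : a ≤ b := by
  induction b using ENat.recTopCoe with
  | top => exact le_top
  | coe b =>
    induction a using ENat.recTopCoe with
    | top =>
      rw [ENat.mul_top (by exact_mod_cast hm)] at h
      exact absurd (top_le_iff.1 h) (by exact_mod_cast ENat.natCast_ne_top (m * b))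
    | coe a =>
      have h' : m * a ≤ m * b := by exact_mod_cast h
      exact_mod_cast Nat.le_of_mul_le_mul_left h' (Nat.pos_of_ne_zero hm)

theorem growth_lenQ (M : Type*) [AddCommGroup M] [Module A M] [Module.Finite A M] (b : ℕ)
    (hb : ringKrullDim A ≤ b) (q : Ideal A) (c : ℕ) (hc : maximalIdeal A ^ c ≤ q) :
    ∃ C : ℕ, ∀ N : ℕ, lenQ (q ^ N) M ≤ C * (N : ℕ∞) ^ b := by
  obtain ⟨C, hC⟩ := growth_module A M b ((Module.supportDim_le_ringKrullDim _ _).trans hb)
  refine ⟨C * c ^ b, fun N => ?_⟩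
  have h1 : maximalIdeal A ^ (c * N) ≤ q ^ N := by
    rw [pow_mul]; exact Ideal.pow_right_mono hc N
  refine (lenQ_mono h1).trans ((hC _).trans (le_of_eq ?_))
  push_cast
  rw [mul_pow, mul_assoc]

/-- **The Hilbert bound** for one ideal. -/
theorem hilbert_bound [IsDomain A] (𝔠 q : Ideal A) (c b : ℕ) (hc : maximalIdeal A ^ c ≤ q)
    (hb : ringKrullDim A ≤ b) :
    ∃ C : ℕ, ∀ t N : ℕ, lenQ (q ^ N) ↥(𝔠 ^ t) ≤ C * ((t + N + 1 : ℕ) : ℕ∞) ^ b := by
  classical
  -- small `t`
  have hsmall : ∀ t : ℕ, ∃ C : ℕ, ∀ N : ℕ, lenQ (q ^ N) ↥(𝔠 ^ t) ≤ C * (N : ℕ∞) ^ b :=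
    fun t => growth_lenQ ↥(𝔠 ^ t) b hb q c hc
  choose Cs hCs using hsmall
  by_cases h0 : 𝔠 = ⊥
  · refine ⟨Cs 0, fun t N => ?_⟩
    rcases Nat.eq_zero_or_pos t with rfl | ht
    · refine (hCs 0 N).trans ?_
      gcongr
      omega
    · have : Subsingleton ↥(𝔠 ^ t) := by
        rw [h0, Ideal.bot_pow ht.ne']
        infer_instance
      unfold lenQ
      rw [Module.length_eq_zero]
      exact zero_le
  let n : Unit → Ideal A := fun _ => 𝔠
  have hE : ∀ t : ℕ, ⊤ * E n (Finsupp.single () t) = 𝔠 ^ t := by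
    intro t
    rw [Ideal.top_mul, E_single]
  obtain ⟨t₀, hmono⟩ := exists_mono n ⊤ q ()
  have hmono' : ∀ t N, t₀ ≤ t → lenQ (q ^ N) ↥(𝔠 ^ t) ≤ lenQ (q ^ N) ↥(𝔠 ^ (t + 1)) := by
    intro t N ht
    have := hmono N (Finsupp.single () t) (by simpa using ht)
    rw [← Finsupp.single_add, hE, add_comm 1 t, hE] at this
    exact this
  have hmono2 : ∀ t N, t₀ ≤ t → ∀ i, lenQ (q ^ N) ↥(𝔠 ^ t) ≤ lenQ (q ^ N) ↥(𝔠 ^ (t + i)) := by
    intro t N ht i
    induction i with
    | zero => exact le_rfl
    | succ i ih => exact ih.trans (hmono' (t + i) N (by omega))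
  obtain ⟨C, hC⟩ := total_bound (n := n) (fun _ => h0) ⊤ q c hc b hb
  let T : ℕ → ℕ → Finset (Unit →₀ ℕ) := fun t N =>
    (Finset.range (t + N + 1)).image fun i => Finsupp.single () (t + i)
  have htot : ∀ t N, ∑ i ∈ Finset.range (t + N + 1), lenQ (q ^ N) ↥(𝔠 ^ (t + i)) ≤
      C * ((2 * t + 2 * N : ℕ) : ℕ∞) ^ (b + 1) := by
    intro t N
    have h1 := hC (T t N) N (2 * t + N) (by
      intro τ hτ
      obtain ⟨i, hi, rfl⟩ := Finset.mem_image.1 hτ
      rw [Finset.mem_range] at hi
      rw [Finsupp.degree_single]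
      omega)
    rw [Finset.sum_image (by
      intro i _ j _ hij
      have := congrArg (fun f => f ()) hij
      simpa using this)] at h1
    have h2 : ∑ i ∈ Finset.range (t + N + 1), lenQ (q ^ N) ↥(𝔠 ^ (t + i)) =
        ∑ i ∈ Finset.range (t + N + 1),
          lenQ (q ^ N) ↥(⊤ * E n (Finsupp.single () (t + i))) :=
      Finset.sum_congr rfl fun i _ => by rw [hE]
    rw [Fintype.card_unit] at h1
    rw [h2]
    refine h1.trans (le_of_eq ?_)
    congr 3
    omega
  refine ⟨C * 2 ^ (b + 1) + ∑ t ∈ Finset.range t₀, Cs t, fun t N => ?_⟩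
  rcases lt_or_ge t t₀ with ht | ht
  · refine (hCs t N).trans ?_
    have h1 : Cs t ≤ C * 2 ^ (b + 1) + ∑ t ∈ Finset.range t₀, Cs t :=
      (Finset.single_le_sum (f := Cs) (fun _ _ => Nat.zero_le _) (Finset.mem_range.2 ht)).trans
        (Nat.le_add_left _ _)
    gcongr
    omega
  · have h1 : ((t + N + 1 : ℕ) : ℕ∞) * lenQ (q ^ N) ↥(𝔠 ^ t) ≤
        ((t + N + 1 : ℕ) : ℕ∞) * ((C * 2 ^ (b + 1) : ℕ) * ((t + N + 1 : ℕ) : ℕ∞) ^ b) := by
      calc ((t + N + 1 : ℕ) : ℕ∞) * lenQ (q ^ N) ↥(𝔠 ^ t)
          = ∑ i ∈ Finset.range (t + N + 1), lenQ (q ^ N) ↥(𝔠 ^ t) := by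
            rw [Finset.sum_const, Finset.card_range, nsmul_eq_mul]
        _ ≤ ∑ i ∈ Finset.range (t + N + 1), lenQ (q ^ N) ↥(𝔠 ^ (t + i)) :=
            Finset.sum_le_sum fun i _ => hmono2 t N ht i
        _ ≤ C * ((2 * t + 2 * N : ℕ) : ℕ∞) ^ (b + 1) := htot t N
        _ ≤ C * ((2 * (t + N + 1) : ℕ) : ℕ∞) ^ (b + 1) := by
            gcongr
            omega
        _ = ((t + N + 1 : ℕ) : ℕ∞) *
              ((C * 2 ^ (b + 1) : ℕ) * ((t + N + 1 : ℕ) : ℕ∞) ^ b) := by
            generalize t + N + 1 = m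
            push_cast
            rw [mul_pow, pow_succ (m : ℕ∞) b]
            ring
    refine (enat_le_of_mul_le (Nat.succ_ne_zero _) h1).trans ?_
    gcongr
    exact Nat.le_add_right _ _

/-- `R/P` with `P` the maximal ideal of a local ring. -/
theorem length_le_lenQ_of_residue {B : Type*} [CommRing B] [Algebra B A]
    (hs : Function.Surjective (algebraMap B (ResidueField A))) (q : Ideal A) (c : ℕ)
    (hc : maximalIdeal A ^ c ≤ q) (M : Type*) [AddCommGroup M] [Module A M] [Module B M]
    [IsScalarTower B A M] (N : ℕ) :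
    Module.length B (M ⧸ (q ^ N • ⊤ : Submodule A M)) ≤ lenQ (q ^ N) M := by
  unfold lenQ
  refine length_le_of_surjective_residue (maximalIdeal A) hs _ (c * N) ?_
  intro r hr x
  obtain ⟨y, rfl⟩ := (q ^ N • ⊤ : Submodule A M).mkQ_surjective x
  have h1 : maximalIdeal A ^ (c * N) ≤ q ^ N := by
    rw [pow_mul]; exact Ideal.pow_right_mono hc N
  rw [← map_smul, Submodule.mkQ_apply, Submodule.Quotient.mk_eq_zero]
  exact Submodule.smul_mem_smul (h1 hr) Submodule.mem_top

/-- **The Hilbert bound** with lengths over `B`, `B → A` with the same residue field. -/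
theorem hilbert_bound_over [IsDomain A] {B : Type*} [CommRing B] [Algebra B A]
    (hs : Function.Surjective (algebraMap B (ResidueField A)))
    (𝔠 q : Ideal A) (c b : ℕ) (hc : maximalIdeal A ^ c ≤ q) (hb : ringKrullDim A ≤ b) :
    ∃ C : ℕ, ∀ t N : ℕ, Module.length B (↥(𝔠 ^ t) ⧸ (q ^ N • ⊤ : Submodule A ↥(𝔠 ^ t))) ≤
      C * ((t + N + 1 : ℕ) : ℕ∞) ^ b := by
  obtain ⟨C, hC⟩ := hilbert_bound 𝔠 q c b hc hb
  exact ⟨C, fun t N => (length_le_lenQ_of_residue hs q c hc _ N).trans (hC t N)⟩

end Crest.Agent.R188.HB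
end

-- ▼ part R188/HB7
section

/-!
# R188 (Serre positivity), block HB, part 7: the Hilbert bound over finite subalgebras of `B⁺`
(helper414)
-/

set_option autoImplicit false
set_option linter.unusedSectionVars false

namespace Crest.Agent.R188.HB

open IsLocalRing Crest.Agent.R183

universe u v

section local_

variable (B : Type u) [CommRing B] [IsLocalRing B] [IsNoetherianRing B]
  [IsAdicComplete (maximalIdeal B) B] (N : Type v) [CommRing N] [Algebra B N]
  [Module.Finite B N]

lemma map_le_of_isMaximal (M : Ideal N) [M.IsMaximal] :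
    (maximalIdeal B).map (algebraMap B N) ≤ M := by
  have h1 : (M.comap (algebraMap B N)).IsMaximal :=
    Ideal.isMaximal_comap_of_isIntegral_of_isMaximal M
  rw [Ideal.map_le_iff_le_comap, eq_maximalIdeal h1]

lemma isMaximal_of_le (P : Ideal N) [P.IsPrime] (h : (maximalIdeal B).map (algebraMap B N) ≤ P) :
    P.IsMaximal := by
  have h1 : maximalIdeal B ≤ P.comap (algebraMap B N) := Ideal.map_le_iff_le_comap.1 h
  have h2 : P.comap (algebraMap B N) = maximalIdeal B :=
    ((maximalIdeal.isMaximal B).eq_of_le (Ideal.IsPrime.comap (algebraMap B N)).ne_top h1).symm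
  have h3 : (P.comap (algebraMap B N)).IsMaximal := h2 ▸ maximalIdeal.isMaximal B
  exact Ideal.isMaximal_of_isIntegral_of_isMaximal_comap P h3

lemma isArtinian_fibre : IsArtinianRing (N ⧸ (maximalIdeal B).map (algebraMap B N)) := by
  have hNN : IsNoetherianRing N := IsNoetherianRing.of_finite B N
  rw [isArtinianRing_iff_isNoetherianRing_krullDimLE_zero]
  refine ⟨inferInstance, Ring.KrullDimLE.mk₀ fun P hP => ?_⟩
  have h1 : (P.comap (Ideal.Quotient.mk ((maximalIdeal B).map (algebraMap B N)))).IsMaximal := by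
    refine isMaximal_of_le B N _ fun x hx => ?_
    rw [Ideal.mem_comap, Ideal.Quotient.eq_zero_iff_mem.2 hx]
    exact zero_mem _
  have h2 := Ideal.map_comap_of_surjective
    (Ideal.Quotient.mk ((maximalIdeal B).map (algebraMap B N))) Ideal.Quotient.mk_surjective P
  rcases Ideal.map_eq_top_or_isMaximal_of_surjective
    (Ideal.Quotient.mk ((maximalIdeal B).map (algebraMap B N))) Ideal.Quotient.mk_surjective h1 with
    h3 | h3
  · rw [h2] at h3
    exact absurd h3 hP.ne_top
  · rwa [h2] at h3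

theorem idem_dichotomy {A : Type v} [CommRing A] [IsArtinianRing A]
    (h : ∀ e : A, e * e = e → e = 0 ∨ e = 1) (y : A) : IsUnit y ∨ IsNilpotent y := by
  obtain ⟨n, z, hz⟩ := IsArtinian.exists_pow_succ_smul_dvd (M := A) y (1 : A)
  simp only [smul_eq_mul, mul_one, Nat.succ_eq_add_one] at hz
  have h1 : ∀ m, y ^ (n + m) * z ^ m = y ^ n := by
    intro m
    induction m with
    | zero => simp
    | succ m ih =>
      calc y ^ (n + (m + 1)) * z ^ (m + 1) = y ^ m * z ^ m * (y ^ (n + 1) * z) := by ring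
        _ = y ^ (n + m) * z ^ m := by rw [hz]; ring
        _ = y ^ n := ih
  have h2 := h1 n
  rcases h (y ^ n * z ^ n) (by
    calc y ^ n * z ^ n * (y ^ n * z ^ n) = (y ^ (n + n) * z ^ n) * z ^ n := by ring
      _ = y ^ n * z ^ n := by rw [h2]) with h3 | h3
  · right
    refine ⟨n, ?_⟩
    calc y ^ n = y ^ (n + n) * z ^ n := h2.symm
      _ = y ^ n * (y ^ n * z ^ n) := by ring
      _ = 0 := by rw [h3, mul_zero]
  · left
    rcases Nat.eq_zero_or_pos n with rfl | hn
    · refine IsUnit.of_mul_eq_one z ?_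
      simpa using hz
    · have h4 : IsUnit (y ^ n) := IsUnit.of_mul_eq_one _ h3
      exact (isUnit_pow_iff hn.ne').1 h4

include B in
/-- a domain finite over a complete Noetherian local ring is local. -/
theorem isLocalRing_of_finite [IsDomain N] : IsLocalRing N := by
  set I : Ideal N := (maximalIdeal B).map (algebraMap B N) with hI
  have hNN : IsNoetherianRing N := IsNoetherianRing.of_finite B N
  have hjac : I ≤ (⊥ : Ideal N).jacobson := by
    refine le_sInf ?_
    rintro M ⟨-, hM⟩
    exact map_le_of_isMaximal B N M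
  have h1 : IsPrecomplete (maximalIdeal B) N := G.isPrecomplete_of_finite _
  have h2 : IsPrecomplete I N :=
    (IsPrecomplete.map_algebraMap_iff (R := B) (S := N) (M := N)).2 h1
  have h3 : IsHausdorff I N := IsHausdorff.of_le_jacobson I N hjac
  have h4 : IsAdicComplete I N := { toIsHausdorff := h3, toIsPrecomplete := h2 }
  have h5 : HenselianRing N I := inferInstance
  have hart : IsArtinianRing (N ⧸ I) := isArtinian_fibre B N
  have hidem : ∀ e : N ⧸ I, e * e = e → e = 0 ∨ e = 1 := by
    intro e he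
    obtain ⟨a₀, rfl⟩ := Ideal.Quotient.mk_surjective e
    have h6 : a₀ * a₀ - a₀ ∈ I := by
      rw [← Ideal.Quotient.eq_zero_iff_mem, map_sub, map_mul, he, sub_self]
    have h7 : IsUnit (Ideal.Quotient.mk I (2 * a₀ - 1)) := by
      refine IsUnit.of_mul_eq_one (Ideal.Quotient.mk I (2 * a₀ - 1)) ?_
      rw [← map_mul, ← map_one (Ideal.Quotient.mk I), Ideal.Quotient.eq]
      have : (2 * a₀ - 1) * (2 * a₀ - 1) - 1 = 4 * (a₀ * a₀ - a₀) := by ring
      rw [this]
      exact Ideal.mul_mem_left _ _ h6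
    obtain ⟨a, ha, haa⟩ := h5.is_henselian (Polynomial.X ^ 2 - Polynomial.X) (by
      monicity!) a₀ (by simpa [sq] using h6) (by
        have h10 : (Polynomial.X ^ 2 - Polynomial.X : Polynomial N).derivative.eval a₀ =
            2 * a₀ - 1 := by
          simp
          left
          norm_num
        rw [h10]; exact h7)
    have h8 : a * (a - 1) = 0 := by
      have := ha.eq_zero
      simp at this
      linear_combination this
    have h9 : Ideal.Quotient.mk I a = Ideal.Quotient.mk I a₀ := (Ideal.Quotient.eq).2 haa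
    rcases mul_eq_zero.1 h8 with h | h
    · left; rw [← h9, h, map_zero]
    · right; rw [← h9, sub_eq_zero.1 h, map_one]
  have hunit : ∀ y : N, IsUnit (Ideal.Quotient.mk I y) → IsUnit y := by
    intro y hy
    obtain ⟨z, hz⟩ := hy.exists_right_inv
    obtain ⟨z, rfl⟩ := Ideal.Quotient.mk_surjective z
    rw [← map_mul, ← map_one (Ideal.Quotient.mk I), Ideal.Quotient.eq] at hz
    exact isUnit_of_mul_isUnit_left (Ideal.isUnit_of_sub_one_mem_jacobson_bot _ (hjac hz))
  refine IsLocalRing.of_isUnit_or_isUnit_one_sub_self fun y => ?_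
  rcases idem_dichotomy hidem (Ideal.Quotient.mk I y) with h | h
  · exact Or.inl (hunit y h)
  · refine Or.inr (hunit _ ?_)
    rw [map_sub, map_one]
    exact h.isUnit_one_sub

/-- powers of the maximal ideal -/
theorem exists_pow_le [IsLocalRing N] :
    ∃ c, maximalIdeal N ^ c ≤ (maximalIdeal B).map (algebraMap B N) := by
  have hNN : IsNoetherianRing N := IsNoetherianRing.of_finite B N
  have hrad : maximalIdeal N ≤ ((maximalIdeal B).map (algebraMap B N)).radical := by
    rw [Ideal.radical_eq_sInf]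
    refine le_sInf fun P hP => ?_
    obtain ⟨hP1, hP2⟩ := hP
    exact (eq_maximalIdeal (isMaximal_of_le B N P hP1)).ge
  exact Ideal.exists_pow_le_of_le_radical_of_fg hrad (IsNoetherian.noetherian _)

/-- residue fields -/
theorem surjective_residue [IsAlgClosed (ResidueField B)] [IsLocalRing N] :
    Function.Surjective (algebraMap B (ResidueField N)) := by
  have hloc : IsLocalHom (algebraMap B N) := by
    have h1 : ((maximalIdeal N).comap (algebraMap B N)).IsMaximal :=
      Ideal.isMaximal_comap_of_isIntegral_of_isMaximal (maximalIdeal N)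
    exact ((IsLocalRing.local_hom_TFAE (algebraMap B N)).out 0 4).2 (eq_maximalIdeal h1)
  have h1 : Algebra.IsIntegral (ResidueField B) (ResidueField N) := inferInstance
  have h2 : Function.Surjective (algebraMap (ResidueField B) (ResidueField N)) :=
    IsAlgClosed.algebraMap_bijective_of_isIntegral.2
  intro x
  obtain ⟨y, rfl⟩ := h2 x
  obtain ⟨y, rfl⟩ := residue_surjective y
  exact ⟨y, rfl⟩

/-- **the Hilbert bound for finite domains over a complete local ring** -/
theorem hilbert_bound_finite [IsDomain N] [IsAlgClosed (ResidueField B)] (b : ℕ)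
    (hb : ringKrullDim N ≤ b) (𝔠 : Ideal N) :
    ∃ C : ℕ, ∀ t M : ℕ, Module.length B
      (↥(𝔠 ^ t) ⧸ (((maximalIdeal B).map (algebraMap B N)) ^ M • ⊤ : Submodule N ↥(𝔠 ^ t))) ≤
      C * ((t + M + 1 : ℕ) : ℕ∞) ^ b := by
  have hNN : IsNoetherianRing N := IsNoetherianRing.of_finite B N
  have hloc : IsLocalRing N := isLocalRing_of_finite B N
  have hs := surjective_residue B N
  obtain ⟨c, hc⟩ := exists_pow_le B N
  have hinf : Infinite (ResidueField N) := by
    have hlocal : IsLocalHom (algebraMap B N) := by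
      have h1 : ((maximalIdeal N).comap (algebraMap B N)).IsMaximal :=
        Ideal.isMaximal_comap_of_isIntegral_of_isMaximal (maximalIdeal N)
      exact ((IsLocalRing.local_hom_TFAE (algebraMap B N)).out 0 4).2 (eq_maximalIdeal h1)
    have h1 : Infinite (ResidueField B) := inferInstance
    exact Infinite.of_injective (algebraMap (ResidueField B) (ResidueField N))
      (RingHom.injective _)
  exact hilbert_bound_over hs 𝔠 _ c b hc hb

end local_

section adjoin

variable {B : Type u} [CommRing B] [IsLocalRing B] [IsNoetherianRing B]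
  [IsAdicComplete (maximalIdeal B) B] [IsAlgClosed (ResidueField B)]
  {L : Type v} [CommRing L] [IsDomain L] [Algebra B L] [FaithfulSMul B L]
  [Algebra.IsIntegral B L]

theorem exists_subalgebra (b : ℕ) (hb : ringKrullDim B ≤ b) (s : Set L) (hs : s.Finite) :
    ∃ (N : Type v) (_ : CommRing N) (_ : Algebra B N) (f : N →+* L),
      (∀ x, f (algebraMap B N x) = algebraMap B L x) ∧ s ⊆ Set.range f ∧
      ∀ 𝔠 : Ideal N, ∃ C : ℕ, ∀ t M : ℕ, Module.length B
        (↥(𝔠 ^ t) ⧸ (((maximalIdeal B).map (algebraMap B N)) ^ M • ⊤ :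
          Submodule N ↥(𝔠 ^ t))) ≤ C * ((t + M + 1 : ℕ) : ℕ∞) ^ b := by
  classical
  let F : Finset L := hs.toFinset
  refine ⟨Algebra.adjoin B (F : Set L), inferInstance, inferInstance,
    (Algebra.adjoin B (F : Set L)).val, fun x => rfl, ?_, ?_⟩
  · intro x hx
    exact ⟨⟨x, Algebra.subset_adjoin (by simpa [F] using hx)⟩, rfl⟩
  · have hfin : Module.Finite B (Algebra.adjoin B (F : Set L)) := by
      have h1 := fg_adjoin_of_finite (R := B) F.finite_toSet
        fun x _ => Algebra.IsIntegral.isIntegral x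
      exact Module.Finite.iff_fg.2 h1
    exact hilbert_bound_finite B _ b ((ringKrullDim_adjoin_finset_le F fun x _ =>
      (Algebra.IsIntegral.isIntegral x).isAlgebraic).trans hb)

end adjoin

section world

open Crest.Agent.R188.Asm

variable (p : ℕ) [hp : Fact p.Prime] (k : Type) [Field k] [CharP k p] [IsAlgClosed k] (b : ℕ)

/-- **(iii)** -/
theorem hBound : FinA.HBound p k b := by
  have hreg := PerfC.regBB p k b
  have hwn : IsNoetherianRing (WittVector p k) := (Cohen.isCohen_witt p k).isNoetherianRing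
  have hcw : IsAdicComplete (maximalIdeal (WittVector p k)) (WittVector p k) := by
    rw [Cohen.maximalIdeal_witt]
    infer_instance
  have hc : IsAdicComplete (maximalIdeal (BB p k b)) (BB p k b) := RD.isAdicComplete_mv
  have hres : IsAlgClosed (ResidueField (BB p k b)) := by
    let φ : BB p k b →+* k :=
      (WittVector.constantCoeff (p := p) (R := k)).comp MvPowerSeries.constantCoeff
    have hφ : Function.Surjective φ := by
      intro x
      refine ⟨MvPowerSeries.C (WittVector.teichmuller p x), ?_⟩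
      rw [RingHom.comp_apply, MvPowerSeries.constantCoeff_C]
      exact WittVector.teichmuller_coeff_zero p x
    have hker : RingHom.ker φ = maximalIdeal (BB p k b) :=
      eq_maximalIdeal (RingHom.ker_isMaximal_of_surjective φ hφ)
    exact IsAlgClosed.of_ringEquiv k (ResidueField (BB p k b))
      ((RingHom.quotientKerEquivOfSurjective hφ).symm.trans (Ideal.quotEquivOfEq hker))
  intro s hs
  rw [PerfC.mB_eq]
  exact exists_subalgebra (b + 1) (PerfC.dimBB p k b).le s hs

end world

end Crest.Agent.R188.HB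
end

-- ▼ part R188/FinA8

/-!
# R188, block FINA (helper414), part 8: `Twist` for every world
-/

set_option autoImplicit false

namespace Crest.Agent.R188.FinA

open Crest.Agent.R188.Asm

/-- **TWIST** -/
theorem twist' {p : ℕ} [hp : Fact p.Prime] {k : Type} [Field k] [CharP k p] [IsAlgClosed k]
    {b : ℕ} (W : World p k b) : Twist W :=
  twist W (HB.hBound p k b)

end Crest.Agent.R188.FinA
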