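import Crest.Agent.R188.FlgCramer

/-! # R188, block (G): abstract Euler functionals on `A`-modules

`EulerFun Ω A 𝔞`: a "finiteness" predicate `Fn` and a value `val : ℝ` on all `A`-modules
(`A` a commutative `Ω`-algebra), additive on short exact sequences, with two-out-of-three for `Fn`,
vanishing on the modules killed by the almost ideal `𝔞`.
-/

set_option autoImplicit false

namespace Crest.Agent.R188.Flg

open Finset

universe u

/-- an Euler functional -/
structure EulerFun (Ω A : Type u) [CommRing Ω] [CommRing A] [Algebra Ω A] (𝔞 : Ideal Ω) where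
  /-- finiteness -/
  Fn : ∀ (X : Type u) [AddCommGroup X] [Module A X], Prop
  /-- the value -/
  val : ∀ (X : Type u) [AddCommGroup X] [Module A X], ℝ
  fn_null : ∀ (X : Type u) [AddCommGroup X] [Module A X],
    (∀ h ∈ 𝔞, ∀ x : X, algebraMap Ω A h • x = 0) → Fn X
  val_null : ∀ (X : Type u) [AddCommGroup X] [Module A X],
    (∀ h ∈ 𝔞, ∀ x : X, algebraMap Ω A h • x = 0) → val X = 0
  fn_mid : ∀ {X Y Z : Type u} [AddCommGroup X] [Module A X] [AddCommGroup Y] [Module A Y]
    [AddCommGroup Z] [Module A Z] (f : X →ₗ[A] Y) (g : Y →ₗ[A] Z), Function.Injective f →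
    Function.Surjective g → Function.Exact f g → Fn X → Fn Z → Fn Y
  fn_left : ∀ {X Y Z : Type u} [AddCommGroup X] [Module A X] [AddCommGroup Y] [Module A Y]
    [AddCommGroup Z] [Module A Z] (f : X →ₗ[A] Y) (g : Y →ₗ[A] Z), Function.Injective f →
    Function.Surjective g → Function.Exact f g → Fn Y → Fn Z → Fn X
  fn_right : ∀ {X Y Z : Type u} [AddCommGroup X] [Module A X] [AddCommGroup Y] [Module A Y]
    [AddCommGroup Z] [Module A Z] (f : X →ₗ[A] Y) (g : Y →ₗ[A] Z), Function.Injective f →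
    Function.Surjective g → Function.Exact f g → Fn X → Fn Y → Fn Z
  add : ∀ {X Y Z : Type u} [AddCommGroup X] [Module A X] [AddCommGroup Y] [Module A Y]
    [AddCommGroup Z] [Module A Z] (f : X →ₗ[A] Y) (g : Y →ₗ[A] Z), Function.Injective f →
    Function.Surjective g → Function.Exact f g → Fn X → Fn Y → Fn Z → val Y = val X + val Z

namespace EulerFun

variable {Ω A : Type u} [CommRing Ω] [CommRing A] [Algebra Ω A] {𝔞 : Ideal Ω}
variable (E : EulerFun Ω A 𝔞)
variable {X Y Z : Type u} [AddCommGroup X] [Module A X] [AddCommGroup Y] [Module A Y]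
  [AddCommGroup Z] [Module A Z]

lemma fn_sub [Subsingleton X] : E.Fn X := E.fn_null X fun _ _ _ => Subsingleton.elim _ _
lemma val_sub [Subsingleton X] : E.val X = 0 := E.val_null X fun _ _ _ => Subsingleton.elim _ _

lemma exact_equiv (e : X ≃ₗ[A] Y) :
    Function.Exact (e : X →ₗ[A] Y) (0 : Y →ₗ[A] PUnit.{u + 1}) := fun y =>
  ⟨fun _ => ⟨e.symm y, by simp⟩, fun _ => rfl⟩

lemma fn_congr (e : X ≃ₗ[A] Y) (h : E.Fn X) : E.Fn Y :=
  E.fn_mid (e : X →ₗ[A] Y) (0 : Y →ₗ[A] PUnit.{u + 1}) e.injective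
    (fun _ => ⟨0, Subsingleton.elim _ _⟩) (exact_equiv e) h E.fn_sub

lemma val_congr (e : X ≃ₗ[A] Y) (h : E.Fn X) : E.val X = E.val Y := by
  have := E.add (e : X →ₗ[A] Y) (0 : Y →ₗ[A] PUnit.{u + 1}) e.injective
    (fun _ => ⟨0, Subsingleton.elim _ _⟩) (exact_equiv e) h (E.fn_congr e h) E.fn_sub
  rw [this, E.val_sub (X := PUnit.{u + 1}), add_zero]



lemma fn_of_quot (S : Submodule A X) (h1 : E.Fn S) (h2 : E.Fn (X ⧸ S)) : E.Fn X :=
  E.fn_mid S.subtype S.mkQ S.injective_subtype S.mkQ_surjective (LinearMap.exact_subtype_mkQ S) h1 h2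

lemma fn_submodule (S : Submodule A X) (h1 : E.Fn X) (h2 : E.Fn (X ⧸ S)) : E.Fn S :=
  E.fn_left S.subtype S.mkQ S.injective_subtype S.mkQ_surjective (LinearMap.exact_subtype_mkQ S) h1 h2

lemma val_quot (S : Submodule A X) (h1 : E.Fn S) (h2 : E.Fn (X ⧸ S)) :
    E.val X = E.val S + E.val (X ⧸ S) :=
  E.add S.subtype S.mkQ S.injective_subtype S.mkQ_surjective (LinearMap.exact_subtype_mkQ S) h1
    (E.fn_of_quot S h1 h2) h2

/-- for `S ≤ T` -/
lemma exact_le {S T : Submodule A X} (h : S ≤ T) :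
    Function.Exact (Submodule.inclusion h) (S.comap T.subtype).mkQ := by
  intro x
  rw [← LinearMap.mem_ker, Submodule.ker_mkQ]
  constructor
  · intro hx
    exact ⟨⟨x.1, hx⟩, rfl⟩
  · rintro ⟨y, rfl⟩
    exact y.2

/-- null quotient: `S ≤ T`, `𝔞 • T ≤ S` -/
lemma null_quot {S T : Submodule A X} (h2 : ∀ a ∈ 𝔞, ∀ x ∈ T, algebraMap Ω A a • x ∈ S) :
    ∀ a ∈ 𝔞, ∀ x : ↥T ⧸ S.comap T.subtype, algebraMap Ω A a • x = 0 := by
  intro a ha x
  obtain ⟨y, rfl⟩ := Submodule.Quotient.mk_surjective _ x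
  rw [← Submodule.Quotient.mk_smul, Submodule.Quotient.mk_eq_zero]
  exact h2 a ha y.1 y.2

lemma fn_alm {S T : Submodule A X} (h1 : S ≤ T)
    (h2 : ∀ a ∈ 𝔞, ∀ x ∈ T, algebraMap Ω A a • x ∈ S) : E.Fn S ↔ E.Fn T := by
  constructor
  · intro h
    exact E.fn_mid (Submodule.inclusion h1) (S.comap T.subtype).mkQ
      (Submodule.inclusion_injective h1) (Submodule.mkQ_surjective _) (exact_le h1) h
      (E.fn_null _ (null_quot h2))
  · intro h
    exact E.fn_left (Submodule.inclusion h1) (S.comap T.subtype).mkQ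
      (Submodule.inclusion_injective h1) (Submodule.mkQ_surjective _) (exact_le h1) h
      (E.fn_null _ (null_quot h2))

lemma val_alm {S T : Submodule A X} (h1 : S ≤ T)
    (h2 : ∀ a ∈ 𝔞, ∀ x ∈ T, algebraMap Ω A a • x ∈ S) (h : E.Fn S) : E.val S = E.val T := by
  have := E.add (Submodule.inclusion h1) (S.comap T.subtype).mkQ
      (Submodule.inclusion_injective h1) (Submodule.mkQ_surjective _) (exact_le h1) h
      ((E.fn_alm h1 h2).1 h) (E.fn_null _ (null_quot h2))
  rw [this, E.val_null _ (null_quot h2), add_zero]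

/-- kernel and range -/
lemma exact_ker (f : X →ₗ[A] Y) :
    Function.Exact (LinearMap.ker f).subtype f.rangeRestrict := by
  intro x
  rw [← LinearMap.mem_ker, LinearMap.ker_rangeRestrict]
  simp

lemma fn_ker (f : X →ₗ[A] Y) (h1 : E.Fn X) (h2 : E.Fn (LinearMap.range f)) :
    E.Fn (LinearMap.ker f) :=
  E.fn_left (LinearMap.ker f).subtype f.rangeRestrict (Submodule.injective_subtype _)
    f.surjective_rangeRestrict (exact_ker f) h1 h2

lemma val_ker (f : X →ₗ[A] Y) (h1 : E.Fn X) (h2 : E.Fn (LinearMap.range f)) :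
    E.val X = E.val (LinearMap.ker f) + E.val (LinearMap.range f) :=
  E.add (LinearMap.ker f).subtype f.rangeRestrict (Submodule.injective_subtype _)
    f.surjective_rangeRestrict (exact_ker f) (E.fn_ker f h1 h2) h1 h2






section complexes

variable {C : ℕ → Type u} [∀ i, AddCommGroup (C i)] [∀ i, Module A (C i)]
  (d : ∀ i, C (i + 1) →ₗ[A] C i)

/-- an almost exact bounded complex of finite modules has Euler characteristic `0`. -/
theorem sum_eq_zero_aux (hd : ∀ i x, d i (d (i + 1) x) = 0)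
    (h0 : ∀ a ∈ 𝔞, ∀ x : C 0, algebraMap Ω A a • x ∈ LinearMap.range (d 0))
    (hex : ∀ i, ∀ a ∈ 𝔞, ∀ x : C (i + 1), d i x = 0 →
      algebraMap Ω A a • x ∈ LinearMap.range (d (i + 1)))
    (hfn : ∀ i, E.Fn (C i)) (n : ℕ) :
    E.Fn (LinearMap.range (d n)) ∧
      ∑ i ∈ range (n + 1), (-1 : ℝ) ^ i * E.val (C i) = (-1 : ℝ) ^ n * E.val (LinearMap.range (d n)) := by
  induction n with
  | zero =>
    have e : (⊤ : Submodule A (C 0)) ≃ₗ[A] C 0 := Submodule.topEquiv
    have ht : E.Fn (⊤ : Submodule A (C 0)) := E.fn_congr e.symm (hfn 0)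
    have hr : E.Fn (LinearMap.range (d 0)) :=
      (E.fn_alm (S := LinearMap.range (d 0)) (T := ⊤) le_top (fun a ha x _ => h0 a ha x)).2 ht
    have hv := E.val_alm (S := LinearMap.range (d 0)) (T := ⊤) le_top
      (fun a ha x _ => h0 a ha x) hr
    refine ⟨hr, ?_⟩
    simp only [zero_add, sum_range_one, pow_zero, one_mul]
    rw [hv, E.val_congr e ht]
  | succ n ih =>
    obtain ⟨ih1, ih2⟩ := ih
    have k1 := E.fn_ker (d n) (hfn (n + 1)) ih1
    have k2 := E.val_ker (d n) (hfn (n + 1)) ih1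
    have hle : LinearMap.range (d (n + 1)) ≤ LinearMap.ker (d n) := by
      rintro _ ⟨y, rfl⟩
      exact hd n y
    have hr := (E.fn_alm (𝔞 := 𝔞) hle (fun a ha x hx => hex n a ha x hx)).2 k1
    have hv := E.val_alm (𝔞 := 𝔞) hle (fun a ha x hx => hex n a ha x hx) hr
    refine ⟨hr, ?_⟩
    rw [Finset.sum_range_succ, ih2, k2, hv, pow_succ]
    ring

theorem sum_eq_zero (hd : ∀ i x, d i (d (i + 1) x) = 0)
    (h0 : ∀ a ∈ 𝔞, ∀ x : C 0, algebraMap Ω A a • x ∈ LinearMap.range (d 0))
    (hex : ∀ i, ∀ a ∈ 𝔞, ∀ x : C (i + 1), d i x = 0 →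
      algebraMap Ω A a • x ∈ LinearMap.range (d (i + 1)))
    (hfn : ∀ i, E.Fn (C i)) (n : ℕ) (hn : Subsingleton (C (n + 1))) :
    ∑ i ∈ range (n + 1), (-1 : ℝ) ^ i * E.val (C i) = 0 := by
  have h := (E.sum_eq_zero_aux d hd h0 hex hfn n).2
  have : Subsingleton (LinearMap.range (d n)) := by
    constructor
    rintro ⟨_, x, rfl⟩ ⟨_, y, rfl⟩
    rw [Subtype.mk.injEq, Subsingleton.elim x y]
  rw [h, E.val_sub, mul_zero]

end complexes

end EulerFun

/-! ### the numeric recursion -/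

/-- **the recursion lemma**: a function on `ℕ^κ` satisfying the Koszul recursions and equal to `c`
deep inside is equal to `c` everywhere. -/
theorem recursion {κ : Type*} [Fintype κ] [DecidableEq κ] (s : κ → ℕ) (hs : ∀ k, 1 ≤ s k)
    (G : (κ → ℕ) → ℝ) (c : ℝ) (m : ℕ)
    (hrec : ∀ T : κ → ℕ, ∀ k, s k ≤ T k →
      ∑ q ∈ range (s k + 1), (-1 : ℝ) ^ q * ((s k).choose q * G (T - Pi.single k q)) = 0)
    (hc : ∀ T, (∀ k, m ≤ T k) → G T = c) (T : κ → ℕ) : G T = c := by
  obtain ⟨n, hn⟩ : ∃ n, ∑ k, (m - T k) = n := ⟨_, rfl⟩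
  induction n using Nat.strong_induction_on generalizing T with
  | _ n ih =>
    by_cases hT : ∀ k, m ≤ T k
    · exact hc T hT
    push Not at hT
    obtain ⟨k, hk⟩ := hT
    have h1 := hrec (T + Pi.single k (s k)) k (by simp)
    have h2 : ∀ q ∈ range (s k), G (T + Pi.single k (s k) - Pi.single k q) = c := by
      intro q hq
      rw [Finset.mem_range] at hq
      have h3 : T + Pi.single k (s k) - Pi.single k q = T + Pi.single k (s k - q) := by
        ext j
        by_cases hj : j = k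
        · subst hj; simp; omega
        · simp [hj]
      rw [h3]
      refine ih _ ?_ _ rfl
      rw [← hn]
      refine Finset.sum_lt_sum (fun j _ => ?_) ⟨k, Finset.mem_univ _, ?_⟩
      · simp only [Pi.add_apply]; omega
      · simp only [Pi.add_apply, Pi.single_eq_same]; omega
    rw [Finset.sum_range_succ] at h1
    have h4 : T + Pi.single k (s k) - Pi.single k (s k) = T := by
      ext j; simp
    rw [h4, Nat.choose_self] at h1
    rw [Finset.sum_congr rfl (fun q hq => by rw [h2 q hq])] at h1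
    have h5 : ∑ q ∈ range (s k), (-1 : ℝ) ^ q * ((s k).choose q * c) = - ((-1) ^ (s k) * c) := by
      have h6 : ∑ q ∈ range (s k + 1), (-1 : ℝ) ^ q * ((s k).choose q * c) = 0 := by
        have h7 : ∑ q ∈ range (s k + 1), (-1 : ℝ) ^ q * ((s k).choose q * c) =
            ((∑ q ∈ range (s k + 1), (-1 : ℤ) ^ q * ((s k).choose q : ℤ) : ℤ) : ℝ) * c := by
          push_cast
          rw [Finset.sum_mul]
          refine Finset.sum_congr rfl fun q _ => by ring
        rw [h7, Int.alternating_sum_range_choose_of_ne (by have := hs k; omega)]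
        simp
      rw [Finset.sum_range_succ, Nat.choose_self] at h6
      push_cast at h6
      linarith
    rw [h5] at h1
    have h8 : (-1 : ℝ) ^ (s k) * (G T - c) = 0 := by
      push_cast at h1
      linarith
    have h9 : (-1 : ℝ) ^ (s k) ≠ 0 := pow_ne_zero _ (by norm_num)
    have := (mul_eq_zero.1 h8).resolve_left h9
    linarith

end Crest.Agent.R188.Flg
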