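/-
R188 (Serre positivity), block Tow1: additive length over an increasing union of (non Noetherian)
rings, each of them with its own additive length (`AddLen` of helper685), under a ONE-SIDED scaling
inequality `l_{e+1} (S_{e+1} ⊗_{S_e} Q) ≤ l_e (Q)`.  Author: helper814
(adapted from helper529's `R183/Lam.lean`).
-/
import Crest.Agent.R183.AddLen

set_option autoImplicit false

namespace Crest.Agent.R188.Tow

open scoped ENNReal
open Submodule Crest.Agent.R183

universe u v w

/-- every element of `M` is killed by a power of each `t i` -/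
def Tors {R : Type*} [CommRing R] {ι : Type*} (t : ι → R) (M : Type*) [AddCommGroup M]
    [Module R M] : Prop :=
  ∀ (x : M) (i : ι), ∃ n : ℕ, t i ^ n • x = 0

section Tors

variable {R : Type*} [CommRing R] {ι : Type*} {t : ι → R}

theorem Tors.of_injective {M N : Type*} [AddCommGroup M] [Module R M] [AddCommGroup N] [Module R N]
    (h : Tors t N) (f : M →ₗ[R] N) (hf : Function.Injective f) : Tors t M := by
  intro x i
  obtain ⟨n, hn⟩ := h (f x) i
  exact ⟨n, hf (by rw [map_smul, hn, map_zero])⟩

theorem Tors.of_surjective {M N : Type*} [AddCommGroup M] [Module R M] [AddCommGroup N]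
    [Module R N] (h : Tors t M) (f : M →ₗ[R] N) (hf : Function.Surjective f) : Tors t N := by
  intro y i
  obtain ⟨x, rfl⟩ := hf y
  obtain ⟨n, hn⟩ := h x i
  exact ⟨n, by rw [← map_smul, hn, map_zero]⟩

theorem Tors.of_exact {M' M M'' : Type*} [AddCommGroup M'] [Module R M'] [AddCommGroup M]
    [Module R M] [AddCommGroup M''] [Module R M''] (h' : Tors t M') (h'' : Tors t M'')
    (f : M' →ₗ[R] M) (g : M →ₗ[R] M'') (H : Function.Exact f g) : Tors t M := by
  intro x i
  obtain ⟨n, hn⟩ := h'' (g x) i
  rw [← map_smul] at hn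
  obtain ⟨y, hy⟩ := (H _).mp hn
  obtain ⟨k, hk⟩ := h' y i
  exact ⟨k + n, by rw [pow_add, mul_smul, ← hy, ← map_smul, hk, map_zero]⟩

theorem Tors.submodule {M : Type*} [AddCommGroup M] [Module R M] (h : Tors t M)
    (N : Submodule R M) : Tors t N := h.of_injective N.subtype N.subtype_injective

theorem Tors.quotient {M : Type*} [AddCommGroup M] [Module R M] (h : Tors t M)
    (N : Submodule R M) : Tors t (M ⧸ N) := h.of_surjective N.mkQ N.mkQ_surjective

end Tors

section ContOn

variable {A : Type u} [CommRing A] {κ : Type w}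

/-- continuity of an additive length on the torsion modules: the length is the supremum of the
lengths of the finitely generated submodules -/
def ContOn (Λ : AddLen.{u, u} A) (t : κ → A) : Prop :=
  ∀ (M : Type u) [AddCommGroup M] [Module A M], Tors t M →
    Λ.L M ≤ ⨆ E : Finset M, Λ.L (Submodule.span A (E : Set M))

variable {Λ : AddLen.{u, u} A} {t : κ → A}

variable {M : Type u} [AddCommGroup M] [Module A M]

theorem L_sup_le (Λ : AddLen.{u, u} A) (N N' : Submodule A M) :
    Λ.L (N ⊔ N' : Submodule A M) ≤ Λ.L N + Λ.L N' := by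
  rw [← Λ.L_prod]
  have h3 : LinearMap.range (N.subtype.coprod N'.subtype) = N ⊔ N' := by
    rw [LinearMap.range_coprod, Submodule.range_subtype, Submodule.range_subtype]
  rw [← h3]
  exact Λ.L_le_of_surjective _ (LinearMap.surjective_rangeRestrict _)

theorem L_mono (Λ : AddLen.{u, u} A) {N N' : Submodule A M} (h : N ≤ N') : Λ.L N ≤ Λ.L N' :=
  Λ.L_le_of_injective (Submodule.inclusion h) (Submodule.inclusion_injective h)

theorem L_span_finset_eq_zero (Λ : AddLen.{u, u} A) (E : Finset M)
    (h : ∀ x ∈ E, Λ.L (Submodule.span A {x}) = 0) : Λ.L (Submodule.span A (E : Set M)) = 0 := by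
  classical
  induction E using Finset.induction_on with
  | empty =>
    rw [Finset.coe_empty, Submodule.span_empty]
    exact Λ.L_subsingleton
  | insert x E hx ih =>
    rw [Finset.coe_insert, Submodule.span_insert, ← le_zero_iff]
    refine (L_sup_le Λ _ _).trans ?_
    rw [h x (Finset.mem_insert_self x E),
      ih (fun y hy => h y (Finset.mem_insert_of_mem hy)), add_zero]

theorem ContOn.eq_iSup (h : ContOn Λ t) (hM : Tors t M) :
    Λ.L M = ⨆ E : Finset M, Λ.L (Submodule.span A (E : Set M)) :=
  le_antisymm (h M hM) (iSup_le fun _ => Λ.L_submodule_le _)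

/-- null modules are detected on cyclic submodules -/
theorem ContOn.eq_zero_iff (h : ContOn Λ t) (hM : Tors t M) :
    Λ.L M = 0 ↔ ∀ x : M, Λ.L (Submodule.span A {x}) = 0 := by
  refine ⟨fun h0 x => le_zero_iff.mp ((Λ.L_submodule_le _).trans h0.le), fun h0 => ?_⟩
  rw [h.eq_iSup hM, ← le_zero_iff]
  exact iSup_le fun E => (L_span_finset_eq_zero Λ E (fun x _ => h0 x)).le

/-- if every element of `M` lies in a null submodule then `M` is null -/
theorem ContOn.eq_zero_of_mem (h : ContOn Λ t) (hM : Tors t M)
    (h0 : ∀ x : M, ∃ N : Submodule A M, x ∈ N ∧ Λ.L N = 0) : Λ.L M = 0 := by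
  rw [h.eq_zero_iff hM]
  intro x
  obtain ⟨N, hx, hN⟩ := h0 x
  refine le_zero_iff.mp ((L_mono Λ ?_).trans hN.le)
  rwa [Submodule.span_le, Set.singleton_subset_iff]

/-- length of the span of a finite subset of a submodule -/
theorem L_span_image (Λ : AddLen.{u, u} A) {N : Type u} [AddCommGroup N] [Module A N]
    (f : M →ₗ[A] N) (hf : Function.Injective f) (E : Set M) :
    Λ.L (Submodule.span A (f '' E)) = Λ.L (Submodule.span A E) := by
  rw [← Submodule.map_span]
  exact (Λ.L_congr (Submodule.equivMapOfInjective f hf (Submodule.span A E))).symm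


end ContOn

/-- A directed family of subrings `S e` of `A` with additive lengths `Λ e` on their modules,
continuous, finite on finitely generated torsion modules, with one-sided scaling. -/
structure NTower (A : Type u) [CommRing A] (I : Type v) [Preorder I] (κ : Type w) where
  /-- the subrings -/
  S : I → Subring A
  mono : Monotone S
  /-- the elements whose power torsion is considered -/
  t : κ → A
  t_mem : ∀ i e, t i ∈ S e
  /-- the additive lengths -/
  Λ : ∀ e, AddLen.{u, u} (S e)
  fin : ∀ (e : I) (M : Type u) [AddCommGroup M] [Module (S e) M], Module.Finite (S e) M →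
    Tors (fun i => (⟨t i, t_mem i e⟩ : S e)) M → (Λ e).L M ≠ ⊤
  cont : ∀ (e : I), ContOn (Λ e) (fun i => (⟨t i, t_mem i e⟩ : S e))
  scale : ∀ (e e' : I) (h : e ≤ e') (Q Q' : Type u) [AddCommGroup Q] [Module (S e) Q]
    [AddCommGroup Q'] [Module (S e') Q'] (f : Q →+ Q'),
    (∀ (a : S e) (x : Q), f (a • x) = (Subring.inclusion (mono h) a) • f x) →
    Tors (fun i => (⟨t i, t_mem i e⟩ : S e)) Q → Submodule.span (S e') (Set.range f) = ⊤ →
    (Λ e').L Q' ≤ (Λ e).L Q

namespace NTower

variable {A : Type u} [CommRing A] {I : Type v} [Preorder I] {κ : Type w} (T : NTower A I κ)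

/-- torsion at level `e` -/
abbrev TorsE (e : I) (M : Type*) [AddCommGroup M] [Module (T.S e) M] : Prop :=
  Tors (fun i => (⟨T.t i, T.t_mem i e⟩ : T.S e)) M

section Module

variable {M : Type u} [AddCommGroup M] [Module A M]

theorem torsE_of_tors (h : Tors T.t M) (e : I) : T.TorsE e M := by
  intro x i
  obtain ⟨n, hn⟩ := h x i
  exact ⟨n, hn⟩

/-- one step of the scaling inequality for a pair of submodules -/
theorem length_step (hM : Tors T.t M) {e e' : I} (h : e ≤ e') (N' N : Submodule (T.S e) M) :
    (T.Λ e').L ((Submodule.span (T.S e') (N : Set M)) ⧸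
        (Submodule.span (T.S e') (N' : Set M)).submoduleOf
          (Submodule.span (T.S e') (N : Set M))) ≤
      (T.Λ e).L (N ⧸ N'.submoduleOf N) := by
  let _ : Algebra (T.S e) (T.S e') := (Subring.inclusion (T.mono h)).toAlgebra
  have : IsScalarTower (T.S e) (T.S e') M := ⟨fun a b x => by
    change ((a : A) * (b : A)) • x = (a : A) • ((b : A) • x)
    rw [mul_smul]⟩
  set N1 := Submodule.span (T.S e') (N : Set M) with hN1
  set N1' := Submodule.span (T.S e') (N' : Set M) with hN1'
  have : IsScalarTower (T.S e) (T.S e') (N1 ⧸ N1'.submoduleOf N1) := inferInstance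
  let i : N →ₗ[T.S e] N1 :=
    (N.subtype).codRestrict (N1.restrictScalars (T.S e)) (fun x => Submodule.subset_span x.2)
  let g : N →ₗ[T.S e] (N1 ⧸ N1'.submoduleOf N1) :=
    ((N1'.submoduleOf N1).mkQ.restrictScalars (T.S e)) ∘ₗ i
  have hg : N'.submoduleOf N ≤ LinearMap.ker g := by
    intro x hx
    rw [LinearMap.mem_ker]
    change (N1'.submoduleOf N1).mkQ (i x) = 0
    rw [Submodule.mkQ_apply, Submodule.Quotient.mk_eq_zero]
    exact Submodule.subset_span (Submodule.mem_comap.mp hx)
  have hspan : ∀ z (hz : z ∈ N1), (N1'.submoduleOf N1).mkQ ⟨z, hz⟩ ∈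
      Submodule.span (T.S e') (Set.range (Submodule.liftQ _ g hg)) := by
    intro z hz
    induction hz using Submodule.span_induction with
    | mem x hx => exact Submodule.subset_span ⟨Submodule.Quotient.mk ⟨x, hx⟩, rfl⟩
    | zero => exact Submodule.zero_mem _
    | add x y hx hy hx' hy' =>
      have : (N1'.submoduleOf N1).mkQ ⟨x + y, N1.add_mem hx hy⟩ =
        (N1'.submoduleOf N1).mkQ ⟨x, hx⟩ + (N1'.submoduleOf N1).mkQ ⟨y, hy⟩ := rfl
      rw [this]
      exact Submodule.add_mem _ hx' hy'
    | smul a x hx hx' =>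
      have : (N1'.submoduleOf N1).mkQ ⟨a • x, N1.smul_mem a hx⟩ =
        a • (N1'.submoduleOf N1).mkQ ⟨x, hx⟩ := rfl
      rw [this]
      exact Submodule.smul_mem _ a hx'
  refine T.scale e e' h _ _ (Submodule.liftQ _ g hg).toAddMonoidHom ?_ ?_ ?_
  · intro a x
    change (Submodule.liftQ _ g hg) (a • x) = (algebraMap (T.S e) (T.S e') a) •
      (Submodule.liftQ _ g hg) x
    rw [map_smul, algebraMap_smul]
  · exact ((T.torsE_of_tors hM e).submodule N).quotient _
  · rw [eq_top_iff]
    rintro y -
    obtain ⟨y, rfl⟩ := (N1'.submoduleOf N1).mkQ_surjective y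
    exact hspan y.1 y.2

theorem span_span_set {e e' : I} (h : e ≤ e') (E : Set M) :
    Submodule.span (T.S e') ((Submodule.span (T.S e) E : Submodule (T.S e) M) : Set M) =
      Submodule.span (T.S e') E := by
  apply le_antisymm
  · rw [Submodule.span_le]
    have key : ∀ x ∈ Submodule.span (T.S e) E, x ∈ Submodule.span (T.S e') E := by
      intro x hx
      induction hx using Submodule.span_induction with
      | mem x hx => exact Submodule.subset_span hx
      | zero => exact Submodule.zero_mem _
      | add x y _ _ hx' hy' => exact Submodule.add_mem _ hx' hy'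
      | smul a x _ hx' =>
        exact Submodule.smul_mem _ (⟨(a : A), T.mono h a.2⟩ : T.S e') hx'
    exact fun x hx => key x hx
  · exact Submodule.span_mono Submodule.subset_span

theorem span_le_span {e e' : I} (h : e ≤ e') (E : Set M) :
    ((Submodule.span (T.S e) E : Submodule (T.S e) M) : Set M) ⊆
      (Submodule.span (T.S e') E : Submodule (T.S e') M) := by
  rw [← T.span_span_set h]
  exact Submodule.subset_span

/-- relative length at level `e` -/
noncomputable def q (e : I) (E' E : Set M) : ℝ≥0∞ :=
  (T.Λ e).L ((Submodule.span (T.S e) E) ⧸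
    (Submodule.span (T.S e) E').submoduleOf (Submodule.span (T.S e) E))

/-- length at level `e` -/
noncomputable def a (e : I) (E : Set M) : ℝ≥0∞ :=
  (T.Λ e).L (Submodule.span (T.S e) E)

theorem q_antitone (hM : Tors T.t M) (E' E : Set M) : Antitone (fun e => T.q e E' E) := by
  intro e e' h
  have h' := T.length_step hM h (Submodule.span (T.S e) E') (Submodule.span (T.S e) E)
  rw [T.span_span_set h, T.span_span_set h] at h'
  exact h'

theorem q_empty (e : I) (E : Set M) : T.q e ∅ E = T.a e E := by
  unfold q a
  refine (T.Λ e).L_congr (Submodule.quotEquivOfEqBot _ ?_)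
  rw [Submodule.span_empty, Submodule.submoduleOf, Submodule.comap_bot, Submodule.ker_subtype]

theorem a_antitone (hM : Tors T.t M) (E : Set M) : Antitone (fun e => T.a e E) := by
  have := T.q_antitone hM ∅ E
  simpa only [T.q_empty] using this

theorem a_mono (e : I) {E E' : Set M}
    (h : E ⊆ (Submodule.span (T.S e) E' : Submodule (T.S e) M)) : T.a e E ≤ T.a e E' := by
  unfold a
  have h' : Submodule.span (T.S e) E ≤ Submodule.span (T.S e) E' := Submodule.span_le.mpr h
  exact (T.Λ e).L_le_of_injective (Submodule.inclusion h') (Submodule.inclusion_injective h')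

theorem a_le_add (e : I) (E' E : Set M)
    (h : E' ⊆ (Submodule.span (T.S e) E : Submodule (T.S e) M)) :
    T.a e E = T.a e E' + T.q e E' E := by
  unfold a q
  have h' : Submodule.span (T.S e) E' ≤ Submodule.span (T.S e) E := Submodule.span_le.mpr h
  refine (T.Λ e).add' (Submodule.inclusion h') (Submodule.mkQ _)
    (Submodule.inclusion_injective h') (Submodule.mkQ_surjective _) ?_
  rw [LinearMap.exact_iff, Submodule.ker_mkQ, Submodule.range_inclusion]
  rfl

theorem a_ne_top (hM : Tors T.t M) (e : I) (E : Finset M) : T.a e (E : Set M) ≠ ⊤ := by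
  refine T.fin e _ ?_ ((T.torsE_of_tors hM e).submodule _)
  exact Module.Finite.iff_fg.mpr (Submodule.fg_span E.finite_toSet)

/-- the normalised length of (the `A`-module generated by) a set -/
noncomputable def lamSet (E : Set M) : ℝ≥0∞ := ⨅ e, T.a e E

theorem lamSet_le (e : I) (E : Set M) : T.lamSet E ≤ T.a e E := iInf_le _ e

theorem lamSet_mono_of_subset_span [IsDirectedOrder I] (hM : Tors T.t M) {E E' : Set M}
    (k : I) (h : E ⊆ (Submodule.span (T.S k) E' : Submodule (T.S k) M)) :
    T.lamSet E ≤ T.lamSet E' := by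
  refine le_iInf fun e => ?_
  obtain ⟨j, hej, hkj⟩ := exists_ge_ge e k
  exact (T.lamSet_le j E).trans ((T.a_mono j (h.trans (T.span_le_span hkj E'))).trans
    (T.a_antitone hM E' hej))


theorem lamSet_le_add_q [IsDirectedOrder I] (hM : Tors T.t M) (k : I) (F E : Set M)
    (h : F ⊆ (Submodule.span (T.S k) E : Submodule (T.S k) M)) :
    T.lamSet E ≤ T.lamSet F + T.q k F E := by
  unfold lamSet
  rw [ENNReal.iInf_add]
  refine le_iInf fun e => ?_
  obtain ⟨j, hej, hkj⟩ := exists_ge_ge e k
  refine (T.lamSet_le j E).trans ?_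
  rw [T.a_le_add j F E (h.trans (T.span_le_span hkj E))]
  exact add_le_add (T.a_antitone hM F hej) (T.q_antitone hM F E hkj)

/-- **normalised length** of a torsion `A`-module -/
noncomputable def lam (T : NTower A I κ) (M : Type u) [AddCommGroup M] [Module A M] : ℝ≥0∞ :=
  ⨆ E : Finset M, T.lamSet (E : Set M)

theorem lamSet_le_lam (E : Finset M) : T.lamSet (E : Set M) ≤ T.lam M :=
  le_iSup (fun E : Finset M => T.lamSet (E : Set M)) E

end Module

section Maps

variable {M N : Type u} [AddCommGroup M] [Module A M] [AddCommGroup N] [Module A N]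

theorem coe_map_span (f : M →ₗ[A] N) (e : I) (E : Set M) :
    (Submodule.span (T.S e) E).map (f.restrictScalars (T.S e)) =
      Submodule.span (T.S e) (f '' E) := by
  rw [Submodule.map_span]; rfl

theorem a_image_le (f : M →ₗ[A] N) (e : I) (E : Set M) : T.a e (f '' E) ≤ T.a e E := by
  unfold a
  rw [← T.coe_map_span f e E]
  exact (T.Λ e).L_le_of_surjective
    ((f.restrictScalars (T.S e)).submoduleMap (Submodule.span (T.S e) E))
    (LinearMap.submoduleMap_surjective _ _)

theorem a_image_of_injective (f : M →ₗ[A] N) (hf : Function.Injective f) (e : I) (E : Set M) :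
    T.a e (f '' E) = T.a e E := by
  unfold a
  rw [← T.coe_map_span f e E]
  exact ((T.Λ e).L_congr (Submodule.equivMapOfInjective (f.restrictScalars (T.S e)) hf
    (Submodule.span (T.S e) E))).symm

theorem lamSet_image_le (f : M →ₗ[A] N) (E : Set M) : T.lamSet (f '' E) ≤ T.lamSet E :=
  iInf_mono fun e => T.a_image_le f e E

theorem lamSet_image_of_injective (f : M →ₗ[A] N) (hf : Function.Injective f) (E : Set M) :
    T.lamSet (f '' E) = T.lamSet E := by
  unfold lamSet
  simp only [T.a_image_of_injective f hf]

theorem lam_le_of_injective (f : M →ₗ[A] N) (hf : Function.Injective f) : T.lam M ≤ T.lam N := by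
  classical
  refine iSup_le fun E => ?_
  rw [← T.lamSet_image_of_injective f hf, ← Finset.coe_image]
  exact T.lamSet_le_lam _

theorem lam_le_of_surjective (f : M →ₗ[A] N) (hf : Function.Surjective f) :
    T.lam N ≤ T.lam M := by
  classical
  refine iSup_le fun E => ?_
  obtain ⟨s, hs⟩ := hf.hasRightInverse
  have hE : (E : Set N) = f '' ((E.image s : Finset M) : Set M) := by
    rw [Finset.coe_image, ← Set.image_comp]
    have : (f ∘ s) = id := funext hs
    rw [this, Set.image_id]
  rw [hE]
  exact (T.lamSet_image_le f _).trans (T.lamSet_le_lam _)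

theorem lam_congr (f : M ≃ₗ[A] N) : T.lam M = T.lam N :=
  le_antisymm (T.lam_le_of_injective f.toLinearMap f.injective)
    (T.lam_le_of_injective f.symm.toLinearMap f.symm.injective)

theorem lam_of_subsingleton [Nonempty I] [Subsingleton M] : T.lam M = 0 := by
  let i : I := Classical.arbitrary I
  refine le_antisymm (iSup_le fun E => (T.lamSet_le i _).trans ?_) zero_le
  unfold a
  have : Subsingleton (Submodule.span (T.S i) (E : Set M)) := inferInstance
  exact ((T.Λ i).L_subsingleton).le

end Maps

section Exact

variable {M' M M'' : Type u} [AddCommGroup M'] [Module A M'] [AddCommGroup M] [Module A M]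
  [AddCommGroup M''] [Module A M'']

theorem lam_add_le_of_exact (f : M' →ₗ[A] M) (g : M →ₗ[A] M'') (hf : Function.Injective f)
    (hg : Function.Surjective g) (H : Function.Exact f g) :
    T.lam M' + T.lam M'' ≤ T.lam M := by
  classical
  refine ENNReal.iSup_add_iSup_le fun E' E'' => ?_
  obtain ⟨s, hs⟩ := hg.hasRightInverse
  let E : Finset M := E'.image f ∪ E''.image s
  refine le_trans ?_ (T.lamSet_le_lam E)
  refine le_iInf fun e => ?_
  refine (add_le_add (T.lamSet_le e _) (T.lamSet_le e _)).trans ?_
  rw [T.a_le_add e (f '' (E' : Set M')) (E : Set M)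
    (Submodule.subset_span.trans' (by simp [E])), T.a_image_of_injective f hf]
  gcongr
  unfold a q
  -- the map `span E → span E''` factors through the quotient by `span (f '' E')`
  let gE : Submodule.span (T.S e) (E : Set M) →ₗ[T.S e] M'' :=
    (g.restrictScalars (T.S e)) ∘ₗ (Submodule.span (T.S e) (E : Set M)).subtype
  have hk : (Submodule.span (T.S e) (f '' (E' : Set M'))).submoduleOf
      (Submodule.span (T.S e) (E : Set M)) ≤ LinearMap.ker gE := by
    intro x hx
    rw [LinearMap.mem_ker]
    have hx' : (x : M) ∈ Submodule.span (T.S e) (f '' (E' : Set M')) := hx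
    rw [← T.coe_map_span f e] at hx'
    obtain ⟨y, _, hy⟩ := hx'
    change g (x : M) = 0
    rw [← hy]
    exact (H (f y)).mpr ⟨y, rfl⟩
  let G := Submodule.liftQ _ gE hk
  have hr : Submodule.span (T.S e) (E'' : Set M'') ≤ LinearMap.range G := by
    rw [Submodule.span_le]
    intro y hy
    refine ⟨Submodule.Quotient.mk ⟨s y, Submodule.subset_span ?_⟩, ?_⟩
    · simp only [E, Finset.coe_union, Finset.coe_image]
      exact Or.inr ⟨y, hy, rfl⟩
    · change g (s y) = y
      exact hs y
  exact ((T.Λ e).L_le_of_injective (Submodule.inclusion hr)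
    (Submodule.inclusion_injective hr)).trans
    ((T.Λ e).L_le_of_surjective G.rangeRestrict G.surjective_rangeRestrict)

theorem lam_le_add_of_exact [IsDirectedOrder I] (hM : Tors T.t M) (f : M' →ₗ[A] M) (g : M →ₗ[A] M'')
    (hf : Function.Injective f) (H : Function.Exact f g) :
    T.lam M ≤ T.lam M' + T.lam M'' := by
  classical
  refine iSup_le fun E => ?_
  have key : ∀ k, T.lamSet (E : Set M) ≤ T.lam M' + T.a k (g '' (E : Set M)) := by
    intro k
    let sp := Submodule.span (T.S k) (E : Set M)
    -- the kernel `K` of `g` on the span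
    let K : Submodule (T.S k) M := sp ⊓ LinearMap.ker (g.restrictScalars (T.S k))
    have hKtop : (T.Λ k).L K ≠ ⊤ := by
      have h1 : (T.Λ k).L K ≤ T.a k (E : Set M) :=
        (T.Λ k).L_le_of_injective (Submodule.inclusion (inf_le_left : K ≤ sp))
          (Submodule.inclusion_injective _)
      exact ne_top_of_le_ne_top (T.a_ne_top hM k E) h1
    -- length of `span E / K`
    have hquot : T.a k (E : Set M) ≤ (T.Λ k).L K + T.a k (g '' (E : Set M)) := by
      let g' : sp →ₗ[T.S k] Submodule.span (T.S k) (g '' (E : Set M)) :=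
        ((g.restrictScalars (T.S k)) ∘ₗ sp.subtype).codRestrict _ (fun x => by
          rw [← T.coe_map_span g k]
          exact ⟨x.1, x.2, rfl⟩)
      refine (T.Λ k).L_le_add_of_exact (Submodule.inclusion (inf_le_left : K ≤ sp)) g' ?_
      intro x
      constructor
      · intro hx
        exact ⟨⟨x.1, x.2, congrArg Subtype.val hx⟩, rfl⟩
      · rintro ⟨y, rfl⟩
        exact Subtype.ext y.2.2
    have hF : ∀ F : Finset K, T.lamSet (E : Set M) + (T.Λ k).L (Submodule.span (T.S k) (F : Set K))
        ≤ T.lam M' + ((T.Λ k).L K + T.a k (g '' (E : Set M))) := by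
      intro F
      let F1 : Finset M := F.image Subtype.val
      have hF1K : ∀ x ∈ F1, x ∈ K := by
        intro x hx
        obtain ⟨y, _, rfl⟩ := Finset.mem_image.mp hx
        exact y.2
      -- pull back to `M'`
      have hFK : ∀ x ∈ F1, ∃ y, f y = x := fun x hx => (H x).mp (hF1K x hx).2
      let F' : Finset M' := F1.preimage f (hf.injOn)
      have hF' : f '' (F' : Set M') = (F1 : Set M) := by
        ext x
        constructor
        · rintro ⟨y, hy, rfl⟩
          simpa [F'] using hy
        · intro hx
          obtain ⟨y, rfl⟩ := hFK x hx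
          exact ⟨y, by simpa [F'] using hx, rfl⟩
      have hsub : (F1 : Set M) ⊆ (sp : Set M) := fun x hx => (hF1K x hx).1
      have h1 := T.lamSet_le_add_q hM k (F1 : Set M) (E : Set M) hsub
      have h2 := T.a_le_add k (F1 : Set M) (E : Set M) hsub
      have h3 : (T.Λ k).L (Submodule.span (T.S k) (F : Set K)) = T.a k (F1 : Set M) := by
        unfold a
        rw [Finset.coe_image]
        have e1 : Submodule.span (T.S k) (Subtype.val '' (F : Set K)) =
            (Submodule.span (T.S k) (F : Set K)).map K.subtype := by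
          rw [Submodule.map_span]; rfl
        rw [e1]
        exact (T.Λ k).L_congr (Submodule.equivMapOfInjective K.subtype K.subtype_injective _)
      have h4 : T.lamSet (F1 : Set M) ≤ T.lam M' := by
        rw [← hF', T.lamSet_image_of_injective f hf]
        exact T.lamSet_le_lam _
      calc T.lamSet (E : Set M) + (T.Λ k).L (Submodule.span (T.S k) (F : Set K))
          = T.lamSet (E : Set M) + T.a k (F1 : Set M) := by rw [h3]
        _ ≤ (T.lamSet (F1 : Set M) + T.q k (F1 : Set M) (E : Set M)) + T.a k (F1 : Set M) := by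
            gcongr
        _ = T.lamSet (F1 : Set M) + T.a k (E : Set M) := by rw [h2]; ring
        _ ≤ T.lam M' + ((T.Λ k).L K + T.a k (g '' (E : Set M))) := by gcongr
    have hsup : T.lamSet (E : Set M) + (T.Λ k).L K ≤
        T.lam M' + ((T.Λ k).L K + T.a k (g '' (E : Set M))) := by
      have hc := T.cont k K ((T.torsE_of_tors hM k).submodule K)
      refine (add_le_add le_rfl hc).trans ?_
      rw [ENNReal.add_iSup]
      exact iSup_le hF
    have : (T.Λ k).L K + T.lamSet (E : Set M) ≤
        (T.Λ k).L K + (T.lam M' + T.a k (g '' (E : Set M))) := by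
      calc (T.Λ k).L K + T.lamSet (E : Set M) = T.lamSet (E : Set M) + (T.Λ k).L K := add_comm _ _
        _ ≤ T.lam M' + ((T.Λ k).L K + T.a k (g '' (E : Set M))) := hsup
        _ = _ := by ring
    exact (ENNReal.add_le_add_iff_left hKtop).mp this
  calc T.lamSet (E : Set M) ≤ ⨅ k, (T.lam M' + T.a k (g '' (E : Set M))) := le_iInf key
    _ = T.lam M' + T.lamSet (g '' (E : Set M)) := by rw [lamSet, ENNReal.add_iInf]
    _ ≤ T.lam M' + T.lam M'' := by
      gcongr
      rw [← Finset.coe_image]
      exact T.lamSet_le_lam _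

/-- **Additivity of the normalised length.** -/
theorem lam_eq_add_of_exact [IsDirectedOrder I] (hM : Tors T.t M) (f : M' →ₗ[A] M) (g : M →ₗ[A] M'')
    (hf : Function.Injective f) (hg : Function.Surjective g) (H : Function.Exact f g) :
    T.lam M = T.lam M' + T.lam M'' :=
  le_antisymm (T.lam_le_add_of_exact hM f g hf H) (T.lam_add_le_of_exact f g hf hg H)

end Exact

open Classical in
/-- **the additive length of a tower**: `lam` on torsion modules, `⊤` on the others. -/
noncomputable def addLen [IsDirectedOrder I] [Nonempty I] : AddLen.{u, u} A where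
  L M _ _ := if Tors T.t M then T.lam M else ⊤
  zero' M _ _ h := by
    have : Tors T.t M := fun x i => ⟨0, Subsingleton.elim _ _⟩
    rw [if_pos this]
    exact T.lam_of_subsingleton
  add' := by
    intro M N P _ _ _ _ _ _ f g hf hg H
    by_cases hN : Tors T.t N
    · rw [if_pos hN, if_pos (hN.of_injective f hf), if_pos (hN.of_surjective g hg)]
      exact T.lam_eq_add_of_exact hN f g hf hg H
    · rw [if_neg hN]
      by_cases hM : Tors T.t M
      · by_cases hP : Tors T.t P
        · exact absurd (hM.of_exact hP f g H) hN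
        · rw [if_neg hP, add_top]
      · rw [if_neg hM, top_add]

theorem addLen_L [IsDirectedOrder I] [Nonempty I] {M : Type u} [AddCommGroup M] [Module A M] (h : Tors T.t M) :
    T.addLen.L M = T.lam M := if_pos h

theorem addLen_L_of_not [IsDirectedOrder I] [Nonempty I] {M : Type u} [AddCommGroup M] [Module A M] (h : ¬ Tors T.t M) :
    T.addLen.L M = ⊤ := if_neg h

section Values

variable {M : Type u} [AddCommGroup M] [Module A M]

theorem lamSet_le_lam_span (E : Finset M) :
    T.lamSet (E : Set M) ≤ T.lam (Submodule.span A (E : Set M)) := by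
  classical
  let E' : Finset (Submodule.span A (E : Set M)) :=
    E.attach.image (fun x => ⟨x.1, Submodule.subset_span x.2⟩)
  have : (E : Set M) = (Submodule.span A (E : Set M)).subtype '' (E' : Set _) := by
    ext x
    constructor
    · intro hx
      exact ⟨⟨x, Submodule.subset_span hx⟩, by simpa [E'] using hx, rfl⟩
    · rintro ⟨y, hy, rfl⟩
      simp only [E', Finset.coe_image, Set.mem_image, Finset.mem_coe, Finset.mem_attach,
        true_and, Subtype.exists] at hy
      obtain ⟨z, hz, rfl⟩ := hy
      exact hz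
  conv_lhs => rw [this]
  rw [T.lamSet_image_of_injective _ (Submodule.subtype_injective _)]
  exact T.lamSet_le_lam _

theorem contOn_addLen [IsDirectedOrder I] [Nonempty I] : ContOn T.addLen T.t := by
  intro M _ _ hM
  rw [T.addLen_L hM]
  refine iSup_le fun E => ?_
  refine (T.lamSet_le_lam_span E).trans ?_
  rw [← T.addLen_L (hM.submodule _)]
  exact le_iSup (fun E : Finset M => T.addLen.L (Submodule.span A (E : Set M))) E

variable [IsDirectedOrder I] [Nonempty I]

omit [Nonempty I] in
/-- if `A` is the union of the `S e`, every finite set in the `A`-span of `E` is in some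
`S e`-span of `E`, `e ≥ e₀` -/
theorem exists_subset_span (hU : ∀ x : A, ∃ e, x ∈ T.S e) (e₀ : I) (E : Set M) (F : Finset M)
    (hF : (F : Set M) ⊆ (Submodule.span A E : Submodule A M)) :
    ∃ k, e₀ ≤ k ∧ (F : Set M) ⊆ (Submodule.span (T.S k) E : Submodule (T.S k) M) := by
  classical
  have h1 : ∀ x ∈ Submodule.span A E, ∃ k, x ∈ Submodule.span (T.S k) E := by
    intro x hx
    induction hx using Submodule.span_induction with
    | mem x hx => exact ⟨e₀, Submodule.subset_span hx⟩
    | zero => exact ⟨e₀, Submodule.zero_mem _⟩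
    | add x y _ _ hx hy =>
      obtain ⟨k, hk⟩ := hx
      obtain ⟨l, hl⟩ := hy
      obtain ⟨m, hkm, hlm⟩ := exists_ge_ge k l
      exact ⟨m, Submodule.add_mem _ (T.span_le_span hkm E hk) (T.span_le_span hlm E hl)⟩
    | smul a x _ hx =>
      obtain ⟨k, hk⟩ := hx
      obtain ⟨l, hl⟩ := hU a
      obtain ⟨m, hkm, hlm⟩ := exists_ge_ge k l
      exact ⟨m, Submodule.smul_mem _ (⟨a, T.mono hlm hl⟩ : T.S m) (T.span_le_span hkm E hk)⟩
  induction F using Finset.induction_on with
  | empty => exact ⟨e₀, le_rfl, by simp⟩
  | insert x F hx ih =>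
    obtain ⟨k, hk0, hk⟩ := ih (fun y hy => hF (Finset.mem_insert_of_mem hy))
    obtain ⟨l, hl⟩ := h1 x (hF (Finset.mem_insert_self x F))
    obtain ⟨m, hkm, hlm⟩ := exists_ge_ge k l
    refine ⟨m, hk0.trans hkm, ?_⟩
    intro y hy
    rcases Finset.mem_insert.mp hy with rfl | hy
    · exact T.span_le_span hlm E hl
    · exact T.span_le_span hkm E (hk hy)

/-- the normalised length of a finitely generated module, computed from generators -/
theorem lam_eq_lamSet (hU : ∀ x : A, ∃ e, x ∈ T.S e) (hM : Tors T.t M) (E : Finset M)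
    (hE : Submodule.span A (E : Set M) = ⊤) : T.lam M = T.lamSet (E : Set M) := by
  apply le_antisymm
  · refine iSup_le fun F => ?_
    obtain ⟨k, -, hk⟩ := T.exists_subset_span hU (Classical.arbitrary I) (E : Set M) F
      (by rw [hE]; exact fun _ _ => trivial)
    exact T.lamSet_mono_of_subset_span hM k hk
  · exact T.lamSet_le_lam E

/-- **upper bound**: if the `A`-module `M` is generated by the image of an `S e`-module `Q`, then
`lam M ≤ Λ e Q`. -/
theorem lam_le_of_generated (hU : ∀ x : A, ∃ e, x ∈ T.S e) (e : I) {Q : Type u} [AddCommGroup Q]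
    [Module (T.S e) Q] (hQ : T.TorsE e Q) (f : Q →+ M)
    (hf : ∀ (a : T.S e) (x : Q), f (a • x) = (a : A) • f x)
    (hspan : Submodule.span A (Set.range f) = ⊤) : T.lam M ≤ (T.Λ e).L Q := by
  classical
  refine iSup_le fun E => ?_
  obtain ⟨k, hek, hk⟩ := T.exists_subset_span hU e (Set.range f) E
    (by rw [hspan]; exact fun _ _ => trivial)
  refine (T.lamSet_le k _).trans ?_
  let N := Submodule.span (T.S k) (Set.range f)
  have hN : T.a k (E : Set M) ≤ (T.Λ k).L N :=
    (T.Λ k).L_le_of_injective (Submodule.inclusion (Submodule.span_le.mpr hk))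
      (Submodule.inclusion_injective _)
  refine hN.trans ?_
  let f' : Q →+ N :=
    { toFun := fun x => ⟨f x, Submodule.subset_span ⟨x, rfl⟩⟩
      map_zero' := Subtype.ext (map_zero f)
      map_add' := fun x y => Subtype.ext (map_add f x y) }
  refine T.scale e k hek Q N f' ?_ hQ ?_
  · intro a x
    apply Subtype.ext
    exact hf a x
  · rw [eq_top_iff]
    rintro ⟨y, hy⟩ -
    induction hy using Submodule.span_induction with
    | mem x hx =>
      obtain ⟨z, rfl⟩ := hx
      exact Submodule.subset_span ⟨z, rfl⟩
    | zero => exact Submodule.zero_mem _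
    | add x y hx hy hx' hy' => exact Submodule.add_mem _ hx' hy'
    | smul a x hx hx' => exact Submodule.smul_mem _ a hx'

end Values

end NTower

end Crest.Agent.R188.Tow
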