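import Mathlib
import Crest.Agent.R183.AddLen
import Crest.Agent.R183.AddLenInst
import Crest.Agent.R188.Tow1

-- ▼ part R188/Frb1
section

set_option autoImplicit false

namespace Crest.Agent.R188.Frb

open Crest.Agent.R183
open scoped ENNReal

universe u v

lemma ennreal_cancel {a₁ b₁ a₂ b₂ : ℝ≥0∞} (h : a₂ + b₂ = a₁ + b₁) (ha : a₂ ≤ a₁) (hb : b₂ ≤ b₁)
    (hfin : a₁ + b₁ ≠ ⊤) : a₂ = a₁ ∧ b₂ = b₁ := by
  have ha1 : a₁ ≠ ⊤ := (ENNReal.add_ne_top.1 hfin).1
  have hb1 : b₁ ≠ ⊤ := (ENNReal.add_ne_top.1 hfin).2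
  refine ⟨le_antisymm ha ?_, le_antisymm hb ?_⟩
  · have h1 : a₁ + b₁ ≤ a₂ + b₁ := by rw [← h]; gcongr
    exact (ENNReal.add_le_add_iff_right hb1).1 h1
  · have h1 : a₁ + b₁ ≤ a₁ + b₂ := by rw [← h]; gcongr
    exact (ENNReal.add_le_add_iff_left ha1).1 h1

section Uniq

variable {A : Type u} [CommRing A] (Λ₁ Λ₂ : AddLen.{u, v} A)



end Uniq

section Cyclic

variable {A : Type u} [CommRing A]

/-- a finitely generated module killed by `I` is a quotient of `(A ⧸ I)^n` -/
theorem exists_surj_of_fg (I : Ideal A) (M : Type v) [AddCommGroup M] [Module A M]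
    [Module.Finite A M] (hM : ∀ a ∈ I, ∀ x : M, a • x = 0) :
    ∃ (n : ℕ) (f : (Fin n → A ⧸ I) →ₗ[A] M), Function.Surjective f := by
  obtain ⟨n, g, hg⟩ := Module.Finite.exists_fin' A M
  let h : M → ((A ⧸ I) →ₗ[A] M) := fun m =>
    Submodule.liftQ I (LinearMap.toSpanSingleton A M m) (by
      intro a ha
      rw [LinearMap.mem_ker, LinearMap.toSpanSingleton_apply]
      exact hM a ha m)
  have hh : ∀ m a, h m (Ideal.Quotient.mk I a) = a • m := fun m a => by
    change Submodule.liftQ I (LinearMap.toSpanSingleton A M m) _ (Submodule.Quotient.mk a) = _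
    rw [Submodule.liftQ_apply, LinearMap.toSpanSingleton_apply]
  refine ⟨n, ∑ i, (h (g (Pi.single i 1))).comp (LinearMap.proj i), fun x => ?_⟩
  obtain ⟨y, rfl⟩ := hg x
  refine ⟨fun i => Ideal.Quotient.mk I (y i), ?_⟩
  rw [LinearMap.sum_apply]
  have : y = ∑ i, y i • (Pi.single i (1 : A) : Fin n → A) := by
    ext j
    simp [Finset.sum_apply, Pi.single_apply]
  conv_rhs => rw [this, map_sum]
  refine Finset.sum_congr rfl fun i _ => ?_
  rw [LinearMap.comp_apply, LinearMap.proj_apply, hh, map_smul]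


end Cyclic

end Crest.Agent.R188.Frb
end

-- ▼ part R188/Frb3

set_option autoImplicit false

namespace Crest.Agent.R188.Frb

open Crest.Agent.R183 Crest.Agent.R188.Tow
open scoped ENNReal

universe u v w

/-- `φ : V ≃+ V'` is Frobenius-semilinear and `p V' = 0`. -/
structure Tw (p : ℕ) {C : Type*} [CommRing C] {V V' : Type*} [AddCommGroup V] [Module C V]
    [AddCommGroup V'] [Module C V'] (φ : V ≃+ V') : Prop where
  smul : ∀ (a : C) (x : V), φ (a • x) = a ^ p • φ x
  kill : ∀ y : V', (p : C) • y = 0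

namespace Tw

variable {p : ℕ} {C : Type u} [CommRing C]
variable {V V' : Type v} [AddCommGroup V] [Module C V] [AddCommGroup V'] [Module C V']
variable {φ : V ≃+ V'}

/-- the preimage of a submodule -/
def comap (h : Tw p (C := C) φ) (N : Submodule C V') : Submodule C V where
  carrier := φ ⁻¹' (N : Set V')
  add_mem' := by
    intro x y hx hy
    change φ (x + y) ∈ N
    rw [map_add]; exact N.add_mem hx hy
  zero_mem' := by
    change φ 0 ∈ N
    rw [map_zero]; exact N.zero_mem
  smul_mem' := by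
    intro a x hx
    change φ (a • x) ∈ N
    rw [h.smul]; exact N.smul_mem _ hx

theorem mem_comap (h : Tw p (C := C) φ) (N : Submodule C V') {x : V} :
    x ∈ h.comap N ↔ φ x ∈ N := Iff.rfl

/-- restriction of a twisted pair to a submodule of the target -/
def comapEquiv (h : Tw p (C := C) φ) (N : Submodule C V') : h.comap N ≃+ N where
  toFun x := ⟨φ x.1, x.2⟩
  invFun y := ⟨φ.symm y.1, by
    change φ (φ.symm y.1) ∈ N
    rw [φ.apply_symm_apply]; exact y.2⟩
  left_inv x := Subtype.ext (φ.symm_apply_apply x.1)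
  right_inv y := Subtype.ext (φ.apply_symm_apply y.1)
  map_add' x y := Subtype.ext (map_add φ x.1 y.1)

theorem comapEquiv_tw (h : Tw p (C := C) φ) (N : Submodule C V') :
    Tw p (C := C) (h.comapEquiv N) where
  smul a x := Subtype.ext (h.smul a x.1)
  kill y := Subtype.ext (h.kill y.1)

/-- products -/
def pi (n : ℕ) (φ : V ≃+ V') : (Fin n → V) ≃+ (Fin n → V') where
  toFun x i := φ (x i)
  invFun y i := φ.symm (y i)
  left_inv x := funext fun i => φ.symm_apply_apply (x i)
  right_inv y := funext fun i => φ.apply_symm_apply (y i)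
  map_add' x y := funext fun i => map_add φ (x i) (y i)

theorem pi_tw (h : Tw p (C := C) φ) (n : ℕ) : Tw p (C := C) (pi n φ) where
  smul a x := funext fun i => h.smul a (x i)
  kill y := funext fun i => h.kill (y i)

/-- torsion -/
theorem tors_iff (hp : 0 < p) (h : Tw p (C := C) φ) {κ : Type w} (t : κ → C) :
    Tors t V ↔ Tors t V' := by
  constructor
  · intro H y i
    obtain ⟨n, hn⟩ := H (φ.symm y) i
    refine ⟨n * p, ?_⟩
    have := h.smul (t i ^ n) (φ.symm y)
    rw [hn, map_zero, φ.apply_symm_apply, ← pow_mul] at this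
    exact this.symm
  · intro H x i
    obtain ⟨n, hn⟩ := H (φ x) i
    refine ⟨n, φ.injective ?_⟩
    rw [h.smul, map_zero]
    obtain ⟨k, rfl⟩ := Nat.exists_eq_add_of_lt hp
    have e1 : (t i ^ n) ^ (0 + k + 1) = (t i ^ n) ^ k * t i ^ n := by
      rw [zero_add, pow_succ]
    rw [e1, mul_smul, hn, smul_zero]

end Tw

section Ideal

variable {p : ℕ} [hpr : Fact p.Prime] {C : Type u} [CommRing C]

/-- `C/J₁ ≃ C/J`, `x ↦ x^p`, for `J₁ = Frob⁻¹ J`, `p ∈ J`, Frobenius onto on `C/p`. -/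
theorem exists_tw_quot (hfs : ∀ x : C, ∃ y, (p : C) ∣ x - y ^ p) (J J₁ : Ideal C)
    (hp : (p : C) ∈ J) (hJ : ∀ x, x ∈ J₁ ↔ x ^ p ∈ J) :
    ∃ φ : (C ⧸ J₁) ≃+ (C ⧸ J), Tw p (C := C) φ := by
  have hpow : ∀ x y : C, Ideal.Quotient.mk J ((x + y) ^ p) =
      Ideal.Quotient.mk J (x ^ p) + Ideal.Quotient.mk J (y ^ p) := by
    intro x y
    obtain ⟨r, hr⟩ := exists_add_pow_prime_eq hpr.out x y
    have : (x + y) ^ p - (x ^ p + y ^ p) ∈ J := by
      rw [hr]
      have : x ^ p + y ^ p + p * x * y * r - (x ^ p + y ^ p) = (x * y * r) * p := by ring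
      rw [this]
      exact J.mul_mem_left _ hp
    rw [← map_add]
    exact (Ideal.Quotient.eq).2 this
  let f0 : C →+ C ⧸ J :=
    { toFun := fun x => Ideal.Quotient.mk J (x ^ p)
      map_zero' := by rw [zero_pow hpr.out.ne_zero, map_zero]
      map_add' := hpow }
  have hf0 : ∀ x, f0 x = Ideal.Quotient.mk J (x ^ p) := fun _ => rfl
  let f : (C ⧸ J₁) →+ (C ⧸ J) := QuotientAddGroup.lift (Submodule.toAddSubgroup J₁) f0 (by
    intro x hx
    rw [AddMonoidHom.mem_ker, hf0]
    exact Ideal.Quotient.eq_zero_iff_mem.2 ((hJ x).1 hx))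
  have hf : ∀ x, f (Ideal.Quotient.mk J₁ x) = Ideal.Quotient.mk J (x ^ p) := fun _ => rfl
  have hinj : Function.Injective f := by
    rw [injective_iff_map_eq_zero]
    intro x hx
    obtain ⟨x, rfl⟩ := Ideal.Quotient.mk_surjective x
    rw [hf, Ideal.Quotient.eq_zero_iff_mem] at hx
    exact Ideal.Quotient.eq_zero_iff_mem.2 ((hJ x).2 hx)
  have hsurj : Function.Surjective f := by
    intro y
    obtain ⟨y, rfl⟩ := Ideal.Quotient.mk_surjective y
    obtain ⟨z, w, hz⟩ := hfs y
    refine ⟨Ideal.Quotient.mk J₁ z, ?_⟩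
    rw [hf, eq_comm, Ideal.Quotient.eq, hz]
    exact J.mul_mem_right _ hp
  refine ⟨AddEquiv.ofBijective f ⟨hinj, hsurj⟩, ?_, ?_⟩
  · intro a x
    obtain ⟨x, rfl⟩ := Ideal.Quotient.mk_surjective x
    change f (Ideal.Quotient.mk J₁ (a * x)) = a ^ p • f (Ideal.Quotient.mk J₁ x)
    rw [hf, hf, mul_pow]
    rfl
  · intro y
    obtain ⟨y, rfl⟩ := Ideal.Quotient.mk_surjective y
    change Ideal.Quotient.mk J ((p : C) * y) = 0
    exact Ideal.Quotient.eq_zero_iff_mem.2 (J.mul_mem_right _ hp)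

end Ideal

section Main

variable {p : ℕ} {C : Type u} [CommRing C] (Λ : AddLen.{u, u} C) (c : ℝ≥0∞)

/-- equality for finitely generated `V'` killed by `J` -/
theorem frob_fg
    (hle : ∀ (V V' : Type u) [AddCommGroup V] [Module C V] [AddCommGroup V'] [Module C V']
      (φ : V ≃+ V'), Tw p (C := C) φ → c * Λ.L V ≤ Λ.L V')
    (J J₁ : Ideal C) (ψ : (C ⧸ J₁) ≃+ (C ⧸ J)) (hψ : Tw p (C := C) ψ)
    (hfin : Λ.L (C ⧸ J) ≠ ⊤) (heq : Λ.L (C ⧸ J) = c * Λ.L (C ⧸ J₁))
    {V V' : Type u} [AddCommGroup V] [Module C V] [AddCommGroup V'] [Module C V']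
    [Module.Finite C V'] (hV' : ∀ a ∈ J, ∀ x : V', a • x = 0) (φ : V ≃+ V')
    (hφ : Tw p (C := C) φ) : Λ.L V' = c * Λ.L V := by
  obtain ⟨n, f', hf'⟩ := exists_surj_of_fg J V' hV'
  let W := Fin n → C ⧸ J₁
  let W' := Fin n → C ⧸ J
  let Ψ : W ≃+ W' := Tw.pi n ψ
  have hΨ : Tw p (C := C) Ψ := Tw.pi_tw hψ n
  let f : W →ₗ[C] V :=
    { toFun := fun w => φ.symm (f' (Ψ w))
      map_add' := fun x y => by rw [map_add, map_add, map_add]
      map_smul' := fun a x => by
        apply φ.injective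
        rw [φ.apply_symm_apply, RingHom.id_apply, hφ.smul, φ.apply_symm_apply, hΨ.smul, map_smul] }
  have hf : ∀ w, φ (f w) = f' (Ψ w) := fun w => φ.apply_symm_apply _
  have hfs : Function.Surjective f := by
    intro x
    obtain ⟨w', hw'⟩ := hf' (φ x)
    refine ⟨Ψ.symm w', φ.injective ?_⟩
    rw [hf, Ψ.apply_symm_apply, hw']
  have e1 := Λ.add' (LinearMap.ker f).subtype f (Submodule.subtype_injective _) hfs
    (LinearMap.exact_subtype_ker_map f)
  have e2 := Λ.add' (LinearMap.ker f').subtype f' (Submodule.subtype_injective _) hf'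
    (LinearMap.exact_subtype_ker_map f')
  have hWW' : Λ.L W' = c * Λ.L W := by
    change Λ.L (Fin n → C ⧸ J) = c * Λ.L (Fin n → C ⧸ J₁)
    rw [Λ.L_finset_pi, Λ.L_finset_pi, heq]
    ring
  have hWfin : Λ.L W' ≠ ⊤ := by
    change Λ.L (Fin n → C ⧸ J) ≠ ⊤
    rw [Λ.L_finset_pi]
    exact ENNReal.mul_ne_top (ENNReal.natCast_ne_top n) hfin
  -- the kernels
  have hker : LinearMap.ker f = hΨ.comap (LinearMap.ker f') := by
    ext w
    rw [LinearMap.mem_ker, Tw.mem_comap, LinearMap.mem_ker, ← hf]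
    exact (map_eq_zero_iff φ φ.injective).symm
  have hK : c * Λ.L (LinearMap.ker f) ≤ Λ.L (LinearMap.ker f') := by
    rw [hker]
    exact hle _ _ _ (hΨ.comapEquiv_tw (LinearMap.ker f'))
  have hV := hle V V' φ hφ
  have hsum : c * Λ.L (LinearMap.ker f) + c * Λ.L V =
      Λ.L (LinearMap.ker f') + Λ.L V' := by
    rw [← mul_add]
    rw [← e1, ← e2]
    exact hWW'.symm
  refine ((ennreal_cancel hsum hK hV ?_).2).symm
  have : Λ.L (LinearMap.ker f') + Λ.L V' = Λ.L W' := e2.symm
  rw [this]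
  exact hWfin

/-- **FROB**, general form. -/
theorem frob_main {κ : Type w} [Finite κ] (t : κ → C) (hp : 0 < p) (hc : c ≠ 0)
    (hcont : ContOn Λ t)
    (htop : ∀ (M : Type u) [AddCommGroup M] [Module C M], ¬ Tors t M → Λ.L M = ⊤)
    (hle : ∀ (V V' : Type u) [AddCommGroup V] [Module C V] [AddCommGroup V'] [Module C V']
      (φ : V ≃+ V'), Tw p (C := C) φ → c * Λ.L V ≤ Λ.L V')
    (hJ : ∀ N : ℕ, ∃ (J J₁ : Ideal C) (ψ : (C ⧸ J₁) ≃+ (C ⧸ J)), Tw p (C := C) ψ ∧
      J ≤ Ideal.span {(p : C)} ⊔ Ideal.span (Set.range fun i => t i ^ N) ∧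
      Λ.L (C ⧸ J) ≠ ⊤ ∧ Λ.L (C ⧸ J) = c * Λ.L (C ⧸ J₁))
    {V V' : Type u} [AddCommGroup V] [Module C V] [AddCommGroup V'] [Module C V']
    (φ : V ≃+ V') (hφ : Tw p (C := C) φ) : Λ.L V' = c * Λ.L V := by
  classical
  by_cases hT : Tors t V'
  · refine le_antisymm ?_ (hle V V' φ hφ)
    refine (hcont V' hT).trans (iSup_le fun E => ?_)
    set U' := Submodule.span C (E : Set V') with hU'
    have : Module.Finite C U' := Module.Finite.iff_fg.mpr (Submodule.fg_span E.finite_toSet)
    -- a uniform exponent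
    have hN : ∃ N : ℕ, ∀ x ∈ E, ∀ i, t i ^ N • x = 0 := by
      have := Fintype.ofFinite κ
      choose n hn using hT
      refine ⟨∑ x ∈ E, ∑ i, n x i, fun x hx i => ?_⟩
      have h1 : n x i ≤ ∑ x ∈ E, ∑ i, n x i :=
        (Finset.single_le_sum (f := fun i => n x i) (fun _ _ => Nat.zero_le _)
          (Finset.mem_univ i)).trans
          (Finset.single_le_sum (f := fun x => ∑ i, n x i) (fun _ _ => Nat.zero_le _) hx)
      obtain ⟨k, hk⟩ := Nat.exists_eq_add_of_le h1
      rw [hk, pow_add, mul_comm, mul_smul, hn x i, smul_zero]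
    obtain ⟨N, hN⟩ := hN
    obtain ⟨J, J₁, ψ, hψ, hJle, hfin, heq⟩ := hJ N
    have hkill : ∀ a ∈ J, ∀ x : U', a • x = 0 := by
      intro a ha
      have ha' := hJle ha
      -- it is enough to treat the generators of the ideal and of the module
      have hgen : ∀ b ∈ Ideal.span {(p : C)} ⊔ Ideal.span (Set.range fun i => t i ^ N),
          ∀ x ∈ U', b • x = 0 := by
        intro b hb
        rw [← Ideal.span_union] at hb
        induction hb using Submodule.span_induction with
        | mem b hb =>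
          intro x hx
          rcases hb with hb | ⟨i, hi⟩
          · rw [Set.mem_singleton_iff] at hb
            rw [hb]; exact hφ.kill x
          · dsimp only at hi
            rw [← hi]
            induction hx using Submodule.span_induction with
            | mem y hy => exact hN y hy i
            | zero => exact smul_zero _
            | add y z _ _ hy hz => rw [smul_add, hy, hz, add_zero]
            | smul r y _ hy => rw [smul_comm, hy, smul_zero]
        | zero => intro x _; exact zero_smul _ _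
        | add b b' _ _ hb hb' =>
          intro x hx
          rw [add_smul, hb x hx, hb' x hx, add_zero]
        | smul r b _ hb =>
          intro x hx
          rw [smul_eq_mul, mul_smul, hb x hx, smul_zero]
      intro x
      exact Subtype.ext (hgen a ha' x.1 x.2)
    have h1 := frob_fg Λ c hle J J₁ ψ hψ hfin heq hkill (hφ.comapEquiv U') (hφ.comapEquiv_tw U')
    rw [h1]
    gcongr
    exact Λ.L_submodule_le _
  · have hT' : ¬ Tors t V := fun h => hT ((hφ.tors_iff hp t).1 h)
    rw [htop V' hT, htop V hT', ENNReal.mul_top hc]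

end Main

section Tower

variable {p : ℕ} {C : Type u} [CommRing C] {I : Type v} [Preorder I] {κ : Type w}
  (T : NTower C I κ)

/-- one-sided scaling for a tower -/
theorem tower_frob_le [IsDirectedOrder I] [Nonempty I] (hp : 0 < p) (c : ℝ≥0∞)
    (hS : ∀ (e : I) (Q Q' : Type u) [AddCommGroup Q] [Module (T.S e) Q] [AddCommGroup Q']
      [Module (T.S e) Q'] (φ : Q ≃+ Q'), Tw p (C := T.S e) φ →
      c * (T.Λ e).L Q ≤ (T.Λ e).L Q')
    {V V' : Type u} [AddCommGroup V] [Module C V] [AddCommGroup V'] [Module C V']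
    (φ : V ≃+ V') (hφ : Tw p (C := C) φ) : c * T.addLen.L V ≤ T.addLen.L V' := by
  classical
  by_cases hT : Tors T.t V'
  · have hT' : Tors T.t V := (hφ.tors_iff hp T.t).2 hT
    rw [T.addLen_L hT, T.addLen_L hT']
    unfold NTower.lam
    rw [ENNReal.mul_iSup]
    refine iSup_le fun E => ?_
    refine le_trans ?_ (T.lamSet_le_lam (E.image φ))
    refine le_iInf fun e => ?_
    refine (mul_le_mul_right (T.lamSet_le e (E : Set V)) c).trans ?_
    unfold NTower.a
    set Q' := Submodule.span (T.S e) ((E.image φ : Finset V') : Set V') with hQ'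
    have hφe : Tw p (C := T.S e) φ :=
      { smul := fun a x => hφ.smul (a : C) x
        kill := fun y => by
          have h1 : ((p : T.S e) : C) = (p : C) := by push_cast; rfl
          change ((p : T.S e) : C) • y = 0
          rw [h1]; exact hφ.kill y }
    have hle : Submodule.span (T.S e) (E : Set V) ≤ hφe.comap Q' := by
      rw [Submodule.span_le]
      intro x hx
      change φ x ∈ Q'
      refine Submodule.subset_span ?_
      rw [Finset.coe_image]
      exact ⟨x, hx, rfl⟩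
    calc c * (T.Λ e).L (Submodule.span (T.S e) (E : Set V))
        ≤ c * (T.Λ e).L (hφe.comap Q') := by
          gcongr
          exact (T.Λ e).L_le_of_injective (Submodule.inclusion hle)
            (Submodule.inclusion_injective hle)
      _ ≤ (T.Λ e).L Q' := hS e _ _ (hφe.comapEquiv Q') (hφe.comapEquiv_tw Q')
  · rw [T.addLen_L_of_not hT]
    exact le_top

/-- **FROB for a tower.** -/
theorem tower_frob [IsDirectedOrder I] [Nonempty I] [Finite κ] (hp : 0 < p) (c : ℝ≥0∞)
    (hc : c ≠ 0)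
    (hS : ∀ (e : I) (Q Q' : Type u) [AddCommGroup Q] [Module (T.S e) Q] [AddCommGroup Q']
      [Module (T.S e) Q'] (φ : Q ≃+ Q'), Tw p (C := T.S e) φ →
      c * (T.Λ e).L Q ≤ (T.Λ e).L Q')
    (hJ : ∀ N : ℕ, ∃ (J J₁ : Ideal C) (ψ : (C ⧸ J₁) ≃+ (C ⧸ J)), Tw p (C := C) ψ ∧
      J ≤ Ideal.span {(p : C)} ⊔ Ideal.span (Set.range fun i => T.t i ^ N) ∧
      T.addLen.L (C ⧸ J) ≠ ⊤ ∧ T.addLen.L (C ⧸ J) = c * T.addLen.L (C ⧸ J₁))
    {V V' : Type u} [AddCommGroup V] [Module C V] [AddCommGroup V'] [Module C V']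
    (φ : V ≃+ V') (hφ : Tw p (C := C) φ) : T.addLen.L V' = c * T.addLen.L V :=
  frob_main T.addLen c T.t hp hc T.contOn_addLen (fun _ _ _ h => T.addLen_L_of_not h)
    (fun _ _ _ _ _ _ φ hφ => tower_frob_le T hp c hS φ hφ) hJ φ hφ

end Tower

end Crest.Agent.R188.Frb
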