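import Mathlib
import Crest.Agent.R183.BInf4
import Crest.Agent.R183.Lam3
import Crest.Agent.R183.AddLenInst
import Crest.Agent.R188.Frb3
import Crest.Agent.R188.Tow3
import Crest.Agent.R188.LenW2
import Crest.Agent.R183.Om5

-- ▼ part R188/Frb2
section

set_option autoImplicit false

namespace Crest.Agent.R188.Frb

open Crest.Agent.R183 Crest.Agent.R183.BInf
open scoped ENNReal

universe u v

section

variable {d : ℕ} {p : ℕ} [hpr : Fact p.Prime] {B : Type u} [CommRing B] (t : Fin d → B)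

/-- the `p`-th power of an element of level `e+1` is congruent modulo `p` to an element of
level `e` -/
theorem exists_pow_mod (e : ℕ) {a : BInf p t} (ha : a ∈ SA p t hpr.out.pos (e + 1)) :
    ∃ b ∈ SA p t hpr.out.pos e, (p : BInf p t) ∣ a ^ p - b := by
  have ha' : a ∈ Submodule.span B (Set.range fun n : Fin d → ℕ =>
      mon p t (ex p hpr.out.pos (e + 1) n)) := by
    rw [← SA_eq_span]; exact ha
  clear ha
  induction ha' using Submodule.span_induction with
  | mem x hx =>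
    obtain ⟨n, rfl⟩ := hx
    refine ⟨mon p t (ex p hpr.out.pos e n), mon_ex_mem p t hpr.out.pos e n, ?_⟩
    dsimp only
    rw [← mon_nsmul]
    have h : p • ex p hpr.out.pos (e + 1) n = ex p hpr.out.pos e n := by
      funext j
      apply Subtype.ext
      rw [Pi.smul_apply, AddSubmonoidClass.coe_nsmul]
      change p • ((n j : ℚ≥0) / (p : ℚ≥0) ^ (e + 1)) = (n j : ℚ≥0) / (p : ℚ≥0) ^ e
      have hp0 : (p : ℚ≥0) ≠ 0 := by exact_mod_cast hpr.out.ne_zero
      rw [nsmul_eq_mul, pow_succ]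
      field_simp
    rw [h, sub_self]
    exact dvd_zero _
  | zero => exact ⟨0, Subalgebra.zero_mem _, by
      rw [zero_pow hpr.out.ne_zero, sub_self]; exact dvd_zero _⟩
  | add x y _ _ hx hy =>
    obtain ⟨b, hb, z, hz⟩ := hx
    obtain ⟨b', hb', z', hz'⟩ := hy
    obtain ⟨r, hr⟩ := exists_add_pow_prime_eq hpr.out x y
    exact ⟨b + b', Subalgebra.add_mem _ hb hb', z + z' + x * y * r, by
      rw [hr]; linear_combination hz + hz'⟩
  | smul c x _ hx =>
    obtain ⟨b, hb, z, hz⟩ := hx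
    refine ⟨algebraMap B (BInf p t) (c ^ p) * b,
      Subalgebra.mul_mem _ (Subalgebra.algebraMap_mem _ _) hb,
      algebraMap B (BInf p t) (c ^ p) * z, ?_⟩
    have h1 : c • x = algebraMap B (BInf p t) c * x := Algebra.smul_def c x
    rw [h1, mul_pow, map_pow]
    linear_combination (algebraMap B (BInf p t) c) ^ p * hz

/-- an element of level `e` is congruent modulo `p` to the `p`-th power of an element of
level `e+1` -/
theorem exists_root_mod {i0 : Fin d} (h : PBasis p t i0) (e : ℕ) {b : BInf p t}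
    (hb : b ∈ SA p t hpr.out.pos e) :
    ∃ a ∈ SA p t hpr.out.pos (e + 1), (p : BInf p t) ∣ b - a ^ p := by
  have hpow : ∀ (n : Fin d → ℕ) (k : ℕ), ∃ a ∈ SA p t hpr.out.pos (k + 1),
      mon p t (ex p hpr.out.pos k n) = a ^ p := by
    intro n k
    refine ⟨mon p t (ex p hpr.out.pos (k + 1) n), mon_ex_mem p t hpr.out.pos (k + 1) n, ?_⟩
    rw [← mon_nsmul]
    congr 1
    funext j
    apply Subtype.ext
    rw [Pi.smul_apply, AddSubmonoidClass.coe_nsmul]
    change (n j : ℚ≥0) / (p : ℚ≥0) ^ k = p • ((n j : ℚ≥0) / (p : ℚ≥0) ^ (k + 1))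
    have hp0 : (p : ℚ≥0) ≠ 0 := by exact_mod_cast hpr.out.ne_zero
    rw [nsmul_eq_mul, pow_succ]
    field_simp
  have hadd : ∀ x y : BInf p t,
      (∃ a ∈ SA p t hpr.out.pos (e + 1), (p : BInf p t) ∣ x - a ^ p) →
      (∃ a ∈ SA p t hpr.out.pos (e + 1), (p : BInf p t) ∣ y - a ^ p) →
      ∃ a ∈ SA p t hpr.out.pos (e + 1), (p : BInf p t) ∣ (x + y) - a ^ p := by
    rintro x y ⟨a, ha, z, hz⟩ ⟨a', ha', z', hz'⟩
    obtain ⟨r, hr⟩ := exists_add_pow_prime_eq hpr.out a a'
    exact ⟨a + a', Subalgebra.add_mem _ ha ha', z + z' - a * a' * r, by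
      rw [hr]; linear_combination hz + hz'⟩
  have hmul : ∀ x y : BInf p t,
      (∃ a ∈ SA p t hpr.out.pos (e + 1), (p : BInf p t) ∣ x - a ^ p) →
      (∃ a ∈ SA p t hpr.out.pos (e + 1), (p : BInf p t) ∣ y - a ^ p) →
      ∃ a ∈ SA p t hpr.out.pos (e + 1), (p : BInf p t) ∣ (x * y) - a ^ p := by
    rintro x y ⟨a, ha, z, hz⟩ ⟨a', ha', z', hz'⟩
    refine ⟨a * a', Subalgebra.mul_mem _ ha ha', z * y + a ^ p * z', ?_⟩
    rw [mul_pow]
    linear_combination y * hz + a ^ p * hz'
  have hzero : ∃ a ∈ SA p t hpr.out.pos (e + 1), (p : BInf p t) ∣ 0 - a ^ p :=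
    ⟨0, Subalgebra.zero_mem _, by rw [zero_pow hpr.out.ne_zero, sub_self]; exact dvd_zero _⟩
  have hsum : ∀ {κ : Type} (s : Finset κ) (f : κ → BInf p t),
      (∀ i ∈ s, ∃ a ∈ SA p t hpr.out.pos (e + 1), (p : BInf p t) ∣ f i - a ^ p) →
      ∃ a ∈ SA p t hpr.out.pos (e + 1), (p : BInf p t) ∣ (∑ i ∈ s, f i) - a ^ p := by
    classical
    intro κ s f hf
    induction s using Finset.induction_on with
    | empty => rw [Finset.sum_empty]; exact hzero
    | insert a s ha ih =>
      rw [Finset.sum_insert ha]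
      exact hadd _ _ (hf a (Finset.mem_insert_self a s))
        (ih fun i hi => hf i (Finset.mem_insert_of_mem hi))
  have hB : ∀ c : B, ∃ a ∈ SA p t hpr.out.pos (e + 1),
      (p : BInf p t) ∣ algebraMap B (BInf p t) c - a ^ p := by
    intro c
    obtain ⟨f, z, hz⟩ := h.gen c
    have hc : c = (∑ α, (∏ i, t i ^ (α.1 i : ℕ)) * f α ^ p) + p * z := by rw [← hz]; ring
    rw [hc, map_add, map_sum, map_mul, map_natCast]
    refine hadd _ _ (hsum _ _ fun α _ => ?_) ⟨0, Subalgebra.zero_mem _, by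
      rw [zero_pow hpr.out.ne_zero, sub_zero]; exact Dvd.intro _ rfl⟩
    rw [map_mul, map_pow]
    refine hmul _ _ ?_ ⟨algebraMap B _ (f α), Subalgebra.algebraMap_mem _ _, by
      rw [sub_self]; exact dvd_zero _⟩
    rw [← mon_natG]
    have h0 : (natG (fun i => ((α.1 i : Fin p) : ℕ)) : Gam d p) =
        ex p hpr.out.pos 0 (fun i => ((α.1 i : Fin p) : ℕ)) := (ex_level_zero p hpr.out.pos _).symm
    rw [h0]
    obtain ⟨a, ha, hae⟩ := hpow (fun i => ((α.1 i : Fin p) : ℕ)) 0
    exact ⟨a, SA_mono p t hpr.out.pos (by omega) ha, by rw [hae, sub_self]; exact dvd_zero _⟩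
  have hb' : b ∈ Submodule.span B (Set.range fun n : Fin d → ℕ =>
      mon p t (ex p hpr.out.pos e n)) := by
    rw [← SA_eq_span]; exact hb
  clear hb
  induction hb' using Submodule.span_induction with
  | mem x hx =>
    obtain ⟨n, rfl⟩ := hx
    obtain ⟨a, ha, hae⟩ := hpow n e
    exact ⟨a, ha, by dsimp only; rw [hae, sub_self]; exact dvd_zero _⟩
  | zero => exact hzero
  | add x y _ _ hx hy => exact hadd _ _ hx hy
  | smul c x _ hx =>
    have h1 : c • x = algebraMap B (BInf p t) c * x := Algebra.smul_def c x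
    rw [h1]
    exact hmul _ _ (hB c) hx

variable [IsNoetherianRing B]

/-- **Frobenius scaling over `B_∞`** -/
theorem lam_frob {i0 : Fin d} (h : PBasis p t i0) {M M' : Type v} [AddCommGroup M]
    [Module (BInf p t) M] [AddCommGroup M'] [Module (BInf p t) M'] (φ : M ≃+ M')
    (hφ : ∀ (a : BInf p t) (x : M), φ (a • x) = a ^ p • φ x)
    (hp' : ∀ y : M', (p : BInf p t) • y = 0) :
    (tower p t hpr.out.pos).lam M' = ((p ^ d : ℕ) : ℝ≥0∞) * (tower p t hpr.out.pos).lam M := by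
  have key : ∀ (a b : BInf p t), (p : BInf p t) ∣ a - b → ∀ y : M', a • y = b • y := by
    rintro a b ⟨z, hz⟩ y
    have : a = b + z * p := by linear_combination hz
    rw [this, add_smul, mul_smul, hp' y, smul_zero, add_zero]
  exact (tower p t hpr.out.pos).lam_scaling φ
    (fun e a ha => by
      obtain ⟨b, hb, hab⟩ := exists_pow_mod t e ha
      exact ⟨b, hb, fun x => by rw [hφ, key _ _ hab]⟩)
    (fun e b hb => by
      obtain ⟨a, ha, hab⟩ := exists_root_mod t h e hb
      exact ⟨a, ha, fun x => by rw [hφ, key _ _ hab]⟩)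

/-- the same for a `B_∞`-algebra `A` (e.g. the `p`-completion), lengths of `A`-modules measured
over `B_∞` -/
theorem restrict_frob {i0 : Fin d} (h : PBasis p t i0) {A : Type*} [CommRing A]
    (f : BInf p t →+* A) {M M' : Type v} [AddCommGroup M]
    [Module A M] [AddCommGroup M'] [Module A M'] (φ : M ≃+ M')
    (hφ : ∀ (a : A) (x : M), φ (a • x) = a ^ p • φ x)
    (hp' : ∀ y : M', (p : A) • y = 0) :
    ((AddLen.ofTower (tower p t hpr.out.pos)).restrict f).L M' =
      ((p ^ d : ℕ) : ℝ≥0∞) * ((AddLen.ofTower (tower p t hpr.out.pos)).restrict f).L M := by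
  let _ : Module (BInf p t) M := Module.compHom M f
  let _ : Module (BInf p t) M' := Module.compHom M' f
  refine lam_frob t h φ (fun a x => ?_) (fun y => ?_)
  · change φ (f a • x) = f (a ^ p) • φ x
    rw [hφ, map_pow]
  · change f (p : BInf p t) • y = 0
    rw [map_natCast]
    exact hp' y

end

end Crest.Agent.R188.Frb
end

-- ▼ part R188/Frb4

set_option autoImplicit false

namespace Crest.Agent.R188.Frb

open Crest.Agent.R183 Crest.Agent.R188.Tow Crest.Agent.R183.Om
open scoped ENNReal TensorProduct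

universe u v w

section Ideals

variable {p : ℕ} [hpr : Fact p.Prime] {R : Type*} [CommRing R] {ϖ : ℕ → R}

/-- the `p`-th power of an element of `J₁` lies in `J` -/
theorem pow_mem_of_mem (S : Set R) (J : Ideal R) (hp : (p : R) ∈ J) (hS : ∀ s ∈ S, s ^ p ∈ J)
    {x : R} (hx : x ∈ Ideal.span S) : x ^ p ∈ J := by
  induction hx using Submodule.span_induction with
  | mem x hx => exact hS x hx
  | zero => rw [zero_pow hpr.out.ne_zero]; exact J.zero_mem
  | add x y _ _ hx hy =>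
    obtain ⟨r, hr⟩ := exists_add_pow_prime_eq hpr.out x y
    rw [hr]
    refine J.add_mem (J.add_mem hx hy) ?_
    have : (p : R) * x * y * r = (x * y * r) * p := by ring
    rw [this]
    exact J.mul_mem_left _ hp
  | smul a x _ hx => rw [smul_eq_mul, mul_pow]; exact J.mul_mem_left _ hx

/-- **Frobenius pull back of ideals** in an integral perfectoid ring -/
theorem mem_frob_iff (d : PData p R ϖ) {κ : Type*} (τ τ1 : κ → R) (hτ : ∀ i, τ1 i ^ p = τ i)
    (x : R) :
    x ∈ Ideal.span {ϖ 1} ⊔ Ideal.span (Set.range τ1) ↔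
      x ^ p ∈ Ideal.span {(p : R)} ⊔ Ideal.span (Set.range τ) := by
  have hϖ : ϖ 1 ^ p = (p : R) := by rw [d.roots 0, d.zero]
  have hp : (p : R) ∈ Ideal.span {(p : R)} ⊔ Ideal.span (Set.range τ) :=
    Ideal.mem_sup_left (Ideal.mem_span_singleton_self _)
  constructor
  · intro hx
    rw [← Ideal.span_union] at hx
    refine pow_mem_of_mem _ _ hp ?_ hx
    rintro s (hs | ⟨i, rfl⟩)
    · rw [Set.mem_singleton_iff] at hs
      rw [hs, hϖ]; exact hp
    · rw [hτ]
      exact Ideal.mem_sup_right (Ideal.subset_span ⟨i, rfl⟩)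
  · intro hx
    -- an element of `J` is congruent mod `p` to a `p`-th power of an element of `J₁`
    have key : ∀ z ∈ Ideal.span {(p : R)} ⊔ Ideal.span (Set.range τ),
        ∃ w ∈ Ideal.span (Set.range τ1), (p : R) ∣ z - w ^ p := by
      intro z hz
      rw [← Ideal.span_union] at hz
      induction hz using Submodule.span_induction with
      | mem z hz =>
        rcases hz with hz | ⟨i, rfl⟩
        · rw [Set.mem_singleton_iff] at hz
          exact ⟨0, Ideal.zero_mem _, by rw [hz, zero_pow hpr.out.ne_zero, sub_zero]⟩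
        · exact ⟨τ1 i, Ideal.subset_span ⟨i, rfl⟩, by rw [hτ, sub_self]; exact dvd_zero _⟩
      | zero => exact ⟨0, Ideal.zero_mem _, by
          rw [zero_pow hpr.out.ne_zero, sub_zero]; exact dvd_zero _⟩
      | add z z' _ _ hz hz' =>
        obtain ⟨w, hw, u, hu⟩ := hz
        obtain ⟨w', hw', u', hu'⟩ := hz'
        obtain ⟨r, hr⟩ := exists_add_pow_prime_eq hpr.out w w'
        exact ⟨w + w', Ideal.add_mem _ hw hw', u + u' - w * w' * r, by
          rw [hr]; linear_combination hu + hu'⟩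
      | smul a z _ hz =>
        obtain ⟨w, hw, u, hu⟩ := hz
        obtain ⟨b, v, hv⟩ := d.fsurj a
        refine ⟨b * w, Ideal.mul_mem_left _ _ hw, v * z + b ^ p * u, ?_⟩
        rw [smul_eq_mul, mul_pow]
        linear_combination z * hv + b ^ p * hu
    obtain ⟨w, hw, hxw⟩ := key _ hx
    have h1 : ϖ 1 ∣ x - w := d.finj _ (dvd_pow_sub_of x w hxw)
    have h2 : x = (x - w) + w := by ring
    rw [h2]
    exact Ideal.add_mem _ (Ideal.mem_sup_left (Ideal.mem_span_singleton.2 h1))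
      (Ideal.mem_sup_right hw)

/-- the twisted pair `R/(ϖ₁, τ1) ≃ R/(p, τ)` -/
theorem exists_tw_span (d : PData p R ϖ) {κ : Type*} (τ τ1 : κ → R) (hτ : ∀ i, τ1 i ^ p = τ i) :
    ∃ ψ : (R ⧸ (Ideal.span {ϖ 1} ⊔ Ideal.span (Set.range τ1))) ≃+
        (R ⧸ (Ideal.span {(p : R)} ⊔ Ideal.span (Set.range τ))), Tw p (C := R) ψ :=
  exists_tw_quot d.fsurj _ _ (Ideal.mem_sup_left (Ideal.mem_span_singleton_self _))
    (mem_frob_iff d τ τ1 hτ)

end Ideals

section GT

variable {p : ℕ} [hpr : Fact p.Prime] {A R : Type u} [CommRing A] [CommRing R] [Algebra A R]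
  {I : Type v} [Preorder I] {κ : Type w} (D : GalTower A R I κ)

/-- the length of `R ⧸ 𝔞R` -/
theorem L_quot_map [IsDirectedOrder I] [Nonempty I] (hU : ∀ x : R, ∃ i, x ∈ D.S i) (𝔞 : Ideal A)
    (hT : Tors D.t (A ⧸ 𝔞)) : D.L.L (R ⧸ 𝔞.map (algebraMap A R)) = D.Λ.L (A ⧸ 𝔞) := by
  rw [← D.L_tensor hU hT]
  exact D.L.L_congr (Algebra.TensorProduct.quotIdealMapEquivTensorQuot R 𝔞).toLinearEquiv

variable {ϖ : ℕ → A}

omit hpr in
theorem map_span_sup (a : A) {κ' : Type*} (τ : κ' → A) :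
    (Ideal.span {a} ⊔ Ideal.span (Set.range τ)).map (algebraMap A R) =
      Ideal.span {algebraMap A R a} ⊔ Ideal.span (Set.range fun i => algebraMap A R (τ i)) := by
  rw [Ideal.map_sup, Ideal.map_span, Ideal.map_span, Set.image_singleton, ← Set.range_comp]
  rfl

theorem tors_quot_span {κ' : Type*} (t : κ' → A) (N : ℕ) (𝔟 : Ideal A) :
    Tors t (A ⧸ (𝔟 ⊔ Ideal.span (Set.range fun i => t i ^ N))) := by
  intro x i
  refine ⟨N, ?_⟩
  obtain ⟨x, rfl⟩ := Ideal.Quotient.mk_surjective x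
  change Ideal.Quotient.mk _ (t i ^ N * x) = 0
  refine Ideal.Quotient.eq_zero_iff_mem.2 ?_
  exact Ideal.mul_mem_right _ _ (Ideal.mem_sup_right (Ideal.subset_span ⟨i, rfl⟩))

/-- **FROB for a Galois tower.** `c = p^d`. -/
theorem galTower_frob [IsDirectedOrder I] [Nonempty I] [Finite κ]
    (hU : ∀ x : R, ∃ i, x ∈ D.S i) (dA : PData p A ϖ) (dR : PData p R (fun e => algebraMap A R (ϖ e)))
    (t1 : κ → A) (ht1 : ∀ i, t1 i ^ p = D.t i) (c : ℝ≥0∞) (hc : c ≠ 0)
    (hA : ∀ (M M' : Type u) [AddCommGroup M] [Module A M] [AddCommGroup M'] [Module A M']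
      (φ : M ≃+ M'), Tw p (C := A) φ → D.Λ.L M' = c * D.Λ.L M)
    {V V' : Type u} [AddCommGroup V] [Module R V] [AddCommGroup V'] [Module R V']
    (φ : V ≃+ V') (hφ : Tw p (C := R) φ) : D.L.L V' = c * D.L.L V := by
  refine tower_frob D.toNTower hpr.out.pos c hc ?_ ?_ φ hφ
  · intro e Q Q' _ _ _ _ φ hφ
    let _ : Module (D.S e).toSubring Q := ‹Module (D.toNTower.S e) Q›
    let _ : Module (D.S e).toSubring Q' := ‹Module (D.toNTower.S e) Q'›
    let _ : Module A Q := Module.compHom Q (D.str e)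
    let _ : Module A Q' := Module.compHom Q' (D.str e)
    have h1 : (D.toNTower.Λ e).L Q = (D.n e)⁻¹ * D.Λ.L Q := D.len_eq e Q (fun a x => rfl)
    have h2 : (D.toNTower.Λ e).L Q' = (D.n e)⁻¹ * D.Λ.L Q' := D.len_eq e Q' (fun a x => rfl)
    have h3 : D.Λ.L Q' = c * D.Λ.L Q := hA Q Q' φ
      { smul := fun a x => by
          change φ (D.str e a • x) = D.str e (a ^ p) • φ x
          rw [map_pow]
          exact hφ.smul (D.str e a) x
        kill := fun y => by
          change D.str e (p : A) • y = 0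
          rw [map_natCast]
          exact hφ.kill y }
    rw [h1, h2, h3]
    exact le_of_eq (by ring)
  · intro N
    let τ : κ → A := fun i => D.t i ^ N
    let τ1 : κ → A := fun i => t1 i ^ N
    have hτ : ∀ i, τ1 i ^ p = τ i := fun i => by
      change (t1 i ^ N) ^ p = D.t i ^ N
      rw [← ht1 i]; ring
    set 𝔞 := Ideal.span {(p : A)} ⊔ Ideal.span (Set.range τ) with h𝔞
    set 𝔞₁ := Ideal.span {ϖ 1} ⊔ Ideal.span (Set.range τ1) with h𝔞₁
    obtain ⟨ψA, hψA⟩ : ∃ ψ : (A ⧸ 𝔞₁) ≃+ (A ⧸ 𝔞), Tw p (C := A) ψ := exists_tw_span dA τ τ1 hτ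
    obtain ⟨ψR, hψR⟩ := exists_tw_span dR (fun i => algebraMap A R (τ i))
      (fun i => algebraMap A R (τ1 i)) (fun i => by rw [← map_pow, hτ])
    have hTa : Tors D.t (A ⧸ 𝔞) := tors_quot_span D.t N _
    have hTa1 : Tors D.t (A ⧸ 𝔞₁) := (hψA.tors_iff hpr.out.pos D.t).2 hTa
    have ea : 𝔞.map (algebraMap A R) = Ideal.span {(p : R)} ⊔
        Ideal.span (Set.range fun i => algebraMap A R (τ i)) := by
      rw [h𝔞, map_span_sup, map_natCast]
    have ea1 : 𝔞₁.map (algebraMap A R) = Ideal.span {algebraMap A R (ϖ 1)} ⊔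
        Ideal.span (Set.range fun i => algebraMap A R (τ1 i)) := by
      rw [h𝔞₁, map_span_sup]
    have hL := L_quot_map D hU 𝔞 hTa
    have hL1 := L_quot_map D hU 𝔞₁ hTa1
    rw [ea] at hL
    rw [ea1] at hL1
    refine ⟨_, _, ψR, hψR, ?_, ?_, ?_⟩
    · refine sup_le_sup le_rfl (Ideal.span_le.2 ?_)
      rintro _ ⟨i, rfl⟩
      refine Ideal.subset_span ⟨i, ?_⟩
      change (algebraMap A R (D.t i)) ^ N = algebraMap A R (D.t i ^ N)
      rw [map_pow]
    · change D.L.L _ ≠ ⊤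
      rw [hL]
      exact D.fin _ inferInstance hTa
    · change D.L.L _ = c * D.L.L _
      rw [hL, hL1]
      exact hA _ _ ψA hψA

/-- FROB for a Galois tower whose bottom length is restricted from `B_∞`. -/
theorem galTower_frob' [IsDirectedOrder I] [Nonempty I] [Finite κ]
    (hU : ∀ x : R, ∃ i, x ∈ D.S i) (dA : PData p A ϖ) (dR : PData p R (fun e => algebraMap A R (ϖ e)))
    (t1 : κ → A) (ht1 : ∀ i, t1 i ^ p = D.t i)
    {d : ℕ} {B : Type*} [CommRing B] [IsNoetherianRing B] {tb : Fin d → B} {i0 : Fin d}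
    (hB : BInf.PBasis p tb i0) (f : BInf.BInf p tb →+* A)
    (hΛ : D.Λ = (AddLen.ofTower (BInf.tower p tb hpr.out.pos)).restrict f)
    {V V' : Type u} [AddCommGroup V] [Module R V] [AddCommGroup V'] [Module R V']
    (φ : V ≃+ V') (hφ : Tw p (C := R) φ) : D.L.L V' = ((p ^ d : ℕ) : ℝ≥0∞) * D.L.L V := by
  refine galTower_frob D hU dA dR t1 ht1 _ ?_ (fun M M' _ _ _ _ φ hφ => ?_) φ hφ
  · exact_mod_cast pow_ne_zero d hpr.out.ne_zero
  · rw [hΛ]
    exact restrict_frob tb hB f φ hφ.smul hφ.kill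

end GT

section FS

variable {p : ℕ} {R : Type u} [CommRing R]



end FS

end Crest.Agent.R188.Frb
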