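import Mathlib
import Crest.Agent.R183.AddLen
import Crest.Agent.R188.ChiAdd
import Crest.Agent.R188.KosC
import Crest.Agent.R188.KosD
import Crest.Agent.R188.ChiMat

-- ▼ part R188/Kos1
section

/-!
# R188, block A4 (helper546), part 1: additive length of subquotients; concrete complexes
-/

set_option autoImplicit false

namespace Crest.Agent.R188.Kos

open scoped ENNReal
open Crest.Agent.R183

universe u v

/-! ## Length of subquotients -/

section Sq

variable {A : Type u} [CommRing A] (Λ : AddLen.{u, v} A)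
variable {M N Z : Type v} [AddCommGroup M] [Module A M] [AddCommGroup N] [Module A N]
  [AddCommGroup Z] [Module A Z]

/-- The additive length of the subquotient `Q / (P ∩ Q)`. -/
noncomputable def sq (P Q : Submodule A M) : ℝ≥0∞ := Λ.L (Q.map P.mkQ)

/-- Computation of `sq` by a parametrisation of `Q` modulo `P`. -/
theorem sq_eq {P Q : Submodule A M} (α : Z →ₗ[A] M) (h1 : ∀ q ∈ Q, ∃ z, q - α z ∈ P)
    (h2 : ∀ z, ∃ q ∈ Q, q - α z ∈ P) : sq Λ P Q = Λ.L (Z ⧸ P.comap α) := by
  have hr : LinearMap.range (P.mkQ.comp α) = Q.map P.mkQ := by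
    apply le_antisymm
    · rintro _ ⟨z, rfl⟩
      obtain ⟨q, hq, hqz⟩ := h2 z
      refine ⟨q, hq, ?_⟩
      rw [LinearMap.comp_apply, Submodule.mkQ_apply, Submodule.mkQ_apply, Submodule.Quotient.eq]
      exact hqz
    · rintro _ ⟨q, hq, rfl⟩
      obtain ⟨z, hz⟩ := h1 q hq
      refine ⟨z, ?_⟩
      rw [LinearMap.comp_apply, Submodule.mkQ_apply, Submodule.mkQ_apply, eq_comm,
        Submodule.Quotient.eq]
      exact hz
  have hk : LinearMap.ker (P.mkQ.comp α) = P.comap α := by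
    rw [LinearMap.ker_comp, Submodule.ker_mkQ]
  unfold sq
  rw [← hr, ← hk]
  exact (Λ.L_congr (P.mkQ.comp α).quotKerEquivRange).symm

/-- Two subquotients in correspondence have the same length. -/
theorem sq_congr {P Q : Submodule A M} {P' Q' : Submodule A N} (α : Z →ₗ[A] M) (β : Z →ₗ[A] N)
    (h1 : ∀ q ∈ Q, ∃ z, q - α z ∈ P) (h2 : ∀ z, ∃ q ∈ Q, q - α z ∈ P)
    (h1' : ∀ q ∈ Q', ∃ z, q - β z ∈ P') (h2' : ∀ z, ∃ q ∈ Q', q - β z ∈ P')
    (h3 : ∀ z, α z ∈ P ↔ β z ∈ P') : sq Λ P Q = sq Λ P' Q' := by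
  rw [sq_eq Λ α h1 h2, sq_eq Λ β h1' h2']
  have : P.comap α = P'.comap β := by
    ext z
    exact h3 z
  rw [this]

theorem sq_add {P Q R : Submodule A M} (h1 : P ≤ Q) (h2 : Q ≤ R) :
    sq Λ P R = sq Λ P Q + sq Λ Q R := by
  have e1 : sq Λ P R = Λ.L (R ⧸ P.comap R.subtype) :=
    sq_eq Λ R.subtype (fun q hq => ⟨⟨q, hq⟩, by simp⟩) (fun z => ⟨z, z.2, by simp⟩)
  have e2 : sq Λ Q R = Λ.L (R ⧸ Q.comap R.subtype) :=
    sq_eq Λ R.subtype (fun q hq => ⟨⟨q, hq⟩, by simp⟩) (fun z => ⟨z, z.2, by simp⟩)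
  rw [e1, e2, Λ.L_quotient_add (Q.comap R.subtype) (P.comap R.subtype)
    (Submodule.comap_mono h1)]
  congr 1
  refine (sq_congr (M := M) (N := R) (Z := R.comap Q.subtype) Λ (P := P) (Q := Q)
    (P' := P.comap R.subtype) (Q' := Q.comap R.subtype) (Q.subtype ∘ₗ Submodule.subtype _)
    ((Q.subtype ∘ₗ Submodule.subtype _).codRestrict R fun z => z.2) ?_ ?_ ?_ ?_ ?_).symm
  · intro q hq
    exact ⟨⟨⟨q, hq⟩, h2 hq⟩, by simp⟩
  · intro z
    exact ⟨z.1, z.1.2, by simp⟩
  · intro q hq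
    refine ⟨⟨⟨q.1, hq⟩, q.2⟩, ?_⟩
    rw [Submodule.mem_comap]
    simp
  · intro z
    refine ⟨⟨z.1, z.2⟩, z.1.2, ?_⟩
    rw [Submodule.mem_comap]
    simp
  · intro z
    rfl


theorem sq_eq_quot (P Q : Submodule A M) : sq Λ P Q = Λ.L (Q ⧸ P.comap Q.subtype) :=
  sq_eq Λ Q.subtype (fun q hq => ⟨⟨q, hq⟩, by simp⟩) (fun z => ⟨z, z.2, by simp⟩)



end Sq

/-! ## Concrete complexes -/

/-- An `ℕ`-graded homological complex of `A`-modules. -/
structure Cx (A : Type u) [CommRing A] where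
  X : ℕ → Type v
  [grp : ∀ n, AddCommGroup (X n)]
  [mod : ∀ n, Module A (X n)]
  d : ∀ n, X (n + 1) →ₗ[A] X n
  dd : ∀ n (x : X (n + 2)), d n (d (n + 1) x) = 0

attribute [instance] Cx.grp Cx.mod

variable {A : Type u} [CommRing A]

namespace Cx

variable (C : Cx.{u, v} A)


/-- cycles -/
abbrev cyc (n : ℕ) : Submodule A (C.X n) := Chi.Z C.d n

/-- boundaries -/
abbrev bdy (n : ℕ) : Submodule A (C.X n) := Chi.B C.d n


@[simp] theorem mem_cyc_succ {n : ℕ} (x : C.X (n + 1)) : x ∈ C.cyc (n + 1) ↔ C.d n x = 0 := Iff.rfl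

theorem mem_bdy {n : ℕ} (x : C.X n) : x ∈ C.bdy n ↔ ∃ y, C.d n y = x := Iff.rfl


theorem d_mem_cyc {n : ℕ} (y : C.X (n + 1)) : C.d n y ∈ C.cyc n := by
  cases n with
  | zero => trivial
  | succ k => exact C.dd k y

theorem bdy_le_cyc (n : ℕ) : C.bdy n ≤ C.cyc n := by
  rintro _ ⟨y, rfl⟩
  exact C.d_mem_cyc y

/-- homology -/
abbrev H (n : ℕ) : Type v := Chi.H C.d n

/-- class of a cycle -/
abbrev toH (n : ℕ) : C.cyc n →ₗ[A] C.H n := Chi.cls C.d n

theorem toH_surjective (n : ℕ) : Function.Surjective (C.toH n) := Submodule.mkQ_surjective _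

theorem toH_eq_zero {n : ℕ} (x : C.cyc n) : C.toH n x = 0 ↔ x.1 ∈ C.bdy n :=
  Chi.cls_eq_zero_iff x

variable (Λ : AddLen.{u, v} A)

/-- additive length of the homology -/
noncomputable abbrev l (n : ℕ) : ℝ≥0∞ := Chi.h Λ C.d n

theorem l_eq_sq (n : ℕ) : C.l Λ n = sq Λ (C.bdy n) (C.cyc n) := by
  rw [sq_eq_quot]; rfl



end Cx

/-- Morphisms of complexes. -/
structure Cx.Hom (C D : Cx.{u, v} A) where
  f : ∀ n, C.X n →ₗ[A] D.X n
  comm : ∀ n x, f n (C.d n x) = D.d n (f (n + 1) x)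

namespace Cx.Hom

variable {C D E : Cx.{u, v} A}

theorem map_cyc (φ : C.Hom D) {n : ℕ} {x : C.X n} (hx : x ∈ C.cyc n) : φ.f n x ∈ D.cyc n := by
  cases n with
  | zero => trivial
  | succ k =>
    rw [mem_cyc_succ] at hx ⊢
    rw [← φ.comm, hx, map_zero]

theorem map_bdy (φ : C.Hom D) {n : ℕ} {x : C.X n} (hx : x ∈ C.bdy n) : φ.f n x ∈ D.bdy n := by
  obtain ⟨y, rfl⟩ := hx
  exact ⟨φ.f _ y, (φ.comm n y).symm⟩

/-- induced map on homology -/
noncomputable abbrev mapH (φ : C.Hom D) (n : ℕ) : C.H n →ₗ[A] D.H n :=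
  Chi.Hmap (d := C.d) (d' := D.d) (f := φ.f) φ.comm n


/-- composition -/
def comp (ψ : D.Hom E) (φ : C.Hom D) : C.Hom E where
  f n := (ψ.f n).comp (φ.f n)
  comm n x := by
    rw [LinearMap.comp_apply, φ.comm, ψ.comm]; rfl

/-- identity -/
protected def id (C : Cx.{u, v} A) : C.Hom C where
  f _ := LinearMap.id
  comm _ _ := rfl

/-- multiplication by a scalar -/
def smul (C : Cx.{u, v} A) (a : A) : C.Hom C where
  f _ := a • LinearMap.id
  comm n x := by simp

end Cx.Hom

/-- Isomorphisms of complexes. -/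
structure Cx.Iso (C D : Cx.{u, v} A) where
  e : ∀ n, C.X n ≃ₗ[A] D.X n
  comm : ∀ n x, e n (C.d n x) = D.d n (e (n + 1) x)

namespace Cx.Iso

variable {C D E : Cx.{u, v} A}


/-- inverse -/
def symm (φ : C.Iso D) : D.Iso C where
  e n := (φ.e n).symm
  comm n x := by
    apply (φ.e n).injective
    rw [φ.comm]
    simp

/-- identity -/
protected def refl (C : Cx.{u, v} A) : C.Iso C where
  e _ := LinearEquiv.refl A _
  comm _ _ := rfl

/-- composition -/
def trans (φ : C.Iso D) (ψ : D.Iso E) : C.Iso E where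
  e n := (φ.e n).trans (ψ.e n)
  comm n x := by
    show ψ.e n (φ.e n (C.d n x)) = _
    rw [φ.comm, ψ.comm]; rfl

/-- isomorphism on homology -/
noncomputable def mapH (φ : C.Iso D) (n : ℕ) : C.H n ≃ₗ[A] D.H n :=
  Chi.Hiso (d := C.d) (d' := D.d) φ.e φ.comm n

theorem l_eq (φ : C.Iso D) (Λ : AddLen.{u, v} A) (n : ℕ) : C.l Λ n = D.l Λ n :=
  Λ.L_congr (φ.mapH n)

end Cx.Iso

/-! ## Long exact sequence -/

/-- Degreewise short exact sequence of complexes. -/
structure Ses (C' C C'' : Cx.{u, v} A) where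
  i : C'.Hom C
  p : C.Hom C''
  inj : ∀ n, Function.Injective (i.f n)
  surj : ∀ n, Function.Surjective (p.f n)
  exact : ∀ n, Function.Exact (i.f n) (p.f n)

namespace Ses

variable {C' C C'' : Cx.{u, v} A} (S : Ses C' C C'') (Λ : AddLen.{u, v} A)

include S in
/-- Numerical form of the long exact sequence. -/
theorem les : ∃ k a b : ℕ → ℝ≥0∞, (∀ n, C'.l Λ n = k n + a n) ∧ (∀ n, C.l Λ n = a n + b n) ∧
    C''.l Λ 0 = b 0 ∧ ∀ n, C''.l Λ (n + 1) = b (n + 1) + k n := by
  classical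
  have hpi : ∀ n x, S.p.f n (S.i.f n x) = 0 := fun n x => (S.exact n _).2 ⟨x, rfl⟩
  -- `k n = L(ker (H_n C' → H_n C))`, `a n = L(image)`, `b n = L(image of H_n C in H_n C'')`
  refine ⟨fun n => sq Λ (C'.bdy n) ((C.bdy n).comap (S.i.f n)),
    fun n => sq Λ ((C.bdy n).comap (S.i.f n)) (C'.cyc n),
    fun n => sq Λ (C''.bdy n) ((C.cyc n).map (S.p.f n)), ?_, ?_, ?_, ?_⟩
  · intro n
    rw [Cx.l_eq_sq]
    refine sq_add Λ ?_ ?_
    · intro x hx
      exact S.i.map_bdy hx
    · intro x hx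
      rw [Submodule.mem_comap] at hx
      cases n with
      | zero => trivial
      | succ m =>
        rw [Cx.mem_cyc_succ]
        apply S.inj
        rw [S.i.comm, map_zero]
        exact C.bdy_le_cyc _ hx
  · intro n
    rw [Cx.l_eq_sq]
    -- middle term: `bdy + (im i ∩ cyc)`
    rw [sq_add Λ (Q := C.bdy n ⊔ (C'.cyc n).map (S.i.f n)) le_sup_left
      (sup_le (C.bdy_le_cyc n) (by
        rintro _ ⟨x, hx, rfl⟩
        exact S.i.map_cyc hx))]
    congr 1
    · refine sq_congr (Z := C'.cyc n) Λ ((S.i.f n).comp (Submodule.subtype _))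
        (Submodule.subtype _) ?_ ?_ ?_ ?_ ?_
      · intro q hq
        obtain ⟨x, hx, y, ⟨z, hz, rfl⟩, rfl⟩ := Submodule.mem_sup.1 hq
        exact ⟨⟨z, hz⟩, by simpa using hx⟩
      · intro z
        exact ⟨S.i.f n z, Submodule.mem_sup_right ⟨z, z.2, rfl⟩, by simp⟩
      · intro q hq
        exact ⟨⟨q, hq⟩, by simp⟩
      · intro z
        exact ⟨z, z.2, by simp⟩
      · intro z
        rfl
    · refine sq_congr (Z := C.cyc n) Λ (Submodule.subtype _)
        ((S.p.f n).comp (Submodule.subtype _)) ?_ ?_ ?_ ?_ ?_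
      · intro q hq
        exact ⟨⟨q, hq⟩, by simp⟩
      · intro z
        exact ⟨z, z.2, by simp⟩
      · rintro _ ⟨q, hq, rfl⟩
        exact ⟨⟨q, hq⟩, by simp⟩
      · intro z
        exact ⟨S.p.f n z, ⟨z, z.2, rfl⟩, by simp⟩
      · rintro ⟨z, hz⟩
        show z ∈ _ ↔ S.p.f n z ∈ _
        constructor
        · intro h
          obtain ⟨x, hx, y, ⟨w, hw, rfl⟩, rfl⟩ := Submodule.mem_sup.1 h
          rw [map_add, hpi, add_zero]
          exact S.p.map_bdy hx
        · rintro ⟨y, hy⟩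
          obtain ⟨y, rfl⟩ := S.surj _ y
          rw [← S.p.comm] at hy
          have h1 : S.p.f n (z - C.d n y) = 0 := by rw [map_sub, hy, sub_self]
          obtain ⟨w, hw⟩ := (S.exact n _).1 h1
          have hwc : w ∈ C'.cyc n := by
            cases n with
            | zero => trivial
            | succ m =>
              rw [Cx.mem_cyc_succ]
              apply S.inj
              rw [S.i.comm, hw, map_zero, map_sub, C.dd, sub_zero]
              exact hz
          rw [← sub_add_cancel z (C.d n y), ← hw, add_comm]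
          exact Submodule.add_mem_sup ⟨y, rfl⟩ ⟨w, hwc, rfl⟩
  · rw [Cx.l_eq_sq]
    congr 1
    apply le_antisymm
    · intro x _
      obtain ⟨y, rfl⟩ := S.surj _ x
      exact ⟨y, trivial, rfl⟩
    · exact le_top
  · intro n
    rw [Cx.l_eq_sq]
    rw [sq_add Λ (Q := (C.cyc (n + 1)).map (S.p.f (n + 1))) (by
        rintro _ ⟨y, rfl⟩
        obtain ⟨y, rfl⟩ := S.surj _ y
        rw [← S.p.comm]
        exact ⟨C.d _ y, C.d_mem_cyc y, rfl⟩) (by
        rintro _ ⟨x, hx, rfl⟩
        exact S.p.map_cyc hx)]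
    congr 1
    -- the connecting homomorphism
    let Z : Submodule A (C.X (n + 1) × C'.X n) :=
      LinearMap.eqLocus ((C.d n).comp (LinearMap.fst A _ _)) ((S.i.f n).comp (LinearMap.snd A _ _))
    have hZ : ∀ z : Z, C.d n z.1.1 = S.i.f n z.1.2 := fun z => z.2
    refine sq_congr (Z := Z) Λ ((S.p.f (n + 1)).comp ((LinearMap.fst A _ _).comp Z.subtype))
      ((LinearMap.snd A _ _).comp Z.subtype) ?_ ?_ ?_ ?_ ?_
    · intro q hq
      obtain ⟨x, rfl⟩ := S.surj _ q
      rw [Cx.mem_cyc_succ, ← S.p.comm] at hq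
      obtain ⟨w, hw⟩ := (S.exact n _).1 hq
      exact ⟨⟨(x, w), hw.symm⟩, by simp⟩
    · intro z
      refine ⟨S.p.f (n + 1) z.1.1, ?_, by simp⟩
      rw [Cx.mem_cyc_succ, ← S.p.comm, hZ, hpi]
    · intro q hq
      obtain ⟨x, hx⟩ := hq
      exact ⟨⟨(x, q), hx⟩, by simp⟩
    · intro z
      exact ⟨z.1.2, ⟨z.1.1, hZ z⟩, by simp⟩
    · intro z
      show S.p.f (n + 1) z.1.1 ∈ _ ↔ z.1.2 ∈ _
      constructor
      · rintro ⟨c, hc, hcz⟩
        have h1 : S.p.f (n + 1) (z.1.1 - c) = 0 := by rw [map_sub, hcz, sub_self]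
        obtain ⟨w, hw⟩ := (S.exact _ _).1 h1
        refine ⟨w, ?_⟩
        apply S.inj
        rw [S.i.comm, hw, map_sub, hZ, (C.mem_cyc_succ c).1 hc, sub_zero]
      · rintro ⟨w, hw⟩
        refine ⟨z.1.1 - S.i.f _ w, ?_, ?_⟩
        · show C.d n _ = 0
          rw [map_sub, hZ, ← hw, S.i.comm, sub_self]
        · rw [map_sub, hpi, sub_zero]

include S in
theorem l_le (n : ℕ) : C.l Λ n ≤ C'.l Λ n + C''.l Λ n := by
  obtain ⟨k, a, b, h1, h2, h3, h4⟩ := S.les Λ
  have h5 : b n ≤ C''.l Λ n := by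
    cases n with
    | zero => exact h3.ge
    | succ m => rw [h4]; exact le_self_add
  rw [h2, h1]
  exact add_le_add le_add_self h5




end Ses

end Crest.Agent.R188.Kos
end

-- ▼ part R188/Kos2
section

/-!
# R188, block A4 (helper546), part 2: cones of multiplications, null-homotopy ideal, Koszul
complexes of lists
-/

set_option autoImplicit false

namespace Crest.Agent.R188.Kos

open scoped ENNReal
open Crest.Agent.R183

universe u v

variable {A : Type u} [CommRing A]

namespace Cx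

/-- terms of the cone -/
def coneX (C : Cx.{u, v} A) : ℕ → Type v
  | 0 => C.X 0
  | (n + 1) => C.X (n + 1) × C.X n

instance coneGrp (C : Cx.{u, v} A) : ∀ n, AddCommGroup (C.coneX n)
  | 0 => C.grp 0
  | (n + 1) => inferInstanceAs (AddCommGroup (C.X (n + 1) × C.X n))

instance coneMod (C : Cx.{u, v} A) : ∀ n, Module A (C.coneX n)
  | 0 => C.mod 0
  | (n + 1) => inferInstanceAs (Module A (C.X (n + 1) × C.X n))

/-- differential of the cone: `(x, y) ↦ (d x + b y, - d y)`. -/
def coned (C : Cx.{u, v} A) (b : A) : ∀ n, C.coneX (n + 1) →ₗ[A] C.coneX n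
  | 0 => (LinearMap.coprod (C.d 0) (b • LinearMap.id) : C.X 1 × C.X 0 →ₗ[A] C.X 0)
  | (n + 1) => (LinearMap.prod (LinearMap.coprod (C.d (n + 1)) (b • LinearMap.id))
      (-(C.d n ∘ₗ LinearMap.snd A _ _)) :
      C.X (n + 2) × C.X (n + 1) →ₗ[A] C.X (n + 1) × C.X n)

/-- The cone of the multiplication by `b`, i.e. `K(b) ⊗ C`. -/
def cone (C : Cx.{u, v} A) (b : A) : Cx.{u, v} A where
  X := C.coneX
  d := C.coned b
  dd := by
    intro n
    cases n with
    | zero =>
      rintro ⟨x, y⟩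
      show C.d 0 (C.d 1 x + b • y) + b • (-(C.d 0 y)) = 0
      rw [map_add, C.dd, map_smul]
      simp
    | succ n =>
      rintro ⟨x, y⟩
      refine Prod.ext ?_ ?_
      · show C.d (n + 1) (C.d (n + 2) x + b • y) + b • (-(C.d (n + 1) y)) = 0
        rw [map_add, C.dd, map_smul]
        simp
      · show -(C.d n (-(C.d (n + 1) y))) = 0
        rw [map_neg, C.dd]
        simp

variable (C : Cx.{u, v} A) (b : A)


theorem cone_d_succ (n : ℕ) (x : C.X (n + 2)) (y : C.X (n + 1)) :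
    (C.cone b).d (n + 1) (x, y) = (C.d (n + 1) x + b • y, -(C.d n y)) := rfl

theorem mem_cone_bdy_zero (x : C.X 0) :
    x ∈ (C.cone b).bdy 0 ↔ ∃ u w, C.d 0 u + b • w = x := by
  constructor
  · rintro ⟨⟨u, w⟩, h⟩
    exact ⟨u, w, h⟩
  · rintro ⟨u, w, h⟩
    exact ⟨(u, w), h⟩

theorem mem_cone_bdy_succ (n : ℕ) (x : C.X (n + 1)) (y : C.X n) :
    (show (C.cone b).X (n + 1) from (x, y)) ∈ (C.cone b).bdy (n + 1) ↔
      ∃ u w, C.d (n + 1) u + b • w = x ∧ -(C.d n w) = y := by
  constructor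
  · rintro ⟨⟨u, w⟩, h⟩
    exact ⟨u, w, congrArg Prod.fst h, congrArg Prod.snd h⟩
  · rintro ⟨u, w, h, h'⟩
    exact ⟨(u, w), Prod.ext h h'⟩

theorem mem_cone_cyc_succ (n : ℕ) (x : C.X (n + 1)) (y : C.X n) :
    (show (C.cone b).X (n + 1) from (x, y)) ∈ (C.cone b).cyc (n + 1) ↔
      C.d n x + b • y = 0 ∧ y ∈ C.cyc n := by
  cases n with
  | zero =>
    constructor
    · intro h
      exact ⟨h, trivial⟩
    · intro h
      exact h.1
  | succ n =>
    constructor
    · intro h
      exact ⟨congrArg Prod.fst h, neg_eq_zero.1 (congrArg Prod.snd h)⟩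
    · intro h
      exact Prod.ext h.1 (neg_eq_zero.2 h.2)

variable (Λ : AddLen.{u, v} A)

/-- length of `H_n / b H_n` -/
noncomputable def cok (n : ℕ) : ℝ≥0∞ :=
  Λ.L (C.H n ⧸ LinearMap.range (b • (LinearMap.id : C.H n →ₗ[A] C.H n)))

/-- length of `H_n[b]` -/
noncomputable def kr (n : ℕ) : ℝ≥0∞ :=
  Λ.L (LinearMap.ker (b • (LinearMap.id : C.H n →ₗ[A] C.H n)))

theorem cok_eq (n : ℕ) : C.cok b Λ n =
    sq Λ (C.bdy n ⊔ (C.cyc n).map (b • LinearMap.id)) (C.cyc n) := by
  rw [sq_eq Λ (Z := C.cyc n) (C.cyc n).subtype (fun q hq => ⟨⟨q, hq⟩, by simp⟩)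
    (fun z => ⟨z, z.2, by simp⟩)]
  unfold cok
  set R := LinearMap.range (b • (LinearMap.id : C.H n →ₗ[A] C.H n)) with hR
  have h1 : LinearMap.ker (R.mkQ ∘ₗ C.toH n) =
      (C.bdy n ⊔ (C.cyc n).map (b • LinearMap.id)).comap (C.cyc n).subtype := by
    ext x
    rw [LinearMap.mem_ker, LinearMap.comp_apply, Submodule.mkQ_apply,
      Submodule.Quotient.mk_eq_zero, hR, LinearMap.mem_range, Submodule.mem_comap]
    constructor
    · rintro ⟨y, hy⟩
      obtain ⟨y, rfl⟩ := C.toH_surjective n y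
      have h2 : C.toH n (x - b • y) = 0 := by
        rw [map_sub, map_smul, ← hy]; simp
      rw [toH_eq_zero] at h2
      have h3 : (x : C.X n) = (x - b • y : C.cyc n) + b • (y : C.X n) := by simp
      rw [Submodule.subtype_apply, h3]
      exact Submodule.add_mem_sup h2 ⟨y, y.2, rfl⟩
    · intro h
      obtain ⟨w, hw, y, ⟨z, hz, rfl⟩, hy⟩ := Submodule.mem_sup.1 h
      refine ⟨C.toH n ⟨z, hz⟩, ?_⟩
      show b • C.toH n ⟨z, hz⟩ = C.toH n x
      rw [← map_smul, ← sub_eq_zero, ← map_sub, toH_eq_zero]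
      have h4 : ((b • (⟨z, hz⟩ : C.cyc n) - x : C.cyc n) : C.X n) = -w := by
        have h5 : w + b • z = (x : C.X n) := hy
        show b • z - (x : C.X n) = -w
        rw [← h5]; abel
      rw [h4]
      exact neg_mem hw
  rw [← h1]
  have h6 : Function.Surjective (R.mkQ ∘ₗ C.toH n) := by
    rw [LinearMap.coe_comp]
    exact (Submodule.mkQ_surjective R).comp (C.toH_surjective n)
  exact (Λ.L_congr (LinearMap.quotKerEquivOfSurjective _ h6)).symm

theorem kr_eq (n : ℕ) : C.kr b Λ n =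
    sq Λ (C.bdy n) (C.cyc n ⊓ (C.bdy n).comap (b • LinearMap.id)) := by
  have h0 : C.kr b Λ n = sq Λ ⊥ (LinearMap.ker (b • (LinearMap.id : C.H n →ₗ[A] C.H n))) := by
    unfold kr sq
    exact Λ.L_congr (Submodule.equivMapOfInjective _
      (by rw [← LinearMap.ker_eq_bot, Submodule.ker_mkQ]) _)
  rw [h0]
  set Z : Submodule A (C.X n) := C.cyc n ⊓ (C.bdy n).comap (b • LinearMap.id) with hZ
  refine sq_congr (Z := Z) Λ (C.toH n ∘ₗ Submodule.inclusion inf_le_left) Z.subtype
    ?_ ?_ ?_ ?_ ?_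
  · intro q hq
    obtain ⟨x, rfl⟩ := C.toH_surjective n q
    have h1 : b • C.toH n x = 0 := hq
    rw [← map_smul, toH_eq_zero] at h1
    refine ⟨⟨x, x.2, h1⟩, ?_⟩
    rw [Submodule.mem_bot, sub_eq_zero]
    rfl
  · intro z
    refine ⟨C.toH n ⟨z, z.2.1⟩, ?_, ?_⟩
    · show b • C.toH n ⟨z, z.2.1⟩ = 0
      rw [← map_smul, toH_eq_zero]
      exact z.2.2
    · rw [Submodule.mem_bot, sub_eq_zero]
      rfl
  · intro q hq
    exact ⟨⟨q, hq⟩, by simp⟩
  · intro z
    exact ⟨z, z.2, by simp⟩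
  · intro z
    rw [Submodule.mem_bot]
    exact toH_eq_zero _ _

/-- `L(H) = L(H/bH) + L(bH)`. -/
theorem l_eq_cok_add (n : ℕ) : C.l Λ n = C.cok b Λ n +
    Λ.L (LinearMap.range (b • (LinearMap.id : C.H n →ₗ[A] C.H n))) := by
  rw [add_comm]
  exact Λ.L_eq_add_quotient _

/-- `L(H) = L(H[b]) + L(bH)`. -/
theorem l_eq_kr_add (n : ℕ) : C.l Λ n = C.kr b Λ n +
    Λ.L (LinearMap.range (b • (LinearMap.id : C.H n →ₗ[A] C.H n))) :=
  Λ.L_ker_add_range _

theorem cok_le (n : ℕ) : C.cok b Λ n ≤ C.l Λ n := by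
  rw [C.l_eq_cok_add b Λ n]; exact le_self_add

theorem kr_le (n : ℕ) : C.kr b Λ n ≤ C.l Λ n := by
  rw [C.l_eq_kr_add b Λ n]; exact le_self_add


theorem l_cone_zero : (C.cone b).l Λ 0 = C.cok b Λ 0 := by
  rw [l_eq_sq, cok_eq]
  let idL : C.X 0 →ₗ[A] (C.cone b).X 0 := (LinearMap.id : C.X 0 →ₗ[A] C.X 0)
  have hid : ∀ z : C.X 0, (show (C.cone b).X 0 from z) - idL z = 0 := fun z => sub_self z
  refine sq_congr (Z := C.X 0) Λ idL (LinearMap.id : C.X 0 →ₗ[A] C.X 0) ?_ ?_ ?_ ?_ ?_
  · intro q _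
    refine ⟨(show C.X 0 from q), ?_⟩
    have h := hid q
    exact h.symm ▸ Submodule.zero_mem _
  · intro z
    refine ⟨(show (C.cone b).X 0 from z), trivial, ?_⟩
    exact (hid z).symm ▸ Submodule.zero_mem _
  · intro q _
    exact ⟨q, by simp⟩
  · intro z
    exact ⟨z, trivial, by simp⟩
  · intro z
    refine (C.mem_cone_bdy_zero b z).trans ?_
    rw [LinearMap.id_apply]
    rw [Submodule.mem_sup]
    constructor
    · rintro ⟨u, w, h⟩
      exact ⟨C.d 0 u, ⟨u, rfl⟩, b • w, ⟨w, trivial, rfl⟩, h⟩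
    · rintro ⟨_, ⟨u, rfl⟩, _, ⟨w, _, rfl⟩, h⟩
      exact ⟨u, w, h⟩

theorem l_cone_succ (n : ℕ) : (C.cone b).l Λ (n + 1) = C.cok b Λ (n + 1) + C.kr b Λ n := by
  let fstL : (C.cone b).X (n + 1) →ₗ[A] C.X (n + 1) :=
    (LinearMap.fst A _ _ : C.X (n + 1) × C.X n →ₗ[A] C.X (n + 1))
  let sndL : (C.cone b).X (n + 1) →ₗ[A] C.X n :=
    (LinearMap.snd A _ _ : C.X (n + 1) × C.X n →ₗ[A] C.X n)
  let inlL : C.X (n + 1) →ₗ[A] (C.cone b).X (n + 1) :=
    (LinearMap.inl A _ _ : C.X (n + 1) →ₗ[A] C.X (n + 1) × C.X n)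
  rw [l_eq_sq, sq_add Λ (Q := (C.cone b).cyc (n + 1) ⊓ (C.bdy n).comap sndL) ?_ inf_le_left]
  · rw [cok_eq, kr_eq]
    congr 1
    · refine sq_congr (Z := C.cyc (n + 1)) Λ (inlL ∘ₗ (C.cyc (n + 1)).subtype)
        (C.cyc (n + 1)).subtype ?_ ?_ ?_ ?_ ?_
      · rintro ⟨x, y⟩ ⟨h1, h2⟩
        obtain ⟨h1, h1'⟩ := (C.mem_cone_cyc_succ b n x y).1 h1
        obtain ⟨w, hw⟩ : y ∈ C.bdy n := h2
        refine ⟨⟨x + b • w, ?_⟩, ?_⟩
        · rw [mem_cyc_succ, map_add, map_smul, hw]
          exact h1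
        · show (x - (x + b • w), y - 0) ∈ (C.cone b).bdy (n + 1)
          refine (C.mem_cone_bdy_succ b n _ _).2 ⟨0, -w, ?_, ?_⟩
          · simp
          · rw [map_neg, neg_neg, hw, sub_zero]
      · intro z
        refine ⟨(z.1, 0), ⟨(C.mem_cone_cyc_succ b n _ _).2 ⟨?_, zero_mem _⟩,
          (show (0 : C.X n) ∈ C.bdy n from zero_mem _)⟩, ?_⟩
        · rw [smul_zero, add_zero]
          exact z.2
        · have : (show (C.cone b).X (n + 1) from (z.1, 0)) -
            (inlL ∘ₗ (C.cyc (n + 1)).subtype) z = 0 := sub_self _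
          rw [this]
          exact zero_mem _
      · intro q hq
        exact ⟨⟨q, hq⟩, by simp⟩
      · intro z
        exact ⟨z, z.2, by simp⟩
      · rintro ⟨z, hz⟩
        show (show (C.cone b).X (n + 1) from (z, 0)) ∈ (C.cone b).bdy (n + 1) ↔ z ∈ _
        rw [mem_cone_bdy_succ, Submodule.mem_sup]
        constructor
        · rintro ⟨u, w, h, h'⟩
          exact ⟨C.d (n + 1) u, ⟨u, rfl⟩, b • w, ⟨w, neg_eq_zero.1 h', rfl⟩, h⟩
        · rintro ⟨_, ⟨u, rfl⟩, _, ⟨w, hw, rfl⟩, h⟩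
          refine ⟨u, w, h, ?_⟩
          have : C.d n w = 0 := hw
          rw [this, neg_zero]
    · refine sq_congr (Z := (C.cone b).cyc (n + 1)) Λ ((C.cone b).cyc (n + 1)).subtype
        (sndL ∘ₗ ((C.cone b).cyc (n + 1)).subtype) ?_ ?_ ?_ ?_ ?_
      · intro q hq
        refine ⟨⟨q, hq⟩, ?_⟩
        rw [Submodule.subtype_apply, sub_self]
        exact zero_mem _
      · intro z
        refine ⟨z, z.2, ?_⟩
        rw [Submodule.subtype_apply, sub_self]
        exact zero_mem _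
      · rintro y ⟨h1, u, hu⟩
        have hu' : C.d n u = b • y := hu
        refine ⟨⟨(-u, y), (C.mem_cone_cyc_succ b n _ _).2 ⟨?_, h1⟩⟩, ?_⟩
        · rw [map_neg, hu', neg_add_cancel]
        · show y - y ∈ _
          rw [sub_self]
          exact zero_mem _
      · rintro ⟨⟨x, y⟩, hz⟩
        obtain ⟨h1, h1'⟩ := (C.mem_cone_cyc_succ b n x y).1 hz
        refine ⟨y, ⟨h1', -x, ?_⟩, ?_⟩
        · show C.d n (-x) = b • y
          rw [map_neg]
          exact neg_eq_of_add_eq_zero_right h1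
        · show y - y ∈ _
          rw [sub_self]
          exact zero_mem _
      · rintro ⟨⟨x, y⟩, hz⟩
        show _ ∈ (C.cone b).cyc (n + 1) ⊓ (C.bdy n).comap sndL ↔ y ∈ C.bdy n
        constructor
        · intro h
          exact h.2
        · intro h
          exact ⟨hz, h⟩
  · rintro x hx
    refine ⟨(C.cone b).bdy_le_cyc _ hx, ?_⟩
    obtain ⟨x, y⟩ := x
    obtain ⟨u, w, h, h'⟩ := (C.mem_cone_bdy_succ b n x y).1 hx
    show y ∈ C.bdy n
    rw [← h']
    exact neg_mem ⟨w, rfl⟩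

theorem l_cone_succ_le (n : ℕ) : (C.cone b).l Λ (n + 1) ≤ C.l Λ (n + 1) + C.l Λ n := by
  rw [l_cone_succ]
  exact add_le_add (C.cok_le b Λ _) (C.kr_le b Λ _)

theorem l_cone_zero_le : (C.cone b).l Λ 0 ≤ C.l Λ 0 := by
  rw [l_cone_zero]
  exact C.cok_le b Λ _

/-! ### The null-homotopy ideal -/

/-- The ideal of elements whose multiplication is null-homotopic. -/
def Nh : Ideal A where
  carrier := {a | ∃ s : ∀ n, C.X n →ₗ[A] C.X (n + 1), (∀ x, C.d 0 (s 0 x) = a • x) ∧
    ∀ n x, C.d (n + 1) (s (n + 1) x) + s n (C.d n x) = a • x}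
  zero_mem' := ⟨fun _ => 0, by simp, by simp⟩
  add_mem' := by
    rintro a a' ⟨s, h0, h1⟩ ⟨s', h0', h1'⟩
    refine ⟨fun n => s n + s' n, ?_, ?_⟩
    · intro x
      rw [LinearMap.add_apply, map_add, h0, h0', add_smul]
    · intro n x
      rw [LinearMap.add_apply, LinearMap.add_apply, map_add, add_smul, ← h1, ← h1']
      abel
  smul_mem' := by
    rintro c a ⟨s, h0, h1⟩
    refine ⟨fun n => c • s n, ?_, ?_⟩
    · intro x
      rw [LinearMap.smul_apply, map_smul, h0, smul_eq_mul, mul_smul]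
    · intro n x
      rw [LinearMap.smul_apply, LinearMap.smul_apply, map_smul, ← smul_add, h1, smul_eq_mul,
        mul_smul]

theorem mem_Nh {a : A} : a ∈ C.Nh ↔ ∃ s : ∀ n, C.X n →ₗ[A] C.X (n + 1),
    (∀ x, C.d 0 (s 0 x) = a • x) ∧
      ∀ n x, C.d (n + 1) (s (n + 1) x) + s n (C.d n x) = a • x := Iff.rfl

/-- scalars killing the complex are null-homotopic -/
theorem mem_Nh_of_smul_eq_zero {a : A} (h : ∀ n (x : C.X n), a • x = 0) : a ∈ C.Nh :=
  ⟨fun _ => 0, fun x => by simp [h], fun n x => by simp [h]⟩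

theorem Nh_le_cone : C.Nh ≤ (C.cone b).Nh := by
  rintro a ⟨s, h0, h1⟩
  refine ⟨fun n => match n with
    | 0 => (LinearMap.prod (s 0) 0 : C.X 0 →ₗ[A] C.X 1 × C.X 0)
    | (n + 1) => (LinearMap.prodMap (s (n + 1)) (-(s n)) :
        C.X (n + 1) × C.X n →ₗ[A] C.X (n + 2) × C.X (n + 1)), ?_, ?_⟩
  · intro (x : C.X 0)
    show C.d 0 (s 0 x) + b • (0 : C.X 0) = a • x
    rw [h0, smul_zero, add_zero]
  · intro n
    cases n with
    | zero =>
      rintro ⟨x, y⟩
      refine Prod.ext ?_ ?_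
      · show (C.d 1 (s 1 x) + b • (-(s 0 y))) + s 0 (C.d 0 x + b • y) = a • x
        rw [map_add, map_smul, ← h1]
        simp only [smul_neg]
        abel
      · show -(C.d 0 (-(s 0 y))) + 0 = a • y
        rw [map_neg, neg_neg, h0, add_zero]
    | succ n =>
      rintro ⟨x, y⟩
      refine Prod.ext ?_ ?_
      · show (C.d (n + 2) (s (n + 2) x) + b • (-(s (n + 1) y))) +
          s (n + 1) (C.d (n + 1) x + b • y) = a • x
        rw [map_add, map_smul, ← h1]
        simp only [smul_neg]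
        abel
      · show -(C.d (n + 1) (-(s (n + 1) y))) + (-(s n (-(C.d n y)))) = a • y
        rw [map_neg, neg_neg, map_neg, neg_neg, h1]

theorem mem_Nh_cone : b ∈ (C.cone b).Nh := by
  refine ⟨fun n => match n with
    | 0 => (LinearMap.inr A (C.X 1) (C.X 0) : C.X 0 →ₗ[A] C.X 1 × C.X 0)
    | (n + 1) => (LinearMap.inr A _ _ ∘ₗ LinearMap.fst A _ _ :
        C.X (n + 1) × C.X n →ₗ[A] C.X (n + 2) × C.X (n + 1)), ?_, ?_⟩
  · intro (x : C.X 0)
    show C.d 0 (0 : C.X 1) + b • x = b • x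
    rw [map_zero, zero_add]
  · intro n
    cases n with
    | zero =>
      rintro ⟨(x : C.X 1), (y : C.X 0)⟩
      refine Prod.ext ?_ ?_
      · show (C.d 1 (0 : C.X 2) + b • x) + 0 = b • x
        rw [map_zero, zero_add, add_zero]
      · show -(C.d 0 x) + (C.d 0 x + b • y) = b • y
        rw [neg_add_cancel_left]
    | succ n =>
      rintro ⟨x, y⟩
      refine Prod.ext ?_ ?_
      · show (C.d (n + 2) (0 : C.X (n + 3)) + b • x) + 0 = b • x
        rw [map_zero, zero_add, add_zero]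
      · show -(C.d (n + 1) x) + (C.d (n + 1) x + b • y) = b • y
        rw [neg_add_cancel_left]

variable {C b}

theorem smul_mem_bdy_of_mem_Nh {a : A} (ha : a ∈ C.Nh) {n : ℕ} {x : C.X n} (hx : x ∈ C.cyc n) :
    a • x ∈ C.bdy n := by
  obtain ⟨s, h0, h1⟩ := ha
  cases n with
  | zero => exact ⟨s 0 x, h0 x⟩
  | succ n =>
    refine ⟨s (n + 1) x, ?_⟩
    have h2 : C.d n x = 0 := hx
    rw [← h1 n x, h2, map_zero, add_zero]

theorem smul_H_eq_zero_of_mem_Nh {a : A} (ha : a ∈ C.Nh) {n : ℕ} (x : C.H n) : a • x = 0 := by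
  obtain ⟨x, rfl⟩ := C.toH_surjective n x
  rw [← map_smul, toH_eq_zero]
  exact smul_mem_bdy_of_mem_Nh ha x.2

theorem cok_of_mem_Nh {a : A} (ha : a ∈ C.Nh) (n : ℕ) : C.cok a Λ n = C.l Λ n := by
  have h : a • (LinearMap.id : C.H n →ₗ[A] C.H n) = 0 := by
    refine LinearMap.ext fun x => ?_
    exact smul_H_eq_zero_of_mem_Nh ha x
  have h1 : LinearMap.range (a • (LinearMap.id : C.H n →ₗ[A] C.H n)) = ⊥ := by
    rw [h, LinearMap.range_zero]
  rw [C.l_eq_cok_add a Λ n, h1, Λ.L_subsingleton, add_zero]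

theorem kr_of_mem_Nh {a : A} (ha : a ∈ C.Nh) (n : ℕ) : C.kr a Λ n = C.l Λ n := by
  have h : a • (LinearMap.id : C.H n →ₗ[A] C.H n) = 0 := by
    refine LinearMap.ext fun x => ?_
    exact smul_H_eq_zero_of_mem_Nh ha x
  have h1 : LinearMap.range (a • (LinearMap.id : C.H n →ₗ[A] C.H n)) = ⊥ := by
    rw [h, LinearMap.range_zero]
  rw [C.l_eq_kr_add a Λ n, h1, Λ.L_subsingleton, add_zero]

theorem l_cone_succ_of_mem_Nh {a : A} (ha : a ∈ C.Nh) (n : ℕ) :
    (C.cone a).l Λ (n + 1) = C.l Λ (n + 1) + C.l Λ n := by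
  rw [l_cone_succ, cok_of_mem_Nh Λ ha, kr_of_mem_Nh Λ ha]

theorem l_cone_zero_of_mem_Nh {a : A} (ha : a ∈ C.Nh) : (C.cone a).l Λ 0 = C.l Λ 0 := by
  rw [l_cone_zero, cok_of_mem_Nh Λ ha]

end Cx

/-! ### Isomorphisms -/

namespace Cx.Iso

variable {C D : Cx.{u, v} A}

/-- functoriality of the cone -/
def cone (φ : C.Iso D) (b : A) : (C.cone b).Iso (D.cone b) where
  e n := match n with
    | 0 => φ.e 0
    | (n + 1) => (LinearEquiv.prodCongr (φ.e (n + 1)) (φ.e n) :
        (C.X (n + 1) × C.X n) ≃ₗ[A] (D.X (n + 1) × D.X n))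
  comm n := by
    cases n with
    | zero =>
      rintro ⟨x, y⟩
      show φ.e 0 (C.d 0 x + b • y) = D.d 0 (φ.e 1 x) + b • φ.e 0 y
      rw [map_add, φ.comm, map_smul]
    | succ n =>
      rintro ⟨x, y⟩
      refine Prod.ext ?_ ?_
      · show φ.e (n + 1) (C.d (n + 1) x + b • y) = D.d (n + 1) (φ.e (n + 2) x) + b • φ.e (n + 1) y
        rw [map_add, φ.comm, map_smul]
      · show φ.e n (-(C.d n y)) = -(D.d n (φ.e (n + 1) y))
        rw [map_neg, φ.comm]

/-- `cone_b (cone_a C) ≅ cone_a (cone_b C)`. -/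
def coneCone (C : Cx.{u, v} A) (a b : A) : ((C.cone a).cone b).Iso ((C.cone b).cone a) where
  e n := match n with
    | 0 => LinearEquiv.refl A (C.X 0)
    | 1 =>
      { toFun := fun x : (C.X 1 × C.X 0) × C.X 0 => (((x.1.1, x.2), x.1.2) :
          (C.X 1 × C.X 0) × C.X 0)
        map_add' := fun _ _ => rfl
        map_smul' := fun _ _ => rfl
        invFun := fun x : (C.X 1 × C.X 0) × C.X 0 => (((x.1.1, x.2), x.1.2) :
          (C.X 1 × C.X 0) × C.X 0)
        left_inv := fun _ => rfl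
        right_inv := fun _ => rfl }
    | (n + 2) =>
      { toFun := fun x : (C.X (n + 2) × C.X (n + 1)) × (C.X (n + 1) × C.X n) =>
          (((x.1.1, x.2.1), (x.1.2, -x.2.2)) :
            (C.X (n + 2) × C.X (n + 1)) × (C.X (n + 1) × C.X n))
        map_add' := fun x y => Prod.ext rfl (Prod.ext rfl (neg_add _ _))
        map_smul' := fun a x => Prod.ext rfl (Prod.ext rfl (smul_neg a x.2.2).symm)
        invFun := fun x : (C.X (n + 2) × C.X (n + 1)) × (C.X (n + 1) × C.X n) =>
          (((x.1.1, x.2.1), (x.1.2, -x.2.2)) :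
            (C.X (n + 2) × C.X (n + 1)) × (C.X (n + 1) × C.X n))
        left_inv := fun x => Prod.ext rfl (Prod.ext rfl (neg_neg _))
        right_inv := fun x => Prod.ext rfl (Prod.ext rfl (neg_neg _)) }
  comm n := by
    match n with
    | 0 =>
      rintro ⟨⟨(x : C.X 1), (y : C.X 0)⟩, (z : C.X 0)⟩
      show C.d 0 x + a • y + b • z = C.d 0 x + b • z + a • y
      abel
    | 1 =>
      rintro ⟨⟨x, y⟩, ⟨z, w⟩⟩
      refine Prod.ext (Prod.ext ?_ ?_) ?_
      · show C.d 1 x + a • y + b • z = C.d 1 x + b • z + a • y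
        abel
      · show -(C.d 0 z + a • w) = -(C.d 0 z) + a • (-w)
        rw [smul_neg]; abel
      · show -(C.d 0 y) + b • w = -(C.d 0 y + b • (-w))
        rw [smul_neg]; abel
    | (n + 2) =>
      rintro ⟨⟨x, y⟩, ⟨z, w⟩⟩
      refine Prod.ext (Prod.ext ?_ ?_) (Prod.ext ?_ ?_)
      · show C.d (n + 2) x + a • y + b • z = C.d (n + 2) x + b • z + a • y
        abel
      · show -(C.d (n + 1) z + a • w) = -(C.d (n + 1) z) + a • (-w)
        rw [smul_neg]; abel
      · show -(C.d (n + 1) y) + b • w = -(C.d (n + 1) y + b • (-w))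
        rw [smul_neg]; abel
      · show -(-(-(C.d n w))) = -(-(C.d n (-w)))
        rw [map_neg]

/-- Changing `b` by a null-homotopic element does not change the cone. -/
theorem cone_add_of_mem_Nh {c : A} (hc : c ∈ C.Nh) (b : A) :
    Nonempty ((C.cone (b + c)).Iso (C.cone b)) := by
  obtain ⟨s, h0, h1⟩ := hc
  refine ⟨⟨fun n => match n with
    | 0 => LinearEquiv.refl A (C.X 0)
    | (n + 1) =>
      { toFun := fun x : C.X (n + 1) × C.X n => ((x.1 + s n x.2, x.2) : C.X (n + 1) × C.X n)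
        map_add' := fun x y => Prod.ext (by
          show x.1 + y.1 + s n (x.2 + y.2) = (x.1 + s n x.2) + (y.1 + s n y.2)
          rw [map_add]; abel) rfl
        map_smul' := fun a x => Prod.ext (by
          show a • x.1 + s n (a • x.2) = a • (x.1 + s n x.2)
          rw [map_smul, smul_add]) rfl
        invFun := fun x : C.X (n + 1) × C.X n => ((x.1 - s n x.2, x.2) : C.X (n + 1) × C.X n)
        left_inv := fun x => Prod.ext (by
          show x.1 + s n x.2 - s n x.2 = x.1
          abel) rfl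
        right_inv := fun x => Prod.ext (by
          show x.1 - s n x.2 + s n x.2 = x.1
          abel) rfl }, ?_⟩⟩
  intro n
  cases n with
  | zero =>
    rintro ⟨x, y⟩
    show C.d 0 x + (b + c) • y = C.d 0 (x + s 0 y) + b • y
    rw [map_add, h0, add_smul]; abel
  | succ n =>
    rintro ⟨x, y⟩
    refine Prod.ext ?_ rfl
    show C.d (n + 1) x + (b + c) • y + s n (-(C.d n y)) = C.d (n + 1) (x + s (n + 1) y) + b • y
    rw [map_add, map_neg, add_smul, ← h1 n y]; abel

end Cx.Iso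

end Crest.Agent.R188.Kos
end

-- ▼ part R188/Kos3
section

/-!
# R188, block A4 (helper546), part 3: Koszul complexes of lists, products and powers, Euler
characteristics
-/

set_option autoImplicit false

namespace Crest.Agent.R188.Kos

open scoped ENNReal
open Crest.Agent.R183

universe u v

variable {A : Type u} [CommRing A]

/-! ### `kos` of a list -/

/-- `K(l) ⊗ C`, the iterated cone. -/
def kos (l : List A) (C : Cx.{u, v} A) : Cx.{u, v} A := l.foldr (fun b D => D.cone b) C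

@[simp] theorem kos_nil (C : Cx.{u, v} A) : kos [] C = C := rfl

@[simp] theorem kos_cons (b : A) (l : List A) (C : Cx.{u, v} A) :
    kos (b :: l) C = (kos l C).cone b := rfl

theorem kos_append (l l' : List A) (C : Cx.{u, v} A) : kos (l ++ l') C = kos l (kos l' C) := by
  unfold kos
  rw [List.foldr_append]

theorem Nh_le_kos (l : List A) (C : Cx.{u, v} A) : C.Nh ≤ (kos l C).Nh := by
  induction l with
  | nil => exact le_rfl
  | cons b l ih => exact ih.trans (Cx.Nh_le_cone _ b)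

theorem mem_Nh_kos {l : List A} (C : Cx.{u, v} A) {b : A} (hb : b ∈ l) : b ∈ (kos l C).Nh := by
  induction l with
  | nil => simp at hb
  | cons c l ih =>
    rcases List.mem_cons.1 hb with rfl | hb
    · exact Cx.mem_Nh_cone _ _
    · exact Cx.Nh_le_cone _ _ (ih hb)

theorem ofList_le_Nh_kos (l : List A) (C : Cx.{u, v} A) : Ideal.ofList l ≤ (kos l C).Nh := by
  unfold Ideal.ofList
  rw [Ideal.span_le]
  intro b hb
  exact mem_Nh_kos C hb

/-- functoriality of `kos` in isomorphisms -/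
def Cx.Iso.kos {C D : Cx.{u, v} A} (φ : C.Iso D) : ∀ l : List A, (kos l C).Iso (kos l D)
  | [] => φ
  | (b :: l) => (Cx.Iso.kos φ l).cone b

theorem kos_perm {l l' : List A} (h : l.Perm l') (C : Cx.{u, v} A) :
    Nonempty ((kos l C).Iso (kos l' C)) := by
  induction h with
  | nil => exact ⟨Cx.Iso.refl _⟩
  | cons b _ ih => exact ⟨ih.some.cone b⟩
  | swap a b l => exact ⟨Cx.Iso.coneCone _ a b⟩
  | trans _ _ ih1 ih2 => exact ⟨ih1.some.trans ih2.some⟩

/-- `K(l) ⊗ K(l') ⊗ C ≅ K(l') ⊗ K(l) ⊗ C`. -/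
theorem kos_comm (l l' : List A) (C : Cx.{u, v} A) :
    Nonempty ((kos l (kos l' C)).Iso (kos l' (kos l C))) := by
  rw [← kos_append, ← kos_append]
  exact kos_perm List.perm_append_comm C

theorem kos_cone_comm (l : List A) (b : A) (C : Cx.{u, v} A) :
    Nonempty ((kos l (C.cone b)).Iso ((kos l C).cone b)) :=
  kos_comm l [b] C

/-! ### Binomial transforms of sequences -/

/-- `h ↦ h_n + h_{n-1}` -/
noncomputable def sh (h : ℕ → ℝ≥0∞) : ℕ → ℝ≥0∞
  | 0 => h 0
  | (n + 1) => h (n + 1) + h n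

theorem sh_mono {h h' : ℕ → ℝ≥0∞} (H : ∀ n, h n ≤ h' n) (n : ℕ) : sh h n ≤ sh h' n := by
  cases n with
  | zero => exact H 0
  | succ n => exact add_le_add (H _) (H _)


/-- explicit form of the iterated transform -/
theorem sh_iterate (h : ℕ → ℝ≥0∞) (e n : ℕ) :
    sh^[e] h n = ∑ j ∈ Finset.range (n + 1), (e.choose j : ℝ≥0∞) * h (n - j) := by
  induction e generalizing n with
  | zero =>
    rw [Function.iterate_zero, id_eq, Finset.sum_eq_single 0]
    · simp
    · intro b _ hb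
      rw [Nat.choose_eq_zero_of_lt (Nat.pos_of_ne_zero hb)]
      simp
    · intro h0
      exact absurd (Finset.mem_range.2 (Nat.succ_pos n)) h0
  | succ e ih =>
    rw [Function.iterate_succ_apply']
    cases n with
    | zero =>
      show sh^[e] h 0 = _
      rw [ih]
      simp
    | succ n =>
      show sh^[e] h (n + 1) + sh^[e] h n = _
      rw [ih, ih, Finset.sum_range_succ' _ (n + 1), Finset.sum_range_succ' _ (n + 1)]
      simp only [Nat.choose_zero_right, Nat.cast_one, one_mul, Nat.choose_succ_succ', Nat.cast_add,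
        add_mul, Finset.sum_add_distrib, Nat.sub_zero, Nat.add_sub_add_right]
      ring

theorem le_sh (h : ℕ → ℝ≥0∞) (n : ℕ) : h n ≤ sh h n := by
  cases n with
  | zero => exact le_rfl
  | succ n => exact le_self_add

theorem le_sh_succ (h : ℕ → ℝ≥0∞) (n : ℕ) : h n ≤ sh h (n + 1) := le_add_self

/-- the top term of the binomial transform -/
theorem le_sh_iterate_add (h : ℕ → ℝ≥0∞) (e n : ℕ) : h n ≤ sh^[e] h (n + e) := by
  induction e with
  | zero => exact le_rfl
  | succ e ih =>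
    rw [Function.iterate_succ_apply']
    exact ih.trans (le_sh_succ _ _)

theorem le_sh_iterate (h : ℕ → ℝ≥0∞) (e n : ℕ) : h n ≤ sh^[e] h n := by
  induction e with
  | zero => exact le_rfl
  | succ e ih =>
    rw [Function.iterate_succ_apply']
    exact ih.trans (le_sh _ _)

/-- a uniform bound -/
theorem sh_iterate_le {h : ℕ → ℝ≥0∞} {c : ℝ≥0∞} {e n : ℕ} (H : ∀ m, n ≤ m + e → m ≤ n → h m ≤ c) :
    sh^[e] h n ≤ 2 ^ e * c := by
  induction e generalizing n with
  | zero => simpa using H n le_rfl le_rfl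
  | succ e ih =>
    rw [Function.iterate_succ_apply']
    cases n with
    | zero =>
      show sh^[e] h 0 ≤ _
      refine (ih (n := 0) fun m h1 h2 => H m (by omega) h2).trans ?_
      gcongr
      · norm_num
      · omega
    | succ n =>
      show sh^[e] h (n + 1) + sh^[e] h n ≤ _
      have h1 := ih (n := n + 1) fun m h1 h2 => H m (by omega) h2
      have h2 := ih (n := n) fun m h1 h2 => H m (by omega) (by omega)
      calc _ ≤ 2 ^ e * c + 2 ^ e * c := add_le_add h1 h2
        _ = 2 ^ (e + 1) * c := by ring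

theorem sh_iterate_ne_top {h : ℕ → ℝ≥0∞} (H : ∀ m, h m ≠ ⊤) (e n : ℕ) : sh^[e] h n ≠ ⊤ := by
  induction e generalizing n with
  | zero => exact H n
  | succ e ih =>
    rw [Function.iterate_succ_apply']
    cases n with
    | zero => exact ih 0
    | succ n => exact ENNReal.add_ne_top.2 ⟨ih _, ih _⟩

theorem sh_iterate_eq_zero {h : ℕ → ℝ≥0∞} {m : ℕ} (H : ∀ i, m < i → h i = 0) (e : ℕ) :
    ∀ i, m + e < i → sh^[e] h i = 0 := by
  induction e with
  | zero => exact H
  | succ e ih =>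
    intro i hi
    rw [Function.iterate_succ_apply']
    cases i with
    | zero => omega
    | succ i =>
      show sh^[e] h (i + 1) + sh^[e] h i = 0
      rw [ih _ (by omega), ih _ (by omega), add_zero]

/-! ### Lengths of Koszul homology -/

variable (Λ : AddLen.{u, v} A)

theorem l_cone_le_sh (C : Cx.{u, v} A) (b : A) (n : ℕ) : (C.cone b).l Λ n ≤ sh (C.l Λ) n := by
  cases n with
  | zero => exact C.l_cone_zero_le b Λ
  | succ n => exact C.l_cone_succ_le b Λ n

theorem l_cone_eq_sh {C : Cx.{u, v} A} {b : A} (hb : b ∈ C.Nh) (n : ℕ) :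
    (C.cone b).l Λ n = sh (C.l Λ) n := by
  cases n with
  | zero => exact Cx.l_cone_zero_of_mem_Nh Λ hb
  | succ n => exact Cx.l_cone_succ_of_mem_Nh Λ hb n

theorem l_kos_le_sh (l : List A) (C : Cx.{u, v} A) (n : ℕ) :
    (kos l C).l Λ n ≤ sh^[l.length] (C.l Λ) n := by
  induction l generalizing n with
  | nil => exact le_rfl
  | cons b l ih =>
    rw [kos_cons, List.length_cons, Function.iterate_succ_apply']
    exact (l_cone_le_sh Λ _ b n).trans (sh_mono ih n)

/-- THE BINOMIAL FORMULA. -/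
theorem l_kos_eq_sh {l : List A} {C : Cx.{u, v} A} (hl : ∀ b ∈ l, b ∈ C.Nh) (n : ℕ) :
    (kos l C).l Λ n = sh^[l.length] (C.l Λ) n := by
  induction l generalizing n with
  | nil => rfl
  | cons b l ih =>
    rw [kos_cons, List.length_cons, Function.iterate_succ_apply']
    have h1 : (kos l C).l Λ = sh^[l.length] (C.l Λ) :=
      funext (ih fun c hc => hl c (List.mem_cons_of_mem _ hc))
    rw [l_cone_eq_sh Λ (Nh_le_kos l C (hl b List.mem_cons_self)), h1]


theorem l_kos_eq {l : List A} {C : Cx.{u, v} A} (hl : ∀ b ∈ l, b ∈ C.Nh) (n : ℕ) :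
    (kos l C).l Λ n =
      ∑ j ∈ Finset.range (n + 1), (l.length.choose j : ℝ≥0∞) * C.l Λ (n - j) := by
  rw [← sh_iterate]
  exact l_kos_eq_sh Λ hl n







/-! ### Products -/

section herbrand

variable {H : Type v} [AddCommGroup H] [Module A H]

/-- multiplication -/
abbrev mulL (H : Type v) [AddCommGroup H] [Module A H] (a : A) : H →ₗ[A] H :=
  a • (LinearMap.id : H →ₗ[A] H)


/-- Lengths of kernels and cokernels of a product. -/
theorem herbrand (a b : A) : ∃ x y z : ℝ≥0∞,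
    Λ.L (LinearMap.ker (mulL H (a * b))) = Λ.L (LinearMap.ker (mulL H a)) + x ∧
    Λ.L (LinearMap.ker (mulL H b)) = x + y ∧
    Λ.L (H ⧸ LinearMap.range (mulL H a)) = y + z ∧
    Λ.L (H ⧸ LinearMap.range (mulL H (a * b))) = z + Λ.L (H ⧸ LinearMap.range (mulL H b)) := by
  set ka := LinearMap.ker (mulL H a)
  set kb := LinearMap.ker (mulL H b)
  set kab := LinearMap.ker (mulL H (a * b)) with hkab
  set ra := LinearMap.range (mulL H a) with hra
  set rb := LinearMap.range (mulL H b) with hrb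
  set rab := LinearMap.range (mulL H (a * b)) with hrab
  refine ⟨Λ.L (kb ⊓ ra : Submodule A H), Λ.L (kb.map ra.mkQ), Λ.L (H ⧸ (ra ⊔ kb)), ?_, ?_, ?_, ?_⟩
  · rw [Λ.L_ker_add_range ((mulL H a) ∘ₗ kab.subtype)]
    congr 1
    · have h1 : (LinearMap.ker ((mulL H a) ∘ₗ kab.subtype)).map kab.subtype = ka := by
        ext x
        constructor
        · rintro ⟨y, hy, rfl⟩
          exact hy
        · intro hx
          refine ⟨⟨x, ?_⟩, hx, rfl⟩
          have h2 : a • x = 0 := hx
          show (a * b) • x = 0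
          rw [mul_comm, mul_smul, h2, smul_zero]
      rw [← h1]
      exact Λ.L_congr (Submodule.equivMapOfInjective _ kab.subtype_injective _)
    · have h1 : LinearMap.range ((mulL H a) ∘ₗ kab.subtype) = kb ⊓ ra := by
        ext x
        constructor
        · rintro ⟨⟨y, hy⟩, rfl⟩
          refine ⟨?_, y, rfl⟩
          show b • (a • y) = 0
          rw [← mul_smul, mul_comm]
          exact hy
        · rintro ⟨h2, y, rfl⟩
          refine ⟨⟨y, ?_⟩, rfl⟩
          have h3 : b • (a • y) = 0 := h2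
          show (a * b) • y = 0
          rw [mul_comm, mul_smul, h3]
      rw [h1]
  · rw [Λ.L_ker_add_range (ra.mkQ ∘ₗ kb.subtype)]
    congr 1
    · have h1 : (LinearMap.ker (ra.mkQ ∘ₗ kb.subtype)).map kb.subtype = kb ⊓ ra := by
        ext x
        constructor
        · rintro ⟨y, hy, rfl⟩
          refine ⟨y.2, ?_⟩
          rw [SetLike.mem_coe, LinearMap.mem_ker, LinearMap.comp_apply, Submodule.mkQ_apply,
            Submodule.Quotient.mk_eq_zero] at hy
          exact hy
        · rintro ⟨h2, h3⟩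
          refine ⟨⟨x, h2⟩, ?_, rfl⟩
          rw [SetLike.mem_coe, LinearMap.mem_ker, LinearMap.comp_apply, Submodule.mkQ_apply,
            Submodule.Quotient.mk_eq_zero]
          exact h3
      rw [← h1]
      exact Λ.L_congr (Submodule.equivMapOfInjective _ kb.subtype_injective _)
    · rw [LinearMap.range_comp, Submodule.range_subtype]
  · rw [Λ.L_quotient_add (ra ⊔ kb) ra le_sup_left, Submodule.map_sup]
    congr 1
    have h1 : ra.map ra.mkQ = ⊥ := by
      rw [eq_bot_iff, Submodule.map_le_iff_le_comap]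
      intro x hx
      rw [Submodule.mem_comap, Submodule.mem_bot, Submodule.mkQ_apply,
        Submodule.Quotient.mk_eq_zero]
      exact hx
    rw [h1, bot_sup_eq]
  · have h0 : rab ≤ rb := by
      rintro _ ⟨x, rfl⟩
      refine ⟨a • x, ?_⟩
      show b • a • x = (a * b) • x
      rw [← mul_smul, mul_comm]
    rw [Λ.L_quotient_add rb rab h0]
    congr 1
    have h1 : LinearMap.range (rab.mkQ ∘ₗ mulL H b) = rb.map rab.mkQ := by
      rw [LinearMap.range_comp]
    have h2 : LinearMap.ker (rab.mkQ ∘ₗ mulL H b) = ra ⊔ kb := by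
      ext x
      rw [LinearMap.mem_ker, LinearMap.comp_apply, Submodule.mkQ_apply,
        Submodule.Quotient.mk_eq_zero, Submodule.mem_sup]
      constructor
      · rintro ⟨y, hy⟩
        have hy' : (a * b) • y = b • x := hy
        refine ⟨a • y, ⟨y, rfl⟩, x - a • y, ?_, by abel⟩
        show b • (x - a • y) = 0
        rw [smul_sub, ← hy', ← mul_smul, mul_comm, sub_self]
      · rintro ⟨_, ⟨y, rfl⟩, w, hw, rfl⟩
        refine ⟨y, ?_⟩
        have hw' : b • w = 0 := hw
        show (a * b) • y = b • (a • y + w)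
        rw [smul_add, hw', add_zero, ← mul_smul, mul_comm]
    rw [← h1, ← h2]
    exact (Λ.L_congr (rab.mkQ ∘ₗ mulL H b).quotKerEquivRange).symm

end herbrand

namespace Cx

variable (C : Cx.{u, v} A) (a b : A)

theorem herbrand (n : ℕ) : ∃ x y z : ℝ≥0∞, C.kr (a * b) Λ n = C.kr a Λ n + x ∧
    C.kr b Λ n = x + y ∧ C.cok a Λ n = y + z ∧ C.cok (a * b) Λ n = z + C.cok b Λ n :=
  Kos.herbrand Λ a b

theorem cok_mul_le (n : ℕ) : C.cok (a * b) Λ n ≤ C.cok a Λ n + C.cok b Λ n := by
  obtain ⟨x, y, z, h1, h2, h3, h4⟩ := C.herbrand Λ a b n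
  rw [h3, h4]
  exact add_le_add le_add_self le_rfl

theorem kr_mul_le (n : ℕ) : C.kr (a * b) Λ n ≤ C.kr a Λ n + C.kr b Λ n := by
  obtain ⟨x, y, z, h1, h2, h3, h4⟩ := C.herbrand Λ a b n
  rw [h1, h2]
  exact add_le_add le_rfl le_self_add

theorem l_cone_mul_le (n : ℕ) :
    (C.cone (a * b)).l Λ n ≤ (C.cone a).l Λ n + (C.cone b).l Λ n := by
  cases n with
  | zero =>
    rw [l_cone_zero, l_cone_zero, l_cone_zero]
    exact C.cok_mul_le Λ a b 0
  | succ n =>
    rw [l_cone_succ, l_cone_succ, l_cone_succ]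
    calc _ ≤ (C.cok a Λ (n + 1) + C.cok b Λ (n + 1)) + (C.kr a Λ n + C.kr b Λ n) :=
          add_le_add (C.cok_mul_le Λ a b _) (C.kr_mul_le Λ a b _)
      _ = _ := by ring

theorem cok_one (n : ℕ) : C.cok 1 Λ n = 0 := by
  unfold cok
  rw [one_smul, LinearMap.range_id]
  exact Λ.L_subsingleton

theorem kr_one (n : ℕ) : C.kr 1 Λ n = 0 := by
  unfold kr
  rw [one_smul, LinearMap.ker_id]
  exact Λ.L_subsingleton

theorem l_cone_one (n : ℕ) : (C.cone 1).l Λ n = 0 := by
  cases n with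
  | zero => rw [l_cone_zero, cok_one]
  | succ n => rw [l_cone_succ, cok_one, kr_one, add_zero]

theorem l_cone_pow_le (k n : ℕ) : (C.cone (a ^ k)).l Λ n ≤ k * (C.cone a).l Λ n := by
  induction k with
  | zero =>
    rw [pow_zero, l_cone_one]
    exact zero_le
  | succ k ih =>
    rw [pow_succ]
    refine (C.l_cone_mul_le Λ _ _ n).trans ?_
    push_cast
    rw [add_mul, one_mul]
    exact add_le_add ih le_rfl

/-- `cok - kr`, as a real number (for finite values). -/
noncomputable def hb (n : ℕ) : ℝ := (C.cok a Λ n).toReal - (C.kr a Λ n).toReal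





/-- Euler characteristic of the first `N` homology modules -/
noncomputable abbrev chi (N : ℕ) : ℝ := Chi.chi Λ C.d N










end Cx

/-! ### Powers -/

theorem l_kos_pow_le (l : List A) (C : Cx.{u, v} A) (k n : ℕ) :
    (kos (l.map (· ^ k)) C).l Λ n ≤ (k : ℝ≥0∞) ^ l.length * (kos l C).l Λ n := by
  induction l generalizing C n with
  | nil => simp
  | cons a l ih =>
    rw [List.map_cons, kos_cons, kos_cons, List.length_cons]
    calc ((kos (l.map (· ^ k)) C).cone (a ^ k)).l Λ n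
        ≤ k * ((kos (l.map (· ^ k)) C).cone a).l Λ n := Cx.l_cone_pow_le Λ _ _ _ _
      _ = k * (kos (l.map (· ^ k)) (C.cone a)).l Λ n := by
          rw [(kos_cone_comm (l.map (· ^ k)) a C).some.l_eq]
      _ ≤ k * (k ^ l.length * (kos l (C.cone a)).l Λ n) := by gcongr; exact ih _ _
      _ = k * (k ^ l.length * ((kos l C).cone a).l Λ n) := by
          rw [(kos_cone_comm l a C).some.l_eq]
      _ = _ := by ring


end Crest.Agent.R188.Kos
end

-- ▼ part R188/KosPos
section

/-!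
# R188 (Serre positivity), block A4: the two counting theorems (vanishing / positivity of `χ(q; C)`).
helper415
-/

set_option autoImplicit false

namespace Crest.Agent.R188.KosG

open Crest.Agent.R183
open scoped ENNReal

universe u v

variable {A : Type u} [CommRing A]

section

variable (Λ : AddLen.{u, v} A) (C : Type v) [AddCommGroup C] [Module A C]

theorem le_pas (g : ℤ → ℝ≥0∞) (n : ℕ) (i : ℤ) : g i ≤ pas g n i := by
  unfold pas
  have : g i = ((n.choose 0 : ℕ) : ℝ≥0∞) * g (i - ((0 : ℕ) : ℤ)) := by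
    simp
  rw [this]
  exact Finset.single_le_sum (f := fun j : ℕ => ((n.choose j : ℕ) : ℝ≥0∞) * g (i - (j : ℤ)))
    (fun _ _ => zero_le) (Finset.mem_range.2 (Nat.succ_pos n))



/-- Comparison: if the entries of `a` are null-homotopic on `K(l; C)` then
`h_i(l; C) ≤ pas (h(a; C)) |l| i`, and `h_i(l; C) ≤ pas (h (a; C)) |l| (i + |a|)`. -/
theorem kh_le_pas {l a : List A} (ha : ∀ x ∈ a, x ∈ (kos l C).NHI) (i : ℤ) :
    kh Λ l C i ≤ pas (kh Λ a C) l.length i := by
  refine (le_pas (kh Λ l C) a.length i).trans ?_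
  rw [← kh_append_NHI Λ C a l ha, kh_perm Λ C List.perm_append_comm]
  exact kh_append_le Λ C l a i


/-- A real number `x` with `n^d |x| ≤ K n^k` for arbitrarily large `n`, `k < d`, is `0`. -/
theorem eq_zero_of_growth {x K : ℝ} {d k : ℕ} (hk : k < d)
    (h : ∀ N : ℕ, ∃ n : ℕ, N ≤ n ∧ (n : ℝ) ^ d * |x| ≤ K * (n : ℝ) ^ k) : x = 0 := by
  by_contra hx
  have hx0 : 0 < |x| := abs_pos.2 hx
  obtain ⟨N, hN⟩ := exists_nat_gt (|K| / |x| + 1)
  obtain ⟨n, hn, hle⟩ := h N
  have hnN : (N : ℝ) ≤ n := by exact_mod_cast hn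
  have hn1 : (1 : ℝ) < n := by
    have : 0 ≤ |K| / |x| := by positivity
    linarith
  have hnp : (0 : ℝ) < (n : ℝ) ^ k := by positivity
  have h1 : (n : ℝ) ^ (k + 1) ≤ (n : ℝ) ^ d := pow_le_pow_right₀ hn1.le hk
  have h2 : (n : ℝ) ^ (k + 1) * |x| ≤ K * (n : ℝ) ^ k :=
    (mul_le_mul_of_nonneg_right h1 hx0.le).trans hle
  rw [pow_succ, mul_assoc, mul_comm K] at h2
  have h3 : (n : ℝ) * |x| ≤ K := le_of_mul_le_mul_left h2 hnp
  have h4 : |K| / |x| < n := by linarith
  rw [div_lt_iff₀ hx0] at h4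
  have := le_abs_self K
  linarith

theorem pos_of_growth {x K c : ℝ} {d : ℕ} (hc : 0 < c)
    (h : ∀ N : ℕ, ∃ n : ℕ, N ≤ n ∧ c * (n : ℝ) ^ (d + 1) - K * (n : ℝ) ^ d ≤ (n : ℝ) ^ (d + 1) * x) :
    0 < x := by
  obtain ⟨N, hN⟩ := exists_nat_gt (|K| / c + 1)
  obtain ⟨n, hn, hle⟩ := h N
  have hnN : (N : ℝ) ≤ n := by exact_mod_cast hn
  have h4 : |K| / c < n := by linarith
  rw [div_lt_iff₀ hc] at h4
  have hn1 : (1 : ℝ) < n := by
    have : 0 ≤ |K| / c := by positivity
    linarith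
  have hnp : (0 : ℝ) < (n : ℝ) ^ d := by positivity
  have hKa := le_abs_self K
  have h5 : 0 < (c * n - K) * (n : ℝ) ^ d := by
    apply mul_pos _ hnp
    linarith
  have h6 : (c * n - K) * (n : ℝ) ^ d = c * (n : ℝ) ^ (d + 1) - K * (n : ℝ) ^ d := by
    rw [pow_succ]; ring
  rw [h6] at h5
  have h7 : 0 < (n : ℝ) ^ (d + 1) * x := h5.trans_le hle
  exact (mul_pos_iff_of_pos_left (by positivity : (0 : ℝ) < (n : ℝ) ^ (d + 1))).1 h7



end

end Crest.Agent.R188.KosG
end

-- ▼ part R188/KosE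
section

/-!
# R188 (Serre positivity), block A4: the bridge between the complexes `Kos.Cx` (ℕ-graded,
helper546, on top of helper876's `Chi`) and the concrete graded complexes `GCx` of `KosA`.
helper415
-/

set_option autoImplicit false

namespace Crest.Agent.R188.KosG

open Crest.Agent.R183
open scoped ENNReal

universe u v

variable {A : Type u} [CommRing A]

/-- The concrete graded complex of an `ℕ`-graded complex. -/
def toG (C : Kos.Cx.{u, v} A) : GCx.{u, v} A where
  T := ∀ n, C.X n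
  gr := fun i =>
    { carrier := {f | ∀ n : ℕ, (n : ℤ) ≠ i → f n = 0}
      zero_mem' := fun _ _ => rfl
      add_mem' := fun {f g} hf hg n hn => by
        rw [Pi.add_apply, hf n hn, hg n hn, add_zero]
      smul_mem' := fun c f hf n hn => by
        rw [Pi.smul_apply, hf n hn, smul_zero] }
  D := LinearMap.pi (fun n => C.d n ∘ₗ LinearMap.proj (n + 1))
  D_gr := fun i f hf n hn => by
    change C.d n (f (n + 1)) = 0
    rw [hf (n + 1) (by push_cast; omega), map_zero]
  DD := fun f => by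
    funext n
    exact C.dd n (f (n + 2))

variable (C : Kos.Cx.{u, v} A)


theorem toG_D (f : ∀ n, C.X n) (n : ℕ) : (toG C).D f n = C.d n (f (n + 1)) := rfl

/-- an element supported in degree `n` -/
noncomputable def sing (n : ℕ) (x : C.X n) : ∀ m, C.X m := Pi.single n x

theorem sing_same (n : ℕ) (x : C.X n) : sing C n x n = x := Pi.single_eq_same n x

theorem sing_ne {n m : ℕ} (h : m ≠ n) (x : C.X n) : sing C n x m = 0 := Pi.single_eq_of_ne h x

theorem sing_mem (n : ℕ) (x : C.X n) : (show (toG C).T from sing C n x) ∈ (toG C).gr n := by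
  intro m hm
  exact sing_ne C (by rintro rfl; exact hm rfl) x

theorem eq_sing {n : ℕ} {f : ∀ m, C.X m} (hf : (show (toG C).T from f) ∈ (toG C).gr n) :
    f = sing C n (f n) := by
  funext m
  by_cases hm : m = n
  · subst hm
    rw [sing_same]
  · rw [sing_ne C hm, hf m (by exact_mod_cast hm)]

theorem D_sing_succ (n : ℕ) (x : C.X (n + 1)) :
    (toG C).D (sing C (n + 1) x) = sing C n (C.d n x) := by
  funext m
  rw [toG_D]
  by_cases hm : m = n
  · subst hm
    rw [sing_same, sing_same]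
  · rw [sing_ne C hm, sing_ne C (by omega), map_zero]

theorem D_sing_zero (x : C.X 0) : (toG C).D (sing C 0 x) = 0 := by
  funext m
  rw [toG_D, sing_ne C (by omega), map_zero]
  rfl

theorem mem_Z_toG {n : ℕ} {x : C.X n} : (show (toG C).T from sing C n x) ∈ (toG C).Z n ↔
    x ∈ C.cyc n := by
  cases n with
  | zero =>
    exact ⟨fun _ => trivial, fun _ => ⟨sing_mem C 0 x, D_sing_zero C x⟩⟩
  | succ n =>
    rw [Kos.Cx.mem_cyc_succ]
    constructor
    · rintro ⟨_, h⟩
      have h1 : (toG C).D (sing C (n + 1) x) n = 0 := by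
        have h2 : (toG C).D (sing C (n + 1) x) = 0 := h
        rw [h2]
        rfl
      rwa [D_sing_succ, sing_same] at h1
    · intro h
      refine ⟨sing_mem C (n + 1) x, ?_⟩
      change (toG C).D (sing C (n + 1) x) = 0
      rw [D_sing_succ, h]
      funext m
      by_cases hm : m = n
      · subst hm
        rw [sing_same]
        rfl
      · rw [sing_ne C hm]
        rfl

theorem mem_B_toG {n : ℕ} {x : C.X n} : (show (toG C).T from sing C n x) ∈ (toG C).B n ↔
    x ∈ C.bdy n := by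
  rw [Kos.Cx.mem_bdy, GCx.mem_B]
  constructor
  · rintro ⟨f, _, hf'⟩
    have h1 : C.d n ((show ∀ m, C.X m from f) (n + 1)) = sing C n x n := congrFun hf' n
    rw [sing_same] at h1
    exact ⟨_, h1⟩
  · rintro ⟨y, rfl⟩
    refine ⟨sing C (n + 1) y, ?_, ?_⟩
    · have := sing_mem C (n + 1) y
      push_cast at this
      exact this
    · exact D_sing_succ C n y

/-- The homology of `toG C`. -/
theorem exists_HtoG (n : ℕ) : Nonempty ((toG C).H n ≃ₗ[A] C.H n) := by
  have hg : ∀ f : (toG C).Z n, (show ∀ m, C.X m from f.1) n ∈ C.cyc n := by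
    rintro ⟨f, hf⟩
    have h1 := eq_sing C (f := f) hf.1
    rw [← mem_Z_toG]
    change (show (toG C).T from sing C n ((show ∀ m, C.X m from f) n)) ∈ (toG C).Z n
    rw [← h1]
    exact hf
  let g : (toG C).Z n →ₗ[A] C.cyc n :=
    { toFun := fun f => ⟨(show ∀ m, C.X m from f.1) n, hg f⟩
      map_add' := fun f g => rfl
      map_smul' := fun c f => rfl }
  let p : (toG C).Z n →ₗ[A] C.H n := (C.toH n) ∘ₗ g
  have hp : Function.Surjective p := by
    intro y
    obtain ⟨⟨y, hy⟩, rfl⟩ := C.toH_surjective n y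
    refine ⟨⟨sing C n y, (mem_Z_toG C).2 hy⟩, ?_⟩
    change C.toH n (g _) = _
    congr 1
    exact Subtype.ext (sing_same C n y)
  have hk : LinearMap.ker p = LinearMap.ker ((toG C).cls n) := by
    ext f
    rw [LinearMap.mem_ker, LinearMap.mem_ker, GCx.cls_eq_zero]
    change C.toH n (g f) = 0 ↔ _
    rw [Kos.Cx.toH_eq_zero]
    change (show ∀ m, C.X m from f.1) n ∈ C.bdy n ↔ _
    rw [← mem_B_toG]
    have h1 := eq_sing C (f := f.1) f.2.1
    rw [← h1]
  exact ⟨(((toG C).cls n).quotKerEquivOfSurjective ((toG C).cls_surj n)).symm.trans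
    ((Submodule.quotEquivOfEq _ _ hk.symm).trans (p.quotKerEquivOfSurjective hp))⟩

theorem h_toG (Λ : AddLen.{u, v} A) (n : ℕ) : (toG C).h Λ n = C.l Λ n := by
  obtain ⟨e⟩ := exists_HtoG C n
  exact Λ.L_congr e



/-- `toG` commutes with cones. -/
def coneIso (b : A) : GCx.Iso (toG (C.cone b)) (GCx.cone b (toG C)) where
  e :=
    { toFun := fun f => (fun n => match n with
        | 0 => f 0
        | (n + 1) => (f (n + 1)).1, fun n => (f (n + 1)).2)
      map_add' := fun f g => by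
        refine Prod.ext ?_ rfl
        funext n
        cases n <;> rfl
      map_smul' := fun c f => by
        refine Prod.ext ?_ rfl
        funext n
        cases n <;> rfl
      invFun := fun p n => match n with
        | 0 => p.1 0
        | (n + 1) => (p.1 (n + 1), p.2 n)
      left_inv := fun f => by
        funext n
        cases n <;> rfl
      right_inv := fun p => by
        refine Prod.ext ?_ rfl
        funext n
        cases n <;> rfl }
  gr := by
    intro i f
    constructor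
    · rintro ⟨h1, h2⟩ n hn
      cases n with
      | zero => exact h1 0 hn
      | succ n =>
        refine Prod.ext (h1 (n + 1) hn) (h2 n ?_)
        push_cast at hn
        omega
    · intro h
      refine ⟨fun n hn => ?_, fun n hn => ?_⟩
      · cases n with
        | zero => exact h 0 hn
        | succ n => exact congrArg Prod.fst (h (n + 1) hn)
      · exact congrArg Prod.snd (h (n + 1) (by push_cast; omega))
  comm := by
    intro f
    refine Prod.ext ?_ ?_
    · funext n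
      cases n <;> rfl
    · funext n
      rfl

/-- `toG` commutes with iterated cones. -/
theorem kosIso (l : List A) : Nonempty (GCx.Iso (toG (Kos.kos l C)) (cones l (toG C))) := by
  induction l with
  | nil => exact ⟨GCx.Iso.refl _⟩
  | cons b l ih =>
    obtain ⟨φ⟩ := ih
    exact ⟨(coneIso (Kos.kos l C) b).trans (φ.cone b)⟩

theorem l_kos (Λ : AddLen.{u, v} A) (l : List A) (n : ℕ) :
    (Kos.kos l C).l Λ n = (cones l (toG C)).h Λ n := by
  obtain ⟨φ⟩ := kosIso C l
  rw [← h_toG, φ.h_eq]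


end Crest.Agent.R188.KosG
end

-- ▼ part R188/KosF

/-!
# R188 (Serre positivity), block A4: quasi-isomorphism lemmas in length form and the SWAP LEMMA
`H_n(F ⊗ T/(q)T) = H_n(q; H_0(F ⊗ T))` (in length) for `q` weakly regular on `T` and `F ⊗ T`
acyclic in positive degrees.
helper415
-/

set_option autoImplicit false

namespace Crest.Agent.R188.KosG

open Crest.Agent.R183
open scoped ENNReal Pointwise

universe u v w

variable {A : Type u} [CommRing A]

namespace GCx

variable {K' K K'' : GCx.{u, v} A}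

theorem h_eq_zero_of_NH_one (Λ : AddLen.{u, v} A) (h : K.NH 1) (n : ℤ) : K.h Λ n = 0 := by
  have : Subsingleton (K.H n) := by
    refine ⟨fun x y => ?_⟩
    rw [← one_smul A x, ← one_smul A y, h.smul_H, h.smul_H]
  exact Λ.L_subsingleton

theorem h_cone_one (Λ : AddLen.{u, v} A) (K : GCx.{u, v} A) (n : ℤ) : (cone 1 K).h Λ n = 0 :=
  h_eq_zero_of_NH_one Λ (NH.self K 1) n

theorem h_cones_zero (Λ : AddLen.{u, v} A) (h : ∀ n, K.h Λ n = 0) (l : List A) (n : ℤ) :
    (cones l K).h Λ n = 0 := by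
  induction l generalizing n with
  | nil => exact h n
  | cons a l ih =>
    refine le_antisymm ((h_cone_le Λ a (cones l K) n).trans ?_) zero_le
    rw [ih, ih, add_zero]

namespace SES

variable (S : SES K' K K'')

include S

theorem h_eq_of_left (Λ : AddLen.{u, v} A) (h : ∀ n, K'.h Λ n = 0) (n : ℤ) :
    K.h Λ n = K''.h Λ n := by
  have h1 := S.les Λ n
  have h2 : S.r Λ (n + 1) = 0 := le_antisymm ((S.r_le_left Λ n).trans (h n).le) zero_le
  have h3 : S.r Λ n = 0 := by
    have := S.r_le_left Λ (n - 1)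
    rw [sub_add_cancel, h] at this
    exact le_antisymm this zero_le
  rw [h, h2, h3, zero_add, add_zero, add_zero] at h1
  exact h1.symm


theorem h_cones_eq_of_left (Λ : AddLen.{u, v} A) (h : ∀ n, K'.h Λ n = 0) (l : List A) (n : ℤ) :
    (KosG.cones l K).h Λ n = (KosG.cones l K'').h Λ n :=
  (S.cones l).h_eq_of_left Λ (h_cones_zero Λ h l) n


end SES

/-- Data for `K'' = K / b K`, `b` regular. -/
structure RegQuot (b : A) (K K'' : GCx.{u, v} A) where
  /-- the projection -/
  p : Hom K K''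
  inj : ∀ x : K.T, b • x = 0 → x = 0
  zero : ∀ x : K.T, p.f (b • x) = 0
  surj : ∀ (n : ℤ) (x : K''.T), x ∈ K''.gr n → ∃ y ∈ K.gr n, p.f y = x
  exact : ∀ (n : ℤ) (x : K.T), x ∈ K.gr n → p.f x = 0 → ∃ y ∈ K.gr n, b • y = x

/-- the short exact sequence `0 → cone 1 K → cone b K → K/bK → 0` -/
def RegQuot.ses {b : A} (Q : RegQuot b K K'') : SES (GCx.cone 1 K) (GCx.cone b K) K'' where
  i :=
    { f := (LinearMap.lsmul A K.T b).prodMap LinearMap.id
      gr := by
        rintro i ⟨x, y⟩ ⟨hx, hy⟩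
        exact ⟨(K.gr i).smul_mem b hx, hy⟩
      comm := by
        rintro ⟨x, y⟩
        refine Prod.ext ?_ rfl
        change b • (K.D x + (1 : A) • y) = K.D (b • x) + b • y
        rw [one_smul, smul_add, map_smul] }
  p :=
    { f := Q.p.f ∘ₗ LinearMap.fst A K.T K.T
      gr := by
        rintro i ⟨x, y⟩ ⟨hx, _⟩
        exact Q.p.gr i x hx
      comm := by
        rintro ⟨x, y⟩
        change Q.p.f (K.D x + b • y) = K''.D (Q.p.f x)
        rw [map_add, Q.zero, add_zero, Q.p.comm] }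
  inj := by
    rintro ⟨x, y⟩ ⟨x', y'⟩ h
    have h1 : b • x = b • x' := congrArg Prod.fst h
    have h2 : y = y' := congrArg Prod.snd h
    refine Prod.ext ?_ h2
    rw [← sub_eq_zero, ← smul_sub] at h1
    exact sub_eq_zero.1 (Q.inj _ h1)
  zero := by
    rintro ⟨x, y⟩
    exact Q.zero x
  surj := by
    intro n x hx
    obtain ⟨y, hy, hy'⟩ := Q.surj n x hx
    exact ⟨(y, 0), ⟨hy, (K.gr (n - 1)).zero_mem⟩, hy'⟩
  exact := by
    rintro n ⟨x, y⟩ ⟨hx, hy⟩ h
    obtain ⟨z, hz, hz'⟩ := Q.exact n x hx h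
    exact ⟨(z, y), ⟨hz, hy⟩, Prod.ext hz' rfl⟩

theorem RegQuot.h_cones {b : A} (Q : RegQuot b K K'') (Λ : AddLen.{u, v} A) (l : List A) (n : ℤ) :
    (cones l (cone b K)).h Λ n = (cones l K'').h Λ n :=
  Q.ses.h_cones_eq_of_left Λ (h_cone_one Λ K) l n

theorem RegQuot.h_cones_cons {b : A} (Q : RegQuot b K K'') (Λ : AddLen.{u, v} A) (l : List A)
    (n : ℤ) : (cones (b :: l) K).h Λ n = (cones l K'').h Λ n := by
  obtain ⟨φ⟩ := cones_perm (List.perm_append_singleton b l).symm K
  rw [φ.h_eq, cones_append]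
  exact Q.h_cones Λ l n

/-! ### kernels of surjections -/




end GCx

/-! ### functoriality of `toG` -/

/-- `toG` on morphisms -/
def toGHom {C D : Kos.Cx.{u, v} A} (φ : C.Hom D) : GCx.Hom (toG C) (toG D) where
  f := LinearMap.pi (fun n => φ.f n ∘ₗ LinearMap.proj n)
  gr := fun i f hf n hn => by
    change φ.f n ((show ∀ m, C.X m from f) n) = 0
    rw [hf n hn, map_zero]
  comm := fun f => by
    funext n
    exact φ.comm n _

/-- `C'' = C / bC` with `b` regular, `ℕ`-graded version -/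
def regQuotG {C C'' : Kos.Cx.{u, v} A} (b : A) (p : C.Hom C'')
    (inj : ∀ n (x : C.X n), b • x = 0 → x = 0)
    (surj : ∀ n, Function.Surjective (p.f n))
    (ker : ∀ n (x : C.X n), p.f n x = 0 ↔ ∃ y, b • y = x) :
    GCx.RegQuot b (toG C) (toG C'') where
  p := toGHom p
  inj := fun f hf => funext fun n => inj n _ (congrFun hf n)
  zero := fun f => funext fun n => (ker n _).2 ⟨(show ∀ m, C.X m from f) n, rfl⟩
  surj := fun n f hf => by
    have hs : ∀ m, ∃ y : C.X m, p.f m y = (show ∀ m, C''.X m from f) m ∧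
        ((show ∀ m, C''.X m from f) m = 0 → y = 0) := by
      intro m
      by_cases hm : (show ∀ m, C''.X m from f) m = 0
      · exact ⟨0, by rw [hm, map_zero], fun _ => rfl⟩
      · obtain ⟨y, hy⟩ := surj m ((show ∀ m, C''.X m from f) m)
        exact ⟨y, hy, fun h => absurd h hm⟩
    choose y hy1 hy2 using hs
    exact ⟨y, fun m hm => hy2 m (hf m hm), funext hy1⟩
  exact := fun n f hf h => by
    have hs : ∀ m, ∃ y : C.X m, b • y = (show ∀ m, C.X m from f) m ∧
        ((show ∀ m, C.X m from f) m = 0 → y = 0) := by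
      intro m
      by_cases hm : (show ∀ m, C.X m from f) m = 0
      · exact ⟨0, by rw [hm, smul_zero], fun _ => rfl⟩
      · obtain ⟨y, hy⟩ := (ker m ((show ∀ m, C.X m from f) m)).1 (congrFun h m)
        exact ⟨y, hy, fun h => absurd h hm⟩
    choose y hy1 hy2 using hs
    exact ⟨y, fun m hm => hy2 m (hf m hm), funext hy1⟩

/-! ### the augmentation -/




/-! ### the swap lemma -/

section swap

variable {R : Type w} [CommRing R]

/-- `F ⊗ X` as a bundled complex -/
def FT (F : Res.MCx R) (A : Type u) [CommRing A] (X : Type v) [AddCommGroup X] [Module A X]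
    [Module R X] [SMulCommClass R A X] : Kos.Cx.{u, v} A where
  X := fun n => F.ι n → X
  d := fun n => F.dA A X n
  dd := fun n x => Chi.isCx_dA A F X n x

variable (F : Res.MCx R)

section general

variable {X Y : Type v} [AddCommGroup X] [Module A X] [Module R X] [SMulCommClass R A X]
  [AddCommGroup Y] [Module A Y] [Module R Y] [SMulCommClass R A Y]


/-- functoriality in the module -/
def FThom (g : X →ₗ[A] Y) (hg : Chi.RLin R g) : (FT F A X).Hom (FT F A Y) where
  f := Chi.pmap F g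
  comm := Chi.isMap_pmap F hg



theorem cones_iso {K K' : GCx.{u, v} A} (φ : GCx.Iso K K') (l : List A) :
    Nonempty (GCx.Iso (cones l K) (cones l K')) := by
  induction l with
  | nil => exact ⟨φ⟩
  | cons a l ih =>
    obtain ⟨ψ⟩ := ih
    exact ⟨ψ.cone a⟩


/-- one regular element -/
theorem h_cones_FT_cons (Λ : AddLen.{u, v} A) (b : A) (l : List A) (g : X →ₗ[A] Y)
    (hg : Chi.RLin R g) (inj : ∀ x : X, b • x = 0 → x = 0) (surj : Function.Surjective g)
    (ker : ∀ x, g x = 0 ↔ ∃ y, b • y = x) (n : ℤ) :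
    (cones (b :: l) (toG (FT F A X))).h Λ n = (cones l (toG (FT F A Y))).h Λ n := by
  refine (regQuotG b (FThom F g hg) ?_ ?_ ?_).h_cones_cons Λ l n
  · intro n x hx
    funext a
    exact inj _ (congrFun hx a)
  · intro n
    exact Res.post_surjective _ surj
  · intro n x
    constructor
    · intro h
      have : ∀ a, ∃ y, b • y = x a := fun a => (ker _).1 (congrFun h a)
      choose y hy using this
      exact ⟨y, funext hy⟩
    · rintro ⟨y, rfl⟩
      funext a
      exact (ker _).2 ⟨y a, rfl⟩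

end general

section tower

variable [Algebra R A]




end tower

end swap

end Crest.Agent.R188.KosG
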