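import Mathlib
import Crest.Agent.R188.Tow1
import Crest.Agent.R183.Om1

-- ▼ part R188/LenNull1
section

set_option autoImplicit false

namespace Crest.Agent.R188.LenNull

open scoped ENNReal Pointwise
open Crest.Agent.R183 Crest.Agent.R188.Tow

universe u v

section abs

variable {C : Type u} [CommRing C] (Λ : AddLen.{u, u} C)

/-- `L X ≤ m L(X/aX)` if `a ^ m X = 0`. -/
theorem L_le_mul_quot (a : C) (m : ℕ) (X : Type u) [AddCommGroup X] [Module C X]
    (h : ∀ x : X, a ^ m • x = 0) : Λ.L X ≤ m * Λ.L (X ⧸ (a • (⊤ : Submodule C X))) := by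
  induction m generalizing X with
  | zero =>
    have : Subsingleton X := subsingleton_of_forall_eq 0 fun x => by simpa using h x
    rw [Λ.L_subsingleton]; exact zero_le
  | succ m ih =>
    set Y : Submodule C X := a • (⊤ : Submodule C X) with hY
    have hmem : ∀ y : X, y ∈ Y ↔ ∃ x : X, a • x = y := fun y => by
      rw [hY, Submodule.mem_smul_pointwise_iff_exists]
      constructor
      · rintro ⟨x, -, hx⟩; exact ⟨x, hx⟩
      · rintro ⟨x, hx⟩; exact ⟨x, trivial, hx⟩
    have h1 : Λ.L Y ≤ m * Λ.L (Y ⧸ (a • (⊤ : Submodule C Y))) := by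
      refine ih Y fun y => ?_
      obtain ⟨x, hx⟩ := (hmem y).1 y.2
      apply Subtype.ext
      change a ^ m • (y : X) = 0
      rw [← hx, smul_smul, ← pow_succ]
      exact h x
    -- `X/Y → Y/aY` is surjective
    let g : X →ₗ[C] Y := (LinearMap.lsmul C X a).codRestrict Y (fun x => (hmem _).2 ⟨x, rfl⟩)
    have hg : Function.Surjective g := by
      rintro ⟨y, hy⟩
      obtain ⟨x, hx⟩ := (hmem y).1 hy
      exact ⟨x, Subtype.ext hx⟩
    have h2 : Λ.L (Y ⧸ (a • (⊤ : Submodule C Y))) ≤ Λ.L (X ⧸ Y) := by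
      have hle : Y ≤ (a • (⊤ : Submodule C Y)).comap g := by
        intro y hy
        obtain ⟨x, hx⟩ := (hmem y).1 hy
        rw [Submodule.mem_comap, Submodule.mem_smul_pointwise_iff_exists]
        refine ⟨g x, trivial, ?_⟩
        rw [← map_smul, hx]
      refine Λ.L_le_of_surjective (Submodule.mapQ Y (a • (⊤ : Submodule C Y)) g hle) ?_
      intro y
      obtain ⟨y, rfl⟩ := Submodule.mkQ_surjective _ y
      obtain ⟨x, rfl⟩ := hg y
      exact ⟨Y.mkQ x, rfl⟩
    rw [Λ.L_eq_add_quotient Y]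
    push_cast
    calc Λ.L Y + Λ.L (X ⧸ Y) ≤ m * Λ.L (X ⧸ Y) + Λ.L (X ⧸ Y) := by
          gcongr
          exact h1.trans (by gcongr)
      _ = (m + 1) * Λ.L (X ⧸ Y) := by ring

/-- a cyclic module killed by `I`. -/
theorem L_cyclic_le {X : Type u} [AddCommGroup X] [Module C X] (x : X)
    (hx : Submodule.span C {x} = ⊤) (I : Ideal C) (hI : ∀ a ∈ I, a • x = 0) :
    Λ.L X ≤ Λ.L (C ⧸ I) := by
  have hle : I ≤ LinearMap.ker (LinearMap.toSpanSingleton C X x) := by
    intro a ha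
    rw [LinearMap.mem_ker, LinearMap.toSpanSingleton_apply]
    exact hI a ha
  refine Λ.L_le_of_surjective (Submodule.liftQ I (LinearMap.toSpanSingleton C X x) hle) ?_
  rw [← LinearMap.range_eq_top, Submodule.range_liftQ, LinearMap.range_toSpanSingleton, hx]

variable {κ : Type*} [Finite κ] {t : κ → C}

/-- the ideal generated by the powers `t i ^ N`. -/
def J (t : κ → C) (N : ℕ) : Ideal C := Ideal.span (Set.range fun i => t i ^ N)

omit [Finite κ] in
lemma J_kill {X : Type*} [AddCommGroup X] [Module C X] {x : X} {N : ℕ}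
    (h : ∀ i, t i ^ N • x = 0) (a : C) (ha : a ∈ J t N) : a • x = 0 := by
  unfold J at ha
  induction ha using Submodule.span_induction with
  | mem y hy => obtain ⟨i, rfl⟩ := hy; exact h i
  | zero => rw [zero_smul]
  | add y z _ _ hy hz => rw [add_smul, hy, hz, add_zero]
  | smul b y _ hy => rw [smul_eq_mul, mul_smul, hy, smul_zero]

/-- **NULL, abstract form.** `V` torsion, killed by `ϖ n ^ k * d n` for all `n`, where
`t i₀` is divisible by... `ϖ n ^ s n ∣ t i₀`-type bound: `t i₀ ∣ ϖ n ^ s n`, and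
`k L(C/(J_N, ϖ n)) + N s_n L(C/(J_N, ϖ n, d n))` is arbitrarily small. -/
theorem null_of_small (hc : ContOn Λ t) (i₀ : κ) (ϖ d : ℕ → C) (s : ℕ → ℕ) (k : ℕ)
    (hs : ∀ n, t i₀ ∣ ϖ n ^ s n)
    (small : ∀ (N : ℕ) (ε : ℝ≥0∞), 0 < ε → ∃ n,
      (k : ℝ≥0∞) * Λ.L (C ⧸ (J t N ⊔ Ideal.span {ϖ n})) +
        ((s n * N : ℕ) : ℝ≥0∞) * Λ.L (C ⧸ (J t N ⊔ Ideal.span {ϖ n} ⊔ Ideal.span {d n})) ≤ ε)
    (V : Type u) [AddCommGroup V] [Module C V] (hV : Tors t V)
    (kill : ∀ (n : ℕ) (x : V), (ϖ n ^ k * d n) • x = 0) : Λ.L V = 0 := by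
  rw [hc.eq_zero_iff hV]
  intro x
  have := Fintype.ofFinite κ
  choose e he using fun i => hV x i
  set N := Finset.univ.sup e with hN
  have hxN : ∀ i, t i ^ N • x = 0 := by
    intro i
    obtain ⟨m, hm⟩ := Nat.exists_eq_add_of_le (Finset.le_sup (f := e) (Finset.mem_univ i))
    rw [← hN] at hm
    rw [hm, pow_add, mul_comm, mul_smul, he, smul_zero]
  rw [← le_zero_iff]
  refine ENNReal.le_of_forall_pos_le_add ?_
  intro ε hε _
  rw [zero_add]
  obtain ⟨n, hn⟩ := small N ε (by exact_mod_cast hε)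
  refine le_trans ?_ hn
  set X := Submodule.span C {x} with hX
  let x' : X := ⟨x, Submodule.mem_span_singleton_self x⟩
  have hx' : Submodule.span C {x'} = ⊤ := by
    rw [eq_top_iff]
    rintro ⟨y, hy⟩ -
    obtain ⟨a, ha⟩ := Submodule.mem_span_singleton.1 hy
    exact Submodule.mem_span_singleton.2 ⟨a, Subtype.ext ha⟩
  have hxk : ∀ i, t i ^ N • x' = 0 := fun i => Subtype.ext (hxN i)
  have hall : ∀ (i : κ) (y : X), t i ^ N • y = 0 := by
    intro i y
    have hy : y ∈ Submodule.span C {x'} := by rw [hx']; trivial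
    obtain ⟨a, rfl⟩ := Submodule.mem_span_singleton.1 hy
    rw [smul_comm, hxk, smul_zero]
  -- the submodule `Y = ϖ ^ k X`
  set Y : Submodule C X := (ϖ n ^ k) • (⊤ : Submodule C X) with hY
  have hmemY : ∀ y : X, y ∈ Y ↔ ∃ z : X, ϖ n ^ k • z = y := fun y => by
    rw [hY, Submodule.mem_smul_pointwise_iff_exists]
    constructor
    · rintro ⟨z, -, hz⟩; exact ⟨z, hz⟩
    · rintro ⟨z, hz⟩; exact ⟨z, trivial, hz⟩
  rw [Λ.L_eq_add_quotient Y, add_comm]
  refine add_le_add ?_ ?_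
  · -- `X/ϖ^k X`
    refine (L_le_mul_quot Λ (ϖ n) k (X ⧸ Y) ?_).trans ?_
    · intro y
      obtain ⟨y, rfl⟩ := Submodule.mkQ_surjective _ y
      rw [← map_smul, Submodule.mkQ_apply, Submodule.Quotient.mk_eq_zero]
      exact (hmemY _).2 ⟨y, rfl⟩
    · gcongr
      refine L_cyclic_le Λ (Submodule.mkQ _ (Y.mkQ x')) ?_ _ ?_
      · rw [← Set.image_singleton, ← Submodule.map_span, ← Set.image_singleton,
          ← Submodule.map_span, hx', Submodule.map_top, Submodule.range_mkQ, Submodule.map_top,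
          Submodule.range_mkQ]
      · intro a ha
        obtain ⟨b, hb, c, hc', rfl⟩ := Submodule.mem_sup.1 ha
        obtain ⟨c, rfl⟩ := Ideal.mem_span_singleton'.1 hc'
        have k1 : b • (Submodule.mkQ (ϖ n • (⊤ : Submodule C (X ⧸ Y))) (Y.mkQ x')) = 0 := by
          rw [← map_smul, ← map_smul, J_kill hxk b hb, map_zero, map_zero]
        have k2 : ϖ n • (Submodule.mkQ (ϖ n • (⊤ : Submodule C (X ⧸ Y))) (Y.mkQ x')) = 0 := by
          rw [← map_smul, Submodule.mkQ_apply, Submodule.Quotient.mk_eq_zero]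
          exact (Submodule.mem_smul_pointwise_iff_exists _ _ _).2 ⟨Y.mkQ x', trivial, rfl⟩
        rw [add_smul, k1, mul_smul, k2, smul_zero, add_zero]
  · -- `Y = ϖ^k X`
    let y' : Y := ⟨ϖ n ^ k • x', (hmemY _).2 ⟨x', rfl⟩⟩
    have hy' : Submodule.span C {y'} = ⊤ := by
      rw [eq_top_iff]
      rintro ⟨y, hy⟩ -
      obtain ⟨z, hz⟩ := (hmemY y).1 hy
      have hz' : z ∈ Submodule.span C {x'} := by rw [hx']; trivial
      obtain ⟨a, rfl⟩ := Submodule.mem_span_singleton.1 hz'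
      refine Submodule.mem_span_singleton.2 ⟨a, Subtype.ext ?_⟩
      change a • (ϖ n ^ k • x') = y
      rw [← hz, smul_comm]
    refine (L_le_mul_quot Λ (ϖ n) (s n * N) Y ?_).trans ?_
    · intro y
      obtain ⟨c, hc'⟩ := hs n
      apply Subtype.ext
      change ϖ n ^ (s n * N) • (y : X) = 0
      rw [pow_mul, hc', mul_pow, mul_comm, mul_smul, hall, smul_zero]
    · gcongr
      refine L_cyclic_le Λ (Submodule.mkQ _ y') ?_ _ ?_
      · rw [← Set.image_singleton, ← Submodule.map_span, hy', Submodule.map_top,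
          Submodule.range_mkQ]
      · intro a ha
        obtain ⟨b, hb, c, hc', rfl⟩ := Submodule.mem_sup.1 ha
        obtain ⟨b1, hb1, b2, hb2, rfl⟩ := Submodule.mem_sup.1 hb
        obtain ⟨b2, rfl⟩ := Ideal.mem_span_singleton'.1 hb2
        obtain ⟨c, rfl⟩ := Ideal.mem_span_singleton'.1 hc'
        have k1 : b1 • y' = 0 := by
          refine J_kill (X := Y) (x := y') (t := t) (N := N) (fun i => ?_) b1 hb1
          apply Subtype.ext
          exact hall i _
        have k2 : d n • y' = 0 := by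
          apply Subtype.ext
          apply Subtype.ext
          change d n • (ϖ n ^ k • x) = 0
          rw [smul_smul, mul_comm]
          exact kill n x
        rw [← map_smul, add_smul, add_smul, k1, mul_smul c, k2, smul_zero, add_zero, zero_add,
          Submodule.mkQ_apply, Submodule.Quotient.mk_eq_zero, mul_smul]
        refine Submodule.smul_mem _ _ ?_
        exact (Submodule.mem_smul_pointwise_iff_exists _ _ _).2 ⟨y', trivial, rfl⟩

end abs

end Crest.Agent.R188.LenNull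
end

-- ▼ part R188/LenNull2

set_option autoImplicit false

namespace Crest.Agent.R188.LenNull

open scoped ENNReal Pointwise
open Crest.Agent.R183 Crest.Agent.R188.Tow

universe u v

section dom

variable {A C : Type u} [CommRing A] [CommRing C] [IsDomain C] [IsIntegrallyClosed C] [Algebra A C]
  (Λ : AddLen.{u, u} C) (lam : AddLen.{u, u} A)
variable {κ : Type*} [Finite κ] {t : κ → A}

omit [IsDomain C] [IsIntegrallyClosed C] [Finite κ] in
lemma J_map (N : ℕ) : (J t N).map (algebraMap A C) = J (fun i => algebraMap A C (t i)) N := by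
  unfold J
  rw [Ideal.map_span, ← Set.range_comp]
  congr 2
  funext i
  simp

/-- the numbers over `A`: for `D` regular mod `p`, `η n ^ (p^n) ≡ D` modulo `p`,
`k λ(A/(J_N, ϖ_n)) + p^n N λ(A/(J_N, ϖ_n, η_n))` is arbitrarily small. -/
def Small (lam : AddLen.{u, u} A) (t : κ → A) (p : ℕ) (ϖ : ℕ → A) : Prop :=
  ∀ (D : A), Om.RegMod D (p : A) → ∀ η : ℕ → A, (∀ n, (p : A) ∣ η n ^ p ^ n - D) →
    ∀ (k N : ℕ) (ε : ℝ≥0∞), 0 < ε → ∃ n,
      (k : ℝ≥0∞) * lam.L (A ⧸ (J t N ⊔ Ideal.span {ϖ n})) +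
        ((p ^ n * N : ℕ) : ℝ≥0∞) *
          lam.L (A ⧸ (J t N ⊔ Ideal.span {ϖ n} ⊔ Ideal.span {η n})) ≤ ε

/-- **the NULL criterion**: a torsion `C`-module killed by `r n`, `r n ^ (p^n) = r₀ ≠ 0`, is null. -/
theorem null_of_roots {p : ℕ} [hp : Fact p.Prime]
    (hc : ContOn Λ (fun i => algebraMap A C (t i)))
    (hval : ∀ (N : ℕ) (I : Ideal A), J t N ≤ I → Λ.L (C ⧸ I.map (algebraMap A C)) ≤ lam.L (A ⧸ I))
    (i₀ : κ) (ht : t i₀ = p)
    (hroot : ∀ (c : C) (n : ℕ), ∃ r, r ^ p ^ n = c)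
    (hnorm : ∀ c : C, c ≠ 0 → ∃ (c' : C) (a : A), a ≠ 0 ∧ c * c' = algebraMap A C a)
    (hcont : ∀ a : A, a ≠ 0 → ∃ (b : A) (k : ℕ) (D : A), a * b = (p : A) ^ k * D ∧
      Om.RegMod D (p : A))
    (hfrob : ∀ (D : A) (n : ℕ), ∃ η, (p : A) ∣ η ^ p ^ n - D)
    (ϖ : ℕ → A) (hϖ : ∀ n, ϖ n ^ p ^ n = p) (hsmall : Small lam t p ϖ)
    (V : Type u) [AddCommGroup V] [Module C V] (hV : Tors (fun i => algebraMap A C (t i)) V)
    (r₀ : C) (hr0 : r₀ ≠ 0) (r : ℕ → C) (hr : ∀ n, r n ^ p ^ n = r₀)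
    (kill : ∀ (n : ℕ) (x : V), r n • x = 0) : Λ.L V = 0 := by
  obtain ⟨c₁, a, ha, hca₁⟩ := hnorm r₀ hr0
  obtain ⟨b₁, k, D, hab, hD⟩ := hcont a ha
  obtain ⟨c, hca⟩ : ∃ c, r₀ * c = algebraMap A C ((p : A) ^ k * D) :=
    ⟨c₁ * algebraMap A C b₁, by rw [← hab, map_mul, ← hca₁, mul_assoc]⟩
  choose cr hcr using fun n => hroot c n
  choose d hd using fun n => hroot (algebraMap A C D) n
  choose η hη using fun n => hfrob D n
  have hpn : ∀ n, p ^ n ≠ 0 := fun n => pow_ne_zero _ hp.out.ne_zero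
  -- `r n * cr n` and `ϖ n ^ k * d n` are associated
  have h1 : ∀ n, r n * cr n ∣ algebraMap A C (ϖ n) ^ k * d n := by
    intro n
    rw [← IsIntegrallyClosed.pow_dvd_pow_iff (hpn n), mul_pow, hr, hcr, hca, mul_pow, ← pow_mul,
      mul_comm k, pow_mul, ← map_pow, hϖ, hd, map_mul, map_pow]
  have hkill : ∀ (n : ℕ) (x : V), (algebraMap A C (ϖ n) ^ k * d n) • x = 0 := by
    intro n x
    obtain ⟨e, he⟩ := h1 n
    rw [he, mul_assoc, mul_comm, mul_smul, kill, smul_zero]
  -- `d n ≡ η n` modulo `ϖ n`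
  have h2 : ∀ n, algebraMap A C (ϖ n) ∣ algebraMap A C (η n) - d n := by
    intro n
    rw [← IsIntegrallyClosed.pow_dvd_pow_iff (hpn n), ← map_pow, hϖ, map_natCast]
    have h3 : (p : C) ∣ algebraMap A C (η n) ^ p ^ n - d n ^ p ^ n := by
      rw [hd, ← map_pow, ← map_sub, ← map_natCast (algebraMap A C)]
      exact map_dvd _ (hη n)
    have h4 : (p : C) ∣ (algebraMap A C (η n) - d n) ^ p ^ n -
        (algebraMap A C (η n) ^ p ^ n - d n ^ p ^ n) := by
      rw [← Ideal.mem_span_singleton, ← Ideal.Quotient.eq_zero_iff_mem]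
      by_cases hu : IsUnit (p : C)
      · rw [Ideal.Quotient.eq_zero_iff_mem, Ideal.span_singleton_eq_top.2 hu]; trivial
      · have : Nontrivial (C ⧸ Ideal.span {(p : C)}) :=
          Ideal.Quotient.nontrivial_iff.2 (fun h => hu (Ideal.span_singleton_eq_top.1 h))
        have : CharP (C ⧸ Ideal.span {(p : C)}) p := by
          refine (CharP.charP_iff_prime_eq_zero hp.out).2 ?_
          rw [← map_natCast (Ideal.Quotient.mk (Ideal.span {(p : C)})),
            Ideal.Quotient.eq_zero_iff_mem]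
          exact Ideal.mem_span_singleton_self _
        rw [map_sub, map_sub, map_pow, map_pow, map_pow, map_sub, sub_pow_char_pow, sub_self]
    have h6 := dvd_add h4 h3
    rwa [sub_add_cancel] at h6
  have h5 : ∀ n, Ideal.span {algebraMap A C (ϖ n)} ⊔ Ideal.span {d n} =
      Ideal.span {algebraMap A C (ϖ n)} ⊔ Ideal.span {algebraMap A C (η n)} := by
    intro n
    obtain ⟨e, he⟩ := h2 n
    apply le_antisymm
    · refine sup_le le_sup_left ?_
      rw [Ideal.span_singleton_le_iff_mem]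
      have : d n = algebraMap A C (η n) - algebraMap A C (ϖ n) * e := by rw [← he]; ring
      rw [this]
      exact Ideal.sub_mem _ (Ideal.mem_sup_right (Ideal.mem_span_singleton_self _))
        (Ideal.mem_sup_left (Ideal.mul_mem_right _ _ (Ideal.mem_span_singleton_self _)))
    · refine sup_le le_sup_left ?_
      rw [Ideal.span_singleton_le_iff_mem]
      have : algebraMap A C (η n) = d n + algebraMap A C (ϖ n) * e := by rw [← he]; ring
      rw [this]
      exact Ideal.add_mem _ (Ideal.mem_sup_right (Ideal.mem_span_singleton_self _))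
        (Ideal.mem_sup_left (Ideal.mul_mem_right _ _ (Ideal.mem_span_singleton_self _)))
  refine null_of_small Λ hc i₀ (fun n => algebraMap A C (ϖ n)) d (fun n => p ^ n) k ?_ ?_ V hV
    hkill
  · intro n
    rw [ht, ← map_pow, hϖ]
  · intro N ε hε
    obtain ⟨n, hn⟩ := hsmall D hD η hη k N ε hε
    refine ⟨n, le_trans ?_ hn⟩
    gcongr
    · have := hval N (J t N ⊔ Ideal.span {ϖ n}) le_sup_left
      rwa [Ideal.map_sup, J_map, Ideal.map_span, Set.image_singleton] at this
    · have := hval N (J t N ⊔ Ideal.span {ϖ n} ⊔ Ideal.span {η n}) (le_sup_left.trans le_sup_left)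
      rw [Ideal.map_sup, Ideal.map_sup, J_map, Ideal.map_span, Set.image_singleton,
        Ideal.map_span, Set.image_singleton, sup_assoc, ← h5, ← sup_assoc] at this
      exact this

end dom

end Crest.Agent.R188.LenNull
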