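import Mathlib
import Crest.Agent.R188.LenW2
import Crest.Agent.R188.LenNull2
import Crest.Agent.R188.Frb3
import Crest.Agent.R188.Wit2
import Crest.Agent.R188.KosF

-- ▼ part R188/LenWorld1
section

set_option autoImplicit false
set_option linter.unusedSectionVars false

namespace Crest.Agent.R188.LenWorld

open WittVector Crest.Agent.R183 Crest.Agent.R188.Prf Crest.Agent.R188.Wit
open Crest.Agent.R188.LenW Crest.Agent.R188.Tow
open scoped ENNReal

universe u

/-! ### continuity -/

/-- continuity from continuity on torsion modules. -/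
theorem cont_of_contOn {C : Type u} [CommRing C] {κ : Type*} {t : κ → C} (Λ : AddLen.{u, u} C)
    (hc : ContOn Λ t)
    (htop : ∀ (M : Type u) [AddCommGroup M] [Module C M], ¬ Tors t M → Λ.L M = ⊤) : Cont Λ := by
  intro M _ _ c h
  by_cases hM : Tors t M
  · rw [hc.eq_iSup hM]
    exact iSup_le fun E => h _ ⟨E, rfl⟩
  · by_cases hcT : c = ⊤
    · rw [hcT]; exact le_top
    · exfalso
      apply hM
      intro x i
      by_contra hx
      have h1 : ¬ Tors t (Submodule.span C {x}) := by
        intro hT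
        obtain ⟨n, hn⟩ := hT ⟨x, Submodule.mem_span_singleton_self x⟩ i
        exact hx ⟨n, congrArg Subtype.val hn⟩
      have h2 := h (Submodule.span C {x}) ⟨{x}, by simp⟩
      rw [htop _ h1, top_le_iff] at h2
      exact hcT h2

/-! ### the reduction `Ω → P/π` -/

section red

variable {p : ℕ} [hp : Fact p.Prime] {P : Type u} [CommRing P]

lemma constantCoeff_surjective : Function.Surjective (constantCoeff (p := p) (R := P)) := by
  intro a
  exact ⟨teichmuller p a, by simp [constantCoeff]⟩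

variable (h : IsPerf p P) {ξ : WittVector p P} {π : P} (hξ : IsDist ξ π)

include h in
lemma constantCoeff_xi (hξ : IsDist ξ π) : constantCoeff ξ = π := by
  obtain ⟨u, -, rfl⟩ := hξ.ex
  rw [map_add, map_mul, map_natCast, h.p_zero, zero_mul, add_zero]
  simp [constantCoeff]

/-- the reduction `Ω = W(P)/ξ → P/π`. -/
noncomputable def red : Om ξ →+* P ⧸ Ideal.span {π} :=
  Ideal.Quotient.lift (Ideal.span {ξ})
    ((Ideal.Quotient.mk (Ideal.span {π})).comp (constantCoeff (p := p))) (by
      intro a ha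
      obtain ⟨b, rfl⟩ := Ideal.mem_span_singleton'.1 ha
      rw [RingHom.comp_apply, map_mul, constantCoeff_xi h hξ, Ideal.Quotient.eq_zero_iff_mem]
      exact Ideal.mul_mem_left _ _ (Ideal.mem_span_singleton_self π))

lemma red_θ (w : WittVector p P) :
    red h hξ (θ ξ w) = Ideal.Quotient.mk (Ideal.span {π}) (constantCoeff w) := rfl


lemma red_sh (a : P) : red h hξ (sh ξ a) = Ideal.Quotient.mk (Ideal.span {π}) a := by
  rw [sh, red_θ]
  simp [constantCoeff]

lemma red_surjective : Function.Surjective (red h hξ) := by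
  intro x
  obtain ⟨a, rfl⟩ := Ideal.Quotient.mk_surjective x
  exact ⟨sh ξ a, red_sh h hξ a⟩

lemma red_p : red h hξ (p : Om ξ) = 0 := by
  rw [map_natCast, ← map_natCast (Ideal.Quotient.mk (Ideal.span {π})), h.p_zero, map_zero]

lemma ker_red (x : Om ξ) : red h hξ x = 0 ↔ (p : Om ξ) ∣ x := by
  constructor
  · intro hx
    obtain ⟨w, rfl⟩ := θ_surjective ξ x
    rw [red_θ, Ideal.Quotient.eq_zero_iff_mem] at hx
    obtain ⟨a, ha⟩ := Ideal.mem_span_singleton'.1 hx
    obtain ⟨w', hw'⟩ := exists_eq_teich_add h w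
    have h0 : w.coeff 0 = a * π := by rw [ha]; simp [constantCoeff]
    obtain ⟨e, -, he⟩ := exists_unit hξ
    obtain ⟨u, hu, hxi⟩ := hξ.ex
    have h1 : θ ξ (teichmuller p π) = -(p : Om ξ) * θ ξ u := by
      have h2 : θ ξ (teichmuller p π + (p : WittVector p P) * u) = 0 := by
        rw [← hxi]; exact θ_xi ξ
      rw [map_add, map_mul, map_natCast] at h2
      linear_combination h2
    rw [hw', h0, map_add, map_mul, map_mul, map_mul, map_natCast, h1]
    exact ⟨-(θ ξ (teichmuller p a)) * θ ξ u + θ ξ w', by ring⟩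
  · rintro ⟨y, rfl⟩
    rw [map_mul, red_p, zero_mul]

end red

/-! ### Frobenius -/

section frob

variable {p : ℕ} [hp : Fact p.Prime] {P : Type u} [CommRing P] (h : IsPerf p P)

/-- the Frobenius automorphism of a perfect ring -/
noncomputable def frobE : P ≃+* P :=
  RingEquiv.ofBijective
    ({ toFun := fun x => x ^ p
       map_one' := one_pow _
       map_mul' := fun x y => mul_pow x y p
       map_zero' := zero_pow hp.out.ne_zero
       map_add' := fun x y => add_pow_p h.p_zero x y } : P →+* P)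
    ⟨fun _ _ hxy => h.pow_inj hxy, fun x => h.surj x⟩

lemma frobE_apply (c : P) : frobE h c = c ^ p := rfl

/-- 453's twisted maps give `FrobS` for the restriction to a ring of characteristic `p`. -/
theorem frobS_of_tw {R : Type u} [CommRing R] (Λ : AddLen.{u, u} R) (κ : ℝ≥0∞)
    (hΛ : ∀ (V V' : Type u) [AddCommGroup V] [Module R V] [AddCommGroup V'] [Module R V']
      (φ : V ≃+ V'), Frb.Tw p (C := R) φ → Λ.L V' = κ * Λ.L V)
    {S : Type u} [CommRing S] (f : R →+* S) (hS : (p : S) = 0) : FrobS (Λ.restrict f) p κ := by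
  intro Y Y' _ _ _ _ e he
  let _ : Module R Y := Module.compHom Y f
  let _ : Module R Y' := Module.compHom Y' f
  rw [Λ.restrict_L f Y (fun _ _ => rfl), Λ.restrict_L f Y' (fun _ _ => rfl)]
  refine (hΛ Y' Y e.symm ⟨fun a x => ?_, fun y => ?_⟩).symm
  · change e.symm (f a • x) = f (a ^ p) • e.symm x
    rw [AddEquiv.symm_apply_eq, map_pow, ← he, e.apply_symm_apply]
  · change f (p : R) • y = 0
    rw [map_natCast, hS, zero_smul]

end frob

/-! ### the length on `W(P)`-modules -/

section main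

variable {p : ℕ} [hp : Fact p.Prime] {P : Type u} [CommRing P] (h : IsPerf p P)
  {ξ : WittVector p P} {π : P} (hξ : IsDist ξ π)
  {R : Type u} [CommRing R] (j : R →+* Om ξ) (Λ : AddLen.{u, u} R)

/-- the length on `P/π`-modules -/
noncomputable def L0 : AddLen.{u, u} (P ⧸ Ideal.span {π}) := Λ.restrict ((red h hξ).comp j)

/-- the length on `P`-modules -/
noncomputable def LPf : AddLen.{u, u} P :=
  extf (Ideal.Quotient.mk (Ideal.span {π})) Ideal.Quotient.mk_surjective (L0 h hξ j Λ)

/-- **the length on `W(P)`-modules** -/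
noncomputable def LW : AddLen.{u, u} (WittVector p P) :=
  extf (constantCoeff (p := p)) constantCoeff_surjective (LPf h hξ j Λ)

theorem cont_LW (hc : Cont Λ) : Cont (LW h hξ j Λ) :=
  extf_cont _ _ _ (extf_cont _ _ _ (cont_restrict Λ hc _))

/-- on `P`-modules -/
theorem LW_restrict_L (Y : Type u) [AddCommGroup Y] [Module P Y] :
    ((LW h hξ j Λ).restrict (constantCoeff (p := p))).L Y = (LPf h hξ j Λ).L Y := by
  let _ : Module (WittVector p P) Y := Module.compHom Y (constantCoeff (p := p))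
  rw [AddLen.restrict_L _ _ Y (fun _ _ => rfl)]
  exact extf_L _ _ _ Y (fun _ _ => rfl)

theorem frob_LPf (κ : ℝ≥0∞) (hκ0 : κ ≠ 0) (hκ : κ ≠ ⊤)
    (hΛ : ∀ (V V' : Type u) [AddCommGroup V] [Module R V] [AddCommGroup V'] [Module R V']
      (φ : V ≃+ V'), Frb.Tw p (C := R) φ → Λ.L V' = κ * Λ.L V) : FrobS (LPf h hξ j Λ) p κ := by
  refine FrobS.extf hκ0 hκ hp.out.pos (frobE h) (frobE_apply h) _ _ π ?_ ?_
  · exact Ideal.mk_ker
  · refine frobS_of_tw Λ κ hΛ _ ?_
    rw [← map_natCast (Ideal.Quotient.mk (Ideal.span {π})), h.p_zero, map_zero]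

/-- **World.frob** -/
theorem frob_LW (κ : ℝ≥0∞) (hκ0 : κ ≠ 0) (hκ : κ ≠ ⊤)
    (hΛ : ∀ (V V' : Type u) [AddCommGroup V] [Module R V] [AddCommGroup V'] [Module R V']
      (φ : V ≃+ V'), Frb.Tw p (C := R) φ → Λ.L V' = κ * Λ.L V)
    (Y Y' : Type u) [AddCommGroup Y] [Module P Y] [AddCommGroup Y'] [Module P Y'] (e : Y ≃+ Y')
    (he : ∀ (a : P) (y : Y), e (a • y) = a ^ p • e y) :
    ((LW h hξ j Λ).restrict (constantCoeff (p := p))).L Y' =
      κ * ((LW h hξ j Λ).restrict (constantCoeff (p := p))).L Y := by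
  rw [LW_restrict_L, LW_restrict_L]
  refine (frob_LPf h hξ j Λ κ hκ0 hκ hΛ Y' Y e.symm fun c y => ?_).symm
  rw [AddEquiv.eq_symm_apply, he, e.apply_symm_apply]

/-- on `P/π`-modules -/
theorem LW_L_of_red (X : Type u) [AddCommGroup X] [Module (WittVector p P) X]
    [Module (P ⧸ Ideal.span {π}) X]
    (hX : ∀ (w : WittVector p P) (x : X), w • x = Ideal.Quotient.mk (Ideal.span {π})
      (constantCoeff w) • x) : (LW h hξ j Λ).L X = (L0 h hξ j Λ).L X := by
  let _ : Module P X := Module.compHom X (Ideal.Quotient.mk (Ideal.span {π}))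
  rw [LW, extf_L _ _ _ X (fun w x => hX w x), LPf]
  exact extf_L _ _ _ X (fun _ _ => rfl)


end main

end Crest.Agent.R188.LenWorld
end

-- ▼ part R188/LenWorld2
section

set_option autoImplicit false
set_option linter.unusedSectionVars false

namespace Crest.Agent.R188.LenWorld

open WittVector Crest.Agent.R183 Crest.Agent.R188.Prf Crest.Agent.R188.Wit
open Crest.Agent.R188.LenW Crest.Agent.R188.Tow
open scoped ENNReal

universe u v

section null

variable {p : ℕ} [hp : Fact p.Prime] {P : Type u} [CommRing P] (h : IsPerf p P)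
  {ξ : WittVector p P} {π : P} (hξ : IsDist ξ π)
  {R : Type u} [CommRing R] (j : R →+* Om ξ) (Λ : AddLen.{u, u} R)
  {κ : Type*} (t : κ → P) (tR : κ → R) (htR : ∀ i, sh ξ (t i) = j (tR i))

include h in
/-- the kernel of `W(P) → P/π` is `(p, [π])`. -/
lemma ker_le : RingHom.ker ((Ideal.Quotient.mk (Ideal.span {π})).comp
    (constantCoeff (p := p) (R := P))) ≤
      Ideal.span {(p : WittVector p P)} ⊔ Ideal.span {teichmuller p π} := by
  intro w hw
  rw [RingHom.mem_ker, RingHom.comp_apply, Ideal.Quotient.eq_zero_iff_mem] at hw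
  obtain ⟨a, ha⟩ := Ideal.mem_span_singleton'.1 hw
  obtain ⟨w', hw'⟩ := exists_eq_teich_add h w
  have h0 : w.coeff 0 = a * π := by rw [ha]; simp [constantCoeff]
  rw [hw', h0, map_mul]
  exact Ideal.add_mem _ (Ideal.mem_sup_right (Ideal.mul_mem_left _ _
    (Ideal.mem_span_singleton_self _))) (Ideal.mem_sup_left (Ideal.mul_mem_right _ _
    (Ideal.mem_span_singleton_self _)))

include htR in
/-- modules killed by a power of `(p, [π])`. -/
theorem null_of_pow (a : P) (r : ℕ → R) (har : ∀ n, sh ξ (h.rtn n a) = j (r n))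
    (hnull : ∀ (V : Type u) [AddCommGroup V] [Module R V], Tors tR V →
      (∀ (n : ℕ) (x : V), r n • x = 0) → Λ.L V = 0) (M : ℕ)
    (X : Type u) [AddCommGroup X] [Module (WittVector p P) X]
    (hX : ∀ (x : X) (i : κ), ∃ N : ℕ, teichmuller p (t i) ^ N • x = 0)
    (hkill : ∀ (n : ℕ) (x : X), teichmuller p (h.rtn n a) • x = 0)
    (hM : ∀ w ∈ RingHom.ker ((Ideal.Quotient.mk (Ideal.span {π})).comp
      (constantCoeff (p := p) (R := P))) ^ M, ∀ x : X, w • x = 0) :
    (LW h hξ j Λ).L X = 0 := by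
  set g := (Ideal.Quotient.mk (Ideal.span {π})).comp (constantCoeff (p := p) (R := P)) with hg
  have hgs : Function.Surjective g := Ideal.Quotient.mk_surjective.comp constantCoeff_surjective
  induction M generalizing X with
  | zero =>
    have : Subsingleton X := subsingleton_of_forall_eq 0 fun x => by
      simpa using hM 1 (by simp) x
    exact AddLen.L_subsingleton _
  | succ M ih =>
    rw [(LW h hξ j Λ).L_eq_add_quotient (RingHom.ker g • (⊤ : Submodule (WittVector p P) X))]
    rw [ih (RingHom.ker g • (⊤ : Submodule (WittVector p P) X) : Submodule (WittVector p P) X)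
      ?_ ?_ ?_, zero_add]
    · -- the quotient
      set Q := X ⧸ (RingHom.ker g • (⊤ : Submodule (WittVector p P) X)) with hQ
      have hQk : ∀ w ∈ RingHom.ker g, ∀ x : Q, w • x = 0 := by
        intro w hw x
        obtain ⟨x, rfl⟩ := Submodule.Quotient.mk_surjective _ x
        rw [← Submodule.Quotient.mk_smul, Submodule.Quotient.mk_eq_zero]
        exact Submodule.smul_mem_smul hw trivial
      obtain ⟨_, h0⟩ := exists_module g hgs Q hQk
      rw [LW_L_of_red h hξ j Λ Q h0, L0]
      let _ : Module R Q := Module.compHom Q ((red h hξ).comp j)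
      rw [Λ.restrict_L _ Q (fun _ _ => rfl)]
      have hact : ∀ (b : R) (c : P) (x : Q), sh ξ c = j b → b • x = teichmuller p c • x := by
        intro b c x hbc
        have h1 : b • x = red h hξ (j b) • x := rfl
        rw [h1, ← hbc, red_sh, h0]
        congr 1
      refine hnull Q ?_ ?_
      · intro x i
        obtain ⟨x, rfl⟩ := Submodule.Quotient.mk_surjective _ x
        obtain ⟨N, hN⟩ := hX x i
        refine ⟨N, ?_⟩
        have h2 : tR i ^ N • (Submodule.Quotient.mk x : Q) =
            teichmuller p (t i ^ N) • (Submodule.Quotient.mk x : Q) :=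
          hact _ _ _ (by rw [sh_pow, htR, map_pow])
        rw [h2, map_pow, ← Submodule.Quotient.mk_smul, hN, Submodule.Quotient.mk_zero]
      · intro n x
        obtain ⟨x, rfl⟩ := Submodule.Quotient.mk_surjective _ x
        have h2 : r n • (Submodule.Quotient.mk x : Q) =
            teichmuller p (h.rtn n a) • (Submodule.Quotient.mk x : Q) := hact _ _ _ (har n)
        rw [h2, ← Submodule.Quotient.mk_smul, hkill, Submodule.Quotient.mk_zero]
    · rintro ⟨x, hx⟩ i
      obtain ⟨N, hN⟩ := hX x i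
      exact ⟨N, Subtype.ext hN⟩
    · rintro n ⟨x, hx⟩
      exact Subtype.ext (hkill n x)
    · intro w hw x
      obtain ⟨x, hx⟩ := x
      apply Subtype.ext
      change w • x = 0
      refine Submodule.smul_induction_on hx ?_ ?_
      · intro b hb y _
        rw [smul_smul]
        exact hM _ (by rw [pow_succ]; exact Ideal.mul_mem_mul hw hb) y
      · intro y z hy hz
        rw [smul_add, hy, hz, add_zero]

include htR in
/-- **World.null** -/
theorem null_LW (hc : Cont Λ) (i₀ : κ) (hi₀ : t i₀ ∣ π) (a : P) (r : ℕ → R)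
    (har : ∀ n, sh ξ (h.rtn n a) = j (r n))
    (hnull : ∀ (V : Type u) [AddCommGroup V] [Module R V], Tors tR V →
      (∀ (n : ℕ) (x : V), r n • x = 0) → Λ.L V = 0)
    (X : Type u) [AddCommGroup X] [Module (WittVector p P) X]
    (hX : ∀ x : X, ∃ N : ℕ, (p : WittVector p P) ^ N • x = 0 ∧
      ∀ i, teichmuller p (t i) ^ N • x = 0)
    (hkill : ∀ (n : ℕ) (x : X), teichmuller p (h.rtn n a) • x = 0) :
    (LW h hξ j Λ).L X = 0 := by
  rw [← le_zero_iff]
  refine cont_LW h hξ j Λ hc X 0 fun E hE => ?_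
  rw [le_zero_iff]
  have hpt : ∀ x : X, ∃ n, ∀ w ∈ RingHom.ker ((Ideal.Quotient.mk (Ideal.span {π})).comp
      (constantCoeff (p := p) (R := P))) ^ n, w • x = 0 := by
    intro x
    obtain ⟨N, hN, hN'⟩ := hX x
    refine ⟨N + N, fun w hw => ?_⟩
    have h1 : w ∈ Ideal.span {(p : WittVector p P)} ^ N ⊔ Ideal.span {teichmuller p π} ^ N :=
      Ideal.sup_pow_add_le_pow_sup_pow (Ideal.pow_right_mono (ker_le h) _ hw)
    rw [Ideal.span_singleton_pow, Ideal.span_singleton_pow] at h1
    obtain ⟨w1, hw1, w2, hw2, rfl⟩ := Submodule.mem_sup.1 h1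
    obtain ⟨c1, rfl⟩ := Ideal.mem_span_singleton'.1 hw1
    obtain ⟨c2, rfl⟩ := Ideal.mem_span_singleton'.1 hw2
    obtain ⟨e, he⟩ := hi₀
    rw [add_smul, mul_smul, hN, smul_zero, zero_add, he, map_mul, mul_pow, mul_smul,
      mul_comm (teichmuller p (t i₀) ^ N), mul_smul, hN', smul_zero, smul_zero]
  obtain ⟨M, hM⟩ := kill_of_fg _ hpt E hE
  refine null_of_pow h hξ j Λ t tR htR a r har hnull M E ?_ ?_ hM
  · rintro ⟨x, hx⟩ i
    obtain ⟨N, -, hN⟩ := hX x
    exact ⟨N, Subtype.ext (hN i)⟩
  · rintro n ⟨x, hx⟩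
    exact Subtype.ext (hkill n x)

variable (hj1 : ∀ x : Om ξ, ∃ a, (p : Om ξ) ∣ x - j a)
  (hj2 : ∀ a, (p : Om ξ) ∣ j a → (p : R) ∣ a)

include hj1 in
lemma redj_surjective : Function.Surjective ((red h hξ).comp j) := by
  intro x
  obtain ⟨y, rfl⟩ := red_surjective h hξ x
  obtain ⟨a, ha⟩ := hj1 y
  refine ⟨a, ?_⟩
  rw [RingHom.comp_apply, eq_comm, ← sub_eq_zero, ← map_sub, ker_red]
  exact ha

include hj2 in
lemma redj_ker : RingHom.ker ((red h hξ).comp j) = Ideal.span {(p : R)} := by
  ext a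
  rw [RingHom.mem_ker, RingHom.comp_apply, ker_red, Ideal.mem_span_singleton]
  refine ⟨hj2 a, ?_⟩
  rintro ⟨b, rfl⟩
  rw [map_mul, map_natCast]
  exact dvd_mul_right _ _

include htR hj1 hj2 in
/-- **the value on `P/(t)`** -/
theorem LW_quot (i₀ : κ) (hi₀ : t i₀ ∣ π) (hp₀ : tR i₀ ∣ (p : R)) :
    ((LW h hξ j Λ).restrict (constantCoeff (p := p))).L (P ⧸ Ideal.span (Set.range t)) =
      Λ.L (R ⧸ Ideal.span (Set.range tR)) := by
  rw [LW_restrict_L]
  set J := Ideal.span (Set.range t) with hJ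
  set fj := (red h hξ).comp j with hfj
  have hle : Ideal.span {π} ≤ J := by
    rw [Ideal.span_singleton_le_iff_mem]
    obtain ⟨e, he⟩ := hi₀
    rw [he]
    exact Ideal.mul_mem_right _ _ (Ideal.subset_span ⟨i₀, rfl⟩)
  let fac : P ⧸ Ideal.span {π} →+* P ⧸ J := Ideal.Quotient.factor hle
  let _ : Module (P ⧸ Ideal.span {π}) (P ⧸ J) := Module.compHom _ fac
  have e1 : (LPf h hξ j Λ).L (P ⧸ J) = (L0 h hξ j Λ).L (P ⧸ J) :=
    extf_L _ _ _ _ (fun a x => by
      obtain ⟨x, rfl⟩ := Ideal.Quotient.mk_surjective x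
      rfl)
  rw [e1, L0]
  let _ : Module R (P ⧸ J) := Module.compHom _ fj
  rw [Λ.restrict_L _ (P ⧸ J) (fun _ _ => rfl)]
  let g : R →+* P ⧸ J := fac.comp fj
  have hgs : Function.Surjective g :=
    (Ideal.Quotient.factor_surjective hle).comp (redj_surjective h hξ j hj1)
  have hker : RingHom.ker g = Ideal.span (Set.range tR) := by
    have h1 : RingHom.ker g = Ideal.comap fj (RingHom.ker fac) := RingHom.comap_ker _ _ |>.symm
    have h2 : RingHom.ker fac = (Ideal.span (Set.range tR)).map fj := by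
      rw [Ideal.Quotient.factor_ker, hJ, Ideal.map_span, Ideal.map_span, ← Set.range_comp,
        ← Set.range_comp]
      congr 2
      funext i
      simp only [Function.comp_apply]
      rw [hfj, RingHom.comp_apply, ← htR, red_sh]
    rw [h1, h2, Ideal.comap_map_of_surjective _ (redj_surjective h hξ j hj1)]
    have h3 : Ideal.comap fj ⊥ = Ideal.span {(p : R)} := redj_ker h hξ j hj2
    rw [h3]
    refine sup_eq_left.2 ?_
    rw [Ideal.span_singleton_le_iff_mem]
    obtain ⟨e, he⟩ := hp₀
    rw [he]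
    exact Ideal.mul_mem_right _ _ (Ideal.subset_span ⟨i₀, rfl⟩)
  refine (Λ.L_congr (M := R ⧸ Ideal.span (Set.range tR)) (N := P ⧸ J) ?_).symm
  let gl : R →ₗ[R] (P ⧸ J) :=
    { toFun := g
      map_add' := map_add g
      map_smul' := fun a x => by
        change g (a * x) = a • g x
        rw [map_mul]
        obtain ⟨y, hy⟩ := Ideal.Quotient.mk_surjective (g x)
        rw [← hy]
        rfl }
  have hkl : LinearMap.ker gl = Ideal.span (Set.range tR) := by
    rw [← hker]; ext x; rfl
  exact (Submodule.quotEquivOfEq _ _ hkl.symm).trans (gl.quotKerEquivOfSurjective hgs)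

end null

end Crest.Agent.R188.LenWorld
end

-- ▼ part R188/LenWorld3

set_option autoImplicit false
set_option linter.unusedSectionVars false

namespace Crest.Agent.R188.LenWorld

open WittVector Crest.Agent.R183 Crest.Agent.R188.Prf Crest.Agent.R188.Wit
open Crest.Agent.R188.LenW Crest.Agent.R188.Tow Crest.Agent.R188.KosG
open scoped ENNReal

universe u v

/-! ### Koszul lengths under change of rings -/

section change

variable {A : Type u} {B : Type u} [CommRing A] [CommRing B] (f : A →+* B)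

/-- a complex over `A` and a complex over `B` with the same underlying groups. -/
structure GSim (K : GCx.{u, v} A) (K' : GCx.{u, v} B) where
  /-- the underlying equivalence -/
  e : K.T ≃+ K'.T
  smul : ∀ (a : A) (x : K.T), e (a • x) = f a • e x
  gr : ∀ (i : ℤ) (x : K.T), e x ∈ K'.gr i ↔ x ∈ K.gr i
  comm : ∀ x : K.T, e (K.D x) = K'.D (e x)

variable {f} {K : GCx.{u, v} A} {K' : GCx.{u, v} B}

/-- cones -/
def GSim.cone (S : GSim f K K') (a : A) : GSim f (GCx.cone a K) (GCx.cone (f a) K') where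
  e := S.e.prodCongr S.e
  smul := by
    rintro a ⟨x, y⟩
    exact Prod.ext (S.smul a x) (S.smul a y)
  gr := by
    rintro i ⟨x, y⟩
    change (S.e x ∈ K'.gr i ∧ S.e y ∈ K'.gr (i - 1)) ↔ (x ∈ K.gr i ∧ y ∈ K.gr (i - 1))
    rw [S.gr, S.gr]
  comm := by
    rintro ⟨x, y⟩
    refine Prod.ext ?_ ?_
    · change S.e (K.D x + a • y) = K'.D (S.e x) + f a • S.e y
      rw [map_add, S.comm, S.smul]
    · change S.e (-(K.D y)) = -(K'.D (S.e y))
      rw [map_neg, S.comm]

/-- iterated cones -/
def GSim.cones (S : GSim f K K') : (l : List A) → GSim f (KosG.cones l K) (KosG.cones (l.map f) K')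
  | [] => S
  | (a :: l) => (S.cones l).cone a

/-- lengths of the homology -/
theorem GSim.h_eq (S : GSim f K K') (Λ : AddLen.{u, v} A) (Λ' : AddLen.{u, v} B)
    (hΛ : ∀ (X X' : Type v) [AddCommGroup X] [Module A X] [AddCommGroup X'] [Module B X']
      (e : X ≃+ X'), (∀ (a : A) (x : X), e (a • x) = f a • e x) → Λ.L X = Λ'.L X') (i : ℤ) :
    K.h Λ i = K'.h Λ' i := by
  have hB : ∀ x : K.T, S.e x ∈ K'.B i ↔ x ∈ K.B i := by
    intro x
    rw [GCx.mem_B, GCx.mem_B]
    constructor
    · rintro ⟨y, hy, hyx⟩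
      obtain ⟨y, rfl⟩ := S.e.surjective y
      refine ⟨y, (S.gr _ _).1 hy, S.e.injective ?_⟩
      rw [S.comm, hyx]
    · rintro ⟨y, hy, rfl⟩
      exact ⟨S.e y, (S.gr _ _).2 hy, (S.comm y).symm⟩
  have hZ : ∀ x : K.T, S.e x ∈ K'.Z i ↔ x ∈ K.Z i := by
    intro x
    rw [GCx.mem_Z, GCx.mem_Z, S.gr, ← S.comm]
    rw [map_eq_zero_iff S.e S.e.injective]
  -- the equivalence on homology
  let φ0 : K.Z i →+ K'.H i :=
    { toFun := fun z => K'.cls i ⟨S.e z.1, (hZ _).2 z.2⟩
      map_zero' := by
        have : (⟨S.e ((0 : K.Z i) : K.T), (hZ _).2 (0 : K.Z i).2⟩ : K'.Z i) = 0 :=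
          Subtype.ext (map_zero S.e)
        rw [this, map_zero]
      map_add' := fun z w => by
        rw [← map_add]
        congr 1
        exact Subtype.ext (map_add S.e _ _) }
  have hφ0 : ∀ z : K.Z i, φ0 z = 0 ↔ (z : K.T) ∈ K.B i := by
    intro z
    change K'.cls i ⟨S.e z.1, (hZ _).2 z.2⟩ = 0 ↔ _
    rw [GCx.cls_eq_zero]
    exact hB _
  have hs : ∀ y : K'.H i, ∃ z : K.Z i, φ0 z = y := by
    intro y
    obtain ⟨⟨y, hy⟩, rfl⟩ := K'.cls_surj i y
    obtain ⟨x, rfl⟩ := S.e.surjective y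
    exact ⟨⟨x, (hZ x).1 hy⟩, rfl⟩
  have hwd : ∀ z w : K.Z i, K.cls i z = K.cls i w → φ0 z = φ0 w := by
    intro z w hzw
    rw [← sub_eq_zero, ← map_sub, hφ0]
    exact (GCx.cls_eq_iff K).1 hzw
  let rep : K.H i → K.Z i := Function.surjInv (K.cls_surj i)
  have hrep : ∀ x, K.cls i (rep x) = x := Function.surjInv_eq (K.cls_surj i)
  have hcls : ∀ z : K.Z i, φ0 (rep (K.cls i z)) = φ0 z := fun z => hwd _ _ (hrep _)
  let ψ : K.H i →+ K'.H i :=
    { toFun := fun x => φ0 (rep x)
      map_zero' := by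
        have := hcls 0
        rw [map_zero] at this
        rw [this, map_zero]
      map_add' := fun x y => by
        obtain ⟨z, rfl⟩ := K.cls_surj i x
        obtain ⟨w, rfl⟩ := K.cls_surj i y
        rw [← map_add, hcls, hcls, hcls, map_add] }
  have hψ : ∀ z, ψ (K.cls i z) = φ0 z := hcls
  have hbij : Function.Bijective ψ := by
    constructor
    · intro x y hxy
      obtain ⟨z, rfl⟩ := K.cls_surj i x
      obtain ⟨w, rfl⟩ := K.cls_surj i y
      rw [hψ, hψ, ← sub_eq_zero, ← map_sub, hφ0] at hxy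
      exact (GCx.cls_eq_iff K).2 hxy
    · intro y
      obtain ⟨z, rfl⟩ := hs y
      exact ⟨K.cls i z, hψ z⟩
  refine hΛ _ _ (AddEquiv.ofBijective ψ hbij) fun a x => ?_
  obtain ⟨z, rfl⟩ := K.cls_surj i x
  rw [AddEquiv.ofBijective_apply, AddEquiv.ofBijective_apply, ← map_smul, hψ, hψ]
  change K'.cls i _ = f a • K'.cls i _
  rw [← map_smul]
  congr 1
  exact Subtype.ext (S.smul a z.1)

/-- the module in degree `0` -/
def GSim.one (C C' : Type v) [AddCommGroup C] [Module A C] [AddCommGroup C'] [Module B C']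
    (e : C ≃+ C') (he : ∀ (a : A) (x : C), e (a • x) = f a • e x) :
    GSim f (KosG.one A C) (KosG.one B C') where
  e := e
  smul := he
  gr := by
    have key : ∀ (i : ℤ) (x : C), e x ∈ (if i = 0 then (⊤ : Submodule B C') else ⊥) ↔
        x ∈ (if i = 0 then (⊤ : Submodule A C) else ⊥) := by
      intro i x
      by_cases hi : i = 0
      · rw [if_pos hi, if_pos hi]; exact ⟨fun _ => trivial, fun _ => trivial⟩
      · rw [if_neg hi, if_neg hi, Submodule.mem_bot, Submodule.mem_bot]
        exact map_eq_zero_iff e e.injective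
    exact key
  comm := fun x => by
    change e 0 = 0
    exact map_zero e

/-- **Koszul lengths under change of rings** -/
theorem kh_change (Λ : AddLen.{u, v} A) (Λ' : AddLen.{u, v} B)
    (hΛ : ∀ (X X' : Type v) [AddCommGroup X] [Module A X] [AddCommGroup X'] [Module B X']
      (e : X ≃+ X'), (∀ (a : A) (x : X), e (a • x) = f a • e x) → Λ.L X = Λ'.L X')
    (C C' : Type v) [AddCommGroup C] [Module A C] [AddCommGroup C'] [Module B C']
    (e : C ≃+ C') (he : ∀ (a : A) (x : C), e (a • x) = f a • e x) (l : List A) (i : ℤ) :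
    kh Λ l C i = kh Λ' (l.map f) C' i :=
  ((GSim.one C C' e he).cones l).h_eq Λ Λ' hΛ i

/-- `kh (b :: l) C = kh l (C/bC)` for `b` regular on `C`. -/
theorem kh_cons_regular (Λ : AddLen.{u, v} A) (b : A) (l : List A) (C C'' : Type v)
    [AddCommGroup C] [Module A C] [AddCommGroup C''] [Module A C''] (g : C →ₗ[A] C'')
    (hg : Function.Surjective g) (hb : ∀ x : C, b • x = 0 → x = 0) (h0 : ∀ x, g (b • x) = 0)
    (hk : ∀ x, g x = 0 → ∃ y, b • y = x) (i : ℤ) : kh Λ (b :: l) C i = kh Λ l C'' i := by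
  let Q : GCx.RegQuot b (KosG.one A C) (KosG.one A C'') :=
    { p :=
        { f := g
          gr := by
            have key : ∀ (i : ℤ) (x : C), x ∈ (if i = 0 then (⊤ : Submodule A C) else ⊥) →
                g x ∈ (if i = 0 then (⊤ : Submodule A C'') else ⊥) := by
              intro i x hx
              by_cases hi : i = 0
              · rw [if_pos hi]; trivial
              · rw [if_neg hi] at hx ⊢
                rw [Submodule.mem_bot] at hx ⊢
                rw [hx, map_zero]
            exact key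
          comm := fun x => map_zero g }
      inj := hb
      zero := h0
      surj := by
        have key : ∀ (n : ℤ) (x : C''), x ∈ (if n = 0 then (⊤ : Submodule A C'') else ⊥) →
            ∃ y : C, y ∈ (if n = 0 then (⊤ : Submodule A C) else ⊥) ∧ g y = x := by
          intro n x hx
          by_cases hn : n = 0
          · obtain ⟨y, hy⟩ := hg x
            exact ⟨y, by rw [if_pos hn]; trivial, hy⟩
          · rw [if_neg hn, Submodule.mem_bot] at hx
            exact ⟨0, Submodule.zero_mem _, by rw [hx, map_zero]⟩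
        exact key
      exact := by
        have key : ∀ (n : ℤ) (x : C), x ∈ (if n = 0 then (⊤ : Submodule A C) else ⊥) → g x = 0 →
            ∃ y : C, y ∈ (if n = 0 then (⊤ : Submodule A C) else ⊥) ∧ b • y = x := by
          intro n x hx hgx
          by_cases hn : n = 0
          · obtain ⟨y, hy⟩ := hk x hgx
            exact ⟨y, by rw [if_pos hn]; trivial, hy⟩
          · rw [if_neg hn, Submodule.mem_bot] at hx
            exact ⟨0, Submodule.zero_mem _, by rw [hx, smul_zero]⟩
        exact key }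
  exact Q.h_cones_cons Λ l i

end change

section reg

variable {p : ℕ} [hp : Fact p.Prime] {P : Type u} [CommRing P] (h : IsPerf p P)
  {ξ : WittVector p P} {π : P} (hξ : IsDist ξ π)
  {R : Type u} [CommRing R] (j : R →+* Om ξ) (Λ : AddLen.{u, u} R)
  {b : ℕ} (t : Fin (b + 1) → P) (tR : Fin (b + 1) → R) (htR : ∀ i, sh ξ (t i) = j (tR i))
  (hj1 : ∀ x : Om ξ, ∃ a, (p : Om ξ) ∣ x - j a)
  (hj2 : ∀ a, (p : Om ξ) ∣ j a → (p : R) ∣ a)

include htR hj1 hj2 in
/-- **World.L_reg**: Koszul lengths over `P` and over `R = A^+`. -/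
theorem kh_LW (h0 : Associated (t 0) π) (hR0 : Associated (tR 0) (p : R))
    (hreg : ∀ x : P, π * x = 0 → x = 0) (hRreg : ∀ x : R, (p : R) * x = 0 → x = 0) (i : ℤ) :
    kh ((LW h hξ j Λ).restrict (constantCoeff (p := p))) (List.ofFn t) P i =
      kh Λ (List.ofFn tR) R i := by
  obtain ⟨u, hu⟩ := h0
  obtain ⟨v, hv⟩ := hR0
  set fj := (red h hξ).comp j with hfj
  let mk : P →+* P ⧸ Ideal.span {π} := Ideal.Quotient.mk _
  -- over `P`
  have e1 : kh ((LW h hξ j Λ).restrict (constantCoeff (p := p))) (List.ofFn t) P i =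
      kh ((LW h hξ j Λ).restrict (constantCoeff (p := p))) (List.ofFn fun i => t (Fin.succ i))
        (P ⧸ Ideal.span {π}) i := by
    rw [List.ofFn_succ]
    refine kh_cons_regular _ (t 0) _ P (P ⧸ Ideal.span {π})
      (Submodule.mkQ (Ideal.span {π})) (Submodule.mkQ_surjective _) ?_ ?_ ?_ i
    · intro x hx
      apply hreg
      rw [← hu, mul_comm (t 0), mul_assoc]
      have : t 0 * x = 0 := hx
      rw [this, mul_zero]
    · intro x
      change Ideal.Quotient.mk (Ideal.span {π}) (t 0 * x) = 0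
      rw [Ideal.Quotient.eq_zero_iff_mem, Ideal.mem_span_singleton]
      refine ⟨((u⁻¹ : Pˣ) : P) * x, ?_⟩
      rw [← hu]
      have : (u : P) * ((u⁻¹ : Pˣ) : P) = 1 := Units.mul_inv u
      linear_combination (-(t 0 * x)) * this
    · intro x hx
      have hx' : Ideal.Quotient.mk (Ideal.span {π}) x = 0 := hx
      rw [Ideal.Quotient.eq_zero_iff_mem, Ideal.mem_span_singleton] at hx'
      obtain ⟨y, rfl⟩ := hx'
      refine ⟨u * y, ?_⟩
      change t 0 * (u * y) = π * y
      rw [← hu]; ring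
  -- over `R`
  let _ : Module R (P ⧸ Ideal.span {π}) := Module.compHom _ fj
  let gl : R →ₗ[R] (P ⧸ Ideal.span {π}) :=
    { toFun := fj
      map_add' := map_add fj
      map_smul' := fun a x => by
        change fj (a * x) = fj a • fj x
        rw [map_mul]; rfl }
  have e2 : kh Λ (List.ofFn tR) R i =
      kh Λ (List.ofFn fun i => tR (Fin.succ i)) (P ⧸ Ideal.span {π}) i := by
    rw [List.ofFn_succ]
    refine kh_cons_regular _ (tR 0) _ R (P ⧸ Ideal.span {π}) gl
      (redj_surjective h hξ j hj1) ?_ ?_ ?_ i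
    · intro x hx
      apply hRreg
      rw [← hv, mul_comm (tR 0), mul_assoc]
      have : tR 0 * x = 0 := hx
      rw [this, mul_zero]
    · intro x
      have h1 : tR 0 * x ∈ RingHom.ker fj := by
        rw [hfj, redj_ker h hξ j hj2, Ideal.mem_span_singleton]
        refine ⟨((v⁻¹ : Rˣ) : R) * x, ?_⟩
        rw [← hv]
        have : (v : R) * ((v⁻¹ : Rˣ) : R) = 1 := Units.mul_inv v
        linear_combination (-(tR 0 * x)) * this
      exact h1
    · intro x hx
      have h1 : x ∈ RingHom.ker fj := hx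
      rw [hfj, redj_ker h hξ j hj2, Ideal.mem_span_singleton] at h1
      obtain ⟨y, rfl⟩ := h1
      refine ⟨v * y, ?_⟩
      change tR 0 * (v * y) = p * y
      rw [← hv]; ring
  rw [e1, e2]
  -- compare both with `P/π`-modules
  have e3 : kh ((LW h hξ j Λ).restrict (constantCoeff (p := p)))
      (List.ofFn fun i => t (Fin.succ i)) (P ⧸ Ideal.span {π}) i =
      kh (L0 h hξ j Λ) ((List.ofFn fun i => t (Fin.succ i)).map mk) (P ⧸ Ideal.span {π}) i := by
    refine kh_change (f := mk) _ _ ?_ _ _ (AddEquiv.refl _) (fun a x => ?_) _ i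
    · intro X X' _ _ _ _ e he
      rw [LW_restrict_L]
      let _ : Module P X' := Module.compHom X' mk
      rw [(LPf h hξ j Λ).L_congr (M := X) (N := X') { e with map_smul' := he }]
      exact extf_L _ _ _ X' (fun _ _ => rfl)
    · obtain ⟨x, rfl⟩ := Ideal.Quotient.mk_surjective x
      rfl
  have e4 : kh Λ (List.ofFn fun i => tR (Fin.succ i)) (P ⧸ Ideal.span {π}) i =
      kh (L0 h hξ j Λ) ((List.ofFn fun i => tR (Fin.succ i)).map fj) (P ⧸ Ideal.span {π}) i := by
    refine kh_change (f := fj) _ _ ?_ _ _ (AddEquiv.refl _) (fun a x => rfl) _ i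
    intro X X' _ _ _ _ e he
    let _ : Module R X' := Module.compHom X' fj
    rw [Λ.L_congr (M := X) (N := X') { e with map_smul' := he }]
    exact (Λ.restrict_L fj X' (fun _ _ => rfl)).symm
  rw [e3, e4]
  congr 1
  rw [List.map_ofFn, List.map_ofFn]
  congr 1
  funext i
  change mk (t i.succ) = (red h hξ) (j (tR i.succ))
  rw [← htR, red_sh]

end reg

end Crest.Agent.R188.LenWorld
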