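import Mathlib
import Crest.Agent.R188.LenWorld3
import Crest.Agent.R188.Tow3
import Crest.Agent.R188.Apl3
import Crest.Agent.R188.Wit2
import Mathlib.RingTheory.Ideal.GoingUp
import Mathlib.RingTheory.Jacobson.Ideal
import Crest.Agent.R188.Asm1
import Crest.Agent.R188.Tow1
import Crest.Agent.R188.LenW1
import Crest.Agent.R183.BInf3b
import Crest.Agent.R183.CoreA
import Crest.Agent.R183.Om3
import Crest.Agent.R188.Frb4
import Crest.Agent.R183.HSLech

-- ▼ part R188/LenWorld4
section

set_option autoImplicit false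
set_option linter.unusedSectionVars false

namespace Crest.Agent.R188.LenWorld

open Crest.Agent.R183 Crest.Agent.R188.LenW Crest.Agent.R188.Tow Crest.Agent.R188.KosG
open scoped ENNReal TensorProduct

universe u v w

section gmap

variable {A B : Type u} [CommRing A] [CommRing B] (f : A →+* B)

/-- injective semilinear chain maps, reflecting degrees. -/
structure GInj (K : GCx.{u, v} A) (K' : GCx.{u, v} B) where
  /-- the map -/
  g : K.T →+ K'.T
  inj : Function.Injective g
  smul : ∀ (a : A) (x : K.T), g (a • x) = f a • g x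
  gr : ∀ (i : ℤ) (x : K.T), g x ∈ K'.gr i ↔ x ∈ K.gr i
  comm : ∀ x : K.T, g (K.D x) = K'.D (g x)

variable {f} {K : GCx.{u, v} A} {K' : GCx.{u, v} B}

/-- cones -/
def GInj.cone (S : GInj f K K') (a : A) (a' : B) (ha : f a = a') :
    GInj f (GCx.cone a K) (GCx.cone a' K') where
  g := S.g.prodMap S.g
  inj := S.inj.prodMap S.inj
  smul := by
    rintro a ⟨x, y⟩
    exact Prod.ext (S.smul a x) (S.smul a y)
  gr := by
    rintro i ⟨x, y⟩
    change (S.g x ∈ K'.gr i ∧ S.g y ∈ K'.gr (i - 1)) ↔ (x ∈ K.gr i ∧ y ∈ K.gr (i - 1))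
    rw [S.gr, S.gr]
  comm := by
    rintro ⟨x, y⟩
    refine Prod.ext ?_ ?_
    · change S.g (K.D x + a • y) = K'.D (S.g x) + a' • S.g y
      rw [map_add, S.comm, S.smul, ha]
    · change S.g (-(K.D y)) = -(K'.D (S.g y))
      rw [map_neg, S.comm]

variable {A₀ : Type u} [CommRing A₀] (φ : A₀ →+* A) (ψ : A₀ →+* B) (hφ : ∀ a, f (φ a) = ψ a)

/-- iterated cones -/
def GInj.cones (S : GInj f K K') (hφ : ∀ a, f (φ a) = ψ a) :
    (l : List A₀) → GInj f (KosG.cones (l.map φ) K) (KosG.cones (l.map ψ) K')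
  | [] => S
  | (a :: l) => (S.cones hφ l).cone (φ a) (ψ a) (hφ a)

/-- the module in degree `0` -/
def GInj.one (C C' : Type v) [AddCommGroup C] [Module A C] [AddCommGroup C'] [Module B C']
    (g : C →+ C') (hg : Function.Injective g) (hs : ∀ (a : A) (x : C), g (a • x) = f a • g x) :
    GInj f (KosG.one A C) (KosG.one B C') where
  g := g
  inj := hg
  smul := hs
  gr := by
    have key : ∀ (i : ℤ) (x : C), g x ∈ (if i = 0 then (⊤ : Submodule B C') else ⊥) ↔
        x ∈ (if i = 0 then (⊤ : Submodule A C) else ⊥) := by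
      intro i x
      by_cases hi : i = 0
      · rw [if_pos hi, if_pos hi]; exact ⟨fun _ => trivial, fun _ => trivial⟩
      · rw [if_neg hi, if_neg hi, Submodule.mem_bot, Submodule.mem_bot]
        exact map_eq_zero_iff g hg
    exact key
  comm := fun x => by
    change g 0 = 0
    exact map_zero g

theorem GInj.mem_Z (S : GInj f K K') {i : ℤ} {x : K.T} : S.g x ∈ K'.Z i ↔ x ∈ K.Z i := by
  rw [GCx.mem_Z, GCx.mem_Z, S.gr, ← S.comm, map_eq_zero_iff S.g S.inj]

theorem GInj.mem_B (S : GInj f K K') {i : ℤ} {x : K.T} (hx : x ∈ K.B i) : S.g x ∈ K'.B i := by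
  rw [GCx.mem_B] at hx ⊢
  obtain ⟨y, hy, rfl⟩ := hx
  exact ⟨S.g y, (S.gr _ _).2 hy, (S.comm y).symm⟩

/-- the map on homology -/
theorem GInj.exists_H (S : GInj f K K') (i : ℤ) : ∃ ψ : K.H i →+ K'.H i,
    (∀ (a : A) (x : K.H i), ψ (a • x) = f a • ψ x) ∧
    ∀ (z : K.Z i), ψ (K.cls i z) = K'.cls i ⟨S.g z.1, S.mem_Z.2 z.2⟩ := by
  let φ0 : K.Z i →+ K'.H i :=
    { toFun := fun z => K'.cls i ⟨S.g z.1, S.mem_Z.2 z.2⟩
      map_zero' := by
        have : (⟨S.g ((0 : K.Z i) : K.T), S.mem_Z.2 (0 : K.Z i).2⟩ : K'.Z i) = 0 :=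
          Subtype.ext (map_zero S.g)
        rw [this, map_zero]
      map_add' := fun z w => by
        rw [← map_add]
        congr 1
        exact Subtype.ext (map_add S.g _ _) }
  have hφ0 : ∀ z : K.Z i, (z : K.T) ∈ K.B i → φ0 z = 0 := by
    intro z hz
    change K'.cls i ⟨S.g z.1, S.mem_Z.2 z.2⟩ = 0
    rw [GCx.cls_eq_zero]
    exact S.mem_B hz
  have hwd : ∀ z w : K.Z i, K.cls i z = K.cls i w → φ0 z = φ0 w := by
    intro z w hzw
    rw [← sub_eq_zero, ← map_sub]
    exact hφ0 _ ((GCx.cls_eq_iff K).1 hzw)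
  let rep : K.H i → K.Z i := Function.surjInv (K.cls_surj i)
  have hrep : ∀ x, K.cls i (rep x) = x := Function.surjInv_eq (K.cls_surj i)
  have hcls : ∀ z : K.Z i, φ0 (rep (K.cls i z)) = φ0 z := fun z => hwd _ _ (hrep _)
  let ψ : K.H i →+ K'.H i :=
    { toFun := fun x => φ0 (rep x)
      map_zero' := by
        have := hcls 0
        rw [map_zero] at this
        rw [this, map_zero]
      map_add' := fun x y => by
        obtain ⟨z, rfl⟩ := K.cls_surj i x
        obtain ⟨w, rfl⟩ := K.cls_surj i y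
        rw [← map_add, hcls, hcls, hcls, map_add] }
  refine ⟨ψ, ?_, hcls⟩
  intro a x
  obtain ⟨z, rfl⟩ := K.cls_surj i x
  rw [← map_smul]
  change φ0 (rep (K.cls i (a • z))) = f a • φ0 (rep (K.cls i z))
  rw [hcls, hcls]
  change K'.cls i _ = f a • K'.cls i _
  rw [← map_smul]
  congr 1
  exact Subtype.ext (S.smul a z.1)

end gmap

section union

variable {A R : Type u} [CommRing A] [CommRing R] [Algebra A R] {I : Type v} [Preorder I]
  [IsDirectedOrder I] [Nonempty I] (S : I → Subalgebra A R)

/-- the inclusion of Koszul complexes -/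
noncomputable def gS (i : I) (l : List A) :
    GInj (f := ((S i).val : S i →+* R)) (KosG.kos (l.map (algebraMap A (S i))) (S i))
      (KosG.kos (l.map (algebraMap A R)) R) :=
  (GInj.one (f := ((S i).val : S i →+* R)) (S i) R
    ((S i).val : S i →+* R).toAddMonoidHom Subtype.val_injective (fun _ _ => rfl)).cones
      (algebraMap A (S i)) (algebraMap A R) (fun _ => rfl) l

theorem union_kos (mono : Monotone S) (hU : ∀ x : R, ∃ i, x ∈ S i) (l : List A) :
    (∀ z : (KosG.kos (l.map (algebraMap A R)) R).T, ∃ i, z ∈ Set.range (gS S i l).g) ∧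
    ∀ i j, i ≤ j → Set.range (gS S i l).g ⊆ Set.range (gS S j l).g := by
  induction l with
  | nil =>
    refine ⟨fun z => ?_, fun i j hij => ?_⟩
    · obtain ⟨i, hi⟩ := hU z
      exact ⟨i, ⟨z, hi⟩, rfl⟩
    · rintro _ ⟨⟨x, hx⟩, rfl⟩
      exact ⟨⟨x, mono hij hx⟩, rfl⟩
  | cons a l ih =>
    obtain ⟨ih1, ih2⟩ := ih
    refine ⟨?_, fun i j hij => ?_⟩
    · rintro ⟨z, w⟩
      obtain ⟨i, hi⟩ := ih1 z
      obtain ⟨j, hj⟩ := ih1 w
      obtain ⟨k, hik, hjk⟩ := exists_ge_ge i j
      obtain ⟨x, hx⟩ := ih2 i k hik hi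
      obtain ⟨y, hy⟩ := ih2 j k hjk hj
      exact ⟨k, (x, y), Prod.ext hx hy⟩
    · rintro _ ⟨⟨x, y⟩, rfl⟩
      obtain ⟨x', hx'⟩ := ih2 i j hij ⟨x, rfl⟩
      obtain ⟨y', hy'⟩ := ih2 i j hij ⟨y, rfl⟩
      exact ⟨(x', y'), Prod.ext hx' hy'⟩

variable {κ : Type w} (D : GalTower A R I κ)

/-- **the Koszul lengths of `R = A^+` vanish if those of the `S i` do.** -/
theorem kh_eq_zero_of_levels (hU : ∀ x : R, ∃ i, x ∈ D.S i) (l : List A)
    (hl : ∀ k, D.t k ∈ l) (n : ℤ) (h : ∀ i, kh D.Λ l (D.S i) n = 0) :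
    kh D.L (l.map (algebraMap A R)) R n = 0 := by
  set K := KosG.kos (l.map (algebraMap A R)) R with hK
  change D.L.L (K.H n) = 0
  -- torsion
  have htors : D.TorsR (K.H n) := by
    intro x k
    refine ⟨1, ?_⟩
    rw [pow_one]
    have h1 : algebraMap A R (D.t k) ∈ K.NHI := by
      have h2 := span_le_NHI R (l.map (algebraMap A R))
      refine h2 (Ideal.mem_sup_left (Ideal.subset_span ?_))
      exact List.mem_map_of_mem (hl k)
    exact GCx.NH.smul_H h1 n x
  refine (D.contOn_L).eq_zero_of_mem htors ?_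
  intro x
  obtain ⟨z, rfl⟩ := K.cls_surj n x
  obtain ⟨i, z', hz'⟩ := (union_kos D.S D.mono hU l).1 z.1
  let Ki : GCx.{u, u} (D.S i) := KosG.kos (l.map (algebraMap A (D.S i))) (D.S i)
  have hz'Z : z' ∈ Ki.Z n := (gS D.S i l).mem_Z.1 (by rw [hz']; exact z.2)
  obtain ⟨ψ, hψ, hψc⟩ := (gS D.S i l).exists_H n
  refine ⟨Submodule.span R (Set.range ψ), ?_, ?_⟩
  · refine Submodule.subset_span ⟨Ki.cls n ⟨z', hz'Z⟩, ?_⟩
    rw [hψc]
    congr 1
    exact Subtype.ext hz'
  · -- the length over `S i`
    let _ : Module A (Ki.H n) := Module.compHom _ (algebraMap A (D.S i))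
    have : IsScalarTower A (D.S i) (Ki.H n) := ⟨fun a b x => by
      rw [Algebra.smul_def, mul_smul]; rfl⟩
    have hnull : D.Λ.L (Ki.H n) = 0 := by
      rw [← h i]
      symm
      have := kh_change (f := algebraMap A (D.S i)) D.Λ (D.Λ.restrict (algebraMap A (D.S i)))
        (fun X X' _ _ _ _ e he => by
          let _ : Module A X' := Module.compHom X' (algebraMap A (D.S i))
          rw [D.Λ.L_congr (M := X) (N := X') { e with map_smul' := he }]
          exact (D.Λ.restrict_L _ X' (fun _ _ => rfl)).symm)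
        (D.S i) (D.S i) (AddEquiv.refl _) (fun a x => Algebra.smul_def a x) l n
      rw [this]
      exact D.Λ.restrict_L _ (Ki.H n) (fun _ _ => rfl)
    have htQ : Tors D.t (Ki.H n) := by
      intro x k
      refine ⟨1, ?_⟩
      rw [pow_one]
      have h1 : algebraMap A (D.S i) (D.t k) ∈ Ki.NHI := by
        have h2 := span_le_NHI (D.S i) (l.map (algebraMap A (D.S i)))
        refine h2 (Ideal.mem_sup_left (Ideal.subset_span ?_))
        exact List.mem_map_of_mem (hl k)
      exact GCx.NH.smul_H h1 n x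
    let ψ' : Ki.H n →+ Submodule.span R (Set.range ψ) :=
      { toFun := fun x => ⟨ψ x, Submodule.subset_span ⟨x, rfl⟩⟩
        map_zero' := Subtype.ext (map_zero ψ)
        map_add' := fun x y => Subtype.ext (map_add ψ x y) }
    have h3 := D.L_le_of_generated hU i (Q := Ki.H n) (M := Submodule.span R (Set.range ψ)) htQ ψ'
      (fun a x => Subtype.ext (hψ a x)) (by
        rw [eq_top_iff]
        rintro ⟨y, hy⟩ -
        induction hy using Submodule.span_induction with
        | mem x hx => obtain ⟨z, rfl⟩ := hx; exact Submodule.subset_span ⟨z, rfl⟩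
        | zero => exact Submodule.zero_mem _
        | add x y hx hy hx' hy' => exact Submodule.add_mem _ hx' hy'
        | smul a x hx hx' => exact Submodule.smul_mem _ a hx')
    rw [hnull, le_zero_iff, mul_eq_zero] at h3
    exact h3.resolve_left (D.n_ne_zero i)

end union

end Crest.Agent.R188.LenWorld
end

-- ▼ part R188/Apl4
section

/-!
R188 / Apl4 : content in the form (FAC); the absolute integral closure `A⁺`; tilt of its completion.
Author: helper245.
-/

set_option autoImplicit false
set_option linter.unusedSectionVars false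

namespace Crest.Agent.R188.Apl

open Crest.Agent.R183 Crest.Agent.R183.Om
open Crest.Agent.R183.Cic (CIC)
open Crest.Agent.R188.Prf (IsPerf)

/-! ### (FAC) -/

section Fac

variable {p : ℕ} [hp : Fact p.Prime] {B R : Type*} [CommRing B] [CommRing R] {j : B →+* R}
  {ϖ : ℕ → R} {S : ℕ → Subring R}

lemma hsep_of_complete (hA : IsAdicComplete (Ideal.span {(p : R)}) R) :
    ∀ x : R, (∀ n : ℕ, (p : R) ^ n ∣ x) → x = 0 := by
  intro x hx
  refine IsHausdorff.haus (I := Ideal.span {(p : R)}) inferInstance x fun n => ?_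
  rw [SModEq.zero, smul_eq_mul, Ideal.mul_top, Ideal.span_singleton_pow,
    Ideal.mem_span_singleton]
  exact hx n

/-- every `a ≠ 0` divides `p ^ k * D` with `D` regular modulo `p`; the cofactor divides a power of
`p`. -/
theorem Lev.fac (L : Lev p j ϖ S) [hA : IsAdicComplete (Ideal.span {(p : R)}) R] {a : R}
    (ha : a ≠ 0) :
    ∃ (e i m : ℕ) (D : R), a = ϖ e ^ i * D ∧ a * ϖ e ^ m = (p : R) ^ i * D ∧ RegMod D (p : R) := by
  obtain ⟨e, i, D, hD, uD⟩ := L.content (hsep_of_complete hA) ha
  refine ⟨e, i, p ^ e * i - i, D, hD, ?_, L.regMod_of_unr uD⟩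
  have h1 : 0 < p ^ e := Nat.pow_pos hp.out.pos
  have h2 : i ≤ p ^ e * i := Nat.le_mul_of_pos_left i h1
  have h3 : ϖ e ^ i * ϖ e ^ (p ^ e * i - i) = (p : R) ^ i := by
    rw [← pow_add, Nat.add_sub_cancel' h2, pow_mul, L.dat.pow_eq_p]
  rw [hD, ← h3]; ring

end Fac

/-! ### the absolute integral closure -/

section Plus

variable {A : Type*} [CommRing A] [IsDomain A] {F : Type*} [Field F] [Algebra A F]

section
variable [IsAlgClosed F]

theorem plus_exists_pow (a : integralClosure A F) {n : ℕ} (hn : 0 < n) :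
    ∃ b : integralClosure A F, b ^ n = a := by
  obtain ⟨z, hz⟩ := IsAlgClosed.exists_pow_nat_eq (a : F) hn
  refine ⟨⟨z, ?_⟩, Subtype.ext hz⟩
  have : IsIntegral A (z ^ n) := by rw [hz]; exact a.2
  exact this.of_pow hn

theorem plus_exists_roots (a : integralClosure A F) (p : ℕ) (hp : 0 < p) :
    ∃ r : ℕ → integralClosure A F, r 0 = a ∧ ∀ n, r (n + 1) ^ p = r n := by
  choose g hg using fun a : integralClosure A F => plus_exists_pow a hp
  refine ⟨fun n => g^[n] a, rfl, fun n => ?_⟩
  change (g^[n + 1] a) ^ p = g^[n] a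
  rw [Function.iterate_succ_apply', hg]

end

variable [FaithfulSMul A F]

theorem plus_injective : Function.Injective (algebraMap A (integralClosure A F)) := by
  intro x y h
  apply FaithfulSMul.algebraMap_injective A F
  exact congrArg Subtype.val h

theorem plus_isIntegral : (algebraMap A (integralClosure A F)).IsIntegral :=
  fun x => Algebra.IsIntegral.isIntegral x

theorem plus_isUnit_iff {a : A} : IsUnit (algebraMap A (integralClosure A F) a) ↔ IsUnit a := by
  have := (plus_isIntegral (A := A) (F := F)).isLocalHom plus_injective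
  exact ⟨fun h => this.map_nonunit a h, fun h => h.map _⟩

theorem plus_natCast_ne_zero {n : ℕ} (hn : (n : A) ≠ 0) : (n : integralClosure A F) ≠ 0 := by
  intro h
  apply hn
  apply plus_injective (F := F)
  rw [map_natCast, h, map_zero]

theorem pdata_plus [IsAlgClosed F] {p : ℕ} [hp : Fact p.Prime] {ϖ : ℕ → A} (h0 : ϖ 0 = p)
    (hr : ∀ e, ϖ (e + 1) ^ p = ϖ e) (hpA : (p : A) ≠ 0) :
    PData p (integralClosure A F) (fun e => algebraMap A (integralClosure A F) (ϖ e)) where
  zero := by rw [h0, map_natCast]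
  roots := fun e => by rw [← map_pow, hr]
  wreg := by
    apply Reg.wreg
    intro x hx
    exact (mul_eq_zero.1 hx).resolve_left (plus_natCast_ne_zero hpA)
  fsurj := by
    intro x
    obtain ⟨y, hy⟩ := plus_exists_pow x hp.out.pos
    exact ⟨y, by rw [hy, sub_self]; exact dvd_zero _⟩
  finj := by
    rintro x ⟨y, hy⟩
    set c : F := algebraMap A F (ϖ 1) with hc
    have hcp : c ^ p = (p : F) := by
      rw [hc, ← map_pow, hr 0, h0, map_natCast]
    have hpF : (p : F) ≠ 0 := by
      intro h
      apply hpA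
      apply FaithfulSMul.algebraMap_injective A F
      rw [map_natCast, h, map_zero]
    have hc0 : c ≠ 0 := by
      intro h
      rw [h, zero_pow hp.out.ne_zero] at hcp
      exact hpF hcp.symm
    have h1 : ((x : F) / c) ^ p = (y : F) := by
      have h2 : ((x ^ p : integralClosure A F) : F) = ((p : integralClosure A F) * y :
        integralClosure A F) := congrArg Subtype.val hy
      have h3 : (x : F) ^ p = (p : F) * (y : F) := by
        have e1 : ((x ^ p : integralClosure A F) : F) = (x : F) ^ p := rfl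
        have e2 : (((p : integralClosure A F) * y : integralClosure A F) : F) =
          (p : F) * (y : F) := by
          rw [MulMemClass.coe_mul]
          congr 1
        rw [← e1, h2, e2]
      rw [div_pow, h3, hcp]
      field_simp
    have h2 : IsIntegral A ((x : F) / c) := by
      have : IsIntegral A (((x : F) / c) ^ p) := by rw [h1]; exact y.2
      exact this.of_pow hp.out.pos
    refine ⟨⟨_, h2⟩, Subtype.ext ?_⟩
    change (x : F) = c * ((x : F) / c)
    field_simp

/-- every non-zero element of `A⁺` divides a non-zero element of `A` -/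
theorem plus_exists_mul {c : integralClosure A F} (hc : c ≠ 0) :
    ∃ (c' : integralClosure A F) (a : A), a ≠ 0 ∧ c * c' = algebraMap A (integralClosure A F) a := by
  have hAl : Algebra.IsAlgebraic A (integralClosure A F) := inferInstance
  obtain ⟨d, a, ha, h⟩ := Algebra.IsAlgebraic.exists_smul_eq_mul A (1 : integralClosure A F) hc
  refine ⟨d, a, ha, ?_⟩
  rw [← h, Algebra.smul_def, mul_one]

/-- `A → A⁺` maps the Jacobson radical to the Jacobson radical -/
theorem jac_of_isIntegral {A' B' : Type*} [CommRing A'] [CommRing B'] [Algebra A' B']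
    [Algebra.IsIntegral A' B'] {x : A'} (hx : x ∈ (⊥ : Ideal A').jacobson) :
    algebraMap A' B' x ∈ (⊥ : Ideal B').jacobson := by
  rw [Ideal.jacobson, Ideal.mem_sInf] at hx ⊢
  rintro M ⟨-, hM⟩
  have := Ideal.isMaximal_comap_of_isIntegral_of_isMaximal (R := A') M
  exact hx ⟨bot_le, this⟩

end Plus

/-! ### completions -/

section Compl

universe u v

variable {R : Type u} {C : Type v} [CommRing R] [CommRing C] {π : R} {ι : R →+* C}

theorem IsCompl.jac (h : IsCompl π ι) {x : R} (hx : x ∈ (⊥ : Ideal R).jacobson) :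
    ι x ∈ (⊥ : Ideal C).jacobson := by
  rw [Ideal.mem_jacobson_bot] at hx ⊢
  intro y
  obtain ⟨a, d, hd⟩ := h.dense 1 y
  obtain ⟨v, hv⟩ := (hx a).map ι |>.exists_right_inv
  have hπ := Ideal.mem_jacobson_bot.1 h.mem_jacobson (ι x * d * v)
  have h1 : ι x * y + 1 = ι (x * a + 1) * (ι π * (ι x * d * v) + 1) := by
    rw [pow_one] at hd
    have h2 : y = ι a + ι π * d := by linear_combination hd
    rw [h2, mul_add, mul_add, mul_one]
    have : ι (x * a + 1) * (ι π * (ι x * d * v)) = ι π * ι x * d * (ι (x * a + 1) * v) := by ring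
    rw [this, hv, map_add, map_mul, map_one]; ring
  rw [h1]
  exact ((hx a).map ι).mul hπ

/-- `D` regular modulo `π` (regular) ⇒ `ι D` is regular -/
theorem IsCompl.reg_of_regMod (h : IsCompl π ι) (hπ : Reg π) {D : R} (hD : RegMod D π) :
    Reg (ι D) := by
  intro x hx
  refine h.sep fun n => ?_
  exact RegMod.pow_right (h.reg hπ) (h.regMod hD) n x (by rw [hx]; exact dvd_zero _)

end Compl

end Crest.Agent.R188.Apl
end

-- ▼ part R188/Apl5
section

/-!
R188 / Apl5 : for a ring `R` with perfectoid data (`Om.PData`), `j : R → Ω = W(P)/ξ` the `p`-completion;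
sharps, regularity, Jacobson radicals.   Author: helper245.
-/

set_option autoImplicit false
set_option linter.unusedSectionVars false

namespace Crest.Agent.R188.Apl

open WittVector Crest.Agent.R183
open Crest.Agent.R183.Om (PData Reg RegMod IsCompl exists_tilt isAdicComplete_of_series)
open Crest.Agent.R188.Prf (IsPerf)
open Crest.Agent.R188.Wit (IsDist θ sh)

local notation "τ" => WittVector.teichmuller _

/-! ### generalities -/

section Gen

universe u v w

theorem IsCompl.comp_equiv {R : Type u} {C : Type v} {C' : Type w} [CommRing R] [CommRing C]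
    [CommRing C'] {π : R} {ι : R →+* C} (h : IsCompl π ι) (e : C ≃+* C') :
    IsCompl π ((e : C →+* C').comp ι) := by
  have hd : ∀ (m : ℕ) (c : C), (((e : C →+* C').comp ι) π) ^ m ∣ e c ↔ ι π ^ m ∣ c := by
    intro m c
    constructor
    · rintro ⟨d, hd⟩
      refine ⟨e.symm d, e.injective ?_⟩
      rw [map_mul, map_pow, RingEquiv.apply_symm_apply]
      exact hd
    · rintro ⟨d, rfl⟩
      rw [map_mul, map_pow]
      exact dvd_mul_right _ _
  refine ⟨fun m c => ?_, fun m a ha => ?_, ?_⟩
  · obtain ⟨a, ha⟩ := h.dense m (e.symm c)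
    refine ⟨a, ?_⟩
    have : c - ((e : C →+* C').comp ι) a = e (e.symm c - ι a) := by
      rw [map_sub, RingEquiv.apply_symm_apply]; rfl
    rw [this, hd]
    exact ha
  · exact h.sat m a ((hd m (ι a)).1 ha)
  · refine isAdicComplete_of_series _ (fun x hx => ?_) (fun u => ?_)
    · have h1 : e.symm x = 0 := by
        refine h.sep fun m => ?_
        rw [← hd, RingEquiv.apply_symm_apply]
        exact hx m
      have := congrArg e h1
      rwa [RingEquiv.apply_symm_apply, map_zero] at this
    · obtain ⟨s, hs⟩ := h.ser (fun n => e.symm (u n))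
      refine ⟨e s, fun n => ?_⟩
      have h1 := (hd n _).2 (hs n)
      have h2 : e (s - ∑ i ∈ Finset.range n, ι π ^ i * e.symm (u i)) =
          e s - ∑ i ∈ Finset.range n, ((e : C →+* C').comp ι) π ^ i * u i := by
        rw [map_sub, map_sum]
        congr 1
        refine Finset.sum_congr rfl fun i _ => ?_
        rw [map_mul, map_pow, RingEquiv.apply_symm_apply]
        rfl
      rwa [h2] at h1

end Gen

section Sharp

universe u

variable {p : ℕ} [hp : Fact p.Prime] {P : Type u} [CommRing P] (h : IsPerf p P)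
  {ξ : WittVector p P} {π : P} (hξ : IsDist ξ π)

lemma constCoeff_τ (z : P) : constantCoeff (WittVector.teichmuller p z) = z := by
  simp [constantCoeff]

include h in
lemma constCoeff_natCast_p : constantCoeff (p : WittVector p P) = 0 := by
  rw [map_natCast, h.p_zero]

include h hξ in
lemma constCoeff_ξ : constantCoeff ξ = π := by
  obtain ⟨u, -, hu⟩ := hξ.ex
  rw [hu, map_add, map_mul, constCoeff_τ, constCoeff_natCast_p h, zero_mul, add_zero]

include h hξ in
lemma dvd_of_sh_sub {x y : P} (hxy : sh ξ x = sh ξ y) : π ∣ x - y := by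
  have h1 : θ ξ (τ x - τ y) = 0 := by
    rw [map_sub, sub_eq_zero]; exact hxy
  obtain ⟨w, hw⟩ := Wit.θ_eq_zero_iff.1 h1
  have h2 := congrArg constantCoeff hw
  rw [map_sub, map_mul, constCoeff_τ, constCoeff_τ, constCoeff_ξ h hξ] at h2
  exact ⟨_, h2⟩

lemma sep_of_complete (hc : IsAdicComplete (Ideal.span {π}) P) :
    ∀ x : P, (∀ n : ℕ, π ^ n ∣ x) → x = 0 := by
  intro x hx
  refine IsHausdorff.haus (I := Ideal.span {π}) inferInstance x fun n => ?_
  rw [SModEq.zero, smul_eq_mul, Ideal.mul_top, Ideal.span_singleton_pow,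
    Ideal.mem_span_singleton]
  exact hx n

include h hξ in
/-- elements of `P` are determined by their sharps -/
lemma eq_of_sh (hc : IsAdicComplete (Ideal.span {π}) P) {x y : P}
    (hxy : ∀ n, sh ξ (h.rtn n x) = sh ξ (h.rtn n y)) : x = y := by
  rw [← sub_eq_zero]
  refine sep_of_complete hc _ fun n => ?_
  have h1 := dvd_of_sh_sub h hξ (hxy n)
  have h2 : x - y = (h.rtn n x - h.rtn n y) ^ p ^ n := by
    rw [Prf.sub_pow_pn h.p_zero, h.rtn_pow, h.rtn_pow]
  rw [h2]
  refine (pow_dvd_pow π ?_).trans (pow_dvd_pow_of_dvd h1 _)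
  exact (Nat.lt_pow_self hp.out.one_lt).le

include h hξ in
/-- an element of `P` with sharp in the Jacobson radical is in the Jacobson radical -/
lemma jac_of_sh (hc : IsAdicComplete (Ideal.span {π}) P) {y : P}
    (hy : sh ξ y ∈ (⊥ : Ideal (Wit.Om ξ)).jacobson) : y ∈ (⊥ : Ideal P).jacobson := by
  rw [Ideal.mem_jacobson_bot] at hy ⊢
  intro z
  have hπ : π ∈ (⊥ : Ideal P).jacobson :=
    IsAdicComplete.le_jacobson_bot (Ideal.span {π}) (Ideal.mem_span_singleton_self _)
  rw [Ideal.mem_jacobson_bot] at hπ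
  obtain ⟨v, hv⟩ := (hy (sh ξ z)).exists_right_inv
  obtain ⟨w, rfl⟩ := Wit.θ_surjective ξ v
  have h1 : θ ξ ((τ (y * z) + 1) * w - 1) = 0 := by
    rw [map_sub, map_mul, map_add, map_one, sub_eq_zero]
    have : θ ξ (τ (y * z)) = sh ξ y * sh ξ z := Wit.sh_mul ξ y z
    rw [this]; exact hv
  obtain ⟨c, hc'⟩ := Wit.θ_eq_zero_iff.1 h1
  have h2 := congrArg constantCoeff hc'
  rw [map_sub, map_mul, map_add, map_one, constCoeff_τ, map_mul, constCoeff_ξ h hξ] at h2
  have h3 : (y * z + 1) * constantCoeff w = π * constantCoeff c + 1 := by linear_combination h2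
  exact isUnit_of_mul_isUnit_left (h3 ▸ hπ (constantCoeff c))

/-- **tilt**: the `p`-completion of a ring with perfectoid data is `W(P)/ξ` -/
theorem exists_tilt_om {R : Type u} [CommRing R] {ϖ : ℕ → R} (d : PData p R ϖ)
    (hu : ¬ IsUnit (p : R)) :
    ∃ (P : Type u) (_ : CommRing P) (h : IsPerf p P) (π : P) (ξ : WittVector p P)
      (j : R →+* Wit.Om ξ), IsDist ξ π ∧ IsAdicComplete (Ideal.span {π}) P ∧ Reg π ∧ ¬ IsUnit π ∧
      IsCompl (p : R) j ∧ Reg (p : Wit.Om ξ) ∧ (∀ n, sh ξ (h.rtn n π) = j (ϖ n)) ∧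
      (∀ r : ℕ → Wit.Om ξ, (∀ n, r (n + 1) ^ p = r n) → ∃ a : P, ∀ n, sh ξ (h.rtn n a) = r n) := by
  obtain ⟨A₀, _, _, P, _, _, _, θ₀, π, hcompl, -, hreg, -, -, hsurj, hker, hπ, hπu, hPc, hsh,
    hroots, -⟩ := Env.exists_base d hu
  have hP : IsPerf p P := IsPerf.of_perfectRing
  set ξ : WittVector p P := τ π + (p : WittVector p P) * (-1) with hξdef
  have hξ : IsDist ξ π := ⟨⟨-1, isUnit_one.neg, rfl⟩⟩
  have hxi : ξ = -Amp.xi 1 π := by
    rw [hξdef, Amp.xi]; ring
  have hspan : RingHom.ker θ₀ = Ideal.span {ξ} := by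
    rw [hker, hxi, Ideal.span_singleton_neg]
  let e : Wit.Om ξ ≃+* A₀ :=
    (Ideal.quotEquivOfEq hspan.symm).trans (RingHom.quotientKerEquivOfSurjective hsurj)
  have he : ∀ w, e (θ ξ w) = θ₀ w := fun w => rfl
  have he' : ∀ w, e.symm (θ₀ w) = θ ξ w := fun w => by rw [← he, RingEquiv.symm_apply_apply]
  have hrt : ∀ (n : ℕ) (a : P), hP.rtn n a = Amp.rt (p := p) n a := fun n a =>
    hP.rtn_eq_of_pow (Amp.rt_pow n a)
  refine ⟨P, inferInstance, hP, π, ξ, (e.symm : A₀ →+* Wit.Om ξ).comp (algebraMap R A₀), hξ, hPc,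
    hπ, hπu, IsCompl.comp_equiv hcompl e.symm, ?_, ?_, ?_⟩
  · intro x hx
    have h1 : (p : A₀) * e x = 0 := by
      have := congrArg e hx
      rwa [map_mul, map_natCast, map_zero] at this
    have h2 := hreg _ h1
    have := congrArg e.symm h2
    rwa [RingEquiv.symm_apply_apply, map_zero] at this
  · intro n
    rw [hrt]
    change θ ξ (τ (Amp.rt (p := p) n π)) = e.symm (algebraMap R A₀ (ϖ n))
    rw [← hsh n, Om.sh, he']
  · intro r hr
    obtain ⟨a, ha⟩ := hroots (fun n => e (r n)) (fun n => by rw [← map_pow, hr])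
    refine ⟨a, fun n => ?_⟩
    have h1 := ha n
    rw [Om.sh] at h1
    rw [hrt]
    change θ ξ (τ (Amp.rt (p := p) n a)) = r n
    rw [← he', h1, RingEquiv.symm_apply_apply]

variable {R : Type u} [CommRing R] {j : R →+* Wit.Om ξ}

include h hξ in
/-- if every `j (r n)` is regular, then the element with sharps `r` is regular. -/
theorem reg_of_sharp (hc : IsAdicComplete (Ideal.span {π}) P) {a : P}
    (hreg : ∀ n, ∀ x : Wit.Om ξ, sh ξ (h.rtn n a) * x = 0 → x = 0) :
    ∀ x : P, a * x = 0 → x = 0 := by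
  intro x hx
  refine eq_of_sh h hξ hc fun n => ?_
  rw [h.rtn_zero, Wit.sh_zero]
  apply hreg n
  rw [← Wit.sh_mul, ← h.rtn_mul, hx, h.rtn_zero, Wit.sh_zero]

end Sharp

end Crest.Agent.R188.Apl
end

-- ▼ part R188/Apl6
section

/-!
R188 / Apl6 : the completed base `A = Ω₀ = (B_∞)^` and all ring fields of `Asm.World`.
Author: helper245.
-/

set_option autoImplicit false
set_option linter.unusedSectionVars false

namespace Crest.Agent.R188.Apl

open WittVector Crest.Agent.R183 Crest.Agent.R183.BInf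
open Crest.Agent.R183.Om (PData Reg RegMod IsCompl)
open Crest.Agent.R183.Cic (CIC)
open Crest.Agent.R188.Prf (IsPerf)
open Crest.Agent.R188.Wit (IsDist θ)
open Crest.Agent.R188.Asm (BB BPlus tB SharpPair)

/-! ### `B_∞` is integral over `B` -/

section Int

variable {d : ℕ} {p : ℕ} [hpr : Fact p.Prime] {B : Type*} [CommRing B] {t : Fin d → B}

theorem isIntegral_BInf : Algebra.IsIntegral B (BInf p t) := by
  refine ⟨fun x => ?_⟩
  obtain ⟨e, he⟩ := exists_mem_SA p t hpr.out.pos x
  obtain ⟨c, rfl⟩ := exists_sum_level p t hpr.out.pos e x he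
  refine IsIntegral.sum _ fun j _ => ?_
  refine IsIntegral.smul _ ?_
  refine IsIntegral.of_pow (n := p ^ e) (Nat.pow_pos hpr.out.pos) ?_
  rw [mon_ex_pow]
  exact isIntegral_algebraMap

end Int

section Base

variable (p : ℕ) [hp : Fact p.Prime] (k : Type) [Field k] (b : ℕ)

/-- `B_∞` for `B = W(k)[[X_1..X_b]]`, `t = (p, X_1, …, X_b)` -/
abbrev BI : Type := BInf p (tb b p (WittVector p k))

/-- `ϖ_e = p^{1/p^e}` in `B_∞` -/
noncomputable def ϖI (e : ℕ) : BI p k b := rt p (tb b p (WittVector p k)) hp.out.pos e 0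

/-- the completed base `A = (B_∞)^` -/
structure IsBase (A : Type) [CommRing A] [Algebra (BI p k b) A] [Algebra (BB p k b) A]
    (ϖ : ℕ → A) : Prop where
  ϖ_eq : ∀ e, ϖ e = algebraMap (BI p k b) A (ϖI p k b e)
  compl : IsCompl (p : BI p k b) (algebraMap (BI p k b) A)
  complete : IsAdicComplete (Ideal.span {(p : A)}) A
  pdata : PData p A ϖ
  reg : Reg (p : A)
  nonunit : ¬ IsUnit (p : A)
  model : Nonempty (Env.Model p A ϖ)
  dom : IsDomain A
  normal : IsIntegrallyClosed A
  cic : CIC A
  fac : ∀ a : A, a ≠ 0 → ∃ (e i m : ℕ) (D : A), a = ϖ e ^ i * D ∧ a * ϖ e ^ m = (p : A) ^ i * D ∧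
    RegMod D (p : A)
  tower : IsScalarTower (BB p k b) (BI p k b) A
  regB : ∀ D : BB p k b, ¬ (p : BB p k b) ∣ D → RegMod (algebraMap (BB p k b) A D) (p : A)
  injB : Function.Injective (algebraMap (BB p k b) A)
  jac : ∀ i, algebraMap (BB p k b) A (tB p k b i) ∈ (⊥ : Ideal A).jacobson

theorem exists_isBase [CharP k p] [PerfectRing k p] :
    ∃ (A : Type) (_ : CommRing A) (_ : Algebra (BI p k b) A) (_ : Algebra (BB p k b) A)
      (ϖ : ℕ → A), IsBase p k b A ϖ := by
  have hpb := pbasis_witt b p k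
  obtain ⟨A, _, _, P, _, _, _, θ₀, π, hcompl, hd, hreg, hc, hu, hsurj, hker, hπ, hπu, -, hsh, -,
    hregmod⟩ := Env.exists_base hpb.pdata hpb.not_isUnit
  let _ : Algebra (BB p k b) A :=
    ((algebraMap (BI p k b) A).comp (algebraMap (BB p k b) (BI p k b))).toAlgebra
  have htower : IsScalarTower (BB p k b) (BI p k b) A := ⟨fun x y z => by
    have h1 : x • y = algebraMap (BB p k b) (BI p k b) x * y := Algebra.smul_def x y
    have h2 : (algebraMap (BB p k b) (BI p k b) x * y) • z =
        algebraMap (BI p k b) A (algebraMap (BB p k b) (BI p k b) x * y) * z := Algebra.smul_def _ _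
    have h3 : y • z = algebraMap (BI p k b) A y * z := Algebra.smul_def _ _
    have h4 : x • (y • z) = algebraMap (BB p k b) A x * (y • z) := Algebra.smul_def _ _
    rw [h1, h2, h4, h3, map_mul, mul_assoc]
    rfl⟩
  have L := (lev_witt b p k).compl hcompl
  have hdom : IsDomain A := L.isDomain
  refine ⟨A, inferInstance, inferInstance, inferInstance,
    fun e => algebraMap (BI p k b) A (ϖI p k b e),
    { ϖ_eq := fun e => rfl
      compl := hcompl
      complete := hc
      pdata := hd
      reg := hreg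
      nonunit := hu
      model := ⟨⟨P, θ₀, π, hsurj, hker, hπ, hπu, hsh⟩⟩
      dom := hdom
      normal := L.isIntegrallyClosed
      cic := L.cicR
      fac := fun a ha => L.fac ha
      tower := htower
      regB := fun D hD => hregmod _ (regMod_algebraMap (regMod_witt hD))
      injB := ?_
      jac := ?_ }⟩
  · rw [injective_iff_map_eq_zero]
    intro x hx
    by_contra hx0
    -- `x = p ^ i x₀`
    have hsep : ∃ i x₀, x = (p : BB p k b) ^ i * x₀ ∧ ¬ (p : BB p k b) ∣ x₀ := by
      by_contra hcon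
      push Not at hcon
      have h1 : ∀ i : ℕ, (p : BB p k b) ^ i ∣ x := by
        intro i
        induction i with
        | zero => simp
        | succ i ih =>
          obtain ⟨y, hy⟩ := ih
          obtain ⟨z, hz⟩ := hcon i y hy
          exact ⟨z, by rw [hy, hz]; ring⟩
      apply hx0
      refine MvPowerSeries.ext fun m => ?_
      rw [map_zero]
      refine Om.W_sep fun i => ?_
      have h2 := h1 i
      rw [← Nat.cast_pow, natCast_dvd_iff_coeff] at h2
      simpa using h2 m
    obtain ⟨i, x₀, rfl, hx₀⟩ := hsep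
    rw [map_mul, map_pow, map_natCast] at hx
    have h3 : algebraMap (BB p k b) A x₀ = 0 := by
      have : ∀ (i : ℕ) (y : A), (p : A) ^ i * y = 0 → y = 0 := by
        intro i
        induction i with
        | zero => intro y hy; simpa using hy
        | succ i ih =>
          intro y hy
          rw [pow_succ, mul_assoc] at hy
          exact hreg _ (ih _ hy)
      exact this i _ hx
    have h4 : RegMod (algebraMap (BB p k b) A x₀) (p : A) :=
      hregmod _ (regMod_algebraMap (regMod_witt hx₀))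
    rw [h3] at h4
    have h5 := h4 1 (by rw [zero_mul]; exact dvd_zero _)
    exact hu (isUnit_of_dvd_one h5)
  · intro i
    have h1 : tB p k b i ∈ (⊥ : Ideal (BB p k b)).jacobson := by
      rw [IsLocalRing.jacobson_eq_maximalIdeal ⊥ bot_ne_top]
      exact tb_mem_maximalIdeal b p k i
    have : Algebra.IsIntegral (BB p k b) (BI p k b) := isIntegral_BInf
    exact IsCompl.jac hcompl (jac_of_isIntegral h1)

end Base

end Crest.Agent.R188.Apl
end

-- ▼ part R188/Apl7
section

/-!
R188 / Apl7 : the ring fields of `Asm.World` from the completed base `A` and an algebraically closed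
field `F ⊇ A`.   Author: helper245.
-/

set_option autoImplicit false
set_option linter.unusedSectionVars false

namespace Crest.Agent.R188.Apl

open WittVector Crest.Agent.R183 Crest.Agent.R183.BInf
open Crest.Agent.R183.Om (PData Reg RegMod IsCompl)
open Crest.Agent.R183.Cic (CIC)
open Crest.Agent.R188.Prf (IsPerf)
open Crest.Agent.R188.Wit (IsDist θ)
open Crest.Agent.R188.Asm (BB BPlus tB SharpPair)

section Ratio

variable {A : Type*} [CommRing A] [IsDomain A] {F : Type*} [Field F] [Algebra A F]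

/-- two root systems of the same element `≠ 0` differ by a unit root system -/
theorem exists_ratio {p : ℕ} [hp : Fact p.Prime] {s u : ℕ → integralClosure A F}
    (hs : ∀ n, s (n + 1) ^ p = s n) (hu : ∀ n, u (n + 1) ^ p = u n) (h0 : s 0 = u 0)
    (hne : s 0 ≠ 0) :
    ∃ ε ε' : ℕ → integralClosure A F, (∀ n, ε (n + 1) ^ p = ε n) ∧ (∀ n, ε' (n + 1) ^ p = ε' n) ∧
      (∀ n, s n * ε n = u n) ∧ ∀ n, ε n * ε' n = 1 := by
  have hpow : ∀ (v : ℕ → integralClosure A F), (∀ n, v (n + 1) ^ p = v n) →
      ∀ n, v n ^ p ^ n = v 0 := by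
    intro v hv n
    induction n with
    | zero => simp
    | succ n ih => rw [pow_succ', pow_mul, hv, ih]
  have hpowF : ∀ (v : ℕ → integralClosure A F), (∀ n, v (n + 1) ^ p = v n) →
      ∀ n, (v n : F) ^ p ^ n = (v 0 : F) := fun v hv n => congrArg Subtype.val (hpow v hv n)
  have hsucc : ∀ (v : ℕ → integralClosure A F), (∀ n, v (n + 1) ^ p = v n) →
      ∀ n, (v (n + 1) : F) ^ p = (v n : F) := fun v hv n => congrArg Subtype.val (hv n)
  have hs0 : ((s 0 : integralClosure A F) : F) ≠ 0 := fun h => hne (Subtype.ext h)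
  have hsn : ∀ n, (s n : F) ≠ 0 := by
    intro n h
    have := hpowF s hs n
    rw [h, zero_pow (pow_ne_zero _ hp.out.ne_zero)] at this
    exact hs0 this.symm
  have h0F : ((s 0 : integralClosure A F) : F) = (u 0 : F) := by rw [h0]
  have hun : ∀ n, (u n : F) ≠ 0 := by
    intro n h
    have := hpowF u hu n
    rw [h, zero_pow (pow_ne_zero _ hp.out.ne_zero), ← h0F] at this
    exact hs0 this.symm
  have hint : ∀ (v w : ℕ → integralClosure A F), (∀ n, v (n + 1) ^ p = v n) →
      (∀ n, w (n + 1) ^ p = w n) → ((v 0 : integralClosure A F) : F) = (w 0 : F) →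
      (∀ n, (w n : F) ≠ 0) → ∀ n, IsIntegral A ((v n : F) / (w n : F)) := by
    intro v w hv hw hvw hwn n
    refine IsIntegral.of_pow (n := p ^ n) (Nat.pow_pos hp.out.pos) ?_
    rw [div_pow, hpowF v hv, hpowF w hw, hvw, div_self]
    · exact isIntegral_one
    · exact hwn 0
  refine ⟨fun n => ⟨(u n : F) / (s n : F), hint u s hu hs h0F.symm hsn n⟩,
    fun n => ⟨(s n : F) / (u n : F), hint s u hs hu h0F hun n⟩, fun n => Subtype.ext ?_,
    fun n => Subtype.ext ?_, fun n => Subtype.ext ?_, fun n => Subtype.ext ?_⟩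
  · change ((u (n + 1) : F) / (s (n + 1) : F)) ^ p = (u n : F) / (s n : F)
    rw [div_pow, hsucc u hu, hsucc s hs]
  · change ((s (n + 1) : F) / (u (n + 1) : F)) ^ p = (s n : F) / (u n : F)
    rw [div_pow, hsucc u hu, hsucc s hs]
  · change (s n : F) * ((u n : F) / (s n : F)) = (u n : F)
    have := hsn n
    field_simp
  · change ((u n : F) / (s n : F)) * ((s n : F) / (u n : F)) = 1
    have := hsn n
    have := hun n
    field_simp

end Ratio

section World

/-- **the ring fields of the world**, over the completed base `A`, `A⁺ = integralClosure A F` -/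
structure RWorld (p : ℕ) [hp : Fact p.Prime] (k : Type) [Field k] [CharP k p] (b : ℕ)
    (A : Type) [CommRing A] [Algebra (BB p k b) A] (ϖ : ℕ → A) (F : Type) [Field F]
    [Algebra A F] where
  /-- the perfect ring -/
  P : Type
  [ringP : CommRing P]
  perf : IsPerf p P
  /-- `p^♭` -/
  π : P
  /-- the distinguished element -/
  ξ : WittVector p P
  dist : IsDist ξ π
  complete : IsAdicComplete (Ideal.span {π}) P
  π_reg : ∀ x : P, π * x = 0 → x = 0
  π_nonunit : ¬ IsUnit π
  /-- `A⁺ → Ω` -/
  j : integralClosure A F →+* Wit.Om ξ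
  compl : IsCompl (p : integralClosure A F) j
  reg_p : Reg (p : Wit.Om ξ)
  ϖ_sharp : ∀ n, Wit.sh ξ (perf.rtn n π) = j (algebraMap A (integralClosure A F) (ϖ n))
  exists_sharp_j : ∀ r : ℕ → integralClosure A F, (∀ n, r (n + 1) ^ p = r n) →
    ∃ a : P, ∀ n, Wit.sh ξ (perf.rtn n a) = j (r n)
  reg_j : ∀ c : integralClosure A F, c ≠ 0 → ∀ x : Wit.Om ξ, j c * x = 0 → x = 0
  reg_sharp_j : ∀ (a : P) (r : ℕ → integralClosure A F), (∀ n, r (n + 1) ^ p = r n) →
    (∀ n, Wit.sh ξ (perf.rtn n a) = j (r n)) → r 0 ≠ 0 → ∀ x : P, a * x = 0 → x = 0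
  regMod_j : ∀ D : A, RegMod D (p : A) →
    RegMod (j (algebraMap A (integralClosure A F) D)) (p : Wit.Om ξ)
  /-- `B⁺ → A⁺` -/
  φ : BPlus p k b →+* integralClosure A F
  φ_inj : Function.Injective φ
  φ_alg : ∀ x : BB p k b, φ (algebraMap (BB p k b) (BPlus p k b) x) =
    algebraMap A (integralClosure A F) (algebraMap (BB p k b) A x)
  /-- `(p^♭, X_1^♭, …, X_b^♭)` -/
  t : Fin (b + 1) → P
  /-- `p`-power roots of `(p, X_1, …, X_b)` -/
  tr : Fin (b + 1) → ℕ → BPlus p k b
  t_sharp : ∀ i, SharpPair perf (j.comp φ) (t i) (tr i)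
  tr_zero : ∀ i, tr i 0 = algebraMap (BB p k b) (BPlus p k b) (tB p k b i)
  t_zero : Associated (t 0) π
  t_jac : ∀ i, t i ∈ Ideal.jacobson (⊥ : Ideal P)
  exists_sharp : ∀ r : ℕ → BPlus p k b, (∀ n, r (n + 1) ^ p = r n) →
    ∃ a : P, SharpPair perf (j.comp φ) a r
  reg_ι : ∀ c : BPlus p k b, c ≠ 0 → ∀ x : Wit.Om ξ, (j.comp φ) c * x = 0 → x = 0
  reg_sharp : ∀ (a : P) (r : ℕ → BPlus p k b), SharpPair perf (j.comp φ) a r → r 0 ≠ 0 →
    ∀ x : P, a * x = 0 → x = 0

variable {p : ℕ} [hp : Fact p.Prime] {k : Type} [Field k] [CharP k p] {b : ℕ}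
  {A : Type} [CommRing A] [Algebra (BI p k b) A] [Algebra (BB p k b) A] {ϖ : ℕ → A}
  {F : Type} [Field F] [Algebra A F]

theorem IsBase.nonempty_rworld (hA : IsBase p k b A ϖ) [IsAlgClosed F] [FaithfulSMul A F] :
    Nonempty (RWorld p k b A ϖ F) := by
  have hdom := hA.dom
  have hnor := hA.normal
  have hpA : (p : A) ≠ 0 := by
    intro h
    have := hA.reg 1 (by rw [h, zero_mul])
    exact one_ne_zero this
  have hpd : PData p (integralClosure A F) (fun e => algebraMap A (integralClosure A F) (ϖ e)) :=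
    pdata_plus hA.pdata.zero hA.pdata.roots hpA
  have hpR : (p : integralClosure A F) ≠ 0 := plus_natCast_ne_zero hpA
  have hpreg : Reg (p : integralClosure A F) := fun x hx => (mul_eq_zero.1 hx).resolve_left hpR
  have hpu : ¬ IsUnit (p : integralClosure A F) := by
    rw [← map_natCast (algebraMap A (integralClosure A F)) p, plus_isUnit_iff]
    exact hA.nonunit
  obtain ⟨P, _, h, π, ξ, j, hξ, hPc, hπ, hπu, hcompl, hregp, hϖ, hroots⟩ :=
    exists_tilt_om hpd hpu
  have hregD : ∀ D : A, RegMod D (p : A) →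
      RegMod (algebraMap A (integralClosure A F) D) (p : integralClosure A F) := by
    intro D hD
    have := regMod_integralClosure (L := F) hpA hD
    rwa [map_natCast] at this
  have hjp : j (p : integralClosure A F) = (p : Wit.Om ξ) := map_natCast j p
  have regj : ∀ c : integralClosure A F, c ≠ 0 → ∀ x : Wit.Om ξ, j c * x = 0 → x = 0 := by
    intro c hc x hx
    obtain ⟨c', a, ha, hca⟩ := plus_exists_mul (A := A) hc
    obtain ⟨e, i, m, D, -, hD, hDreg⟩ := hA.fac a ha
    have h1 : j (algebraMap A (integralClosure A F) (a * ϖ e ^ m)) * x = 0 := by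
      rw [map_mul, ← hca, map_mul, map_mul]
      linear_combination j c' * j (algebraMap A (integralClosure A F) (ϖ e ^ m)) * hx
    rw [hD, map_mul, map_mul, map_pow, map_natCast, map_pow, hjp, mul_assoc] at h1
    have h2 : ∀ (i : ℕ) (y : Wit.Om ξ), (p : Wit.Om ξ) ^ i * y = 0 → y = 0 := by
      intro i
      induction i with
      | zero => intro y hy; simpa using hy
      | succ i ih =>
        intro y hy
        rw [pow_succ, mul_assoc] at hy
        exact hregp _ (ih _ hy)
    exact (IsCompl.reg_of_regMod hcompl hpreg (hregD D hDreg)) x (h2 i _ h1)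
  have hsh : ∀ r : ℕ → integralClosure A F, (∀ n, r (n + 1) ^ p = r n) →
      ∃ a : P, ∀ n, Wit.sh ξ (h.rtn n a) = j (r n) := fun r hr =>
    hroots (fun n => j (r n)) (fun n => by rw [← map_pow, hr])
  have hregsh : ∀ (a : P) (r : ℕ → integralClosure A F), (∀ n, r (n + 1) ^ p = r n) →
      (∀ n, Wit.sh ξ (h.rtn n a) = j (r n)) → r 0 ≠ 0 → ∀ x : P, a * x = 0 → x = 0 := by
    intro a r hr har hr0
    refine reg_of_sharp h hξ hPc fun n x hx => ?_
    rw [har] at hx
    refine regj (r n) (fun h0 => hr0 ?_) x hx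
    have : ∀ n, r n ^ p ^ n = r 0 := by
      intro n
      induction n with
      | zero => simp
      | succ n ih => rw [pow_succ', pow_mul, hr, ih]
    rw [← this n, h0, zero_pow (pow_ne_zero _ hp.out.ne_zero)]
  -- the map `B⁺ → A⁺`
  let _ : Algebra (BB p k b) F := ((algebraMap A F).comp (algebraMap (BB p k b) A)).toAlgebra
  have : IsScalarTower (BB p k b) A F := IsScalarTower.of_algebraMap_eq fun x => rfl
  have hinj : Function.Injective (algebraMap (BB p k b) F) :=
    (FaithfulSMul.algebraMap_injective A F).comp hA.injB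
  obtain ⟨φ, hφ, hφB⟩ := Tri.exists_bPlus_hom' (BB p k b) (A := A) (K := F) hinj
  choose tr htr0 htr using fun i : Fin (b + 1) =>
    plus_exists_roots (A := BB p k b) (F := Tri.FB (BB p k b))
      (algebraMap (BB p k b) (BPlus p k b) (tB p k b i)) p hp.out.pos
  have hex : ∀ r : ℕ → BPlus p k b, (∀ n, r (n + 1) ^ p = r n) →
      ∃ a : P, SharpPair h (j.comp φ) a r := by
    intro r hr
    obtain ⟨a, ha⟩ := hsh (fun n => φ (r n)) (fun n => by rw [← map_pow, hr])
    exact ⟨a, hr, ha⟩
  choose t ht using fun i => hex (tr i) (htr i)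
  refine ⟨{ P := P
            perf := h
            π := π
            ξ := ξ
            dist := hξ
            complete := hPc
            π_reg := hπ
            π_nonunit := hπu
            j := j
            compl := hcompl
            reg_p := hregp
            ϖ_sharp := hϖ
            exists_sharp_j := hsh
            reg_j := regj
            reg_sharp_j := hregsh
            regMod_j := ?_
            φ := φ
            φ_inj := hφ
            φ_alg := hφB
            t := t
            tr := tr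
            t_sharp := ht
            tr_zero := htr0
            t_zero := ?_
            t_jac := ?_
            exists_sharp := hex
            reg_ι := ?_
            reg_sharp := ?_ }⟩
  · intro D hD
    have := hcompl.regMod (hregD D hD)
    rwa [hjp] at this
  · -- `t 0` and `π` are associated
    have hs : ∀ n, φ (tr 0 (n + 1)) ^ p = φ (tr 0 n) := fun n => by rw [← map_pow, htr]
    have hu : ∀ n, (algebraMap A (integralClosure A F) (ϖ (n + 1))) ^ p =
        algebraMap A (integralClosure A F) (ϖ n) := hpd.roots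
    have h00 : φ (tr 0 0) = (p : integralClosure A F) := by
      rw [htr0, hφB]
      have : tB p k b 0 = (p : BB p k b) := rfl
      rw [this, map_natCast, map_natCast]
    have h0 : φ (tr 0 0) = algebraMap A (integralClosure A F) (ϖ 0) := by
      rw [h00, hA.pdata.zero, map_natCast]
    obtain ⟨ε, ε', hε, hε', hsε, hεε'⟩ := exists_ratio (s := fun n => φ (tr 0 n))
      (u := fun n => algebraMap A (integralClosure A F) (ϖ n)) hs hu h0 (by
        change φ (tr 0 0) ≠ 0
        rw [h00]; exact hpR)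
    obtain ⟨a, ha⟩ := hsh ε hε
    obtain ⟨a', ha'⟩ := hsh ε' hε'
    have haa : a * a' = 1 := by
      refine eq_of_sh h hξ hPc fun n => ?_
      rw [h.rtn_mul, Wit.sh_mul, ha, ha', ← map_mul, hεε', map_one, h.rtn_one, Wit.sh_one]
    have hta : t 0 * a = π := by
      refine eq_of_sh h hξ hPc fun n => ?_
      rw [h.rtn_mul, Wit.sh_mul, (ht 0).2 n, ha, hϖ]
      change j (φ (tr 0 n)) * j (ε n) = _
      rw [← map_mul]
      exact congrArg j (hsε n)
    exact ⟨⟨a, a', haa, by rw [mul_comm]; exact haa⟩, hta⟩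
  · intro i
    refine jac_of_sh h hξ hPc ?_
    have h1 : Wit.sh ξ (t i) = j (φ (tr i 0)) := by
      have := (ht i).2 0
      rwa [h.rtn_zero'] at this
    rw [h1, htr0, hφB]
    exact IsCompl.jac hcompl (jac_of_isIntegral (hA.jac i))
  · intro c hc x hx
    exact regj (φ c) (fun h0 => hc (hφ (by rw [h0, map_zero]))) x hx
  · rintro a r ⟨hr, har⟩ hr0
    refine hregsh a (fun n => φ (r n)) (fun n => by rw [← map_pow, hr]) har fun h0 => hr0 ?_
    exact hφ (by rw [map_zero]; exact h0)


end World

end Crest.Agent.R188.Apl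
end

-- ▼ part R188/TowLam
section

set_option autoImplicit false

namespace Crest.Agent.R188.TowL

open scoped ENNReal TensorProduct
open Crest.Agent.R183 Crest.Agent.R183.BInf Crest.Agent.R188.Tow

universe u v w

section General

variable {A : Type u} [CommRing A] {κ : Type w}

/-- a continuous length is continuous on torsion modules -/
theorem contOn_of_cont {Λ : AddLen.{u, u} A} (h : LenW.Cont Λ) (t : κ → A) : ContOn Λ t := by
  intro M _ _ _
  refine h M _ fun E hE => ?_
  obtain ⟨s, hs⟩ := hE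
  rw [← hs]
  exact le_iSup (fun E : Finset M => Λ.L (Submodule.span A (E : Set M))) s

/-- the length of a span is at most the sum of the lengths of the cyclic submodules -/
theorem L_span_finset_le (Λ : AddLen.{u, u} A) {M : Type u} [AddCommGroup M] [Module A M]
    (E : Finset M) (c : ℝ≥0∞) (h : ∀ x ∈ E, Λ.L (Submodule.span A {x}) ≤ c) :
    Λ.L (Submodule.span A (E : Set M)) ≤ E.card * c := by
  classical
  induction E using Finset.induction_on with
  | empty =>
    rw [Finset.coe_empty, Submodule.span_empty]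
    rw [Λ.L_subsingleton]
    exact bot_le
  | insert x E hx ih =>
    rw [Finset.coe_insert, Submodule.span_insert]
    refine (L_sup_le Λ _ _).trans ?_
    rw [Finset.card_insert_of_notMem hx, Nat.cast_add, Nat.cast_one, add_mul, one_mul, add_comm]
    exact add_le_add (ih fun y hy => h y (Finset.mem_insert_of_mem hy))
      (h x (Finset.mem_insert_self x E))

/-- the length of a cyclic module killed by an ideal -/
theorem L_span_singleton_le (Λ : AddLen.{u, u} A) {M : Type u} [AddCommGroup M] [Module A M]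
    (I : Ideal A) (x : M) (hx : ∀ a ∈ I, a • x = 0) :
    Λ.L (Submodule.span A {x}) ≤ Λ.L (A ⧸ I) := by
  have hx' : I ≤ LinearMap.ker (LinearMap.toSpanSingleton A (Submodule.span A {x})
      ⟨x, Submodule.mem_span_singleton_self x⟩) := by
    intro a ha
    rw [LinearMap.mem_ker, LinearMap.toSpanSingleton_apply]
    exact Subtype.ext (hx a ha)
  refine Λ.L_le_of_surjective (Submodule.liftQ I _ hx') ?_
  rintro ⟨y, hy⟩
  obtain ⟨a, rfl⟩ := Submodule.mem_span_singleton.1 hy
  exact ⟨Ideal.Quotient.mk I a, by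
    change (Submodule.liftQ I _ hx') (Submodule.Quotient.mk a) = _
    rw [Submodule.liftQ_apply, LinearMap.toSpanSingleton_apply]
    rfl⟩

/-- finiteness on finitely generated torsion modules follows from the cyclic modules
`A / (t_i ^ N)` -/
theorem fin_of_quot (Λ : AddLen.{u, u} A) [Finite κ] (t : κ → A)
    (h : ∀ N : ℕ, Λ.L (A ⧸ Ideal.span (Set.range fun i => t i ^ N)) ≠ ⊤)
    (V : Type u) [AddCommGroup V] [Module A V] (hV : Module.Finite A V) (hT : Tors t V) :
    Λ.L V ≠ ⊤ := by
  classical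
  have := Fintype.ofFinite κ
  obtain ⟨s, hs⟩ := hV.fg_top
  choose n hn using hT
  set N : ℕ := s.sup (fun x => Finset.univ.sup (n x)) with hN
  have hk : ∀ x ∈ s, ∀ i, t i ^ N • x = 0 := by
    intro x hx i
    have h1 : n x i ≤ N := (Finset.le_sup (f := n x) (Finset.mem_univ i)).trans
      (Finset.le_sup (f := fun x => Finset.univ.sup (n x)) hx)
    obtain ⟨k, hk⟩ := Nat.exists_eq_add_of_le h1
    rw [hk, add_comm, pow_add, mul_smul, hn, smul_zero]
  have h1 : Λ.L (Submodule.span A (s : Set V)) ≤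
      s.card * Λ.L (A ⧸ Ideal.span (Set.range fun i => t i ^ N)) := by
    refine L_span_finset_le Λ s _ fun x hx => L_span_singleton_le Λ _ x ?_
    intro a ha
    induction ha using Submodule.span_induction with
    | mem y hy =>
      obtain ⟨i, rfl⟩ := hy
      exact hk x hx i
    | zero => exact zero_smul _ _
    | add y z _ _ hy hz => rw [add_smul, hy, hz, add_zero]
    | smul a y _ hy => rw [smul_eq_mul, mul_smul, hy, smul_zero]
  rw [hs] at h1
  have h2 : Λ.L V = Λ.L (⊤ : Submodule A V) := (Λ.L_congr Submodule.topEquiv).symm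
  rw [h2]
  refine ne_top_of_le_ne_top ?_ h1
  exact ENNReal.mul_ne_top (ENNReal.natCast_ne_top _) (h N)

end General

section BInf

variable {d : ℕ} (p : ℕ) {B : Type u} [CommRing B] (t : Fin d → B) (hp : 0 < p)
variable [IsNoetherianRing B] {A : Type u} [CommRing A] [Algebra (BInf p t) A]

/-- the length of torsion modules over the completion `A` of `B_∞` -/
noncomputable abbrev lenA (A : Type u) [CommRing A] [Algebra (BInf p t) A] : AddLen.{u, u} A :=
  (AddLen.ofTower (tower p t hp)).restrict (algebraMap (BInf p t) A)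

theorem cont_lenA : LenW.Cont (lenA p t hp A) :=
  LenW.cont_restrict _ (Core.cont_ofTower (tower p t hp)) _

theorem contOn_lenA {κ : Type w} (s : κ → A) : ContOn (lenA p t hp A) s :=
  contOn_of_cont (cont_lenA p t hp) s

variable [IsLocalRing B]

/-- `λ(A / J) ≤ ℓ_B(B / I)` if `B_∞ → A / J` is surjective and `I` maps into `J` -/
theorem lenA_quot_le (ht : ∀ i, t i ∈ IsLocalRing.maximalIdeal B) (I : Ideal B) (J : Ideal A)
    (hs : ∀ a : A, ∃ b : BInf p t, a - algebraMap (BInf p t) A b ∈ J)
    (hI : ∀ b ∈ I, algebraMap (BInf p t) A (algebraMap B (BInf p t) b) ∈ J) :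
    (lenA p t hp A).L (A ⧸ J) ≤ ((Module.length B (B ⧸ I) : ℕ∞) : ℝ≥0∞) := by
  rw [AddLen.restrict_L _ _ _ (fun a x => (algebraMap_smul A a x).symm), AddLen.ofTower_L,
    ← lam_tensor p t hp ht (B ⧸ I)]
  have e := (Algebra.TensorProduct.quotIdealMapEquivTensorQuot (BInf p t) I).toLinearEquiv
  rw [← (tower p t hp).lam_congr e]
  let f : (BInf p t) →ₗ[BInf p t] (A ⧸ J) := Algebra.linearMap (BInf p t) (A ⧸ J)
  have hf : (I.map (algebraMap B (BInf p t)) : Submodule (BInf p t) (BInf p t)) ≤
      LinearMap.ker f := by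
    have : I.map (algebraMap B (BInf p t)) ≤ RingHom.ker (algebraMap (BInf p t) (A ⧸ J)) := by
      rw [Ideal.map_le_iff_le_comap]
      intro b hb
      rw [Ideal.mem_comap, RingHom.mem_ker, IsScalarTower.algebraMap_apply (BInf p t) A (A ⧸ J)]
      exact Ideal.Quotient.eq_zero_iff_mem.2 (hI b hb)
    intro x hx
    exact this hx
  refine (tower p t hp).lam_le_of_surjective (Submodule.liftQ _ f hf) ?_
  intro y
  obtain ⟨a, rfl⟩ := Ideal.Quotient.mk_surjective y
  obtain ⟨b, hb⟩ := hs a
  refine ⟨Submodule.Quotient.mk b, ?_⟩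
  rw [Submodule.liftQ_apply]
  change algebraMap (BInf p t) (A ⧸ J) b = _
  rw [IsScalarTower.algebraMap_apply (BInf p t) A (A ⧸ J)]
  exact (Ideal.Quotient.eq.2 hb).symm

/-- `fin` of `GalTower`: the length of finitely generated torsion modules is finite.  `s = t` or any
system of elements of `B` such that all `B / (s^N)` have finite length and `p` is in it. -/
theorem fin_lenA (ht : ∀ i, t i ∈ IsLocalRing.maximalIdeal B) {κ : Type w} [Finite κ]
    (s : κ → B) (i0 : κ) (hi0 : s i0 = (p : B))
    (hlen : ∀ N : ℕ, Module.length B (B ⧸ Ideal.span (Set.range fun i => s i ^ N)) ≠ ⊤)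
    (hd : Om.IsCompl (p : BInf p t) (algebraMap (BInf p t) A))
    (V : Type u) [AddCommGroup V] [Module A V] (hV : Module.Finite A V)
    (hT : Tors (fun i => algebraMap (BInf p t) A (algebraMap B (BInf p t) (s i))) V) :
    (lenA p t hp A).L V ≠ ⊤ := by
  refine fin_of_quot (lenA p t hp A) _ (fun N => ?_) V hV hT
  refine ne_top_of_le_ne_top ?_ (lenA_quot_le p t hp ht
    (Ideal.span (Set.range fun i => s i ^ N)) _ ?_ ?_)
  · exact ENat.toENNReal_ne_top.2 (hlen N)
  · intro a
    obtain ⟨b, hb⟩ := hd.dense N a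
    refine ⟨b, Ideal.mem_of_dvd _ hb (Ideal.subset_span ⟨i0, ?_⟩)⟩
    change _ ^ N = _
    rw [hi0, map_natCast, map_natCast]
  · intro b hb
    have h1 : Ideal.span (Set.range fun i => s i ^ N) ≤ (Ideal.span (Set.range fun i =>
        algebraMap (BInf p t) A (algebraMap B (BInf p t) (s i)) ^ N)).comap
        ((algebraMap (BInf p t) A).comp (algebraMap B (BInf p t))) := by
      rw [Ideal.span_le]
      rintro _ ⟨i, rfl⟩
      rw [SetLike.mem_coe, Ideal.mem_comap, RingHom.comp_apply, map_pow, map_pow]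
      exact Ideal.subset_span ⟨i, rfl⟩
    exact h1 hb

end BInf

end Crest.Agent.R188.TowL
end

-- ▼ part R188/LenWorld5

set_option autoImplicit false
set_option linter.unusedSectionVars false

namespace Crest.Agent.R188.LenWorld

open WittVector Crest.Agent.R183 Crest.Agent.R188.Prf Crest.Agent.R188.Wit
open Crest.Agent.R188.LenW Crest.Agent.R188.Tow Crest.Agent.R188.KosG Crest.Agent.R188.Apl
open Crest.Agent.R188.Asm (BB BPlus tB SharpPair World LP)
open Crest.Agent.R183.Om (PData Reg RegMod IsCompl)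
open Crest.Agent.R183.BInf
open scoped ENNReal TensorProduct

/-! ### the absolute integral closure is integrally closed -/

theorem plus_isIntegrallyClosed (A : Type*) [CommRing A] (F : Type*) [Field F] [Algebra A F] :
    IsIntegrallyClosed (integralClosure A F) :=
  IsIntegrallyClosed.of_isIntegrallyClosedIn (integralClosure A F) F

section gen

universe u

variable {d : ℕ} (p : ℕ) {B : Type u} [CommRing B] (t : Fin d → B) (hp : 0 < p)
variable [IsNoetherianRing B] [IsLocalRing B] {A : Type u} [CommRing A] [Algebra (BInf p t) A]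

/-- `ℓ_B(B / I) ≤ λ(A / I A)` if `p ∈ I` -/
theorem length_le_lenA (ht : ∀ i, t i ∈ IsLocalRing.maximalIdeal B) (I0 : Ideal B)
    (hpI0 : (p : B) ∈ I0) (hd : IsCompl (p : BInf p t) (algebraMap (BInf p t) A)) :
    ((Module.length B (B ⧸ I0) : ℕ∞) : ℝ≥0∞) ≤
      (TowL.lenA p t hp A).L
        (A ⧸ (I0.map (algebraMap B (BInf p t))).map (algebraMap (BInf p t) A)) := by
  set I : Ideal (BInf p t) := I0.map (algebraMap B (BInf p t)) with hI
  set J := I.map (algebraMap (BInf p t) A) with hJ
  have e1 : (TowL.lenA p t hp A).L (A ⧸ J) = (AddLen.ofTower (tower p t hp)).L (A ⧸ J) :=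
    AddLen.restrict_L _ _ _ (fun a x => (algebraMap_smul A a x).symm)
  rw [e1]
  have hpI : (p : BInf p t) ∈ I := by
    have := Ideal.mem_map_of_mem (algebraMap B (BInf p t)) hpI0
    rwa [map_natCast] at this
  have key : ∀ z ∈ J, ∃ y ∈ I, (p : A) ∣ z - algebraMap (BInf p t) A y := by
    intro z hz
    induction hz using Submodule.span_induction with
    | mem z hz =>
      obtain ⟨y, hy, rfl⟩ := hz
      exact ⟨y, hy, by rw [sub_self]; exact dvd_zero _⟩
    | zero => exact ⟨0, I.zero_mem, by rw [map_zero, sub_zero]; exact dvd_zero _⟩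
    | add z z' _ _ hz hz' =>
      obtain ⟨y, hy, c, hc⟩ := hz
      obtain ⟨y', hy', c', hc'⟩ := hz'
      refine ⟨y + y', I.add_mem hy hy', c + c', ?_⟩
      rw [map_add]
      linear_combination hc + hc'
    | smul a z _ hz =>
      obtain ⟨y, hy, c, hc⟩ := hz
      obtain ⟨w, d, hd⟩ := hd.dense 1 a
      rw [pow_one, map_natCast] at hd
      refine ⟨w * y, I.mul_mem_left _ hy, d * z + algebraMap (BInf p t) A w * c, ?_⟩
      rw [smul_eq_mul, map_mul]
      linear_combination z * hd + algebraMap (BInf p t) A w * hc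
  let f : (BInf p t) →ₗ[BInf p t] (A ⧸ J) := Algebra.linearMap (BInf p t) (A ⧸ J)
  have hf : ∀ x, f x = Ideal.Quotient.mk J (algebraMap (BInf p t) A x) := fun x => by
    change algebraMap (BInf p t) (A ⧸ J) x = _
    rw [IsScalarTower.algebraMap_apply (BInf p t) A (A ⧸ J)]
    rfl
  have hle' : (I : Submodule (BInf p t) (BInf p t)) ≤ LinearMap.ker f := by
    intro x hx
    rw [LinearMap.mem_ker, hf, Ideal.Quotient.eq_zero_iff_mem]
    exact Ideal.mem_map_of_mem _ hx
  have hinj : Function.Injective (Submodule.liftQ I f hle') := by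
    rw [← LinearMap.ker_eq_bot]
    refine Submodule.ker_liftQ_eq_bot _ _ _ ?_
    intro x hx
    rw [LinearMap.mem_ker, hf, Ideal.Quotient.eq_zero_iff_mem] at hx
    obtain ⟨y, hy, hxy⟩ := key _ hx
    have h2 : (p : BInf p t) ∣ x - y := by
      have := hd.sat 1 (x - y)
      rw [pow_one, pow_one, map_natCast, map_sub] at this
      exact this hxy
    have h3 : x = (x - y) + y := by ring
    rw [h3]
    exact I.add_mem (Ideal.mem_of_dvd _ h2 hpI) hy
  have h4 := (AddLen.ofTower (tower p t hp)).L_le_of_injective (Submodule.liftQ I f hle') hinj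
  refine le_trans (le_of_eq ?_) h4
  rw [← lam_tensor p t hp ht (B ⧸ I0)]
  exact ((AddLen.ofTower (tower p t hp)).L_congr
    (Algebra.TensorProduct.quotIdealMapEquivTensorQuot (BInf p t) I0).toLinearEquiv).symm

end gen

section base

variable (p : ℕ) [hp : Fact p.Prime] (k : Type) [Field k] (b : ℕ)
  (A : Type) [CommRing A] [Algebra (BI p k b) A] [Algebra (BB p k b) A] {ϖ : ℕ → A}

/-- the length on `A`-modules -/
noncomputable abbrev lenB [CharP k p] [PerfectRing k p] : AddLen.{0, 0} A :=
  TowL.lenA p (tb b p (WittVector p k)) hp.out.pos A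

/-- the parameters -/
noncomputable abbrev tA (i : Fin (b + 1)) : A := algebraMap (BB p k b) A (tB p k b i)

variable {p k b A} [CharP k p] [PerfectRing k p]

theorem isBase_hfrob (hA : IsBase p k b A ϖ) (D : A) (n : ℕ) : ∃ η, (p : A) ∣ η ^ p ^ n - D := by
  induction n generalizing D with
  | zero => exact ⟨D, by rw [pow_zero, pow_one, sub_self]; exact dvd_zero _⟩
  | succ n ih =>
    obtain ⟨y, hy⟩ := hA.pdata.fsurj D
    obtain ⟨η, hη⟩ := ih y
    refine ⟨η, ?_⟩
    obtain ⟨c, hc⟩ := hη
    obtain ⟨r, hr⟩ := exists_add_pow_prime_eq hp.out y ((p : A) * c)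
    have h1 : η ^ p ^ (n + 1) = y ^ p + ((p : A) * c) ^ p + p * y * (p * c) * r := by
      rw [← hr, pow_succ, pow_mul]
      congr 1
      linear_combination hc
    have h2 : (p : A) ∣ ((p : A) * c) ^ p :=
      dvd_pow (Dvd.intro _ rfl) hp.out.ne_zero
    have h3 : η ^ p ^ (n + 1) - D = -(D - y ^ p) + ((p : A) * c) ^ p + p * (y * (p * c) * r) := by
      rw [h1]; ring
    rw [h3]
    exact dvd_add (dvd_add ((dvd_neg).2 hy) h2) (Dvd.intro _ rfl)

theorem isBase_pow (hA : IsBase p k b A ϖ) (n : ℕ) : ϖ n ^ p ^ n = p := by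
  induction n with
  | zero => rw [pow_zero, pow_one, hA.pdata.zero]
  | succ n ih => rw [pow_succ', pow_mul, hA.pdata.roots, ih]

/-- `λ (A / (t)) = 1`: lower bound. -/
theorem lenB_ne_zero (hA : IsBase p k b A ϖ) :
    (lenB p k b A).L (A ⧸ Ideal.span (Set.range (tA p k b A))) ≠ 0 := by
  have := hA.tower
  have h1 := length_le_lenA p (tb b p (WittVector p k)) hp.out.pos (A := A)
    (tb_mem_maximalIdeal b p k) (IsLocalRing.maximalIdeal (BB p k b)) (by
      have := tb_mem_maximalIdeal b p k 0
      rwa [tb_zero] at this) hA.compl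
  have h2 : ((IsLocalRing.maximalIdeal (BB p k b)).map (algebraMap (BB p k b) (BI p k b))).map
      (algebraMap (BI p k b) A) = Ideal.span (Set.range (tA p k b A)) := by
    rw [maximalIdeal_tb, Ideal.map_map, Ideal.map_span, ← Set.range_comp]
    congr 2
    funext i
    exact (IsScalarTower.algebraMap_apply (BB p k b) (BI p k b) A _).symm
  rw [h2] at h1
  intro h0
  have h4 : ((Module.length (BB p k b) (BB p k b ⧸ IsLocalRing.maximalIdeal (BB p k b)) : ℕ∞) :
      ℝ≥0∞) ≤ 0 := h1.trans (le_of_eq h0)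
  rw [le_zero_iff, ENat.toENNReal_eq_zero, Module.length_eq_zero_iff] at h4
  have : Nontrivial (BB p k b ⧸ IsLocalRing.maximalIdeal (BB p k b)) :=
    Ideal.Quotient.nontrivial_iff.2 (IsLocalRing.maximalIdeal.isMaximal _).ne_top
  exact not_subsingleton _ h4

theorem lenB_fin (hA : IsBase p k b A ϖ) (V : Type) [AddCommGroup V] [Module A V]
    (hV : Module.Finite A V) (hT : Tors (tA p k b A) V) : (lenB p k b A).L V ≠ ⊤ := by
  have := hA.tower
  refine TowL.fin_lenA p (tb b p (WittVector p k)) hp.out.pos (tb_mem_maximalIdeal b p k)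
    (tb b p (WittVector p k)) 0 rfl (fun N => ?_) hA.compl V hV ?_
  · refine HS.length_quot_pow_ne_top (tb b p (WittVector p k)) (t := 1) ?_ N
    rw [pow_one, maximalIdeal_tb]
  · intro x i
    obtain ⟨n, hn⟩ := hT x i
    refine ⟨n, ?_⟩
    have h1 : algebraMap (BI p k b) A (algebraMap (BB p k b) (BI p k b)
        (tb b p (WittVector p k) i)) = tA p k b A i :=
      (IsScalarTower.algebraMap_apply (BB p k b) (BI p k b) A _).symm
    change (algebraMap (BI p k b) A (algebraMap (BB p k b) (BI p k b)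
        (tb b p (WittVector p k) i))) ^ n • x = 0
    rw [h1]
    exact hn

end base

section world

variable {p : ℕ} [hp : Fact p.Prime] {k : Type} [Field k] [CharP k p] [PerfectRing k p] {b : ℕ}
  {A : Type} [CommRing A] [Algebra (BI p k b) A] [Algebra (BB p k b) A] {ϖ : ℕ → A}
  {F : Type} [Field F] [Algebra A F] [IsAlgClosed F] [FaithfulSMul A F]

theorem nonempty_world_of (hA : IsBase p k b A ϖ) (W : RWorld p k b A ϖ F)
    {I : Type} [Preorder I] [IsDirectedOrder I] [Nonempty I]
    (D : GalTower A (integralClosure A F) I (Fin (b + 1)))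
    (hU : ∀ x, ∃ i, x ∈ D.S i)
    (hΛ : D.Λ = lenB p k b A) (ht : D.t = tA p k b A)
    (hkos : ∀ (i : I) (n : ℤ), 1 ≤ n → KosG.kh D.Λ (List.ofFn D.t) (D.S i) n = 0)
    (hsmall : LenNull.Small D.Λ D.t p ϖ) : Nonempty (World p k b) := by
  have hdom := hA.dom
  have htow := hA.tower
  let _ : CommRing W.P := W.ringP
  have hic : IsIntegrallyClosed (integralClosure A F) := plus_isIntegrallyClosed A F
  let tR : Fin (b + 1) → integralClosure A F := fun i => algebraMap A (integralClosure A F) (D.t i)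
  have htR : ∀ i, sh W.ξ (W.t i) = W.j (tR i) := by
    intro i
    have h1 := (W.t_sharp i).2 0
    rw [W.perf.rtn_zero'] at h1
    rw [h1]
    change W.j (W.φ (W.tr i 0)) = W.j (algebraMap A (integralClosure A F) (D.t i))
    rw [W.tr_zero, W.φ_alg, ht]
  have hcR : Cont D.L := cont_of_contOn D.L D.contOn_L (fun M _ _ hM => D.L_eq_top hM)
  have hpA : (p : A) ≠ 0 := by
    intro h
    have := hA.reg 1 (by rw [h, zero_mul])
    exact one_ne_zero this
  have hdR : PData p (integralClosure A F) (fun e => algebraMap A (integralClosure A F) (ϖ e)) :=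
    pdata_plus hA.pdata.zero hA.pdata.roots hpA
  have hj1 : ∀ x : Om W.ξ, ∃ a, (p : Om W.ξ) ∣ x - W.j a := by
    intro x
    obtain ⟨a, ha⟩ := W.compl.dense 1 x
    rw [pow_one, map_natCast] at ha
    exact ⟨a, ha⟩
  have hj2 : ∀ a, (p : Om W.ξ) ∣ W.j a → (p : integralClosure A F) ∣ a := by
    intro a ha
    have := W.compl.sat 1 a
    rw [pow_one, pow_one, map_natCast] at this
    exact this ha
  -- Frobenius
  have hfrob : ∀ (V V' : Type) [AddCommGroup V] [Module (integralClosure A F) V]
      [AddCommGroup V'] [Module (integralClosure A F) V'] (φ : V ≃+ V'),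
      Frb.Tw p (C := integralClosure A F) φ →
        D.L.L V' = (p : ℝ≥0∞) ^ (b + 1) * D.L.L V := by
    intro V V' _ _ _ _ φ hφ
    have h1 := Frb.galTower_frob' D hU hA.pdata hdR
      (fun i => algebraMap (BI p k b) A (rt p (tb b p (WittVector p k)) hp.out.pos 1 i)) (by
        intro i
        rw [← map_pow, rt_succ_pow, rt_zero, ht]
        exact (IsScalarTower.algebraMap_apply (BB p k b) (BI p k b) A _).symm)
      (pbasis_witt b p k) (algebraMap (BI p k b) A) hΛ φ hφ
    rw [h1]
    push_cast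
    rfl
  -- values
  have htors : Tors D.t (A ⧸ Ideal.span (Set.range D.t)) := by
    intro x i
    refine ⟨1, ?_⟩
    obtain ⟨x, rfl⟩ := Ideal.Quotient.mk_surjective x
    rw [pow_one]
    change Ideal.Quotient.mk _ (D.t i * x) = 0
    exact Ideal.Quotient.eq_zero_iff_mem.2 (Ideal.mul_mem_right _ _ (Ideal.subset_span ⟨i, rfl⟩))
  have ht0 : D.t 0 = (p : A) := by
    rw [ht]
    change algebraMap (BB p k b) A (p : BB p k b) = p
    rw [map_natCast]
  have htR0 : tR 0 = (p : integralClosure A F) := by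
    change algebraMap A (integralClosure A F) (D.t 0) = p
    rw [ht0, map_natCast]
  obtain ⟨u, hu⟩ := W.t_zero
  have hval : (LP (LW W.perf W.dist W.j D.L)).L (W.P ⧸ Ideal.span (Set.range W.t)) =
      D.Λ.L (A ⧸ Ideal.span (Set.range D.t)) := by
    rw [← Frb.L_quot_map D hU _ htors, Ideal.map_span, ← Set.range_comp]
    refine LW_quot W.perf W.dist W.j D.L W.t tR htR hj1 hj2 0 ⟨u, hu.symm⟩ ?_
    rw [htR0]
  refine ⟨{ P := W.P
            perf := W.perf
            π := W.π
            ξ := W.ξ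
            dist := W.dist
            complete := W.complete
            π_reg := W.π_reg
            ι := W.j.comp W.φ
            exists_sharp := W.exists_sharp
            reg_ι := W.reg_ι
            reg_sharp := W.reg_sharp
            t := W.t
            tr := W.tr
            t_sharp := W.t_sharp
            tr_zero := W.tr_zero
            t_zero := W.t_zero
            t_jac := W.t_jac
            Λ := LW W.perf W.dist W.j D.L
            cont := cont_LW W.perf W.dist W.j D.L hcR
            frob := ?_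
            null := ?_
            L_ne_top := ?_
            L_ne_zero := ?_
            L_reg := ?_ }⟩
  · intro Y Y' _ _ _ _ e he
    exact frob_LW W.perf W.dist W.j D.L _ (pow_ne_zero _ (by exact_mod_cast hp.out.ne_zero))
      (ENNReal.pow_ne_top (ENNReal.natCast_ne_top p)) hfrob Y Y' e he
  · intro a r har hr0 X _ _ hX hkill
    refine null_LW W.perf W.dist W.j D.L W.t tR htR hcR 0 ⟨u, hu.symm⟩ a
      (fun n => W.φ (r n)) har.2 ?_ X hX hkill
    intro V _ _ hV hk
    have hpow : ∀ n, W.φ (r n) ^ p ^ n = W.φ (r 0) := by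
      intro n
      induction n with
      | zero => rw [pow_zero, pow_one]
      | succ n ih =>
        rw [pow_succ', pow_mul, ← map_pow W.φ (r (n + 1)), har.1, ih]
    refine LenNull.null_of_roots D.L D.Λ D.contOn_L (fun N I hI => ?_) 0 ht0
      (fun c n => plus_exists_pow c (Nat.pow_pos hp.out.pos)) (fun c hc => ?_) (fun a ha => ?_)
      (isBase_hfrob hA) ϖ (isBase_pow hA) hsmall V hV (W.φ (r 0)) ?_ (fun n => W.φ (r n)) hpow hk
    · refine le_of_eq (Frb.L_quot_map D hU I ?_)
      intro x i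
      refine ⟨N, ?_⟩
      obtain ⟨x, rfl⟩ := Ideal.Quotient.mk_surjective x
      change Ideal.Quotient.mk _ (D.t i ^ N * x) = 0
      exact Ideal.Quotient.eq_zero_iff_mem.2 (Ideal.mul_mem_right _ _
        (hI (Ideal.subset_span ⟨i, rfl⟩)))
    · exact plus_exists_mul hc
    · obtain ⟨e, i, m, D, -, hD, hDr⟩ := hA.fac a ha
      exact ⟨_, _, _, hD, hDr⟩
    · intro h0
      exact hr0 (W.φ_inj (by rw [h0, map_zero]))
  · rw [hval, hΛ]
    exact lenB_fin hA _ inferInstance (ht ▸ htors)
  · rw [hval, hΛ, ht]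
    exact lenB_ne_zero hA
  · intro i hi
    have h1 := kh_LW W.perf W.dist W.j D.L W.t tR htR hj1 hj2 W.t_zero (by rw [htR0])
      W.π_reg (fun x hx => (mul_eq_zero.1 hx).resolve_left (plus_natCast_ne_zero hpA)) i
    refine h1.trans ?_
    have h2 := kh_eq_zero_of_levels D hU (List.ofFn D.t) (fun k => by
      rw [List.mem_ofFn]; exact ⟨k, rfl⟩) i (fun j => hkos j i hi)
    rw [List.map_ofFn] at h2
    exact h2

end world

end Crest.Agent.R188.LenWorld
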