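import Crest.Agent.R188.ChiReg
import Crest.Agent.R183.AddLenInst
import Crest.Agent.R188.Noe6
import Crest.Agent.R188.Eq5
import Crest.Agent.R183.BInf3
import Crest.Agent.R188.SX2
import Crest.Agent.R188.FlgFilt

-- ▼ part R188/PerfB1
section

set_option autoImplicit false
set_option linter.unusedSectionVars false

namespace Crest.Agent.R188.PerfB

open scoped ENNReal
open IsLocalRing
open Crest.Agent.R183 Crest.Agent.R183.Res Crest.Agent.R188.Chi

universe u v w v'

section shift

variable {R : Type w} [CommRing R]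

/-- index types of the shift -/
def shι (ι : ℕ → Type) : ℕ → Type
  | 0 => Empty
  | (n + 1) => ι n

instance shFin (ι : ℕ → Type) [h : ∀ n, Fintype (ι n)] : ∀ n, Fintype (shι ι n)
  | 0 => inferInstanceAs (Fintype Empty)
  | (n + 1) => h n

instance shDec (ι : ℕ → Type) [h : ∀ n, DecidableEq (ι n)] : ∀ n, DecidableEq (shι ι n)
  | 0 => inferInstanceAs (DecidableEq Empty)
  | (n + 1) => h n

/-- differentials of the shift -/
def shd (K : MCx R) : ∀ n, Matrix (shι K.ι n) (shι K.ι (n + 1)) R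
  | 0 => 0
  | (n + 1) => K.d n

/-- the shift (no sign): `(sh K)_{n+1} = K_n`, `(sh K)_0 = 0` -/
def sh (K : MCx R) : MCx R where
  ι := shι K.ι
  fin := fun n => shFin K.ι n
  dec := fun n => shDec K.ι n
  d := shd K
  dd := by
    intro n
    cases n with
    | zero => ext a b; exact a.elim
    | succ k => exact K.dd k

lemma Len.sh {K : MCx R} {D : ℕ} (h : K.Len D) : (sh K).Len (D + 1) := by
  intro n hn
  cases n with
  | zero => omega
  | succ k => exact h k (by omega)

/-- drop degree zero -/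
def drop (F : MCx R) : MCx R where
  ι n := F.ι (n + 1)
  fin n := F.fin (n + 1)
  dec n := F.dec (n + 1)
  d n := F.d (n + 1)
  dd n := F.dd (n + 1)

lemma isEmpty_sh_zero (K : MCx R) : IsEmpty ((sh K).ι 0) := inferInstanceAs (IsEmpty Empty)

lemma isEmpty_iter (K : MCx R) : ∀ (m j : ℕ), j < m → IsEmpty ((sh^[m] K).ι j)
  | 0, j, h => by omega
  | (m + 1), 0, _ => by
    rw [Function.iterate_succ_apply']
    exact isEmpty_sh_zero _
  | (m + 1), (j + 1), h => by
    rw [Function.iterate_succ_apply']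
    exact isEmpty_iter K m j (by omega)

lemma len_iter {K : MCx R} {D : ℕ} (h : K.Len D) : ∀ m : ℕ, (sh^[m] K).Len (D + m)
  | 0 => h
  | (m + 1) => by
    rw [Function.iterate_succ_apply']
    exact Len.sh (len_iter h m)

section homology

variable {A : Type u} [CommRing A] (Λ : AddLen.{u, v} A)

/-- length of `Z / B` -/
noncomputable def LZB {M : Type v} [AddCommGroup M] [Module A M] (Z B : Submodule A M) : ℝ≥0∞ :=
  Λ.L (↥Z ⧸ B.comap Z.subtype)

variable (X : Type v) [AddCommGroup X] [Module A X] [Module R X] [SMulCommClass R A X]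

lemma hX_eq_LZB (F : MCx R) (i : ℕ) : hX Λ F X i =
    LZB Λ (Z (C := fun n => F.ι n → X) (F.dA A X) i) (B (C := fun n => F.ι n → X) (F.dA A X) i) :=
  rfl

lemma hX_sh_zero (K : MCx R) : hX Λ (sh K) X 0 = 0 :=
  hX_eq_zero_of_isEmpty Λ _ X 0 (isEmpty_sh_zero K)

lemma Z_sh_succ (K : MCx R) (i : ℕ) :
    (Z (C := fun n => (sh K).ι n → X) ((sh K).dA A X) (i + 1) : Submodule A (K.ι i → X)) =
      Z (C := fun n => K.ι n → X) (K.dA A X) i := by
  cases i with
  | zero =>
    refine le_antisymm le_top ?_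
    intro x _
    show (sh K).dA A X 0 x = 0
    funext a
    exact a.elim
  | succ k => rfl


lemma hX_sh_succ (K : MCx R) (i : ℕ) : hX Λ (sh K) X (i + 1) = hX Λ K X i := by
  rw [hX_eq_LZB, hX_eq_LZB, ← Z_sh_succ (A := A) X K i]
  rfl

lemma hX_sh_ne_top (K : MCx R) (h : ∀ i, hX Λ K X i ≠ ⊤) (i : ℕ) : hX Λ (sh K) X i ≠ ⊤ := by
  cases i with
  | zero => rw [hX_sh_zero]; exact ENNReal.zero_ne_top
  | succ k => rw [hX_sh_succ]; exact h k

lemma chiX_sh_succ (K : MCx R) (N : ℕ) : chiX Λ (sh K) X (N + 1) = - chiX Λ K X N := by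
  rw [chiX_eq, chiX_eq, Finset.sum_range_succ', hX_sh_zero]
  simp only [hX_sh_succ, pow_succ]
  simp [Finset.sum_neg_distrib]

lemma hX_iter_ne_top (K : MCx R) (h : ∀ i, hX Λ K X i ≠ ⊤) : ∀ (m i : ℕ),
    hX Λ (sh^[m] K) X i ≠ ⊤
  | 0, i => h i
  | (m + 1), i => by
    rw [Function.iterate_succ_apply']
    exact hX_sh_ne_top Λ X _ (hX_iter_ne_top K h m) i

lemma chiX_iter (K : MCx R) {D : ℕ} (hK : K.Len D) : ∀ (m N : ℕ), D + m < N →
    chiX Λ (sh^[m] K) X N = (-1) ^ m * chiX Λ K X (D + 1)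
  | 0, N, h => by
    rw [pow_zero, one_mul]
    exact chiX_eq_of_len Λ K X hK h
  | (m + 1), N, h => by
    obtain ⟨N', rfl⟩ : ∃ N', N = N' + 1 := ⟨N - 1, by omega⟩
    rw [Function.iterate_succ_apply', chiX_sh_succ, chiX_iter K hK m N' (by omega), pow_succ]
    ring

end homology

end shift

end Crest.Agent.R188.PerfB
end

-- ▼ part R188/PerfB2
section

set_option autoImplicit false
set_option linter.unusedSectionVars false

namespace Crest.Agent.R188.PerfB

open scoped ENNReal
open IsLocalRing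
open Crest.Agent.R183 Crest.Agent.R183.Res Crest.Agent.R188.Chi

universe u v w v'

section lift

variable {R : Type w} [CommRing R] [IsLocalRing R]

/-- exactness of `F` in degrees `≥ m + 1` -/
def ExGe (F : MCx R) (m : ℕ) : Prop :=
  ∀ i, m ≤ i → LinearMap.ker (F.dM R i) ≤ LinearMap.range (F.dM R (i + 1))

/-- the properties of the map `Φ_m : K[m]_m → F_m`, with image `R z` -/
structure Top (K' F : MCx R) (m : ℕ) (Φ : Matrix (F.ι m) (K'.ι m) R) (z : F.ι m → R) : Prop where
  mul : ∀ y : K'.ι m → R, ∃ c : R, act R Φ y = c • z ∧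
    (c ∈ maximalIdeal R → y ∈ K'.bdyM R m)
  one : ∃ (y : K'.ι m → R) (c : R), IsUnit c ∧ act R Φ y = c • z

/-- extend a map `K' → drop F` to `sh K' → F` -/
def extendMap {K' F : MCx R} (Φ : MMap K' (drop F)) (h : F.d 0 * (show Matrix (F.ι 1) (K'.ι 0) R from Φ.Φ 0) = 0) :
    MMap (sh K') F where
  Φ n := match n with
    | 0 => (0 : Matrix (F.ι 0) Empty R)
    | (n + 1) => Φ.Φ n
  comm n := by
    cases n with
    | zero =>
      show (0 : Matrix (F.ι 0) Empty R) * (0 : Matrix Empty (K'.ι 0) R) =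
        F.d 0 * (show Matrix (F.ι 1) (K'.ι 0) R from Φ.Φ 0)
      rw [h, Matrix.zero_mul]
    | succ k => exact Φ.comm k

variable {K : MCx R} {ε : (K.ι 0 → R) →ₗ[R] (R ⧸ maximalIdeal R)}

lemma exists_top_zero (hK : IsRes K ε) (F : MCx R) (z : F.ι 0 → R)
    (hmz : ∀ a ∈ maximalIdeal R, a • z ∈ F.bdyM R 0) (hex : ExGe F 0) :
    ∃ Φ : MMap K F, Top K F 0 (Φ.Φ 0) z := by
  have : ∀ b : K.ι 0, ∃ c : R, Ideal.Quotient.mk (maximalIdeal R) c = ε (Pi.single b 1) :=
    fun b => Ideal.Quotient.mk_surjective _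
  choose c hc using this
  let T0 : Matrix (F.ι 0) (K.ι 0) R := Matrix.of fun a b => c b * z a
  have hT0 : ∀ y : K.ι 0 → R, act R T0 y = (∑ b, y b * c b) • z := by
    intro y
    funext a
    rw [act_apply, Pi.smul_apply, smul_eq_mul, Finset.sum_mul]
    refine Finset.sum_congr rfl fun b _ => ?_
    show c b * z a * y b = _
    ring
  have hε : ∀ y : K.ι 0 → R, ε y = Ideal.Quotient.mk (maximalIdeal R) (∑ b, y b * c b) := by
    intro y
    have e2 : y = ∑ b, y b • (Pi.single b 1 : K.ι 0 → R) := by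
      funext a
      rw [Finset.sum_apply]
      simp [Pi.single_apply]
    conv_lhs => rw [e2, map_sum]
    rw [map_sum]
    refine Finset.sum_congr rfl fun b _ => ?_
    rw [map_smul, ← hc, map_mul]
    rfl
  have hex' : ∀ i, LinearMap.ker (F.dM R i) = LinearMap.range (F.dM R (i + 1)) := by
    intro i
    refine le_antisymm (hex i (Nat.zero_le _)) ?_
    rintro _ ⟨v, rfl⟩
    exact F.dM_dM i v
  have h0 : LiftP K F 0 T0 := by
    intro v
    rw [hT0]
    refine hmz _ ?_
    have h1 := hε (K.dM R 0 v)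
    rw [hK.ε_d] at h1
    exact Ideal.Quotient.eq_zero_iff_mem.1 h1.symm
  refine ⟨⟨fun n => (lifts hex' T0 h0 n).1, fun n => lifts_spec hex' T0 h0 n⟩, ?_, ?_⟩
  · intro y
    refine ⟨∑ b, y b * c b, hT0 y, fun h => ?_⟩
    have h1 : ε y = 0 := by
      rw [hε]
      exact Ideal.Quotient.eq_zero_iff_mem.2 h
    have : y ∈ LinearMap.ker ε := h1
    rw [hK.ex0] at this
    exact this
  · obtain ⟨y, hy⟩ := hK.surj 1
    refine ⟨y, ∑ b, y b * c b, ?_, hT0 y⟩
    by_contra hu
    have h1 : (∑ b, y b * c b) ∈ maximalIdeal R := (mem_maximalIdeal _).2 hu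
    have h2 := hε y
    rw [Ideal.Quotient.eq_zero_iff_mem.2 h1, hy] at h2
    exact one_ne_zero h2

theorem exists_top (hK : IsRes K ε) : ∀ (m : ℕ) (F : MCx R) (z : F.ι m → R),
    z ∈ F.cycM R m → (∀ a ∈ maximalIdeal R, a • z ∈ F.bdyM R m) → ExGe F m →
    ∃ Φ : MMap (sh^[m] K) F, Top (sh^[m] K) F m (Φ.Φ m) z
  | 0, F, z, _, hmz, hex => exists_top_zero hK F z hmz hex
  | (m + 1), F, z, hz, hmz, hex => by
    have hz' : (z : (drop F).ι m → R) ∈ (drop F).cycM R m := by
      cases m with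
      | zero => trivial
      | succ k => exact hz
    obtain ⟨Φ, hΦ⟩ := exists_top hK m (drop F) z hz' hmz (fun i hi => hex (i + 1) (by omega))
    have h0 : F.d 0 * (show Matrix (F.ι 1) ((sh^[m] K).ι 0) R from Φ.Φ 0) = 0 := by
      cases m with
      | zero =>
        apply mat_ext
        intro y
        obtain ⟨c, hc, -⟩ := hΦ.mul y
        rw [act_mul, act_zero]
        have h1 : act R (F.d 0) (show F.ι 1 → R from z) = 0 := hz
        have h2 : act R (F.d 0) (c • (show F.ι 1 → R from z)) = 0 := by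
          rw [map_smul, h1, smul_zero]
        exact (congrArg (fun t : F.ι 1 → R => act R (F.d 0) t) hc).trans h2
      | succ k =>
        ext a b
        exact ((isEmpty_iter K (k + 1) 0 (by omega)).false b).elim
    rw [Function.iterate_succ_apply']
    refine ⟨extendMap Φ h0, ?_, ?_⟩
    · intro y
      obtain ⟨c, hc, hc'⟩ := hΦ.mul y
      exact ⟨c, hc, fun h => hc' h⟩
    · obtain ⟨y, c, hc, hy⟩ := hΦ.one
      exact ⟨y, c, hc, hy⟩

end lift

section cone

variable {R : Type w} [CommRing R]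

/-- the off-diagonal block -/
def coneθ {K' F : MCx R} (Φ : MMap K' F) (n : ℕ) : Matrix (F.ι n) ((sh K').ι (n + 1)) R :=
  show Matrix (F.ι n) (K'.ι n) R from ((-1 : R) ^ n) • Φ.Φ n

lemma coneθ_spec {K' F : MCx R} (Φ : MMap K' F) (n : ℕ) :
    F.d n * coneθ Φ (n + 1) + coneθ Φ n * (sh K').d (n + 1) = 0 := by
  have h := Φ.comm n
  show F.d n * ((-1 : R) ^ (n + 1) • Φ.Φ (n + 1)) + ((-1 : R) ^ n • Φ.Φ n) * K'.d n = 0
  rw [Matrix.mul_smul, Matrix.smul_mul, h, pow_succ, mul_neg_one, neg_smul]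
  exact neg_add_cancel _

/-- the cone of a map -/
noncomputable def coneM {K' F : MCx R} (Φ : MMap K' F) : MCx R :=
  ext F (sh K') (coneθ Φ) (coneθ_spec Φ)

lemma coneM_len {K' F : MCx R} (Φ : MMap K' F) {D : ℕ} (hF : F.Len D) (hK : (sh K').Len D) :
    (coneM Φ).Len D := by
  intro n hn
  show IsEmpty (F.ι n ⊕ (sh K').ι n)
  exact isEmpty_sum.2 ⟨hF n hn, hK n hn⟩

variable {A : Type u} [CommRing A]

lemma sesCone (X : Type v) [AddCommGroup X] [Module A X] [Module R X] [SMulCommClass R A X]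
    {K' F : MCx R} (Φ : MMap K' F) :
    SES (C' := fun n => F.ι n → X) (C := fun n => (coneM Φ).ι n → X)
      (C'' := fun n => (sh K').ι n → X)
      (F.dA A X) ((coneM Φ).dA A X) ((sh K').dA A X) (fun n => inlA A X (F.ι n) ((sh K').ι n))
        (fun n => sndA A X (F.ι n) ((sh K').ι n)) := sesExt A X F (sh K') (coneθ Φ) (coneθ_spec Φ)

lemma act_smul_mat {ι κ : Type} [Fintype κ] (r : R) (D : Matrix ι κ R) (y : κ → R) :
    act R (r • D) y = r • act R D y := by
  funext a
  rw [Pi.smul_apply, act_apply, act_apply, Finset.smul_sum]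
  refine Finset.sum_congr rfl fun b _ => ?_
  rw [Matrix.smul_apply, smul_assoc]

lemma coneM_d {K' F : MCx R} (Φ : MMap K' F) (n : ℕ) (u : F.ι (n + 1) → R)
    (y : K'.ι n → R) :
    (coneM Φ).dM R n (Sum.elim u y : F.ι (n + 1) ⊕ (sh K').ι (n + 1) → R) =
      (Sum.elim (F.dM R n u + (-1 : R) ^ n • act R (Φ.Φ n) y) ((sh K').dM R n y) :
        F.ι n ⊕ (sh K').ι n → R) := by
  have h := act_fromBlocks' R (F.d n) (coneθ Φ n) ((sh K').d n)
    (Sum.elim u y : F.ι (n + 1) ⊕ (sh K').ι (n + 1) → R)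
  refine h.trans ?_
  have e : act R (coneθ Φ n) y = (-1 : R) ^ n • act R (Φ.Φ n) y := by
    exact act_smul_mat _ _ _
  rw [← e]
  rfl

end cone

end Crest.Agent.R188.PerfB
end

-- ▼ part R188/PerfB3
section

set_option autoImplicit false
set_option linter.unusedSectionVars false

namespace Crest.Agent.R188.PerfB

open scoped ENNReal
open IsLocalRing
open Crest.Agent.R183 Crest.Agent.R183.Res Crest.Agent.R188.Chi

universe u v w v'

section exactness

variable {R : Type w} [CommRing R]

lemma mem_cycM_of_sh (K' : MCx R) (i : ℕ) (y : K'.ι i → R)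
    (h : (sh K').dM R i (show (sh K').ι (i + 1) → R from y) = 0) : y ∈ K'.cycM R i := by
  cases i with
  | zero => trivial
  | succ k => exact h

/-- exactness in degrees `> m` -/
def ExGt (K' : MCx R) (m : ℕ) : Prop :=
  ∀ i, m < i → ∀ y : K'.ι i → R, y ∈ K'.cycM R i → y ∈ K'.bdyM R i

lemma ExGt.sh {K' : MCx R} {m : ℕ} (h : ExGt K' m) : ExGt (sh K') (m + 1) := by
  intro i hi y hy
  obtain ⟨j, rfl⟩ : ∃ j, i = j + 2 := ⟨i - 2, by omega⟩
  exact h (j + 1) (by omega) y hy

variable [IsLocalRing R] {K : MCx R} {ε : (K.ι 0 → R) →ₗ[R] (R ⧸ maximalIdeal R)}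

lemma exGt_of_isRes (hK : IsRes K ε) : ExGt K 0 := by
  intro i hi y hy
  obtain ⟨j, rfl⟩ : ∃ j, i = j + 1 := ⟨i - 1, by omega⟩
  have : y ∈ LinearMap.ker (K.dM R j) := hy
  rw [hK.ex j] at this
  exact this

lemma exGt_iter (hK : IsRes K ε) : ∀ m : ℕ, ExGt (sh^[m] K) m
  | 0 => exGt_of_isRes hK
  | (m + 1) => by
    rw [Function.iterate_succ_apply']
    exact (exGt_iter hK m).sh

variable {m : ℕ} {K' F : MCx R} {z : F.ι m → R} {Φ : MMap K' F}

/-- exactness of the cone in degrees `≥ m + 1` -/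
lemma coneM_exGe (hK : ExGt K' m) (hex : ExGe F m) (hz : z ∉ F.bdyM R m)
    (hΦ : Top K' F m (Φ.Φ m) z) : ExGe (coneM Φ) m := by
  intro i hi x hx
  let u : F.ι (i + 1) → R := fun a => x (Sum.inl a)
  let y : K'.ι i → R := fun b => x (Sum.inr b)
  have hx' : x = (Sum.elim u y : F.ι (i + 1) ⊕ (sh K').ι (i + 1) → R) := by
    funext a
    rcases a with a | a <;> rfl
  have hd : (coneM Φ).dM R i x = 0 := hx
  rw [hx', coneM_d] at hd
  have h1 : F.dM R i u + (-1 : R) ^ i • act R (Φ.Φ i) y = 0 := by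
    funext a
    exact congrFun hd (Sum.inl a)
  have h2 : (sh K').dM R i (show (sh K').ι (i + 1) → R from y) = 0 := by
    funext a
    exact congrFun hd (Sum.inr a)
  have hcyc : y ∈ K'.cycM R i := mem_cycM_of_sh K' i y h2
  have hbdy : y ∈ K'.bdyM R i := by
    rcases Nat.lt_or_ge m i with h | h
    · exact hK i h y hcyc
    · obtain rfl : i = m := le_antisymm h hi
      obtain ⟨c, hc, hc'⟩ := hΦ.mul y
      apply hc'
      by_contra hu
      have hcu : IsUnit c := by
        by_contra h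
        exact hu ((mem_maximalIdeal _).2 h)
      apply hz
      have h3 : c • z ∈ F.bdyM R i := by
        refine ⟨-((-1 : R) ^ i • u), ?_⟩
        show F.dM R i _ = _
        rw [hc] at h1
        have h4 : F.dM R i u = - ((-1 : R) ^ i • c • z) := eq_neg_of_add_eq_zero_left h1
        rw [map_neg, map_smul, h4, smul_neg, neg_neg, smul_smul, ← mul_pow]
        simp
      obtain ⟨c', rfl⟩ := hcu
      have := (F.bdyM R i).smul_mem (↑c'⁻¹ : R) h3
      rwa [smul_smul, Units.inv_mul, one_smul] at this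
  obtain ⟨w, hw⟩ := hbdy
  have hw' : act R (K'.d i) w = y := hw
  have h5 : F.dM R i (u - (-1 : R) ^ (i + 1) • act R (Φ.Φ (i + 1)) w) = 0 := by
    rw [map_sub, map_smul]
    have h6 : F.dM R i (act R (Φ.Φ (i + 1)) w) = act R (Φ.Φ i) y := by
      show act R (F.d i) (act R (Φ.Φ (i + 1)) w) = _
      rw [← act_mul, ← Φ.comm i, act_mul, hw']
    rw [h6, pow_succ, mul_neg_one, neg_smul, sub_neg_eq_add]
    exact h1
  obtain ⟨u'', hu''⟩ := hex i hi h5
  refine ⟨(Sum.elim u'' w : F.ι (i + 2) ⊕ (sh K').ι (i + 2) → R), ?_⟩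
  refine (coneM_d Φ (i + 1) u'' w).trans ?_
  rw [hx', hu'']
  have e1 : u - (-1 : R) ^ (i + 1) • act R (Φ.Φ (i + 1)) w +
      (-1 : R) ^ (i + 1) • act R (Φ.Φ (i + 1)) w = u := sub_add_cancel _ _
  rw [e1]
  have e2 : (sh K').dM R (i + 1) w = y := hw'
  rw [e2]

lemma mem_Z_iff (F : MCx R) (i : ℕ) (x : F.ι i → R) :
    x ∈ Z (C := fun n => F.ι n → R) (F.dA R R) i ↔ x ∈ F.cycM R i := by
  cases i with
  | zero => exact ⟨fun _ => trivial, fun _ => trivial⟩
  | succ k => exact Iff.rfl


/-- the length of `H_m` decreases -/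
lemma coneM_lt (hempty : IsEmpty ((sh K').ι m)) (hzc : z ∈ F.cycM R m) (hz : z ∉ F.bdyM R m)
    (hΦ : Top K' F m (Φ.Φ m) z) (hfin : hX (AddLen.ofLength R) F R m ≠ ⊤) :
    hX (AddLen.ofLength.{w, w} R) (coneM Φ) R m < hX (AddLen.ofLength.{w, w} R) F R m := by
  have S := sesCone (A := R) R Φ
  set f := Hmap S.cf m with hf
  have hsurj : Function.Surjective f := by
    intro ξ
    obtain ⟨⟨x, hx⟩, rfl⟩ := cls_surjective m ξ
    let u : F.ι m → R := fun a => x (Sum.inl a)
    have hxu : inlA R R (F.ι m) ((sh K').ι m) u = x := by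
      funext a
      rcases a with a | a
      · rfl
      · exact (hempty.false a).elim
    have hu : u ∈ Z (C := fun n => F.ι n → R) (F.dA R R) m := by
      cases m with
      | zero => trivial
      | succ k =>
        show F.dA R R k u = 0
        apply S.inj k
        rw [S.cf k u]
        show (coneM Φ).dA R R k (inlA R R (F.ι (k + 1)) ((sh K').ι (k + 1)) u) = _
        rw [hxu, map_zero]
        exact hx
    refine ⟨cls _ m ⟨u, hu⟩, ?_⟩
    rw [hf, Hmap_cls]
    congr 1
    exact Subtype.ext hxu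
  have hzZ : z ∈ Z (C := fun n => F.ι n → R) (F.dA R R) m := (mem_Z_iff F m z).2 hzc
  have hker : f (cls _ m ⟨z, hzZ⟩) = 0 := by
    rw [hf, Hmap_cls, cls_eq_zero_iff]
    obtain ⟨y, c, hc, hy⟩ := hΦ.one
    have h1 : inlA R R (F.ι m) ((sh K').ι m) ((-1 : R) ^ m • c • z) ∈
        B (C := fun n => (coneM Φ).ι n → R) ((coneM Φ).dA R R) m := by
      refine ⟨(Sum.elim 0 y : F.ι (m + 1) ⊕ (sh K').ι (m + 1) → R), ?_⟩
      refine (coneM_d Φ m 0 y).trans ?_
      funext a
      rcases a with a | a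
      · show (F.dM R m 0 + (-1 : R) ^ m • act R (Φ.Φ m) y) a = _
        rw [map_zero, zero_add, hy]
        rfl
      · exact (hempty.false a).elim
    obtain ⟨c', rfl⟩ := hc
    have h2 := (B (C := fun n => (coneM Φ).ι n → R) ((coneM Φ).dA R R) m).smul_mem
      ((↑c'⁻¹ : R) * (-1 : R) ^ m) h1
    have e : (↑c'⁻¹ * (-1 : R) ^ m) * ((-1 : R) ^ m * ↑c') = 1 := by
      have h3 : (-1 : R) ^ m * (-1 : R) ^ m = 1 := by rw [← mul_pow]; simp
      calc (↑c'⁻¹ * (-1 : R) ^ m) * ((-1 : R) ^ m * ↑c') =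
          (↑c'⁻¹ * ↑c') * ((-1 : R) ^ m * (-1 : R) ^ m) := by ring
        _ = 1 := by rw [h3, Units.inv_mul, one_mul]
    have e3 : (↑c'⁻¹ * (-1 : R) ^ m) • ((-1 : R) ^ m • (↑c' : R) • z) = z := by
      rw [smul_smul, smul_smul, mul_assoc (↑c'⁻¹ * (-1 : R) ^ m), e, one_smul]
    have e4 := congrArg (inlA R R (F.ι m) ((sh K').ι m)) e3
    rw [LinearMap.map_smul] at e4
    show inlA R R (F.ι m) ((sh K').ι m) z ∈ _
    rw [← e4]
    exact h2
  have hne : cls (d := F.dA R R) (C := fun n => F.ι n → R) m ⟨z, hzZ⟩ ≠ 0 := by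
    intro h
    rw [cls_eq_zero_iff] at h
    exact hz h
  have hL := (AddLen.ofLength.{w, w} R).L_ker_add_range f
  rw [LinearMap.range_eq_top.2 hsurj] at hL
  have e1 : (AddLen.ofLength.{w, w} R).L ↥(⊤ : Submodule R (HX R (coneM Φ) R m)) =
      hX (AddLen.ofLength.{w, w} R) (coneM Φ) R m :=
    (AddLen.ofLength.{w, w} R).L_congr Submodule.topEquiv
  rw [e1] at hL
  have e2 : hX (AddLen.ofLength.{w, w} R) F R m =
    (AddLen.ofLength.{w, w} R).L ↥(LinearMap.ker f) +
      hX (AddLen.ofLength.{w, w} R) (coneM Φ) R m := hL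
  have h3 : (AddLen.ofLength.{w, w} R).L ↥(LinearMap.ker f) ≠ 0 := by
    rw [AddLen.ofLength_L]
    intro h
    have h4 : Module.length R ↥(LinearMap.ker f) = 0 := by exact_mod_cast h
    rw [Module.length_eq_zero_iff] at h4
    apply hne
    have := h4.elim ⟨_, hker⟩ 0
    exact congrArg Subtype.val this
  rw [e2] at hfin ⊢
  have h5 := ENNReal.add_ne_top.1 hfin
  rw [add_comm]
  exact ENNReal.lt_add_right h5.2 h3

end exactness

end Crest.Agent.R188.PerfB
end

-- ▼ part R188/PerfB4
section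

set_option autoImplicit false
set_option linter.unusedSectionVars false

namespace Crest.Agent.R188.PerfB

open scoped ENNReal
open IsLocalRing
open Crest.Agent.R183 Crest.Agent.R183.Res Crest.Agent.R188.Chi

universe u v w v'

section socle

variable {R : Type w} [CommRing R] [IsLocalRing R]

/-- a nonzero module of finite length has a socle element -/
lemma exists_socle (H : Type v) [AddCommGroup H] [Module R H] (hfin : IsFiniteLength R H)
    (hne : Nontrivial H) : ∃ x : H, x ≠ 0 ∧ ∀ a ∈ maximalIdeal R, a • x = 0 := by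
  have h := isFiniteLength_iff_isNoetherian_isArtinian.1 hfin
  have := h.1
  have := h.2
  obtain ⟨S, hS⟩ := IsAtomic.exists_atom (Submodule R H)
  have hsimple : IsSimpleModule R S := isSimpleModule_iff_isAtom.2 hS
  obtain ⟨I, hI, ⟨e⟩⟩ := isSimpleModule_iff_quot_maximal.1 hsimple
  have hI' : I = maximalIdeal R := IsLocalRing.eq_maximalIdeal hI
  subst hI'
  refine ⟨(e.symm 1 : S), ?_, ?_⟩
  · intro h
    have h1 : e.symm 1 = 0 := Subtype.ext h
    have h2 : (1 : R ⧸ maximalIdeal R) = 0 := by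
      rw [← e.apply_symm_apply 1, h1, map_zero]
    exact one_ne_zero h2
  · intro a ha
    have h1 : a • e.symm 1 = 0 := by
      rw [← map_smul]
      have : a • (1 : R ⧸ maximalIdeal R) = 0 := by
        have h3 : a • (1 : R ⧸ maximalIdeal R) = Ideal.Quotient.mk _ a := by
          rw [Algebra.smul_def, mul_one]; rfl
        rw [h3]
        exact Ideal.Quotient.eq_zero_iff_mem.2 ha
      rw [this, map_zero]
    have := congrArg Subtype.val h1
    exact this

lemma ofLength_ne_top_iff (H : Type v) [AddCommGroup H] [Module R H] :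
    (AddLen.ofLength.{w, v} R).L H ≠ ⊤ ↔ IsFiniteLength R H := by
  rw [AddLen.ofLength_L, ← Module.length_ne_top_iff]
  constructor
  · intro h h'
    apply h
    rw [h']
    rfl
  · intro h h'
    apply h
    exact ENat.toENNReal_eq_top.1 h'

lemma ofLength_eq_zero_iff (H : Type v) [AddCommGroup H] [Module R H] :
    (AddLen.ofLength.{w, v} R).L H = 0 ↔ Subsingleton H := by
  rw [AddLen.ofLength_L, ← Module.length_eq_zero_iff (R := R)]
  constructor
  · intro h
    exact_mod_cast h
  · intro h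
    rw [h]
    simp

end socle

section main

variable {R : Type w} [CommRing R] [IsLocalRing R]

lemma cyc_le_bdy_of_hX_eq_zero (F : MCx R) (i : ℕ)
    (h : hX (AddLen.ofLength.{w, w} R) F R i = 0) (y : F.ι i → R) (hy : y ∈ F.cycM R i) :
    y ∈ F.bdyM R i := by
  have h1 : Subsingleton (HX R F R i) := (ofLength_eq_zero_iff _).1 h
  have h2 : cls (d := F.dA R R) (C := fun n => F.ι n → R) i ⟨y, (mem_Z_iff F i y).2 hy⟩ = 0 :=
    h1.elim _ _
  rw [cls_eq_zero_iff] at h2
  exact h2

lemma exGe_of_hX (F : MCx R) (m : ℕ)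
    (h : ∀ i, m < i → hX (AddLen.ofLength.{w, w} R) F R i = 0) : ExGe F m := by
  intro i hi y hy
  exact cyc_le_bdy_of_hX_eq_zero F (i + 1) (h (i + 1) (by omega)) y hy

lemma hX_eq_zero_of_exact (F : MCx R) (i : ℕ)
    (h : ∀ y : F.ι i → R, y ∈ F.cycM R i → y ∈ F.bdyM R i) :
    hX (AddLen.ofLength.{w, w} R) F R i = 0 := by
  refine (ofLength_eq_zero_iff (R := R) (HX R F R i)).2 ⟨fun a b => ?_⟩
  have : ∀ a : HX R F R i, a = 0 := by
    intro a
    obtain ⟨⟨x, hx⟩, rfl⟩ := cls_surjective i a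
    rw [cls_eq_zero_iff]
    exact h x ((mem_Z_iff F i x).1 hx)
  rw [this a, this b]

/-- a complex with vanishing homology over `R` has vanishing homology with any coefficients -/
lemma hX_eq_zero_of_acyclic {A : Type u} [CommRing A] (Λ : AddLen.{u, v} A)
    (X : Type v) [AddCommGroup X] [Module A X] [Module R X] [SMulCommClass R A X]
    (F : MCx R) (h : ∀ i, hX (AddLen.ofLength.{w, w} R) F R i = 0) (i : ℕ) :
    hX Λ F X i = 0 := by
  have hres : IsRes F (0 : (F.ι 0 → R) →ₗ[R] PUnit.{w + 1}) := by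
    refine ⟨fun x => ⟨0, Subsingleton.elim _ _⟩, ?_, ?_⟩
    · rw [LinearMap.ker_zero]
      refine le_antisymm ?_ le_top
      intro y _
      exact cyc_le_bdy_of_hX_eq_zero F 0 (h 0) y trivial
    · intro i
      refine le_antisymm (exGe_of_hX F 0 (fun i _ => h i) i (Nat.zero_le _)) ?_
      rintro _ ⟨v, rfl⟩
      exact F.dM_dM i v
  have h1 : ∀ x : HX A F X i, (1 : A) • x = 0 :=
    hres.smul_eq_zero (a := 1) (fun m => Subsingleton.elim _ _) X (b := 1)
      (fun x => by rw [one_smul, one_smul]) i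
  rw [hX_eq]
  have : Subsingleton (HX A F X i) := ⟨fun a b => by
    rw [← one_smul A a, ← one_smul A b, h1, h1]⟩
  exact Λ.L_subsingleton

variable {K : MCx R} {ε : (K.ι 0 → R) →ₗ[R] (R ⧸ maximalIdeal R)}

/-- length of homology of a resolution of `k` over `R` itself -/
lemma hX_res_succ (hK : IsRes K ε) (i : ℕ) :
    hX (AddLen.ofLength.{w, w} R) K R (i + 1) = 0 :=
  hX_eq_zero_of_exact K (i + 1) (exGt_of_isRes hK (i + 1) (Nat.succ_pos i))

/-- `H_0` of a resolution -/
noncomputable def H0equiv {M : Type v'} [AddCommGroup M] [Module R M] {F : MCx R}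
    {η : (F.ι 0 → R) →ₗ[R] M} (hF : IsRes F η) : HX R F R 0 ≃ₗ[R] M := by
  let g : HX R F R 0 →ₗ[R] M := Submodule.liftQ _ (η ∘ₗ Submodule.subtype _) (by
    rintro ⟨x, hx⟩ ⟨y, hy⟩
    show η x = 0
    have : x = F.dM R 0 y := hy.symm
    rw [this, hF.ε_d])
  refine LinearEquiv.ofBijective g ⟨?_, ?_⟩
  · rw [injective_iff_map_eq_zero]
    intro ξ hξ
    obtain ⟨⟨x, hx⟩, rfl⟩ := cls_surjective 0 ξ
    have h1 : η x = 0 := hξ
    rw [cls_eq_zero_iff]
    have : x ∈ LinearMap.ker η := h1
    rw [hF.ex0] at this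
    exact this
  · intro y
    obtain ⟨x, rfl⟩ := hF.surj y
    exact ⟨cls _ 0 ⟨x, trivial⟩, rfl⟩

lemma hX_res_zero (hK : IsRes K ε) : hX (AddLen.ofLength.{w, w} R) K R 0 = 1 := by
  rw [hX_eq, (AddLen.ofLength.{w, w} R).L_congr (H0equiv hK), AddLen.ofLength_L]
  have : Module.length R (R ⧸ maximalIdeal R) = 1 := by
    rw [Module.length_eq_one_iff]
    exact isSimpleModule_iff_quot_maximal.2 ⟨maximalIdeal R, inferInstance,
      ⟨LinearEquiv.refl R _⟩⟩
  rw [this]
  simp

lemma hX_res_ne_top (hK : IsRes K ε) (i : ℕ) : hX (AddLen.ofLength.{w, w} R) K R i ≠ ⊤ := by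
  cases i with
  | zero => rw [hX_res_zero hK]; exact ENNReal.one_ne_top
  | succ i => rw [hX_res_succ hK]; exact ENNReal.zero_ne_top

lemma chiX_res (hK : IsRes K ε) (N : ℕ) : chiX (AddLen.ofLength.{w, w} R) K R (N + 1) = 1 := by
  rw [chiX_eq, Finset.sum_range_succ']
  simp [hX_res_succ hK, hX_res_zero hK]

end main

section induction

variable {R : Type w} [CommRing R] [IsLocalRing R]
variable {K : MCx R} {ε : (K.ι 0 → R) →ₗ[R] (R ⧸ maximalIdeal R)}
variable {A : Type u} [CommRing A] (Λ : AddLen.{u, v} A)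
variable (X : Type v) [AddCommGroup X] [Module A X] [Module R X] [SMulCommClass R A X]

/-- the effect of the cone on lengths and Euler characteristics -/
lemma cone_effect {DK : ℕ} (hKl : K.Len DK) {m D : ℕ} {F : MCx R} (Φ : MMap (sh^[m] K) F)
    (hF : F.Len D) (hKX : ∀ i, hX Λ K X i ≠ ⊤) :
    ((∀ i, hX Λ (coneM Φ) X i ≠ ⊤) → ∀ i, hX Λ F X i ≠ ⊤) ∧
    ((∀ i, hX Λ F X i ≠ ⊤) → ∀ i, hX Λ (coneM Φ) X i ≠ ⊤) ∧
    ((∀ i, hX Λ F X i ≠ ⊤) → chiX Λ (coneM Φ) X (D + DK + m + 1 + 1) =
      chiX Λ F X (D + 1) + (-1) ^ (m + 1) * chiX Λ K X (DK + 1)) := by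
  have S := sesCone (A := A) X Φ
  have hsh : ∀ i, hX Λ (sh (sh^[m] K)) X i ≠ ⊤ :=
    hX_sh_ne_top Λ X _ (hX_iter_ne_top Λ X K hKX m)
  have hd := isCx_dA A (coneM Φ) X
  refine ⟨fun h i => S.h_left_ne_top Λ hd (h i) (hsh (i + 1)),
    fun h i => S.h_mid_ne_top Λ hd (h i) (hsh i), fun h => ?_⟩
  have hlen : (sh (sh^[m] K)).Len (DK + m + 1) := Len.sh (len_iter hKl m)
  have e1 := S.chi_add Λ hd (D + DK + m + 1 + 1) (fun i _ => h i) (fun i _ => hsh i)
    (hX_eq_zero_of_len Λ (sh (sh^[m] K)) X hlen (by omega))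
  have e2 : chiX Λ (coneM Φ) X (D + DK + m + 1 + 1) = chiX Λ F X (D + DK + m + 1 + 1) +
    chiX Λ (sh (sh^[m] K)) X (D + DK + m + 1 + 1) := e1
  have e3 : chiX Λ (sh (sh^[m] K)) X (D + DK + m + 1 + 1) =
      (-1) ^ (m + 1) * chiX Λ K X (DK + 1) := by
    have := chiX_iter Λ X K hKl (m + 1) (D + DK + m + 1 + 1) (by omega)
    rwa [Function.iterate_succ_apply'] at this
  rw [e2, e3, chiX_eq_of_len Λ F X hF (by omega : D < D + DK + m + 1 + 1)]

/-- the induction -/
theorem chiX_mul_aux (hK : IsRes K ε) {DK : ℕ} (hKl : K.Len DK) (hKX : ∀ i, hX Λ K X i ≠ ⊤) :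
    ∀ (m : ℕ) (n : ℕ) (F : MCx R) (D : ℕ), F.Len D →
      (∀ i, hX (AddLen.ofLength.{w, w} R) F R i ≠ ⊤) →
      (∀ i, m ≤ i → hX (AddLen.ofLength.{w, w} R) F R i = 0) →
      (∀ j, m = j + 1 → hX (AddLen.ofLength.{w, w} R) F R j < n) →
      (∀ i, hX Λ F X i ≠ ⊤) ∧ chiX Λ F X (D + 1) =
        chiX (AddLen.ofLength.{w, w} R) F R (D + 1) * chiX Λ K X (DK + 1) := by
  intro m
  induction m with
  | zero =>
    intro n F D hF _ h0 _
    have h1 : ∀ i, hX Λ F X i = 0 :=
      hX_eq_zero_of_acyclic Λ X F (fun i => h0 i (Nat.zero_le _))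
    refine ⟨fun i => by rw [h1]; exact ENNReal.zero_ne_top, ?_⟩
    have e1 : chiX Λ F X (D + 1) = 0 := by
      rw [chiX_eq]
      exact Finset.sum_eq_zero fun i _ => by rw [h1]; simp
    have e2 : chiX (AddLen.ofLength.{w, w} R) F R (D + 1) = 0 := by
      rw [chiX_eq]
      exact Finset.sum_eq_zero fun i _ => by rw [h0 i (Nat.zero_le _)]; simp
    rw [e1, e2, zero_mul]
  | succ m ihm =>
    intro n
    induction n with
    | zero =>
      intro F D _ _ _ hlt
      have := hlt m rfl
      simp at this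
    | succ n ihn =>
      intro F D hF hfin h0 hlt
      by_cases hm : hX (AddLen.ofLength.{w, w} R) F R m = 0
      · -- homology vanishes from degree `m` on
        have hfinj : ∀ j, m = j + 1 → ∃ n' : ℕ,
            hX (AddLen.ofLength.{w, w} R) F R j < n' := fun j _ =>
          ENNReal.exists_nat_gt (hfin j)
        have h0' : ∀ i, m ≤ i → hX (AddLen.ofLength.{w, w} R) F R i = 0 := by
          intro i hi
          rcases Nat.lt_or_ge m i with h | h
          · exact h0 i h
          · obtain rfl : i = m := le_antisymm h hi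
            exact hm
        cases m with
        | zero => exact ihm 0 F D hF hfin h0' (fun j hj => by omega)
        | succ m' =>
          obtain ⟨n', hn'⟩ := hfinj m' rfl
          refine ihm n' F D hF hfin h0' (fun j hj => ?_)
          obtain rfl : m' = j := by omega
          exact hn'
      · -- socle element
        have hfl : IsFiniteLength R (HX R F R m) := (ofLength_ne_top_iff _).1 (hfin m)
        have hnt : Nontrivial (HX R F R m) := by
          rw [← not_subsingleton_iff_nontrivial]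
          intro h
          exact hm ((ofLength_eq_zero_iff _).2 h)
        obtain ⟨ξ, hξ, hξm⟩ := exists_socle (HX R F R m) hfl hnt
        obtain ⟨⟨z, hz⟩, rfl⟩ := cls_surjective m ξ
        have hzc : z ∈ F.cycM R m := (mem_Z_iff F m z).1 hz
        have hzb : z ∉ F.bdyM R m := fun h => hξ ((cls_eq_zero_iff _).2 h)
        have hmz : ∀ a ∈ maximalIdeal R, a • z ∈ F.bdyM R m := by
          intro a ha
          have h1 := hξm a ha
          rw [← map_smul, cls_eq_zero_iff] at h1
          exact h1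
        have hex : ExGe F m := exGe_of_hX F m (fun i hi => h0 i hi)
        obtain ⟨Φ, hΦ⟩ := exists_top hK m F z hzc hmz hex
        have hempty : IsEmpty ((sh (sh^[m] K)).ι m) := by
          have := isEmpty_iter K (m + 1) m (Nat.lt_succ_self m)
          rwa [Function.iterate_succ_apply'] at this
        have hCex : ExGe (coneM Φ) m := coneM_exGe (exGt_iter hK m) hex hzb hΦ
        have hClt := coneM_lt hempty hzc hzb hΦ (hfin m)
        have hR := cone_effect (AddLen.ofLength.{w, w} R) R hKl Φ hF (hX_res_ne_top hK)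
        have hX' := cone_effect Λ X hKl Φ hF hKX
        have hClen : (coneM Φ).Len (D + DK + m + 1) :=
          coneM_len Φ (fun i hi => hF i (by omega))
            (fun i hi => (Len.sh (len_iter hKl m)) i (by omega))
        have hC := ihn (coneM Φ) (D + DK + m + 1) hClen (hR.2.1 hfin)
          (fun i hi => by
            obtain ⟨i', rfl⟩ : ∃ i', i = i' + 1 := ⟨i - 1, by omega⟩
            exact hX_eq_zero_of_exact (coneM Φ) (i' + 1)
              (fun y hy => hCex i' (by omega) hy))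
          (fun j hj => by
            obtain rfl : m = j := by omega
            -- lengths are natural numbers
            have h1 := hlt m rfl
            have hL : ∃ l : ℕ, hX (AddLen.ofLength.{w, w} R) F R m = l := by
              have := hfin m
              rw [hX_eq, AddLen.ofLength_L] at this ⊢
              obtain ⟨l, hl⟩ := ENat.ne_top_iff_exists.1
                (fun h => this (by rw [h]; rfl) : Module.length R (HX R F R m) ≠ ⊤)
              exact ⟨l, by rw [← hl]; simp⟩
            have hL' : ∃ l : ℕ, hX (AddLen.ofLength.{w, w} R) (coneM Φ) R m = l := by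
              have := hR.2.1 hfin m
              rw [hX_eq, AddLen.ofLength_L] at this ⊢
              obtain ⟨l, hl⟩ := ENat.ne_top_iff_exists.1
                (fun h => this (by rw [h]; rfl) :
                  Module.length R (HX R (coneM Φ) R m) ≠ ⊤)
              exact ⟨l, by rw [← hl]; simp⟩
            obtain ⟨l, hl⟩ := hL
            obtain ⟨l', hl'⟩ := hL'
            rw [hl, hl'] at hClt
            rw [hl] at h1
            rw [hl']
            have h2 : l' < l := by exact_mod_cast hClt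
            have h3 : l < n + 1 := by exact_mod_cast h1
            exact_mod_cast (by omega : l' < n))
        refine ⟨hX'.1 hC.1, ?_⟩
        have e1 := hX'.2.2 (hX'.1 hC.1)
        have e2 := hR.2.2 hfin
        rw [chiX_res hK] at e2
        have e3 := hC.2
        rw [e1, e2] at e3
        linear_combination e3

/-- **(I.1)** `χ(F; X) = χ_length(F) χ(K; X)` for every bounded complex `F` of finite free modules
over a local ring `R` with homology of finite length, `K` a finite free resolution of the residue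
field with `L(H_i(K ⊗ X)) < ∞`. -/
theorem chiX_mul (hK : IsRes K ε) {DK : ℕ} (hKl : K.Len DK) (hKX : ∀ i, hX Λ K X i ≠ ⊤)
    (F : MCx R) {D : ℕ} (hF : F.Len D)
    (hfin : ∀ i, hX (AddLen.ofLength.{w, w} R) F R i ≠ ⊤) :
    (∀ i, hX Λ F X i ≠ ⊤) ∧ chiX Λ F X (D + 1) =
        chiX (AddLen.ofLength.{w, w} R) F R (D + 1) * chiX Λ K X (DK + 1) := by
  obtain ⟨n, hn⟩ := ENNReal.exists_nat_gt (hfin D)
  refine chiX_mul_aux Λ X hK hKl hKX (D + 1) n F D hF hfin (fun i hi => ?_) (fun j hj => ?_)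
  · exact hX_eq_zero_of_len _ F R hF (by omega)
  · obtain rfl : D = j := by omega
    exact hn

end induction

end Crest.Agent.R188.PerfB
end

-- ▼ part R188/PerfB5
section

set_option autoImplicit false
set_option linter.unusedSectionVars false

namespace Crest.Agent.R188.PerfB

open scoped ENNReal
open IsLocalRing Pointwise
open Crest.Agent.R183 Crest.Agent.R183.Res Crest.Agent.R188.Chi

universe u v w v'

section general

variable {R : Type w} [CommRing R]

/-- exactness of the cone in degrees `≥ m + 1`, general form -/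
lemma coneM_exGe' {m : ℕ} {K' F : MCx R} {Φ : MMap K' F}
    (hK : ∀ i, m ≤ i → ∀ y : K'.ι i → R, y ∈ K'.cycM R i → act R (Φ.Φ i) y ∈ F.bdyM R i →
      y ∈ K'.bdyM R i) (hex : ExGe F m) : ExGe (coneM Φ) m := by
  intro i hi x hx
  let u : F.ι (i + 1) → R := fun a => x (Sum.inl a)
  let y : K'.ι i → R := fun b => x (Sum.inr b)
  have hx' : x = (Sum.elim u y : F.ι (i + 1) ⊕ (sh K').ι (i + 1) → R) := by
    funext a
    rcases a with a | a <;> rfl
  have hd : (coneM Φ).dM R i x = 0 := hx
  rw [hx', coneM_d] at hd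
  have h1 : F.dM R i u + (-1 : R) ^ i • act R (Φ.Φ i) y = 0 := by
    funext a
    exact congrFun hd (Sum.inl a)
  have h2 : (sh K').dM R i (show (sh K').ι (i + 1) → R from y) = 0 := by
    funext a
    exact congrFun hd (Sum.inr a)
  have hbdy : y ∈ K'.bdyM R i := by
    refine hK i hi y (mem_cycM_of_sh K' i y h2) ?_
    refine ⟨-((-1 : R) ^ i • u), ?_⟩
    show F.dM R i _ = _
    have h4 : F.dM R i u = - ((-1 : R) ^ i • act R (Φ.Φ i) y) := eq_neg_of_add_eq_zero_left h1
    rw [map_neg, map_smul, h4, smul_neg, neg_neg, smul_smul, ← mul_pow]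
    simp
  obtain ⟨w, hw⟩ := hbdy
  have hw' : act R (K'.d i) w = y := hw
  have h5 : F.dM R i (u - (-1 : R) ^ (i + 1) • act R (Φ.Φ (i + 1)) w) = 0 := by
    rw [map_sub, map_smul]
    have h6 : F.dM R i (act R (Φ.Φ (i + 1)) w) = act R (Φ.Φ i) y := by
      show act R (F.d i) (act R (Φ.Φ (i + 1)) w) = _
      rw [← act_mul, ← Φ.comm i, act_mul, hw']
    rw [h6, pow_succ, mul_neg_one, neg_smul, sub_neg_eq_add]
    exact h1
  obtain ⟨u'', hu''⟩ := hex i hi h5
  refine ⟨(Sum.elim u'' w : F.ι (i + 2) ⊕ (sh K').ι (i + 2) → R), ?_⟩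
  refine (coneM_d Φ (i + 1) u'' w).trans ?_
  rw [hx', hu'']
  have e1 : u - (-1 : R) ^ (i + 1) • act R (Φ.Φ (i + 1)) w +
      (-1 : R) ^ (i + 1) • act R (Φ.Φ (i + 1)) w = u := sub_add_cancel _ _
  rw [e1]
  have e2 : (sh K').dM R (i + 1) w = y := hw'
  rw [e2]

variable {A : Type u} [CommRing A] (Λ : AddLen.{u, v} A)
variable (X : Type v) [AddCommGroup X] [Module A X] [Module R X] [SMulCommClass R A X]

/-- if `b` kills `X` the cone of `b` on `F ⊗ X` splits -/
lemma k_eq_zero_of_smul (F : MCx R) {b : R} (hb : ∀ x : X, b • x = 0) (i : ℕ) :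
    (sesCone (A := A) X (MMap.smul F b)).k Λ i = 0 := by
  have S := sesCone (A := A) X (MMap.smul F b)
  rw [S.k_eq Λ (isCx_dA A (coneM (MMap.smul F b)) X)]
  have hsurj : Function.Surjective (Hmap S.cg (i + 1)) := by
    intro ξ
    obtain ⟨⟨y, hy⟩, rfl⟩ := cls_surjective (i + 1) ξ
    have hy' : (sh F).dA A X i y = 0 := hy
    let x : (coneM (MMap.smul F b)).ι (i + 1) → X :=
      (Sum.elim 0 y : F.ι (i + 1) ⊕ (sh F).ι (i + 1) → X)
    have hx : (coneM (MMap.smul F b)).dA A X i x = 0 := by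
      have h := act_fromBlocks' X (F.d i) (coneθ (MMap.smul F b) i) ((sh F).d i)
        (Sum.elim 0 y : F.ι (i + 1) ⊕ (sh F).ι (i + 1) → X)
      refine Eq.trans h ?_
      funext a
      rcases a with a | a
      · show (act X (F.d i) 0 + act X (coneθ (MMap.smul F b) i) y) a = 0
        rw [map_zero, zero_add, act_apply]
        refine Finset.sum_eq_zero fun c _ => ?_
        show ((-1 : R) ^ i * (b * (1 : Matrix (F.ι i) (F.ι i) R) a c)) • y c = 0
        rw [mul_left_comm, mul_smul, hb]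
      · exact congrFun hy' a
    refine ⟨cls _ (i + 1) ⟨x, hx⟩, ?_⟩
    rw [Hmap_cls]
    rfl
  have : Subsingleton (H (C := fun n => (sh F).ι n → X) ((sh F).dA A X) (i + 1) ⧸
      LinearMap.range (Hmap S.cg (i + 1))) := by
    rw [LinearMap.range_eq_top.2 hsurj]
    infer_instance
  exact Λ.L_subsingleton

lemma hX_le_coneM_smul (F : MCx R) {b : R} (hb : ∀ x : X, b • x = 0) (i : ℕ) :
    hX Λ F X i ≤ hX Λ (coneM (MMap.smul F b)) X (i + 1) := by
  have S := sesCone (A := A) X (MMap.smul F b)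
  have h := S.key_succ Λ (isCx_dA A (coneM (MMap.smul F b)) X) i
  have k1 : S.k Λ i = 0 := k_eq_zero_of_smul Λ X F hb i
  have k2 : S.k Λ (i + 1) = 0 := k_eq_zero_of_smul Λ X F hb (i + 1)
  rw [k1, k2, add_zero, add_zero] at h
  have e : hX Λ (sh F) X (i + 1) = hX Λ F X i := hX_sh_succ Λ X F i
  have h' : hX Λ F X (i + 1) + hX Λ (sh F) X (i + 1) =
    hX Λ (coneM (MMap.smul F b)) X (i + 1) := h
  rw [← h', e]
  exact le_add_self

lemma chiX_coneM_smul (F : MCx R) {D : ℕ} (hF : F.Len D) (b : R) (hfin : ∀ i, hX Λ F X i ≠ ⊤) :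
    chiX Λ (coneM (MMap.smul F b)) X (D + 1 + 1) = 0 := by
  have S := sesCone (A := A) X (MMap.smul F b)
  have e1 := S.chi_add Λ (isCx_dA A (coneM (MMap.smul F b)) X) (D + 1 + 1) (fun i _ => hfin i)
    (fun i _ => hX_sh_ne_top Λ X F hfin i)
    (hX_eq_zero_of_len Λ (sh F) X (Len.sh hF) (by omega))
  have e2 : chiX Λ (coneM (MMap.smul F b)) X (D + 1 + 1) = chiX Λ F X (D + 1 + 1) +
    chiX Λ (sh F) X (D + 1 + 1) := e1
  rw [e2, chiX_sh_succ, chiX_eq_of_len Λ F X hF (by omega : D < D + 1 + 1)]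
  ring

end general

section residue

variable {R : Type w} [CommRing R] [IsRegularLocalRing R]
variable {K : MCx R} {ε : (K.ι 0 → R) →ₗ[R] (R ⧸ maximalIdeal R)}
variable {A : Type u} [CommRing A] (Λ : AddLen.{u, v} A)
variable (X : Type v) [AddCommGroup X] [Module A X] [Module R X] [SMulCommClass R A X]

/-- data: a complex with finite length homology, `c ≠ 0`, killed by the twist -/
lemma exists_good {d : ℕ} (hd : ringKrullDim R = d) {b : R} (hb : b ≠ 0)
    (hbm : b ∈ maximalIdeal R) : ∃ (F : MCx R), F.Len d ∧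
      (∀ i, hX (AddLen.ofLength.{w, w} R) (coneM (MMap.smul F b)) R i ≠ ⊤) ∧
      chiX (AddLen.ofLength.{w, w} R) (coneM (MMap.smul F b)) R (d + 1 + 1) ≠ 0 := by
  have hdom : IsDomain R := Noe.isDomain_of_regular R
  have hCM : Noe.CM R d R := Noe.CM.of_regular R hd
  -- dim R/b < d
  have hdim : ringKrullDim (R ⧸ Ideal.span {b}) + 1 ≤ d := by
    have h := Noe.ringKrullDim_quotient_add_one_le (P := (⊥ : Ideal R)) (Q := Ideal.span {b})
      bot_le (x := b) (Ideal.mem_span_singleton_self b) (by simpa using hb)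
    refine h.trans ?_
    rw [← hd]
    exact ringKrullDim_quotient_le _
  have hspan : Ideal.span {b} ≤ maximalIdeal R := by
    rw [Ideal.span_le]
    simpa using hbm
  have hnt : Nontrivial (R ⧸ Ideal.span {b}) :=
    Ideal.Quotient.nontrivial_iff.2 (fun h => (maximalIdeal.isMaximal R).ne_top
      (top_le_iff.1 (h ▸ hspan)))
  obtain ⟨a, rfl⟩ : ∃ a, d = 1 + a := by
    have h0 : (0 : WithBot ℕ∞) ≤ ringKrullDim (R ⧸ Ideal.span {b}) :=
      ringKrullDim_nonneg_of_nontrivial
    have h1 : (1 : WithBot ℕ∞) ≤ d := by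
      refine le_trans ?_ hdim
      calc (1 : WithBot ℕ∞) = 0 + 1 := (zero_add _).symm
        _ ≤ _ := by gcongr
    have h2 : 1 ≤ d := by exact_mod_cast h1
    exact ⟨d - 1, by omega⟩
  have hA : ringKrullDim (R ⧸ Ideal.span {b}) ≤ (a : ℕ) := by
    have h3 : ringKrullDim (R ⧸ Ideal.span {b}) + 1 ≤ ((a + 1 : ℕ) : WithBot ℕ∞) := by
      rw [add_comm a 1]; exact hdim
    have h4 : ∀ e : WithBot ℕ∞, e + 1 ≤ ((a + 1 : ℕ) : WithBot ℕ∞) → e ≤ (a : ℕ) := by
      intro e he
      induction e with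
      | bot => exact bot_le
      | coe e =>
        induction e with
        | top =>
          exfalso
          have h6 : ((⊤ : ℕ∞) : WithBot ℕ∞) + 1 = ((⊤ : ℕ∞) : WithBot ℕ∞) := rfl
          rw [h6] at he
          have h7 : (⊤ : ℕ∞) ≤ ((a + 1 : ℕ) : ℕ∞) := by exact_mod_cast he
          exact absurd (top_le_iff.1 h7) (ENat.natCast_ne_top _)
        | coe e =>
          have h5 : e + 1 ≤ a + 1 := by exact_mod_cast he
          exact_mod_cast (by omega : e ≤ a)
    exact h4 _ h3
  have hm0 : ringKrullDim (R ⧸ maximalIdeal R) ≤ 0 :=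
    Noe.ringKrullDim_le_zero_of_pow_le (c := 1) (by rw [pow_one])
  obtain ⟨G, -, hGm, -, hGCM, hGdim⟩ := Noe.exists_G (a := a) (b := 1) hCM
    (I := maximalIdeal R) (A := Ideal.span {b}) le_rfl (hm0.trans (by exact_mod_cast zero_le_one))
    hA (by rw [sup_eq_right.2 hspan]; exact hm0)
  -- Q' = R/(G), Q = Q'/b
  let Q' := R ⧸ Ideal.ofList G
  have hann : Module.annihilator R Q' = Ideal.ofList G := Ideal.annihilator_quotient
  have hQdim : Module.supportDim R (QuotSMulTop b Q') ≤ 0 := by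
    have h := Noe.supportDim_quotient_smul_top (Ideal.span {b}) Q'
    rw [Submodule.ideal_span_singleton_smul] at h
    show Module.supportDim R (Q' ⧸ b • (⊤ : Submodule R Q')) ≤ 0
    rw [h, hann, sup_comm]
    exact hGdim
  have hreg : IsSMulRegular Q' b := by
    refine hGCM.isSMulRegular (hQdim.trans_lt ?_)
    exact_mod_cast zero_lt_one
  have hQCM : Noe.CM R 0 (QuotSMulTop b Q') := Noe.CM.quotSMulTop hGCM hbm hreg
  have hQnt : Nontrivial (QuotSMulTop b Q') := hQCM.nontrivial
  have hQfl : IsFiniteLength R (QuotSMulTop b Q') := by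
    have h : IsFiniteLength R (TensorProduct R (R ⧸ Ideal.span {b}) Q') := by
      refine Noe.isFiniteLength_tensorProduct ?_
      rw [hann, Ideal.annihilator_quotient]
      exact hGdim
    exact (QuotSMulTop.equivQuotTensor b Q').symm.isFiniteLength h
  obtain ⟨F, η, hF, -, hFl⟩ := exists_res_len hd Q'
  refine ⟨F, hFl, ?_⟩
  set C := coneM (MMap.smul F b) with hC
  have hsmul : ∀ (i : ℕ) (y : F.ι i → R), act R ((MMap.smul F b).Φ i) y = b • y := fun i y =>
    act_smul_one b y
  -- exactness in positive degrees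
  have hreg' : ∀ q : Q', b • q = 0 → q = 0 := fun q hq =>
    hreg (show b • q = b • (0 : Q') by rw [hq, smul_zero])
  have hCex : ExGe C 0 := by
    refine coneM_exGe' (fun i _ y hy hby => ?_) ?_
    · rw [hsmul] at hby
      cases i with
      | zero =>
        have h1 : η (b • y) = 0 := by
          obtain ⟨w, hw⟩ := hby
          rw [← hw]
          exact hF.ε_d w
        rw [map_smul] at h1
        have h2 : y ∈ LinearMap.ker η := hreg' _ h1
        rw [hF.ex0] at h2
        exact h2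
      | succ k =>
        have h2 : y ∈ LinearMap.ker (F.dM R k) := hy
        rw [hF.ex k] at h2
        exact h2
    · intro i _
      exact (hF.ex i).le
  -- H_0
  let q : Q' →ₗ[R] QuotSMulTop b Q' := Submodule.mkQ _
  let η' : (C.ι 0 → R) →ₗ[R] QuotSMulTop b Q' :=
    q ∘ₗ η ∘ₗ (LinearMap.funLeft R R (Sum.inl : F.ι 0 → F.ι 0 ⊕ (sh F).ι 0))
  have hη' : ∀ u : F.ι 0 → R, ∀ y, η' (Sum.elim u y : F.ι 0 ⊕ (sh F).ι 0 → R) = q (η u) :=
    fun u y => rfl
  have hres : IsRes C η' := by
    refine ⟨?_, ?_, ?_⟩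
    · intro x
      obtain ⟨x', rfl⟩ := Submodule.mkQ_surjective _ x
      obtain ⟨u, rfl⟩ := hF.surj x'
      exact ⟨(Sum.elim u 0 : F.ι 0 ⊕ (sh F).ι 0 → R), hη' u 0⟩
    · apply le_antisymm
      · intro x hx
        let u : F.ι 0 → R := fun a => x (Sum.inl a)
        have h1 : q (η u) = 0 := hx
        have h2 : η u ∈ (b • (⊤ : Submodule R Q')) := (Submodule.Quotient.mk_eq_zero _).1 h1
        obtain ⟨q', -, hq'⟩ := (Submodule.mem_smul_pointwise_iff_exists _ _ _).1 h2
        obtain ⟨y, rfl⟩ := hF.surj q'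
        have h3 : u - b • y ∈ LinearMap.ker η := by
          rw [LinearMap.mem_ker, map_sub, map_smul, hq', sub_self]
        rw [hF.ex0] at h3
        obtain ⟨w, hw⟩ := h3
        refine ⟨(Sum.elim w y : F.ι 1 ⊕ (sh F).ι 1 → R), ?_⟩
        refine (coneM_d (MMap.smul F b) 0 w y).trans ?_
        funext a
        rcases a with a | a
        · show (F.dM R 0 w + (-1 : R) ^ 0 • act R ((MMap.smul F b).Φ 0) y) a = x (Sum.inl a)
          rw [hw, hsmul, pow_zero, one_smul, sub_add_cancel]
        · exact a.elim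
      · rintro _ ⟨x, rfl⟩
        let u : F.ι 1 → R := fun a => x (Sum.inl a)
        let y : F.ι 0 → R := fun a => x (Sum.inr a)
        have hx' : x = (Sum.elim u y : F.ι 1 ⊕ (sh F).ι 1 → R) := by
          funext a
          rcases a with a | a <;> rfl
        rw [LinearMap.mem_ker, hx']
        have h1 := coneM_d (MMap.smul F b) 0 u y
        have h2 : η' (C.dM R 0 (Sum.elim u y : F.ι 1 ⊕ (sh F).ι 1 → R)) =
            q (η (F.dM R 0 u + (-1 : R) ^ 0 • act R ((MMap.smul F b).Φ 0) y)) := by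
          rw [h1]
          exact hη' _ _
        rw [h2, hsmul, map_add, hF.ε_d, zero_add, pow_zero, one_smul, map_smul, map_smul]
        refine (Submodule.Quotient.mk_eq_zero _).2 ?_
        exact Submodule.smul_mem_pointwise_smul _ _ _ trivial
    · intro i
      apply le_antisymm (hCex i (Nat.zero_le _))
      rintro _ ⟨v, rfl⟩
      exact C.dM_dM i v
  have h0 : hX (AddLen.ofLength.{w, w} R) C R 0 =
      (AddLen.ofLength.{w, w} R).L (QuotSMulTop b Q') :=
    (AddLen.ofLength.{w, w} R).L_congr (H0equiv hres)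
  have hpos : ∀ i, hX (AddLen.ofLength.{w, w} R) C R (i + 1) = 0 := fun i =>
    hX_eq_zero_of_exact C (i + 1) (fun y hy => hCex i (Nat.zero_le _) hy)
  have hfin0 : hX (AddLen.ofLength.{w, w} R) C R 0 ≠ ⊤ := by
    rw [h0, ofLength_ne_top_iff]; exact hQfl
  have hne0 : hX (AddLen.ofLength.{w, w} R) C R 0 ≠ 0 := by
    rw [h0, Ne, ofLength_eq_zero_iff, not_subsingleton_iff_nontrivial]; exact hQnt
  refine ⟨fun i => ?_, ?_⟩
  · cases i with
    | zero => exact hfin0
    | succ i => rw [hpos]; exact ENNReal.zero_ne_top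
  · rw [chiX_eq, Finset.sum_range_succ']
    simp only [hpos, ENNReal.toReal_zero, mul_zero, Finset.sum_const_zero, pow_zero, one_mul,
      zero_add]
    exact ENNReal.toReal_ne_zero.2 ⟨hne0, hfin0⟩

/-- **(I.2)** If a nonzero element `b` of the regular local ring `R` kills `X` (and the Koszul
lengths are finite) then `χ(K; X) = 0`. -/
theorem chiX_residue_eq_zero {d : ℕ} (hd : ringKrullDim R = d) (hK : IsRes K ε) {DK : ℕ} (hKl : K.Len DK)
    (hKX : ∀ i, hX Λ K X i ≠ ⊤) {b : R} (hb : b ≠ 0) (hbX : ∀ x : X, b • x = 0) :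
    chiX Λ K X (DK + 1) = 0 := by
  by_cases hbm : b ∈ maximalIdeal R
  · obtain ⟨F, hF, hfin, hne⟩ := exists_good hd hb hbm
    have hClen : (coneM (MMap.smul F b)).Len (d + 1) :=
      coneM_len _ (fun i hi => hF i (by omega)) (Len.sh hF)
    obtain ⟨h1, h2⟩ := chiX_mul Λ X hK hKl hKX (coneM (MMap.smul F b)) hClen hfin
    have h3 : ∀ i, hX Λ F X i ≠ ⊤ := fun i =>
      ne_top_of_le_ne_top (h1 (i + 1)) (hX_le_coneM_smul Λ X F hbX i)
    rw [chiX_coneM_smul Λ X F hF b h3] at h2
    rcases mul_eq_zero.1 h2.symm with h | h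
    · exact absurd h hne
    · exact h
  · have hu : IsUnit b := by
      by_contra h
      exact hbm ((mem_maximalIdeal _).2 h)
    have : Subsingleton X := ⟨fun x y => by
      obtain ⟨c, rfl⟩ := hu
      have : ∀ x : X, x = 0 := fun x => by
        rw [← one_smul R x, ← Units.inv_mul c, mul_smul, hbX, smul_zero]
      rw [this x, this y]⟩
    rw [chiX_eq]
    exact Finset.sum_eq_zero fun i _ => by rw [hX_subsingleton]; simp


end residue

end Crest.Agent.R188.PerfB
end

-- ▼ part R188/PerfB6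
section

set_option autoImplicit false
set_option linter.unusedSectionVars false

namespace Crest.Agent.R188.PerfB

open scoped ENNReal
open IsLocalRing
open Crest.Agent.R183 Crest.Agent.R183.Res Crest.Agent.R188.Chi

universe u v w v' w'

section push

variable {R : Type w'} [CommRing R] {B : Type w} [CommRing B] {n : ℕ}

/-- the push-forward `F ⊗_R B^n` of `F` along `ρ : R → Mat_n(B)`, a complex of free `B`-modules -/
def push (F : MCx R) (ρ : R →+* Matrix (Fin n) (Fin n) B) : MCx B where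
  ι i := F.ι i × Fin n
  fin _ := inferInstance
  dec _ := inferInstance
  d i := Matrix.of fun x y => ρ (F.d i x.1 y.1) x.2 y.2
  dd i := by
    ext ⟨a, s⟩ ⟨c, u⟩
    have h := congrFun (congrFun (F.dd i) a) c
    rw [Matrix.mul_apply, Matrix.zero_apply] at h
    have h' := congrFun (congrFun (congrArg ρ h) s) u
    rw [map_sum, map_zero, Matrix.zero_apply, Matrix.sum_apply] at h'
    rw [Matrix.mul_apply, Fintype.sum_prod_type, Matrix.zero_apply, ← h']
    refine Finset.sum_congr rfl fun b _ => ?_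
    rw [map_mul, Matrix.mul_apply]
    rfl

lemma len_push {F : MCx R} {D : ℕ} (hF : F.Len D) (ρ : R →+* Matrix (Fin n) (Fin n) B) :
    (push F ρ).Len D := by
  intro i hi
  have := hF i hi
  exact ⟨fun x => this.false x.1⟩

variable {A : Type u} [CommRing A]
variable (X : Type v) [AddCommGroup X] [Module A X] [Module B X] [SMulCommClass B A X]
variable (V : Type v) [AddCommGroup V] [Module A V] [Module R V] [SMulCommClass R A V]

/-- terms of the comparison -/
def pushTerm (F : MCx R) (ρ : R →+* Matrix (Fin n) (Fin n) B) {X V : Type v} [AddCommGroup X]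
    [Module A X] [AddCommGroup V] [Module A V] (e : V ≃ₗ[A] (Fin n → X)) (i : ℕ) :
    (F.ι i → V) ≃ₗ[A] ((push F ρ).ι i → X) :=
  (LinearEquiv.piCongrRight fun _ : F.ι i => e) ≪≫ₗ
    (LinearEquiv.curry A X (F.ι i) (Fin n)).symm


variable {X V}

/-- **the homology of the push-forward** -/
noncomputable def HXpush (F : MCx R) (ρ : R →+* Matrix (Fin n) (Fin n) B) (e : V ≃ₗ[A] (Fin n → X))
    (he : ∀ r x s, e (r • x) s = ∑ t, ρ r s t • e x t) (i : ℕ) :
    HX A F V i ≃ₗ[A] HX A (push F ρ) X i :=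
  Hiso (C := fun m => F.ι m → V) (C' := fun m => (push F ρ).ι m → X)
    (d := F.dA A V) (d' := (push F ρ).dA A X) (fun m => pushTerm F ρ e m) (by
      intro m x
      funext ⟨a, s⟩
      show e (∑ b, F.d m a b • x b) s =
        ∑ y : F.ι (m + 1) × Fin n, (ρ (F.d m a y.1) s y.2) • e (x y.1) y.2
      rw [Fintype.sum_prod_type, map_sum, Finset.sum_apply]
      exact Finset.sum_congr rfl fun b _ => he _ _ _) i

variable (Λ : AddLen.{u, v} A)

lemma hX_push (F : MCx R) (ρ : R →+* Matrix (Fin n) (Fin n) B) (e : V ≃ₗ[A] (Fin n → X))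
    (he : ∀ r x s, e (r • x) s = ∑ t, ρ r s t • e x t) (i : ℕ) :
    hX Λ F V i = hX Λ (push F ρ) X i := Λ.L_congr (HXpush F ρ e he i)

lemma chiX_push (F : MCx R) (ρ : R →+* Matrix (Fin n) (Fin n) B) (e : V ≃ₗ[A] (Fin n → X))
    (he : ∀ r x s, e (r • x) s = ∑ t, ρ r s t • e x t) (N : ℕ) :
    chiX Λ F V N = chiX Λ (push F ρ) X N := by
  rw [chiX_eq, chiX_eq]
  exact Finset.sum_congr rfl fun i _ => by rw [hX_push Λ F ρ e he]

end push

/-! ### comparison of lengths -/

section restr0

variable {R : Type w'} [CommRing R] {A₀ : Type w} {A : Type u} [CommRing A₀] [CommRing A]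
  (φ : A₀ →+* A)
variable {V : Type v} [AddCommGroup V] [Module A₀ V] [Module A V] [Module R V]
  [SMulCommClass R A₀ V] [SMulCommClass R A V]

lemma Hadd_smul_of_map' (F : MCx R) (hφ : ∀ (a : A₀) (x : V), a • x = φ a • x) (i : ℕ) (a : A₀)
    (y : HX A F V i) :
    Eq.Hadd (C := fun n => F.ι n → V) (F.dA A V) (F.dA A₀ V) (fun _ _ => rfl) i (φ a • y) =
      a • Eq.Hadd (C := fun n => F.ι n → V) (F.dA A V) (F.dA A₀ V) (fun _ _ => rfl) i y := by
  obtain ⟨z, rfl⟩ := cls_surjective (C := fun n => F.ι n → V) (d := F.dA A V) i y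
  rw [← map_smul, Eq.Hadd_cls, Eq.Hadd_cls, ← map_smul]
  congr 1
  exact Subtype.ext (funext fun j => (hφ a _).symm)

end restr0

section restr

variable {R : Type w'} [CommRing R] {A₀ A : Type u} [CommRing A₀] [CommRing A] (φ : A₀ →+* A)
variable {V : Type v} [AddCommGroup V] [Module A₀ V] [Module A V] [Module R V]
  [SMulCommClass R A₀ V] [SMulCommClass R A V]

/-- restriction of the length along `A₀ → A` -/
lemma hX_restrict (Λ : AddLen.{u, v} A₀) (F : MCx R) (hφ : ∀ (a : A₀) (x : V), a • x = φ a • x)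
    (i : ℕ) : hX (Λ.restrict φ) F V i = hX Λ F V i := by
  let _ : Module A₀ (HX A F V i) := Module.compHom _ φ
  have h1 : (Λ.restrict φ).L (HX A F V i) = Λ.L (HX A F V i) :=
    Λ.restrict_L φ (HX A F V i) fun _ _ => rfl
  rw [hX_eq, h1, hX_eq]
  refine Λ.L_congr
    { Eq.Hadd (C := fun n => F.ι n → V) (F.dA A V) (F.dA A₀ V) (fun _ _ => rfl) i with
      map_smul' := fun a y => Hadd_smul_of_map' φ F hφ i a y }

lemma chiX_restrict (Λ : AddLen.{u, v} A₀) (F : MCx R) (hφ : ∀ (a : A₀) (x : V), a • x = φ a • x)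
    (N : ℕ) : chiX (Λ.restrict φ) F V N = chiX Λ F V N := by
  rw [chiX_eq, chiX_eq]
  exact Finset.sum_congr rfl fun i _ => by rw [hX_restrict φ Λ F hφ]

end restr

section mapring

variable {R : Type w'} [CommRing R] {S : Type w} [CommRing S] {A : Type u} [CommRing A]
variable {V : Type v} [AddCommGroup V] [Module A V] [Module R V] [Module S V]
  [SMulCommClass R A V] [SMulCommClass S A V]

/-- `F.map ψ` with coefficients in `V` is `F` with coefficients in `V` -/
lemma hX_map' (Λ : AddLen.{u, v} A) (F : MCx R) (ψ : R →+* S)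
    (hψ : ∀ (r : R) (x : V), r • x = ψ r • x) (i : ℕ) : hX Λ (F.map ψ) V i = hX Λ F V i := by
  refine Λ.L_congr (Hiso (C := fun m => (F.map ψ).ι m → V) (C' := fun m => F.ι m → V)
    (d := (F.map ψ).dA A V) (d' := F.dA A V) (fun m => LinearEquiv.refl A (F.ι m → V)) (by
      intro m x
      funext a
      show ∑ b, (ψ (F.d m a b)) • x b = ∑ b, F.d m a b • x b
      exact Finset.sum_congr rfl fun b _ => (hψ _ _).symm) i)

lemma chiX_map' (Λ : AddLen.{u, v} A) (F : MCx R) (ψ : R →+* S)
    (hψ : ∀ (r : R) (x : V), r • x = ψ r • x) (N : ℕ) : chiX Λ (F.map ψ) V N = chiX Λ F V N := by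
  rw [chiX_eq, chiX_eq]
  exact Finset.sum_congr rfl fun i _ => by rw [hX_map' Λ F ψ hψ]

end mapring

section lengthcmp

variable {R : Type w'} [CommRing R] {B : Type w} [CommRing B] {T : Type u} [CommRing T]
  [IsLocalRing T]
variable {N : Type v} [AddCommGroup N] [Module R N] [Module B N] [Module T N]
  [SMulCommClass R B N] [SMulCommClass R T N] [SMulCommClass R R N]

lemma Hadd_smul_tower [Algebra B T] [IsScalarTower B T N] (F : MCx R) (i : ℕ) (a : B)
    (y : HX T F N i) :
    Eq.Hadd (C := fun n => F.ι n → N) (F.dA T N) (F.dA B N) (fun _ _ => rfl) i (a • y) =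
      a • Eq.Hadd (C := fun n => F.ι n → N) (F.dA T N) (F.dA B N) (fun _ _ => rfl) i y := by
  have h0 : a • y = algebraMap B T a • y := (algebraMap_smul T a y).symm
  rw [h0]
  exact Hadd_smul_of_map' (algebraMap B T) F (fun a x => (algebraMap_smul T a x).symm) i a y

/-- `B → T` with `T` local and `B → T/𝔪` onto: the lengths of `H_i(F ⊗ N)` over `B` and `T` agree. -/
theorem length_HX_local [Algebra B T] [IsScalarTower B T N]
    (h : ∀ x : T, ∃ a : B, x - algebraMap B T a ∈ maximalIdeal T) (F : MCx R) (i : ℕ) :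
    Module.length B (HX B F N i) = Module.length T (HX T F N i) := by
  have h1 := Lam.length_eq_of_isLocalRing (R := B) h (HX T F N i)
  rw [← h1]
  exact (LinearEquiv.length_eq (R := B) (M := HX T F N i) (N := HX B F N i)
    { Eq.Hadd (C := fun n => F.ι n → N) (F.dA T N) (F.dA B N) (fun _ _ => rfl) i with
      map_smul' := fun a y => Hadd_smul_tower F i a y }).symm

/-- lengths over `B` and over `R`, both acting through the local ring `T` -/
theorem length_HX_local' [Algebra B T] [IsScalarTower B T N] [Algebra R T] [IsScalarTower R T N]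
    (hR : Function.Surjective (algebraMap R T))
    (h : ∀ x : T, ∃ a : B, x - algebraMap B T a ∈ maximalIdeal T) (F : MCx R) (i : ℕ) :
    Module.length B (HX B F N i) = Module.length R (HX R F N i) := by
  rw [length_HX_local (T := T) h F i]
  refine Eq.length_H_eq (C := fun n => F.ι n → N) (F.dA T N) (F.dA R N) (fun _ _ => rfl)
    (fun t => ?_) (fun r => ?_) i
  · obtain ⟨r, rfl⟩ := hR t
    exact ⟨r, fun _ x => funext fun j => algebraMap_smul T r _⟩
  · exact ⟨algebraMap R T r, fun _ x => funext fun j => algebraMap_smul T r _⟩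

end lengthcmp

/-! ### the main theorems -/

section main

variable {R : Type w'} [CommRing R] {B : Type w} [CommRing B] [IsLocalRing B] {n : ℕ}
variable {K : MCx B} {ε : (K.ι 0 → B) →ₗ[B] (B ⧸ maximalIdeal B)}
variable {N : Type w} [AddCommGroup N] [Module R N] [Module B N] [SMulCommClass R B N]
variable {A : Type u} [CommRing A] (Λ : AddLen.{u, v} A)
variable {X : Type v} [AddCommGroup X] [Module A X] [Module B X] [SMulCommClass B A X]
variable {V : Type v} [AddCommGroup V] [Module A V] [Module R V] [SMulCommClass R A V]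

/-- **block (I)**: `N ≅ B^n` with `R` acting through `ρ`, `V ≅ X^n` with `R` acting through `ρ`
(so `V = N ⊗_B X`): `χ(F; V) = χ_B(F; N) · χ(K; X)`, `K` a finite resolution of the residue field
of `B` with finite lengths on `X`. -/
theorem chiX_mul_push (F : MCx R) {D : ℕ} (hF : F.Len D) (ρ : R →+* Matrix (Fin n) (Fin n) B)
    (hK : IsRes K ε) {DK : ℕ} (hKl : K.Len DK) (eN : N ≃ₗ[B] (Fin n → B))
    (heN : ∀ r x s, eN (r • x) s = ∑ t, ρ r s t • eN x t)
    (hN : ∀ i, hX (AddLen.ofLength.{w, w} B) F N i ≠ ⊤)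
    (e : V ≃ₗ[A] (Fin n → X)) (he : ∀ r x s, e (r • x) s = ∑ t, ρ r s t • e x t)
    (hKX : ∀ i, hX Λ K X i ≠ ⊤) :
    (∀ i, hX Λ F V i ≠ ⊤) ∧ chiX Λ F V (D + 1) =
      chiX (AddLen.ofLength.{w, w} B) F N (D + 1) * chiX Λ K X (DK + 1) := by
  have h1 : ∀ i, hX (AddLen.ofLength.{w, w} B) (push F ρ) B i ≠ ⊤ := fun i => by
    rw [← hX_push _ F ρ eN heN]; exact hN i
  obtain ⟨h2, h3⟩ := chiX_mul Λ X hK hKl hKX (push F ρ) (len_push hF ρ) h1
  refine ⟨fun i => ?_, ?_⟩
  · rw [hX_push Λ F ρ e he]; exact h2 i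
  · rw [chiX_push Λ F ρ e he, h3, chiX_push _ F ρ eN heN]

end main

end Crest.Agent.R188.PerfB
end

-- ▼ part R188/PerfB7
section

set_option autoImplicit false
set_option linter.unusedSectionVars false

namespace Crest.Agent.R188.PerfB

open scoped ENNReal
open IsLocalRing
open Crest.Agent.R183 Crest.Agent.R183.Res Crest.Agent.R188.Chi Crest.Agent.R188.KosG

universe u v w v' w'

section kos

variable {B : Type w} [CommRing B] {A : Type u} [CommRing A] (Λ : AddLen.{u, v} A)
variable {X Y : Type v} [AddCommGroup X] [Module A X] [Module B X] [SMulCommClass B A X]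
  [AddCommGroup Y] [Module A Y]



variable (A B X) in
/-- `toG (1 ⊗ X) = X` in degree zero -/
def oneFT : GCx.Iso (toG (FT (MCx.one B) A X)) (KosG.one A X) where
  e :=
    { toFun := fun f => (show ∀ n, (MCx.one B).ι n → X from f) 0 ()
      map_add' := fun _ _ => rfl
      map_smul' := fun _ _ => rfl
      invFun := fun x => (fun n => match n with
        | 0 => (fun _ => x : Unit → X)
        | (_ + 1) => (fun a => Empty.elim a : Empty → X))
      left_inv := by
        intro f
        funext n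
        cases n with
        | zero => rfl
        | succ n => funext a; exact Empty.elim a
      right_inv := fun _ => rfl }
  gr := by
    intro i f
    change (show ∀ n, (MCx.one B).ι n → X from f) 0 () ∈
      (if i = 0 then (⊤ : Submodule A X) else ⊥) ↔
        ∀ n : ℕ, (n : ℤ) ≠ i → (show ∀ n, (MCx.one B).ι n → X from f) n = 0
    split_ifs with h0
    · refine ⟨fun _ n hn => ?_, fun _ => trivial⟩
      cases n with
      | zero => exact absurd h0.symm (by simpa using hn)
      | succ n => funext a; exact Empty.elim a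
    · rw [Submodule.mem_bot]
      refine ⟨fun h n _ => ?_, fun h => ?_⟩
      · cases n with
        | zero => funext a; exact h
        | succ n => funext a; exact Empty.elim a
      · exact congrFun (h 0 (fun h' => h0 (by simpa using h'.symm))) ()
  comm := by
    intro f
    change (MCx.one B).dM X 0 ((show ∀ n, (MCx.one B).ι n → X from f) 1) () = 0
    exact congrFun (act_zero _) ()

theorem hK_one (l : List A) (i : ℕ) : SX.hK Λ l (MCx.one B) X i = kh Λ l X i := by
  unfold SX.hK
  rw [l_kos]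
  obtain ⟨φ⟩ := cones_iso (oneFT B A X) l
  exact φ.h_eq Λ i

section residue

variable [IsLocalRing B] {K : MCx B} {ε : (K.ι 0 → B) →ₗ[B] (B ⧸ maximalIdeal B)}
variable (X)

/-- **the residue field resolution computes Koszul homology**: `s` a regular sequence generating
the maximal ideal, acting on `X` through `φ : B → A`. -/
theorem hX_residue_eq_kh {s : List B} (hs : RingTheory.Sequence.IsWeaklyRegular B s)
    (hsm : Ideal.ofList s = maximalIdeal B) (hK : IsRes K ε) (φ : B →+* A)
    (hφ : ∀ (b : B) (x : X), b • x = φ b • x) (i : ℕ) :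
    hX Λ K X i = kh Λ (s.map φ) X i := by
  have h := SX.hK_weaklyRegular φ Λ hφ s B (MCx.one B) _ SX.isRes_one hs (B ⧸ maximalIdeal B)
    (Submodule.mkQ (maximalIdeal B)) (Submodule.mkQ_surjective _)
    (by
      rw [Submodule.ker_mkQ, hsm]
      simp) K ε hK [] i
  rw [SX.hK_nil, List.append_nil] at h
  rw [h, hK_one]

theorem chiX_residue_eq_chi {s : List B} (hs : RingTheory.Sequence.IsWeaklyRegular B s)
    (hsm : Ideal.ofList s = maximalIdeal B) (hK : IsRes K ε) {DK : ℕ} (hKl : K.Len DK)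
    (φ : B →+* A) (hφ : ∀ (b : B) (x : X), b • x = φ b • x) {N : ℕ} (hN : DK < N) :
    chiX Λ K X N = KosG.chi Λ X (s.map φ) := by
  have h1 := hX_residue_eq_kh Λ X hs hsm hK φ hφ
  rw [chiX_eq_of_len Λ K X hKl hN, ← chiX_eq_of_len Λ K X hKl
    (N := max DK s.length + 1) (by omega), chiX_eq, KosG.chi]
  have h2 : Finset.range ((s.map φ).length + 1) ⊆ Finset.range (max DK s.length + 1) := by
    rw [List.length_map]
    exact Finset.range_mono (by omega)
  rw [← Finset.sum_subset h2]
  · exact Finset.sum_congr rfl fun i _ => by rw [h1]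
  · intro i _ hi
    rw [Finset.mem_range, not_lt] at hi
    rw [h1, kh_eq_zero Λ _ _ i (Or.inr (by exact_mod_cast hi))]
    simp

end residue

end kos

end Crest.Agent.R188.PerfB
end

-- ▼ part R188/PerfB8

set_option autoImplicit false
set_option linter.unusedSectionVars false

namespace Crest.Agent.R188.PerfB

open scoped ENNReal
open IsLocalRing
open Crest.Agent.R183 Crest.Agent.R183.Res Crest.Agent.R188.Chi Crest.Agent.R188.KosG

universe u v w v' w'

section regseq

variable {B : Type w} [CommRing B] [IsRegularLocalRing B]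

lemma span_getD_image (s : List B) {i : ℕ} (hi : i ≤ s.length) :
    Ideal.span ((fun j => s.getD j 0) '' Set.Iio i) = Ideal.ofList (s.take i) := by
  unfold Ideal.ofList
  congr 1
  ext y
  simp only [Set.mem_image, Set.mem_Iio, Set.mem_ofPred_eq]
  rw [List.mem_take_iff_getElem]
  constructor
  · rintro ⟨j, hj, rfl⟩
    exact ⟨j, by omega, by rw [List.getD_eq_getElem s 0 (by omega)]⟩
  · rintro ⟨j, hj, rfl⟩
    exact ⟨j, by omega, by rw [List.getD_eq_getElem s 0 (by omega)]⟩

/-- a regular system of parameters is a regular sequence (list form) -/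
theorem isWeaklyRegular_of_ofList {s : List B} (hd : ringKrullDim B = s.length)
    (hsm : Ideal.ofList s = maximalIdeal B) : RingTheory.Sequence.IsWeaklyRegular B s := by
  rw [RingTheory.Sequence.isWeaklyRegular_iff]
  intro i hi
  have h0 : Ideal.span ((fun j => s.getD j 0) '' Set.Iio s.length) = maximalIdeal B := by
    rw [span_getD_image s le_rfl, List.take_length, hsm]
  have h1 := regular_sequence hd (fun j => s.getD j 0) h0 i hi
  rw [span_getD_image s hi.le, List.getD_eq_getElem s 0 hi] at h1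
  rw [isSMulRegular_iff_right_eq_zero_of_smul]
  intro x hx
  obtain ⟨a, rfl⟩ := Submodule.Quotient.mk_surjective _ x
  rw [← Submodule.Quotient.mk_smul, Submodule.Quotient.mk_eq_zero] at hx
  rw [Submodule.Quotient.mk_eq_zero]
  have e : Ideal.ofList (s.take i) • (⊤ : Submodule B B) = Ideal.ofList (s.take i) := by
    rw [smul_eq_mul]; exact Ideal.mul_top _
  rw [e] at hx ⊢
  exact h1 a hx

end regseq

section twist

variable {B : Type w} [CommRing B] [IsRegularLocalRing B]
variable {K : MCx B} {ε : (K.ι 0 → B) →ₗ[B] (B ⧸ maximalIdeal B)}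
variable {A : Type u} [CommRing A] (Λ : AddLen.{u, v} A)
variable {X' X X'' : Type v} [AddCommGroup X'] [Module A X'] [Module B X'] [SMulCommClass B A X']
  [AddCommGroup X] [Module A X] [Module B X] [SMulCommClass B A X]
  [AddCommGroup X''] [Module A X''] [Module B X''] [SMulCommClass B A X'']


end twist

/-! ### the form used by `Flg.flag_formula_of_twist` -/

section flg

variable {Ω A : Type u} [CommRing Ω] [CommRing A] [Algebra Ω A]
variable {V : Type u} [AddCommGroup V] [Module Ω V] [Module A V] [IsScalarTower Ω A V] {r : ℕ}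

/-- `J V ≃ J^r` -/
def JVequiv (b : V ≃ₗ[Ω] (Fin r → Ω)) (I : Ideal Ω) :
    Flg.JV A b I ≃ₗ[Ω] (Fin r → I) where
  toFun x c := ⟨b x.1 c, x.2 c⟩
  map_add' x y := by
    funext c
    exact Subtype.ext (by show b (x.1 + y.1) c = _; rw [map_add]; rfl)
  map_smul' a x := by
    funext c
    exact Subtype.ext (by show b (a • x.1) c = _; rw [map_smul]; rfl)
  invFun y := ⟨b.symm fun c => (y c : Ω), fun c => by
    rw [LinearEquiv.apply_symm_apply]; exact (y c).2⟩
  left_inv x := Subtype.ext (by simp)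
  right_inv y := by
    funext c
    exact Subtype.ext (by simp)

@[simp] lemma JVequiv_apply (b : V ≃ₗ[Ω] (Fin r → Ω)) (I : Ideal Ω) (x : Flg.JV A b I)
    (c : Fin r) : (JVequiv b I x c : Ω) = b x.1 c := rfl

variable {R : Type w'} [CommRing R] {B : Type w} [CommRing B] [IsRegularLocalRing B] [Algebra B Ω]
variable {N : Type w} [AddCommGroup N] [Module R N] [Module B N] [SMulCommClass R B N]
variable (Λ : AddLen.{u, u} Ω)

/-- **block (I), first form**: `W ≅ X^r`, `R` acting through `ρ`: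
`χ(F ⊗ W) = χ_B(F ⊗ N) · χ(s; X)`, `s` a regular system of parameters of `B`. -/
theorem val_push {s : List B} (hd : ringKrullDim B = s.length)
    (hsm : Ideal.ofList s = maximalIdeal B) (F : MCx R) {D : ℕ} (hF : F.Len D) (φ : R →+* A)
    (ρ : R →+* Matrix (Fin r) (Fin r) B) (eN : N ≃ₗ[B] (Fin r → B))
    (heN : ∀ a x c, eN (a • x) c = ∑ t, ρ a c t • eN x t)
    (hN : ∀ i, hX (AddLen.ofLength.{w, w} B) F N i ≠ ⊤)
    {W : Type u} [AddCommGroup W] [Module Ω W] [Module A W] [IsScalarTower Ω A W]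
    {X : Type u} [AddCommGroup X] [Module Ω X] [Module B X] [IsScalarTower B Ω X]
    (e : W ≃ₗ[Ω] (Fin r → X)) (he : ∀ a x c, e (φ a • x) c = ∑ t, ρ a c t • e x t)
    (hXf : KFin Λ X (s.map (algebraMap B Ω))) :
    (∀ i, hX (Λ.restrict (algebraMap Ω A)) (F.map φ) W i ≠ ⊤) ∧
      chiX (Λ.restrict (algebraMap Ω A)) (F.map φ) W (D + 1) =
        chiX (AddLen.ofLength.{w, w} B) F N (D + 1) *
          KosG.chi Λ X (s.map (algebraMap B Ω)) := by
  let _ : Module R W := Module.compHom W φ
  have hRA : ∀ (a : R) (x : W), a • x = φ a • x := fun _ _ => rfl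
  have hΩA : ∀ (a : Ω) (x : W), a • x = algebraMap Ω A a • x := fun a x =>
    (algebraMap_smul A a x).symm
  have c1 : SMulCommClass R A W := ⟨fun a x y => by
    rw [hRA, hRA, smul_smul, smul_smul, mul_comm]⟩
  have c2 : SMulCommClass R Ω W := ⟨fun a x y => by
    rw [hRA, hRA, hΩA, hΩA, smul_smul, smul_smul, mul_comm]⟩
  have hB : ∀ (b : B) (x : X), b • x = algebraMap B Ω b • x := fun b x =>
    (algebraMap_smul Ω b x).symm
  have c3 : SMulCommClass B Ω X := ⟨fun a x y => by
    rw [hB, hB, smul_smul, smul_smul, mul_comm]⟩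
  obtain ⟨K, ε, hK, -, hKl⟩ := exists_res_len hd (B ⧸ maximalIdeal B)
  have hs := isWeaklyRegular_of_ofList hd hsm
  have hkh := hX_residue_eq_kh Λ X hs hsm hK (algebraMap B Ω) hB
  obtain ⟨h1, h2⟩ := chiX_mul_push Λ (V := W) F hF ρ hK hKl eN heN hN e
    (fun a x c => he a x c) (fun i => by rw [hkh]; exact hXf i)
  refine ⟨fun i => ?_, ?_⟩
  · rw [hX_map' _ F φ hRA, hX_restrict (algebraMap Ω A) Λ F hΩA]
    exact h1 i
  · rw [chiX_map' _ F φ hRA, chiX_restrict (algebraMap Ω A) Λ F hΩA, h2,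
      chiX_residue_eq_chi Λ X hs hsm hK hKl (algebraMap B Ω) hB (Nat.lt_succ_self _)]



end flg

end Crest.Agent.R188.PerfB
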