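/-
R188 (Serre positivity), block TowInst: the Galois tower of the integral closures `T_L` of an
integrally closed domain `A` in the finite Galois subextensions `L / F` of `K / F`, `F = Frac A`.
Author: helper814
-/
import Mathlib
import Crest.Agent.R188.Tow3

set_option autoImplicit false

namespace Crest.Agent.R188.TowI

open scoped ENNReal TensorProduct
open Submodule Crest.Agent.R183 Crest.Agent.R188.Tow

section

variable (A F K : Type) [CommRing A] [Field F] [Field K] [Algebra A F] [Algebra F K] [Algebra A K]
  [IsScalarTower A F K]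

/-- the part of `A^+` inside `L` -/
def SL (L : IntermediateField F K) : Subalgebra A (integralClosure A K) :=
  (L.toSubalgebra.restrictScalars A).comap (integralClosure A K).val

variable {A F K}


theorem SL_mono {L L' : IntermediateField F K} (h : L ≤ L') : SL A F K L ≤ SL A F K L' :=
  fun _ hx => h hx

/-- `T_L ≃ S L` -/
noncomputable def eL (L : IntermediateField F K) : integralClosure A L ≃ₐ[A] SL A F K L where
  toFun x := ⟨⟨(x : L), IsIntegral.map ((L.val).restrictScalars A) x.2⟩, (x : L).2⟩
  invFun x := ⟨⟨((x : integralClosure A K) : K), x.2⟩, by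
    have h := (x : integralClosure A K).2
    have hinj : Function.Injective ((L.val).restrictScalars A) := L.val.injective
    exact (isIntegral_algHom_iff _ hinj).mp h⟩
  left_inv x := rfl
  right_inv x := rfl
  map_mul' x y := rfl
  map_add' x y := rfl
  commutes' a := Subtype.ext (Subtype.ext rfl)

/-- the action of `Gal(L/F)` on `T_L` -/
noncomputable def sigT {L : IntermediateField F K} (g : L ≃ₐ[F] L) :
    integralClosure A L →ₐ[A] integralClosure A L :=
  ((g.restrictScalars A).mapIntegralClosure : integralClosure A L →ₐ[A] integralClosure A L)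


theorem sigT_surjective {L : IntermediateField F K} (g : L ≃ₐ[F] L) :
    Function.Surjective (sigT (A := A) g) :=
  ((g.restrictScalars A).mapIntegralClosure).surjective

/-- the action of `Gal(L/F)` on `S L` -/
noncomputable def sigS {L : IntermediateField F K} (g : L ≃ₐ[F] L) :
    SL A F K L →ₐ[A] SL A F K L :=
  ((eL L).toAlgHom.comp (sigT g)).comp (eL L).symm.toAlgHom

theorem sigS_eL {L : IntermediateField F K} (g : L ≃ₐ[F] L) (x : integralClosure A L) :
    sigS g (eL L x) = eL L (sigT g x) := by
  change eL L (sigT g ((eL L).symm (eL L x))) = _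
  rw [AlgEquiv.symm_apply_apply]

theorem sigS_coe {L : IntermediateField F K} (g : L ≃ₐ[F] L) (x : SL A F K L) :
    (((sigS g x : SL A F K L) : integralClosure A K) : K) = (g ⟨_, x.2⟩ : L) := rfl

theorem sigS_surjective {L : IntermediateField F K} (g : L ≃ₐ[F] L) :
    Function.Surjective (sigS (A := A) g) := by
  intro y
  obtain ⟨z, hz⟩ := sigT_surjective (A := A) g ((eL L).symm y)
  exact ⟨eL L z, by rw [sigS_eL, hz, AlgEquiv.apply_symm_apply]⟩

theorem exists_ext {L L' : IntermediateField F K} (h : L ≤ L') [Normal F L'] (g : L ≃ₐ[F] L) :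
    ∃ g' : L' ≃ₐ[F] L', ∀ x : SL A F K L,
      sigS g' (Subalgebra.inclusion (SL_mono h) x) = Subalgebra.inclusion (SL_mono h) (sigS g x) := by
  let _ : Algebra L L' := (IntermediateField.inclusion h).toRingHom.toAlgebra
  have : IsScalarTower F L L' := IsScalarTower.of_algebraMap_eq (fun x => rfl)
  refine ⟨g.liftNormal L', fun x => Subtype.ext (Subtype.ext ?_)⟩
  rw [sigS_coe]
  have h1 := g.liftNormal_commutes L' ⟨_, x.2⟩
  exact congrArg (Subtype.val (p := fun z => z ∈ L')) h1

end

section inst

variable {A F K : Type} [CommRing A] [Field F] [Field K] [Algebra A F] [Algebra F K] [Algebra A K]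
  [IsScalarTower A F K] {κ : Type}

/-- hypothesis (FL) -/
def HypFL (A F K : Type) [CommRing A] [Field F] [Field K] [Algebra A F] [Algebra F K] [Algebra A K]
    [IsScalarTower A F K] {κ : Type} (t : κ → A) (Λ : AddLen.{0, 0} A) : Prop :=
  ∀ (L : FiniteGaloisIntermediateField F K) (V : Type) [AddCommGroup V] [Module A V], Tors t V →
    Λ.L (integralClosure A L ⊗[A] V) = (Module.finrank F L : ℝ≥0∞) * Λ.L V

/-- hypothesis (DEC) -/
def HypDEC (A F K : Type) [CommRing A] [Field F] [Field K] [Algebra A F] [Algebra F K] [Algebra A K]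
    [IsScalarTower A F K] {κ : Type} (t : κ → A) (Λ : AddLen.{0, 0} A) : Prop :=
  ∀ (L : FiniteGaloisIntermediateField F K) (V : Type) [AddCommGroup V] [Module A V]
    [Module (integralClosure A L) V] [IsScalarTower A (integralClosure A L) V], Tors t V →
    Λ.L (((L ≃ₐ[F] L) → V) ⧸ decSub (fun g : L ≃ₐ[F] L => sigT (A := A) g) V) = 0

variable {t : κ → A} {Λ : AddLen.{0, 0} A}

set_option synthInstance.maxHeartbeats 200000 in
theorem FL_S (h : HypFL A F K t Λ) (L : FiniteGaloisIntermediateField F K) (V : Type)
    [AddCommGroup V] [Module A V] (hV : Tors t V) :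
    Λ.L (SL A F K L ⊗[A] V) = (Fintype.card (L ≃ₐ[F] L) : ℝ≥0∞) * Λ.L V := by
  have h1 := h L V hV
  rw [← Λ.L_congr (LinearEquiv.rTensor V (eL (L : IntermediateField F K)).toLinearEquiv), h1]
  rw [← Nat.card_eq_fintype_card, IsGalois.card_aut_eq_finrank]

theorem DEC_S (h : HypDEC A F K t Λ) (L : FiniteGaloisIntermediateField F K) (V : Type)
    [AddCommGroup V] [Module A V] [Module (SL A F K L) V] [IsScalarTower A (SL A F K L) V]
    (hV : Tors t V) :
    Λ.L (((L ≃ₐ[F] L) → V) ⧸ decSub (fun g : L ≃ₐ[F] L => sigS (A := A) g) V) = 0 := by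
  let _ : Module (integralClosure A L) V :=
    Module.compHom V (eL (L : IntermediateField F K)).toRingEquiv.toRingHom
  have hsm : ∀ (a : integralClosure A L) (v : V), a • v =
      (eL (L : IntermediateField F K) a) • v := fun _ _ => rfl
  have : IsScalarTower A (integralClosure A L) V := ⟨fun a b v => by
    rw [hsm, hsm, map_smul, smul_assoc]⟩
  have h1 := h L V hV
  have h2 : decSub (fun g : L ≃ₐ[F] L => sigT (A := A) g) V =
      decSub (fun g : L ≃ₐ[F] L => sigS (A := A) g) V := by
    unfold decSub
    congr 1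
    ext w
    constructor
    · rintro ⟨a, v, rfl⟩
      refine ⟨eL _ a, v, funext fun g => ?_⟩
      rw [sigS_eL]
      exact hsm _ _
    · rintro ⟨a, v, rfl⟩
      refine ⟨(eL _).symm a, v, funext fun g => ?_⟩
      rw [hsm, ← sigS_eL, AlgEquiv.apply_symm_apply]
  rw [← h2]
  exact h1

/-- **the Galois tower** -/
noncomputable def galTower (cont : ContOn Λ t)
    (fin : ∀ (V : Type) [AddCommGroup V] [Module A V], Module.Finite A V → Tors t V → Λ.L V ≠ ⊤)
    (hFL : HypFL A F K t Λ) (hDEC : HypDEC A F K t Λ) :
    GalTower A (integralClosure A K) (FiniteGaloisIntermediateField F K) κ where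
  S L := SL A F K L
  mono _ _ h := SL_mono h
  G L := L ≃ₐ[F] L
  σ L g := sigS g
  ext L L' h g := by
    obtain ⟨g', hg'⟩ := exists_ext (A := A) (L := L.toIntermediateField)
      (L' := L'.toIntermediateField) h g
    exact ⟨sigS g', sigS_surjective g', hg'⟩
  t := t
  Λ := Λ
  cont := cont
  fin := fin
  FL L V _ _ hV := FL_S hFL L V hV
  DEC L V _ _ _ _ hV := DEC_S hDEC L V hV

theorem exists_mem_SL [IsGalois F K] (x : integralClosure A K) :
    ∃ L : FiniteGaloisIntermediateField F K, x ∈ SL A F K L :=
  ⟨FiniteGaloisIntermediateField.adjoin F {(x : K)},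
    FiniteGaloisIntermediateField.subset_adjoin F _ (Set.mem_singleton _)⟩

end inst

end Crest.Agent.R188.TowI
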