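import Crest.Agent.R183.BCM8
import Crest.Agent.R183.Env1
import Crest.Agent.R183.Lat7
import Crest.Agent.R183.Lat9
import Crest.Agent.R183.Mix2
import Crest.Agent.R188.TringD
import Crest.Agent.R183.Cic
import Mathlib
import Crest.Agent.R188.Apl3
import Crest.Agent.R188.TowInst

-- ▼ part R188/Tring1
section

set_option autoImplicit false
set_option linter.unusedSectionVars false

open TensorProduct

namespace Crest.Agent.R188.Tring

open Crest.Agent.R183 Crest.Agent.R183.Heb Crest.Agent.R183.Lat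

universe u

section Closed

variable {R : Type*} [CommRing R] {a D : R}

/-- `D ^ M R` is closed in a complete ring, if `D` is regular modulo `a`. -/
theorem mem_pow_of_closed [hR : IsAdicComplete (Ideal.span {a}) R]
    (ha : ∀ x, a * x = 0 → x = 0) (hD : ∀ x, a ∣ D * x → a ∣ x) (M : ℕ) (z : R)
    (h : ∀ N : ℕ, ∃ u v : R, z = D ^ M * u + a ^ N * v) : D ^ M ∣ z := by
  choose u v huv using h
  have hd : ∀ N k : ℕ, a ^ N ∣ u (N + k) - u N := by
    intro N k
    apply reg_pow_of_regMod' ha hD N M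
    refine ⟨v N - a ^ k * v (N + k), ?_⟩
    have h1 := huv N
    have h2 := huv (N + k)
    rw [pow_add] at h2
    linear_combination h1 - h2
  have hc : ∀ {m n : ℕ}, m ≤ n → u m ≡ u n [SMOD (Ideal.span {a} ^ m • ⊤ : Submodule R R)] := by
    intro m n hmn
    obtain ⟨k, rfl⟩ := Nat.exists_eq_add_of_le hmn
    rw [SModEq.sub_mem, Ideal.span_singleton_pow, smul_eq_mul, Ideal.mul_top,
      Ideal.mem_span_singleton, ← dvd_neg, neg_sub]
    exact hd m k
  obtain ⟨y, hy⟩ := IsPrecomplete.prec (I := Ideal.span {a}) (M := R) hR.toIsPrecomplete hc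
  have hy' : ∀ k, a ^ k ∣ u k - y := by
    intro k
    have := hy k
    rw [SModEq.sub_mem, Ideal.span_singleton_pow, smul_eq_mul, Ideal.mul_top,
      Ideal.mem_span_singleton] at this
    exact this
  refine ⟨y, ?_⟩
  rw [← sub_eq_zero]
  apply Om.sep_of_isAdicComplete (p := a)
  intro N
  obtain ⟨w, hw⟩ := hy' N
  refine ⟨D ^ M * w + v N, ?_⟩
  have h1 := huv N
  linear_combination h1 + D ^ M * hw

/-- `(a D) ^ M R` is closed in a complete ring, if `D` is regular modulo `a`. -/
theorem mem_mul_pow_of_closed [hR : IsAdicComplete (Ideal.span {a}) R]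
    (ha : ∀ x, a * x = 0 → x = 0) (hD : ∀ x, a ∣ D * x → a ∣ x) (M : ℕ) (z : R)
    (h : ∀ N : ℕ, ∃ u v : R, z = (a * D) ^ M * u + a ^ N * v) : (a * D) ^ M ∣ z := by
  obtain ⟨u0, v0, h0⟩ := h M
  have hz : z = a ^ M * (D ^ M * u0 + v0) := by rw [h0, mul_pow]; ring
  obtain ⟨w, hw⟩ : D ^ M ∣ (D ^ M * u0 + v0) := by
    apply mem_pow_of_closed ha hD M
    intro N
    obtain ⟨u, v, huv⟩ := h (M + N)
    refine ⟨u, v, ?_⟩
    rw [← sub_eq_zero]
    apply pow_reg ha M
    rw [mul_pow, pow_add] at huv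
    linear_combination huv - hz
  exact ⟨w, by rw [hz, hw, mul_pow]; ring⟩

end Closed

section Star

variable {p : ℕ} [hp : Fact p.Prime] {Ω K : Type*} [CommRing Ω] [CommRing K] [Algebra Ω K]
variable (d : Data p Ω K)

/-- `r ∈ p^N Ω_*`. -/
def SM (N : ℕ) (r : K) : Prop := ∃ y ∈ star d, r = algebraMap Ω K ((p : Ω) ^ N) * y

variable {d}

theorem SM.mem_star {N : ℕ} {r : K} (h : SM d N r) : r ∈ star d := by
  obtain ⟨y, hy, rfl⟩ := h
  exact mul_mem (Subalgebra.algebraMap_mem _ _) hy

theorem SM.mono {N M : ℕ} (h : N ≤ M) {r : K} (hr : SM d M r) : SM d N r := by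
  obtain ⟨y, hy, rfl⟩ := hr
  obtain ⟨k, rfl⟩ := Nat.exists_eq_add_of_le h
  exact ⟨algebraMap Ω K ((p : Ω) ^ k) * y, mul_mem (Subalgebra.algebraMap_mem _ _) hy, by
    rw [pow_add, map_mul, mul_assoc]⟩

theorem SM.add {N : ℕ} {r s : K} (hr : SM d N r) (hs : SM d N s) : SM d N (r + s) := by
  obtain ⟨y, hy, rfl⟩ := hr
  obtain ⟨z, hz, rfl⟩ := hs
  exact ⟨y + z, add_mem hy hz, by rw [mul_add]⟩

theorem SM.zero (N : ℕ) : SM d N 0 := ⟨0, zero_mem _, by rw [mul_zero]⟩

theorem SM.sum {N : ℕ} {ι : Type*} (s : Finset ι) (f : ι → K) (h : ∀ i ∈ s, SM d N (f i)) :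
    SM d N (∑ i ∈ s, f i) := by
  classical
  induction s using Finset.induction_on with
  | empty => simpa using SM.zero (d := d) N
  | insert a s ha ih =>
    rw [Finset.sum_insert ha]
    exact (h a (Finset.mem_insert_self _ _)).add
      (ih fun i hi => h i (Finset.mem_insert_of_mem hi))

theorem SM.mul_left {N : ℕ} {r x : K} (hx : x ∈ star d) (hr : SM d N r) : SM d N (x * r) := by
  obtain ⟨y, hy, rfl⟩ := hr
  exact ⟨x * y, mul_mem hx hy, by ring⟩


theorem SM.neg {N : ℕ} {r : K} (hr : SM d N r) : SM d N (-r) := by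
  obtain ⟨y, hy, rfl⟩ := hr
  exact ⟨-y, neg_mem hy, by ring⟩

theorem SM.sub {N : ℕ} {r s : K} (hr : SM d N r) (hs : SM d N s) : SM d N (r - s) := by
  rw [sub_eq_add_neg]; exact hr.add hs.neg

theorem SM.algebraMap_pow {N : ℕ} {x : K} (hx : x ∈ star d) :
    SM d N (algebraMap Ω K ((p : Ω) ^ N) * x) := ⟨x, hx, rfl⟩

theorem mu_zero : mu d 0 = (p : Ω) * d.δ 0 := by rw [mu, d.ϖ0]

/-- division by a power of `pD` in `Ω_*` -/
theorem SM.of_mul {N m : ℕ} {r : K} (hr : r ∈ star d)
    (h : SM d (N + m) (algebraMap Ω K (mu d 0 ^ m) * r)) : SM d N r := by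
  obtain ⟨y, hy, h⟩ := h
  have hu : IsUnit (algebraMap Ω K ((p : Ω) ^ N)) := by rw [map_pow]; exact d.unit_p.pow _
  obtain ⟨i, hi⟩ := hu.exists_right_inv
  refine ⟨i * r, ?_, by rw [← mul_assoc, hi, one_mul]⟩
  intro e
  obtain ⟨w, hw⟩ := hr e
  obtain ⟨v, hv⟩ := hy e
  have h1 : mu d 0 ^ m * w = (p : Ω) ^ (N + m) * v := by
    apply d.inj
    rw [map_mul, map_mul, ← hw, ← hv]
    linear_combination (algebraMap Ω K (mu d e)) * h
  have h2 : (p : Ω) ^ m * (d.δ 0 ^ m * w - (p : Ω) ^ N * v) = 0 := by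
    rw [mu_zero, mul_pow, pow_add] at h1
    linear_combination h1
  have h3 := d.p_pow_reg m _ h2
  obtain ⟨w', rfl⟩ := reg_pow_of_regMod' d.reg_p d.reg_D N m w ⟨v, by linear_combination h3⟩
  refine ⟨w', ?_⟩
  rw [map_mul] at hw
  linear_combination i * hw + (algebraMap Ω K w') * hi

/-- elements of `Ω` in `p^{N+1} Ω_*` lie in `p^N Ω`. -/
theorem SM.dvd {N : ℕ} {w : Ω} (h : SM d (N + 1) (algebraMap Ω K w)) : (p : Ω) ^ N ∣ w := by
  obtain ⟨y, hy, h⟩ := h
  obtain ⟨v, hv⟩ := hy 0
  have h1 : (p : Ω) * (d.δ 0 * w - (p : Ω) ^ N * v) = 0 := by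
    apply d.inj
    rw [mu_zero] at hv
    rw [map_zero, map_mul, map_sub, map_mul, map_mul _ _ v, ← hv, h, map_mul, map_pow, map_pow]
    ring
  have h2 := d.reg_p _ h1
  exact reg_pow_of_regMod d.reg_p d.reg_D N w ⟨v, by linear_combination h2⟩

/-- an element of `K` which lies in `s MM + p^N Ω_*` for all `N` lies in `s Ω_*`. -/
theorem exists_star_of_closed [IsAdicComplete (Ideal.span {(p : Ω)}) Ω] (M : ℕ) (z : K)
    (h : ∀ N, ∃ m ∈ star d, SM d N (z - algebraMap Ω K (mu d 0 ^ M) * m)) :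
    ∃ r ∈ star d, z = algebraMap Ω K (mu d 0 ^ M) * r := by
  have hu : IsUnit (algebraMap Ω K (mu d 0 ^ M)) := by
    rw [map_pow]; exact (isUnit_mu d 0).pow _
  obtain ⟨i, hi⟩ := hu.exists_right_inv
  refine ⟨i * z, ?_, by rw [← mul_assoc, hi, one_mul]⟩
  intro e
  have hz : z ∈ star d := by
    obtain ⟨m, hm, h1⟩ := h 0
    have h2 := add_mem h1.mem_star (mul_mem (Subalgebra.algebraMap_mem (star d) (mu d 0 ^ M)) hm)
    rwa [sub_add_cancel] at h2
  obtain ⟨w, hw⟩ := hz e
  have key : ((p : Ω) * d.δ 0) ^ M ∣ w := by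
    apply mem_mul_pow_of_closed d.reg_p d.reg_D M
    intro N
    obtain ⟨m, hm, y, hy, h1⟩ := h N
    obtain ⟨m', hm'⟩ := hm e
    obtain ⟨y', hy'⟩ := hy e
    refine ⟨m', y', ?_⟩
    apply d.inj
    rw [← mu_zero, map_add, map_mul, map_mul, ← hm', ← hy', ← hw]
    linear_combination (algebraMap Ω K (mu d e)) * h1
  obtain ⟨v, hv⟩ := key
  refine ⟨v, ?_⟩
  rw [← mu_zero] at hv
  rw [hv, map_mul] at hw
  linear_combination i * hw + (algebraMap Ω K v) * hi

end Star

end Crest.Agent.R188.Tring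
end

-- ▼ part R188/Tring2
section

set_option autoImplicit false
set_option linter.unusedSectionVars false

open TensorProduct

namespace Crest.Agent.R188.Tring

open Crest.Agent.R183 Crest.Agent.R183.Heb Crest.Agent.R183.Lat

universe u

section Flat

variable {A Ω : Type*} [CommRing A] [CommRing Ω] [Algebra A Ω]

/-- multiplication by an element of `I` kills `Ω ⊗ M` if `I` kills `M`. -/
theorem smul_eq_zero_of_kill {I : Ideal A} {M : Type*} [AddCommGroup M] [Module A M]
    (hM : ∀ a ∈ I, ∀ m : M, a • m = 0) {ω : Ω} (hω : ω ∈ I.map (algebraMap A Ω)) (m : M) :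
    ω ⊗ₜ[A] m = 0 := by
  have h : ∀ ω ∈ I.map (algebraMap A Ω), ∀ x : Ω, (ω * x) ⊗ₜ[A] m = 0 := by
    intro ω hω
    induction hω using Submodule.span_induction with
    | mem y hy =>
      obtain ⟨a, ha, rfl⟩ := hy
      intro x
      rw [← Algebra.smul_def, TensorProduct.smul_tmul, hM a ha, TensorProduct.tmul_zero]
    | zero => intro x; rw [zero_mul, TensorProduct.zero_tmul]
    | add y z _ _ hy hz => intro x; rw [add_mul, TensorProduct.add_tmul, hy, hz, add_zero]
    | smul r y _ hy => intro x; rw [smul_eq_mul, mul_comm r y, mul_assoc]; exact hy _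
  have := h ω hω 1
  rwa [mul_one] at this

/-- `Ω ⊗ -` preserves injections between modules killed by `I`, if `Ω / I Ω` is flat over
`A / I`. -/
theorem lTensor_injective {I : Ideal A} (hfl : Om.FlatQ A (B := Ω) I)
    {M M' : Type*} [AddCommGroup M] [Module A M] [AddCommGroup M'] [Module A M']
    (f : M →ₗ[A] M') (hf : Function.Injective f) (hM' : ∀ a ∈ I, ∀ m : M', a • m = 0) :
    Function.Injective (LinearMap.lTensor Ω f) := by
  have hM : ∀ a ∈ I, ∀ m : M, a • m = 0 := fun a ha m => hf (by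
    rw [map_smul, map_zero, hM' a ha])
  have hMt : Module.IsTorsionBySet A M I := fun m a => hM a.1 a.2 m
  have hMt' : Module.IsTorsionBySet A M' I := fun m a => hM' a.1 a.2 m
  let _ : Module (A ⧸ I) M := hMt.module
  let _ : Module (A ⧸ I) M' := hMt'.module
  have hs : ∀ (a : A) (m : M), (Ideal.Quotient.mk I a) • m = a • m := fun a m => rfl
  have hs' : ∀ (a : A) (m : M'), (Ideal.Quotient.mk I a) • m = a • m := fun a m => rfl
  have : IsScalarTower A (A ⧸ I) M := ⟨fun a b m => by
    obtain ⟨b, rfl⟩ := Ideal.Quotient.mk_surjective b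
    rw [hs, smul_smul, Algebra.smul_def]
    change (Ideal.Quotient.mk I a * Ideal.Quotient.mk I b) • m = _
    rw [← map_mul, hs]⟩
  let Ω' := Ω ⧸ I.map (algebraMap A Ω)
  have hflat : Module.Flat (A ⧸ I) Ω' := hfl
  let f' : M →ₗ[A ⧸ I] M' :=
    { toFun := f
      map_add' := map_add f
      map_smul' := by
        intro b m
        obtain ⟨b, rfl⟩ := Ideal.Quotient.mk_surjective b
        rw [RingHom.id_apply, hs, hs', map_smul] }
  have hf' : Function.Injective (LinearMap.lTensor Ω' f') :=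
    Module.Flat.lTensor_preserves_injective_linearMap f' hf
  -- the map `Ω ⊗ M → Ω' ⊗ M`
  have hφ : ∀ (X : Type _) [AddCommGroup X] [Module A X] [Module (A ⧸ I) X],
      (∀ (a : A) (m : X), (Ideal.Quotient.mk I a) • m = a • m) →
      ∃ φ : Ω ⊗[A] X →+ Ω' ⊗[A ⧸ I] X, ∀ ω x, φ (ω ⊗ₜ x) = Ideal.Quotient.mk _ ω ⊗ₜ x := by
    intro X _ _ _ hX
    refine ⟨TensorProduct.liftAddHom
      { toFun := fun ω =>
          { toFun := fun x => (Ideal.Quotient.mk _ ω : Ω') ⊗ₜ[A ⧸ I] x
            map_zero' := TensorProduct.tmul_zero _ _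
            map_add' := fun x y => TensorProduct.tmul_add _ _ _ }
        map_zero' := by
          ext x
          exact TensorProduct.zero_tmul _ _
        map_add' := fun ω ω' => by
          ext x
          change (Ideal.Quotient.mk _ (ω + ω') : Ω') ⊗ₜ[A ⧸ I] x = _
          rw [map_add, TensorProduct.add_tmul]
          rfl } ?_, fun ω x => rfl⟩
    intro a ω x
    change (Ideal.Quotient.mk _ (a • ω) : Ω') ⊗ₜ[A ⧸ I] x
      = (Ideal.Quotient.mk _ ω : Ω') ⊗ₜ[A ⧸ I] (a • x)
    rw [← hX a x, ← TensorProduct.smul_tmul]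
    rfl
  obtain ⟨φ, hφ1⟩ := hφ M hs
  have hψ : ∃ ψ : Ω' ⊗[A ⧸ I] M →+ Ω ⊗[A] M, ∀ ω x, ψ (Ideal.Quotient.mk _ ω ⊗ₜ x) = ω ⊗ₜ x := by
    let q : Ω' →+ (M →+ Ω ⊗[A] M) := QuotientAddGroup.lift
      (I.map (algebraMap A Ω)).toAddSubgroup
      { toFun := fun ω =>
          { toFun := fun x => ω ⊗ₜ[A] x
            map_zero' := TensorProduct.tmul_zero _ _
            map_add' := fun x y => TensorProduct.tmul_add _ _ _ }
        map_zero' := by
          ext x
          exact TensorProduct.zero_tmul _ _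
        map_add' := fun ω ω' => by
          ext x
          exact TensorProduct.add_tmul _ _ _ } (by
        intro ω hω
        rw [AddMonoidHom.mem_ker]
        ext x
        exact smul_eq_zero_of_kill hM hω x)
    have hq : ∀ (ω : Ω) (x : M), q (Ideal.Quotient.mk _ ω) x = ω ⊗ₜ[A] x := fun ω x => rfl
    refine ⟨TensorProduct.liftAddHom q ?_, fun ω x => ?_⟩
    · intro b ω' x
      obtain ⟨b, rfl⟩ := Ideal.Quotient.mk_surjective b
      obtain ⟨ω, rfl⟩ := Ideal.Quotient.mk_surjective ω'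
      rw [hs, hq]
      change q (Ideal.Quotient.mk _ (b • ω)) x = _
      rw [hq, TensorProduct.smul_tmul]
    · rw [TensorProduct.liftAddHom_tmul]
      exact hq ω x
  obtain ⟨ψ, hψ1⟩ := hψ
  have hψφ : ∀ x, ψ (φ x) = x := by
    intro x
    induction x using TensorProduct.induction_on with
    | zero => rw [map_zero, map_zero]
    | tmul ω m => rw [hφ1, hψ1]
    | add x y hx hy => rw [map_add, map_add, hx, hy]
  obtain ⟨φ', hφ1'⟩ : ∃ φ : Ω ⊗[A] M' →+ Ω' ⊗[A ⧸ I] M', ∀ ω x,
      φ (ω ⊗ₜ x) = Ideal.Quotient.mk _ ω ⊗ₜ x := by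
    refine ⟨TensorProduct.liftAddHom
      { toFun := fun ω =>
          { toFun := fun x => (Ideal.Quotient.mk _ ω : Ω') ⊗ₜ[A ⧸ I] x
            map_zero' := TensorProduct.tmul_zero _ _
            map_add' := fun x y => TensorProduct.tmul_add _ _ _ }
        map_zero' := by
          ext x
          exact TensorProduct.zero_tmul _ _
        map_add' := fun ω ω' => by
          ext x
          change (Ideal.Quotient.mk _ (ω + ω') : Ω') ⊗ₜ[A ⧸ I] x = _
          rw [map_add, TensorProduct.add_tmul]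
          rfl } ?_, fun ω x => rfl⟩
    intro a ω x
    change (Ideal.Quotient.mk _ (a • ω) : Ω') ⊗ₜ[A ⧸ I] x
      = (Ideal.Quotient.mk _ ω : Ω') ⊗ₜ[A ⧸ I] (a • x)
    rw [← hs' a x, ← TensorProduct.smul_tmul]
    rfl
  have hcomm : ∀ x, φ' (LinearMap.lTensor Ω f x) = LinearMap.lTensor Ω' f' (φ x) := by
    intro x
    induction x using TensorProduct.induction_on with
    | zero => simp only [map_zero]
    | tmul ω m => rw [LinearMap.lTensor_tmul, hφ1', hφ1, LinearMap.lTensor_tmul]; rfl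
    | add x y hx hy => rw [map_add, map_add, map_add, map_add, hx, hy]
  rw [injective_iff_map_eq_zero]
  intro x hx
  rw [← hψφ x]
  have h1 : LinearMap.lTensor Ω' f' (φ x) = 0 := by rw [← hcomm, hx, map_zero]
  have h2 : φ x = 0 := hf' (by rw [h1, map_zero])
  rw [h2, map_zero]

/-- Kernel of `Ω ⊗ f`: if `f : T → M'` is a linear map to a module killed by `I`, an element of
`Ω ⊗ T` killed by `f` comes from `Ω ⊗ ker f`. -/
theorem mem_range_of_lTensor_eq_zero {I : Ideal A} (hfl : Om.FlatQ A (B := Ω) I)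
    {T M' : Type*} [AddCommGroup T] [Module A T] [AddCommGroup M'] [Module A M']
    (f : T →ₗ[A] M') (hM' : ∀ a ∈ I, ∀ m : M', a • m = 0) (x : Ω ⊗[A] T)
    (hx : LinearMap.lTensor Ω f x = 0) :
    x ∈ LinearMap.range (LinearMap.lTensor Ω (LinearMap.ker f).subtype) := by
  let f' : (T ⧸ LinearMap.ker f) →ₗ[A] M' := (LinearMap.ker f).liftQ f le_rfl
  have hf' : Function.Injective f' := by
    rw [← LinearMap.ker_eq_bot]
    exact Submodule.ker_liftQ_eq_bot _ _ _ le_rfl
  have h1 : f'.comp (LinearMap.ker f).mkQ = f := by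
    ext t
    rfl
  have h2 : LinearMap.lTensor Ω (LinearMap.ker f).mkQ x = 0 := by
    apply lTensor_injective hfl f' hf' hM'
    rw [map_zero, ← LinearMap.comp_apply, ← LinearMap.lTensor_comp, h1, hx]
  have h3 := lTensor_exact Ω (f := (LinearMap.ker f).subtype) (g := (LinearMap.ker f).mkQ)
    (by
      rw [LinearMap.exact_iff, Submodule.ker_mkQ, Submodule.range_subtype])
    (Submodule.mkQ_surjective _)
  exact (h3 x).1 h2

end Flat

end Crest.Agent.R188.Tring
end

-- ▼ part R188/Tring3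
section

set_option autoImplicit false
set_option linter.unusedSectionVars false

open TensorProduct

namespace Crest.Agent.R188.Tring

open Crest.Agent.R183 Crest.Agent.R183.Heb Crest.Agent.R183.Lat

universe u

section Coord

variable {A Ω K T : Type*} [CommRing A] [CommRing Ω] [CommRing K] [CommRing T]
  [Algebra A Ω] [Algebra Ω K] [Algebra A K] [IsScalarTower A Ω K] [Algebra A T]
variable {ι : Type} [Fintype ι] [DecidableEq ι]

/-- `G_j : Ω ⊗ T → K`, `x ⊗ t ↦ x g_j(t)`. -/
noncomputable def G (S : Split A K T ι) (j : ι) : Ω ⊗[A] T →ₐ[Ω] K :=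
  Algebra.TensorProduct.lift (Algebra.ofId Ω K) (S.g j) (fun _ _ => Commute.all _ _)

@[simp] theorem G_tmul (S : Split A K T ι) (j : ι) (x : Ω) (t : T) :
    G S j (x ⊗ₜ t) = algebraMap Ω K x * S.g j t := by
  rw [G, Algebra.TensorProduct.lift_tmul]
  rfl

theorem sum_g (S : Split A K T ι) (x : ι → A) (j : ι) :
    S.g j (∑ i, x i • S.b i) = ∑ i, (Matrix.of fun j i => S.g j (S.b i)) j i * algebraMap A K (x i) := by
  rw [map_sum]
  refine Finset.sum_congr rfl fun i _ => ?_
  rw [map_smul, Algebra.smul_def, Matrix.of_apply, mul_comm]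

/-- uniqueness of coordinates -/
theorem coord_unique (S : Split A K T ι) (hinj : Function.Injective (algebraMap A K))
    {x y : ι → A} (h : ∑ i, x i • S.b i = ∑ i, y i • S.b i) : x = y := by
  have h1 : (Matrix.of fun j i => S.g j (S.b i)).mulVec (fun i => algebraMap A K (x i))
      = (Matrix.of fun j i => S.g j (S.b i)).mulVec (fun i => algebraMap A K (y i)) := by
    ext j
    have := congrArg (S.g j) h
    rw [sum_g, sum_g] at this
    exact this
  have h2 := congrArg S.U.mulVec h1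
  rw [Matrix.mulVec_mulVec, Matrix.mulVec_mulVec, S.UV, Matrix.one_mulVec, Matrix.one_mulVec] at h2
  ext i
  exact hinj (congrFun h2 i)

/-- the coordinates of `s t`. -/
theorem exists_coord (S : Split A K T ι) (hinj : Function.Injective (algebraMap A K)) :
    ∃ w : T →ₗ[A] (ι → A), ∀ t, S.s • t = ∑ i, w t i • S.b i := by
  choose w hw using S.hspan
  refine ⟨{ toFun := w, map_add' := fun x y => ?_, map_smul' := fun a x => ?_ }, hw⟩
  · apply coord_unique S hinj
    rw [← hw]
    simp only [Pi.add_apply, add_smul, Finset.sum_add_distrib]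
    rw [← hw, ← hw, smul_add]
  · apply coord_unique S hinj
    rw [← hw]
    simp only [Pi.smul_apply, smul_eq_mul, mul_smul, RingHom.id_apply]
    rw [← Finset.smul_sum, ← hw, smul_comm]

/-- the extended coordinates `Ω ⊗ T → Ω^ι`. -/
noncomputable def wΩ (Ω : Type*) [CommRing Ω] [Algebra A Ω] (w : T →ₗ[A] (ι → A)) :
    Ω ⊗[A] T →ₗ[Ω] (ι → Ω) :=
  (TensorProduct.piScalarRight A Ω Ω ι).toLinearMap ∘ₗ (LinearMap.baseChange Ω w)

theorem wΩ_tmul (w : T →ₗ[A] (ι → A)) (x : Ω) (t : T) (i : ι) :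
    wΩ Ω w (x ⊗ₜ t) i = algebraMap A Ω (w t i) * x := by
  rw [wΩ, LinearMap.comp_apply, LinearMap.baseChange_tmul, LinearEquiv.coe_coe,
    TensorProduct.piScalarRight_apply, TensorProduct.piScalarRightHom_tmul, ← Algebra.smul_def]

theorem G_eq (S : Split A K T ι) (w : T →ₗ[A] (ι → A))
    (hw : ∀ t, S.s • t = ∑ i, w t i • S.b i) (κ : Ω ⊗[A] T) (j : ι) :
    algebraMap A K S.s * G S j κ
      = ∑ i, (Matrix.of fun j i => S.g j (S.b i)) j i * algebraMap Ω K (wΩ Ω w κ i) := by
  induction κ using TensorProduct.induction_on with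
  | zero => simp
  | tmul x t =>
    have h1 : algebraMap A K S.s * S.g j t = ∑ i, (Matrix.of fun j i => S.g j (S.b i)) j i *
        algebraMap A K (w t i) := by
      rw [← sum_g, ← hw, map_smul, Algebra.smul_def]
    rw [G_tmul, mul_left_comm, h1, Finset.mul_sum]
    refine Finset.sum_congr rfl fun i _ => ?_
    rw [wΩ_tmul, map_mul, ← IsScalarTower.algebraMap_apply]
    ring
  | add x y hx hy =>
    rw [map_add, mul_add, hx, hy, ← Finset.sum_add_distrib]
    refine Finset.sum_congr rfl fun i _ => ?_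
    rw [map_add, Pi.add_apply, map_add]
    ring

theorem wΩ_eq (S : Split A K T ι) (w : T →ₗ[A] (ι → A))
    (hw : ∀ t, S.s • t = ∑ i, w t i • S.b i) (κ : Ω ⊗[A] T) (i : ι) :
    algebraMap Ω K (wΩ Ω w κ i) = ∑ j, S.U i j * (algebraMap A K S.s * G S j κ) := by
  have h1 : (Matrix.of fun j i => S.g j (S.b i)).mulVec (fun i => algebraMap Ω K (wΩ Ω w κ i))
      = fun j => algebraMap A K S.s * G S j κ := by
    ext j
    exact (G_eq S w hw κ j).symm
  have h2 := congrArg S.U.mulVec h1
  rw [Matrix.mulVec_mulVec, S.UV, Matrix.one_mulVec] at h2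
  exact congrFun h2 i

end Coord

section Inj

variable {p : ℕ} [hp : Fact p.Prime]
variable {A Ω K T : Type*} [CommRing A] [CommRing Ω] [CommRing K] [CommRing T]
  [Algebra A Ω] [Algebra Ω K] [Algebra A K] [IsScalarTower A Ω K] [Algebra A T]
variable {ι : Type} [Fintype ι] [DecidableEq ι]

/-- the map `Ω ⊗ (ι → A/I)`: an element with all coordinates in `p^N Ω` dies. -/
theorem lTensor_quot_eq_zero {N : ℕ} (w : T →ₗ[A] (ι → A)) (κ : Ω ⊗[A] T)
    (h : ∀ i, (p : Ω) ^ N ∣ wΩ Ω w κ i) :
    LinearMap.lTensor Ω ((LinearMap.pi fun i =>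
      (Submodule.mkQ (Ideal.span {(p : A) ^ N})).comp (LinearMap.proj i)) ∘ₗ w) κ = 0 := by
  have h1 : ∀ κ : Ω ⊗[A] T, LinearMap.lTensor Ω w κ
      = ∑ i, wΩ Ω w κ i ⊗ₜ[A] (Pi.single i (1 : A) : ι → A) := by
    intro κ
    induction κ using TensorProduct.induction_on with
    | zero => simp
    | tmul x t =>
      rw [LinearMap.lTensor_tmul]
      conv_lhs => rw [show w t = ∑ i, w t i • (Pi.single i (1 : A) : ι → A) by
        ext j; simp [Finset.sum_apply, Pi.single_apply]]
      rw [TensorProduct.tmul_sum]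
      refine Finset.sum_congr rfl fun i _ => ?_
      rw [wΩ_tmul, ← Algebra.smul_def, TensorProduct.smul_tmul]
    | add x y hx hy =>
      rw [map_add, hx, hy, ← Finset.sum_add_distrib]
      refine Finset.sum_congr rfl fun i _ => ?_
      rw [map_add, Pi.add_apply, TensorProduct.add_tmul]
  rw [LinearMap.lTensor_comp, LinearMap.comp_apply, h1, map_sum]
  refine Finset.sum_eq_zero fun i _ => ?_
  obtain ⟨y, hy⟩ := h i
  rw [LinearMap.lTensor_tmul, hy]
  have h2 : ((p : Ω) ^ N * y) = ((p : A) ^ N) • y := by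
    rw [Algebra.smul_def, map_pow, map_natCast]
  rw [h2, TensorProduct.smul_tmul]
  have h3 : ((p : A) ^ N) • (LinearMap.pi fun i =>
      (Submodule.mkQ (Ideal.span {(p : A) ^ N})).comp (LinearMap.proj i))
      (Pi.single i (1 : A) : ι → A) = 0 := by
    rw [← map_smul]
    ext j
    rw [LinearMap.pi_apply, LinearMap.comp_apply, LinearMap.proj_apply, Submodule.mkQ_apply,
      Pi.zero_apply, Submodule.Quotient.mk_eq_zero, Pi.smul_apply, smul_eq_mul]
    exact Ideal.mul_mem_right _ _ (Ideal.mem_span_singleton_self _)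
  rw [h3, TensorProduct.tmul_zero]

/-- The injectivity lemma, first half: coordinates in `p^N Ω` ⇒ `κ ∈ p^{N-k} (Ω ⊗ T)`. -/
theorem exists_of_wΩ (hfl : ∀ N : ℕ, Om.FlatQ A (B := Ω) (Ideal.span {(p : A) ^ N}))
    (S : Split A K T ι) (w : T →ₗ[A] (ι → A)) (hw : ∀ t, S.s • t = ∑ i, w t i • S.b i)
    {k : ℕ} (hdiv : ∀ (N : ℕ) (t t' : T), S.s • t = ((p : A) ^ (N + k)) • t' →
      ∃ t'', t = ((p : A) ^ N) • t'')
    (N : ℕ) (κ : Ω ⊗[A] T) (h : ∀ i, (p : Ω) ^ (N + k) ∣ wΩ Ω w κ i) :
    ∃ κ', κ = ((p : A) ^ N) • κ' := by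
  set f : T →ₗ[A] (ι → A ⧸ (Ideal.span {(p : A) ^ (N + k)})) := (LinearMap.pi fun i =>
      (Submodule.mkQ (Ideal.span {(p : A) ^ (N + k)})).comp (LinearMap.proj i)) ∘ₗ w with hf
  have h0 : LinearMap.lTensor Ω f κ = 0 := lTensor_quot_eq_zero w κ h
  have h1 := mem_range_of_lTensor_eq_zero (hfl (N + k)) f (by
    intro a ha m
    ext i
    obtain ⟨m', hm'⟩ := Submodule.mkQ_surjective _ (m i)
    rw [Pi.smul_apply, ← hm', ← map_smul, Pi.zero_apply, Submodule.mkQ_apply,
      Submodule.Quotient.mk_eq_zero, smul_eq_mul]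
    exact Ideal.mul_mem_right _ _ ha) κ h0
  obtain ⟨y, rfl⟩ := h1
  clear h0 h
  have h2 : ∀ t : LinearMap.ker f, ∃ t', (t : T) = ((p : A) ^ N) • t' := by
    intro t
    have h3 : ∀ i, ∃ c, w (t : T) i = (p : A) ^ (N + k) * c := by
      intro i
      have h4 : (Submodule.mkQ (Ideal.span {(p : A) ^ (N + k)})) (w (t : T) i) = 0 :=
        congrFun (LinearMap.mem_ker.1 t.2) i
      rw [Submodule.mkQ_apply, Submodule.Quotient.mk_eq_zero, Ideal.mem_span_singleton] at h4
      exact h4
    choose c hc using h3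
    apply hdiv N _ (∑ i, c i • S.b i)
    rw [hw, Finset.smul_sum]
    refine Finset.sum_congr rfl fun i _ => ?_
    rw [hc, mul_smul]
  induction y using TensorProduct.induction_on with
  | zero => exact ⟨0, by simp⟩
  | tmul x t =>
    obtain ⟨t', ht'⟩ := h2 t
    refine ⟨x ⊗ₜ t', ?_⟩
    rw [LinearMap.lTensor_tmul, Submodule.subtype_apply, ht', TensorProduct.tmul_smul]
  | add x y hx hy =>
    obtain ⟨a, ha⟩ := hx
    obtain ⟨b, hb⟩ := hy
    exact ⟨a + b, by rw [map_add, ha, hb, smul_add]⟩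

variable {d : Data p Ω K}

/-- **The injectivity lemma.** -/
theorem exists_of_SM (hfl : ∀ N : ℕ, Om.FlatQ A (B := Ω) (Ideal.span {(p : A) ^ N}))
    (S : Split A K T ι) (hinj : Function.Injective (algebraMap A K))
    (l : LData d ι) (hU : l.U = S.U)
    {k : ℕ} (hdiv : ∀ (N : ℕ) (t t' : T), S.s • t = ((p : A) ^ (N + k)) • t' →
      ∃ t'', t = ((p : A) ^ N) • t'')
    (N : ℕ) (κ : Ω ⊗[A] T) (h : ∀ j, SM d (N + (k + (l.M + 1))) (G S j κ)) :
    ∃ κ', κ = ((p : A) ^ N) • κ' := by
  obtain ⟨w, hw⟩ := exists_coord S hinj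
  apply exists_of_wΩ hfl S w hw hdiv N κ
  intro i
  have h1 : SM d (N + (k + (l.M + 1)))
      (algebraMap Ω K (mu d 0 ^ l.M) * algebraMap Ω K (wΩ Ω w κ i)) := by
    rw [wΩ_eq S w hw κ i, Finset.mul_sum]
    refine SM.sum _ _ fun j _ => ?_
    have h2 : algebraMap Ω K (mu d 0 ^ l.M) * (S.U i j * (algebraMap A K S.s * G S j κ))
        = (algebraMap Ω K (mu d 0 ^ l.M) * S.U i j * algebraMap Ω K (algebraMap A Ω S.s)) * G S j κ := by
      rw [IsScalarTower.algebraMap_apply A Ω K]
      ring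
    rw [h2]
    refine (h j).mul_left (mul_mem ?_ (Subalgebra.algebraMap_mem _ _))
    rw [← hU]
    exact l.U_star i j
  have h2 : SM d (N + k + 1) (algebraMap Ω K (wΩ Ω w κ i)) := by
    apply SM.of_mul (m := l.M) (Subalgebra.algebraMap_mem _ _)
    convert h1 using 1
    omega
  exact h2.dvd

end Inj

end Crest.Agent.R188.Tring
end

-- ▼ part R188/Tring4
section

set_option autoImplicit false
set_option linter.unusedSectionVars false

open TensorProduct Polynomial

namespace Crest.Agent.R188.Tring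

open Crest.Agent.R183 Crest.Agent.R183.Heb Crest.Agent.R183.Lat

universe u

section Poly

variable {A K T : Type*} [CommRing A] [CommRing K] [CommRing T] [Algebra A K] [Algebra A T]
variable {ι : Type} [Fintype ι] [DecidableEq ι]

/-- the characteristic polynomial of `Z = Σ x_i b_i`. -/
theorem exists_poly [Nontrivial A] (S : Split A K T ι)
    (hmul : ∀ i k, ∃ m : ι → A, S.b i * S.b k = ∑ l, m l • S.b l) (x : ι → A) :
    ∃ P : A[X], P.Monic ∧ P.natDegree = Fintype.card ι ∧
      P.map (algebraMap A K) = ∏ j, (X - C (S.g j (∑ i, x i • S.b i))) := by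
  choose m hm using hmul
  let Z : T := ∑ i, x i • S.b i
  let MZ : Matrix ι ι A := Matrix.of fun i k => ∑ l, x l * m l k i
  have hZ : ∀ k, Z * S.b k = ∑ i, MZ i k • S.b i := by
    intro k
    simp only [Z, MZ, Matrix.of_apply, Finset.sum_mul, Finset.sum_smul]
    rw [Finset.sum_comm]
    refine Finset.sum_congr rfl fun l _ => ?_
    rw [smul_mul_assoc, hm, Finset.smul_sum]
    refine Finset.sum_congr rfl fun i _ => ?_
    rw [mul_smul]
  let V : Matrix ι ι K := Matrix.of fun j i => S.g j (S.b i)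
  have hVa : ∀ j i, V j i = S.g j (S.b i) := fun j i => rfl
  have h1 : V * MZ.map (algebraMap A K) = Matrix.diagonal (fun j => S.g j Z) * V := by
    ext j k
    rw [Matrix.diagonal_mul, Matrix.mul_apply]
    have h0 := congrArg (S.g j) (hZ k)
    rw [map_mul (S.g j) Z, map_sum (S.g j) (fun i => MZ i k • S.b i)] at h0
    rw [hVa, h0]
    refine Finset.sum_congr rfl fun i _ => ?_
    rw [map_smul, Algebra.smul_def, Matrix.map_apply, hVa, mul_comm]
  let W : (Matrix ι ι K)ˣ := ⟨V, S.U, S.VU, S.UV⟩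
  have h2 : W.val * MZ.map (algebraMap A K) * W⁻¹.val = Matrix.diagonal (fun j => S.g j Z) := by
    change V * MZ.map (algebraMap A K) * S.U = _
    rw [h1, Matrix.mul_assoc]
    have h3 : V * S.U = 1 := S.VU
    rw [h3, Matrix.mul_one]
  refine ⟨MZ.charpoly, MZ.charpoly_monic, MZ.charpoly_natDegree_eq_dim, ?_⟩
  have h4 := Matrix.charpoly_units_conj W (MZ.map (algebraMap A K))
  rw [← Matrix.coe_units_inv, h2, Matrix.charpoly_diagonal] at h4
  rw [← Matrix.charpoly_map]
  exact h4.symm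

/-- the `g_j` are jointly injective -/
theorem eq_zero_of_g (S : Split A K T ι) (hinj : Function.Injective (algebraMap A K))
    (htf : ∀ t : T, S.s • t = 0 → t = 0) {t : T} (h : ∀ j, S.g j t = 0) : t = 0 := by
  apply htf
  obtain ⟨a, ha⟩ := S.hspan t
  rw [ha]
  have h0 : a = 0 := by
    apply coord_unique S hinj
    rw [← ha]
    simp only [Pi.zero_apply, zero_smul, Finset.sum_const_zero]
    -- `s t = 0`
    have h1 : (Matrix.of fun j i => S.g j (S.b i)).mulVec (fun i => algebraMap A K (a i)) = 0 := by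
      ext j
      have h2 := sum_g S a j
      rw [← ha, map_smul, h j, smul_zero] at h2
      exact h2.symm
    have h3 := congrArg S.U.mulVec h1
    rw [Matrix.mulVec_mulVec, S.UV, Matrix.one_mulVec, Matrix.mulVec_zero] at h3
    rw [ha]
    refine Finset.sum_eq_zero fun i _ => ?_
    have h4 : a i = 0 := hinj (by rw [map_zero]; exact congrFun h3 i)
    rw [h4, zero_smul]
  rw [h0]
  simp

theorem aeval_eq_zero_of_split (S : Split A K T ι) (hinj : Function.Injective (algebraMap A K))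
    (htf : ∀ t : T, S.s • t = 0 → t = 0) (P : A[X]) (Z : T)
    (hP : P.map (algebraMap A K) = ∏ j, (X - C (S.g j Z))) : aeval Z P = 0 := by
  apply eq_zero_of_g S hinj htf
  intro j
  rw [← Polynomial.aeval_algHom_apply, aeval_def, ← eval_map, hP, eval_prod]
  exact Finset.prod_eq_zero (Finset.mem_univ j) (by simp)

/-- scaling of the roots by a unit. -/
theorem coeff_prod_scale {σ : K} (hσ : IsUnit σ) (r : ι → K) (m : ℕ) (hm : m ≤ Fintype.card ι) :
    (∏ j, (X - C (σ * r j))).coeff m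
      = σ ^ (Fintype.card ι - m) * (∏ j, (X - C (r j))).coeff m := by
  have h1 : (∏ j, (X - C (σ * r j))).comp (C σ * X) = C (σ ^ Fintype.card ι) * ∏ j, (X - C (r j)) := by
    rw [Polynomial.prod_comp, map_pow, ← Finset.card_univ, ← Finset.prod_const,
      ← Finset.prod_mul_distrib]
    refine Finset.prod_congr rfl fun j _ => ?_
    rw [sub_comp, X_comp, C_comp, map_mul]
    ring
  have h2 := congrArg (fun q => Polynomial.coeff q m) h1
  simp only [Polynomial.comp_C_mul_X_coeff, Polynomial.coeff_C_mul] at h2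
  apply (hσ.pow m).mul_left_cancel
  rw [mul_comm, h2, ← mul_assoc, ← pow_add, Nat.add_sub_cancel' hm]

/-- coefficients of a product of linear factors with roots in a subalgebra -/
theorem coeff_prod_mem {R : Type*} [CommRing R] [Algebra R K] (B : Subalgebra R K) (r : ι → K)
    (hr : ∀ j, r j ∈ B) (m : ℕ) : (∏ j, (X - C (r j))).coeff m ∈ B := by
  have h1 : (∏ j, (X - C (r j))) = (∏ j, (X - C (⟨r j, hr j⟩ : B))).map (algebraMap B K) := by
    rw [Polynomial.map_prod]
    refine Finset.prod_congr rfl fun j _ => ?_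
    rw [Polynomial.map_sub, Polynomial.map_X, Polynomial.map_C]
    rfl
  rw [h1, coeff_map]
  exact Subtype.coe_prop _

end Poly

section Div

variable {A T : Type*} [CommRing A] [CommRing T] [IsDomain T] [IsIntegrallyClosed T] [Algebra A T]

/-- `Z / σ` is integral if the coefficients of an equation of `Z` are divisible by powers
of `σ`. -/
theorem exists_smul_eq {σ : A} (hσ : algebraMap A T σ ≠ 0) (Z : T) (P : A[X]) (hP : P.Monic)
    (hZ : aeval Z P = 0) (h : ∀ m < P.natDegree, σ ^ (P.natDegree - m) ∣ P.coeff m) :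
    ∃ t : T, σ • t = Z := by
  classical
  have h' : ∀ m : ℕ, ∃ a : A, m < P.natDegree → P.coeff m = σ ^ (P.natDegree - m) * a := by
    intro m
    by_cases hm : m < P.natDegree
    · obtain ⟨a, ha⟩ := h m hm
      exact ⟨a, fun _ => ha⟩
    · exact ⟨0, fun h => absurd h hm⟩
  choose a ha using h'
  set E := FractionRing T
  set σ' : E := algebraMap T E (algebraMap A T σ) with hσ'
  have hσ0 : σ' ≠ 0 := by
    rw [hσ']
    exact (map_ne_zero_iff _ (IsFractionRing.injective T E)).2 hσ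
  set z : E := algebraMap T E Z / σ' with hz
  have hzZ : algebraMap T E Z = σ' * z := by
    rw [hz, mul_div_cancel₀ _ hσ0]
  have key : z ^ P.natDegree + ∑ m ∈ Finset.range P.natDegree,
      algebraMap T E (algebraMap A T (a m)) * z ^ m = 0 := by
    have h1 : algebraMap T E (aeval Z P) = 0 := by rw [hZ, map_zero]
    rw [hP.as_sum] at h1
    simp only [map_add, map_pow, map_sum, map_mul, aeval_X, aeval_C] at h1
    rw [hzZ] at h1
    have h2 : σ' ^ P.natDegree * (z ^ P.natDegree + ∑ m ∈ Finset.range P.natDegree,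
      algebraMap T E (algebraMap A T (a m)) * z ^ m) = 0 := by
      rw [mul_add, ← mul_pow, Finset.mul_sum, ← h1]
      congr 1
      refine Finset.sum_congr rfl fun m hm => ?_
      rw [Finset.mem_range] at hm
      rw [ha m hm, map_mul, map_mul, map_pow, map_pow, ← hσ', mul_pow]
      have h3 : σ' ^ P.natDegree = σ' ^ (P.natDegree - m) * σ' ^ m := by
        rw [← pow_add, Nat.sub_add_cancel hm.le]
      rw [h3]
      ring
    exact (mul_eq_zero.1 h2).resolve_left (pow_ne_zero _ hσ0)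
  have hint : IsIntegral T z := by
    refine ⟨X ^ P.natDegree + ∑ m ∈ Finset.range P.natDegree, C (algebraMap A T (a m)) * X ^ m,
      ?_, ?_⟩
    · apply Polynomial.monic_X_pow_add
      refine lt_of_le_of_lt (Polynomial.degree_sum_le _ _) ?_
      rw [Finset.sup_lt_iff (WithBot.bot_lt_coe _)]
      intro m hm
      rw [Finset.mem_range] at hm
      exact lt_of_le_of_lt (Polynomial.degree_C_mul_X_pow_le _ _) (by exact_mod_cast hm)
    · simp only [eval₂_add, eval₂_pow, eval₂_X, eval₂_finsetSum, eval₂_mul, eval₂_C]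
      exact key
  obtain ⟨t, ht⟩ := IsIntegrallyClosed.isIntegral_iff.1 hint
  refine ⟨t, ?_⟩
  apply IsFractionRing.injective T E
  rw [Algebra.smul_def, map_mul, ht, hzZ]

end Div

section Desc

variable {p : ℕ} [hp : Fact p.Prime]
variable {A Ω : Type u} [CommRing A] [CommRing Ω] [Algebra A Ω]

/-- descent of divisibility along a good extension -/
theorem dvd_of_dvd [IsAdicComplete (Ideal.span {(p : A)}) A]
    (hG : W.Good (p : A) (algebraMap A Ω)) (hr : ∀ x : A, (p : A) * x = 0 → x = 0) {D : A}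
    (hD : ∀ x : A, (p : A) ∣ D * x → (p : A) ∣ x) (m : ℕ) (z : A)
    (h : (algebraMap A Ω ((p : A) * D)) ^ m ∣ algebraMap A Ω z) : ((p : A) * D) ^ m ∣ z := by
  apply mem_mul_pow_of_closed hr hD m
  intro N
  have hff := Env.faithfullyFlat_of_good hG N
  obtain ⟨y, hy⟩ := h
  -- work in the quotient
  let I : Ideal (A ⧸ Ideal.span {(p : A) ^ N}) :=
    Ideal.span {Ideal.Quotient.mk _ (((p : A) * D) ^ m)}
  have h1 : Ideal.Quotient.mk (Ideal.span {(p : A) ^ N}) z ∈
      (I.map (algebraMap _ (Ω ⧸ (Ideal.span {(p : A) ^ N}).map (algebraMap A Ω)))).comap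
        (algebraMap _ (Ω ⧸ (Ideal.span {(p : A) ^ N}).map (algebraMap A Ω))) := by
    rw [Ideal.mem_comap]
    have h2 : algebraMap (A ⧸ Ideal.span {(p : A) ^ N})
        (Ω ⧸ (Ideal.span {(p : A) ^ N}).map (algebraMap A Ω)) (Ideal.Quotient.mk _ z)
        = algebraMap (A ⧸ Ideal.span {(p : A) ^ N})
        (Ω ⧸ (Ideal.span {(p : A) ^ N}).map (algebraMap A Ω))
          (Ideal.Quotient.mk _ (((p : A) * D) ^ m)) * Ideal.Quotient.mk _ y := by
      change Ideal.Quotient.mk _ (algebraMap A Ω z)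
        = Ideal.Quotient.mk _ (algebraMap A Ω (((p : A) * D) ^ m)) * Ideal.Quotient.mk _ y
      rw [← map_mul, hy, map_pow]
    rw [h2]
    exact Ideal.mul_mem_right _ _ (Ideal.mem_map_of_mem _ (Ideal.mem_span_singleton_self _))
  rw [Ideal.comap_map_eq_self_of_faithfullyFlat, Ideal.mem_span_singleton] at h1
  obtain ⟨u, hu⟩ := h1
  obtain ⟨u, rfl⟩ := Ideal.Quotient.mk_surjective u
  rw [← map_mul, Ideal.Quotient.eq, Ideal.mem_span_singleton] at hu
  obtain ⟨v, hv⟩ := hu
  exact ⟨u, v, by rw [← hv]; ring⟩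

end Desc

section X

variable {p : ℕ} [hp : Fact p.Prime]
variable {A Ω K T : Type u} [CommRing A] [CommRing Ω] [CommRing K] [CommRing T]
  [Algebra A Ω] [Algebra Ω K] [Algebra A K] [IsScalarTower A Ω K] [Algebra A T]
variable {ι : Type} [Fintype ι] [DecidableEq ι]

theorem mem_star_of_MM {d : Data p Ω K} {m : K} (hm : m ∈ MM d) : m ∈ star d := by
  obtain ⟨e, w, rfl⟩ := hm
  exact Subalgebra.algebraMap_mem _ _

theorem val_bc (S : Split A K T ι) {d : Data p Ω K} (l : LData d ι)
    (hV : l.V = (Matrix.of fun j i => S.g j (S.b i))) (x : ι → A) (j : ι) :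
    l.val (BCM.bc A ι x) j = S.g j (∑ i, x i • S.b i) := by
  rw [sum_g, LData.val_apply, hV]
  refine Finset.sum_congr rfl fun i _ => ?_
  rw [BCM.bc_apply, ← IsScalarTower.algebraMap_apply A Ω K]

/-- the values of an element of `X` lie in `s Ω_*`. -/
theorem star_of_mem_X (S : Split A K T ι) {d : Data p Ω K} (l : LData d ι)
    (hV : l.V = (Matrix.of fun j i => S.g j (S.b i))) [IsAdicComplete (Ideal.span {(p : Ω)}) Ω]
    {x : ι → A} (hx : x ∈ BCM.X (p : A) l.L) (j : ι) :
    ∃ r ∈ star d, S.g j (∑ i, x i • S.b i) = algebraMap Ω K (mu d 0 ^ l.M) * r := by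
  apply exists_star_of_closed l.M
  intro N
  have h1 := BCM.mem_X.1 hx N
  obtain ⟨v, hv, w, hw, hvw⟩ := Submodule.mem_sup.1 h1
  obtain ⟨w', rfl⟩ := BCM.mem_P.1 hw
  obtain ⟨m, hm, h2⟩ := l.mem_L.1 hv j
  refine ⟨m, mem_star_of_MM hm, ?_⟩
  rw [← val_bc S l hV, ← hvw, l.val_add', h2, map_natCast, l.val_smul']
  have h3 : algebraMap Ω K l.s * m + algebraMap Ω K ((p : Ω) ^ N) * l.val w' j
      - algebraMap Ω K (mu d 0 ^ l.M) * m = algebraMap Ω K ((p : Ω) ^ N) * l.val w' j := by
    rw [LData.s]; ring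
  rw [h3]
  exact SM.algebraMap_pow (l.val_mem_star w' j)

/-- **Step (i)**: elements of `X` give elements of `T`. -/
theorem exists_of_mem_X [IsDomain A] [IsDomain T] [IsIntegrallyClosed T]
    (hAT : Function.Injective (algebraMap A T))
    [IsAdicComplete (Ideal.span {(p : A)}) A] [IsAdicComplete (Ideal.span {(p : Ω)}) Ω]
    (hG : W.Good (p : A) (algebraMap A Ω)) (hr : ∀ x : A, (p : A) * x = 0 → x = 0) {D : A}
    (hD : ∀ x : A, (p : A) ∣ D * x → (p : A) ∣ x)
    (hCIC : ∀ a b c : A, b ≠ 0 → c ≠ 0 → (∀ k : ℕ, b ^ k ∣ c * a ^ k) → b ∣ a)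
    (S : Split A K T ι) (hinj : Function.Injective (algebraMap A K)) (hs0 : S.s ≠ 0)
    (hmul : ∀ i k, ∃ m : ι → A, S.b i * S.b k = ∑ l, m l • S.b l)
    {d : Data p Ω K} (hδ : algebraMap A Ω D = d.δ 0) (hpD : (p : A) * D ≠ 0) (l : LData d ι)
    (hV : l.V = (Matrix.of fun j i => S.g j (S.b i)))
    {x : ι → A} (hx : x ∈ BCM.X (p : A) l.L) :
    ∃ t : T, ((p : A) * D) ^ l.M • t = ∑ i, x i • S.b i := by
  obtain ⟨P, hPm, hPd, hP⟩ := exists_poly S hmul x
  choose r hr1 hr2 using star_of_mem_X S l hV hx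
  have hmu : algebraMap A Ω ((p : A) * D) = mu d 0 := by
    rw [map_mul, map_natCast, hδ, mu_zero]
  have hmuK : ∀ m : ℕ, algebraMap A K (((p : A) * D) ^ m) = algebraMap Ω K (mu d 0 ^ m) := by
    intro m
    rw [IsScalarTower.algebraMap_apply A Ω K, map_pow, hmu]
  have htf : ∀ t : T, S.s • t = 0 → t = 0 := by
    intro t ht
    rw [Algebra.smul_def] at ht
    exact (mul_eq_zero.1 ht).resolve_left ((map_ne_zero_iff _ hAT).2 hs0)
  have hPZ := aeval_eq_zero_of_split S hinj htf P _ hP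
  refine exists_smul_eq ((map_ne_zero_iff _ hAT).2 (pow_ne_zero _ hpD)) _ P hPm hPZ ?_
  intro m hm
  have hu : IsUnit (algebraMap Ω K (mu d 0 ^ l.M)) := by
    rw [map_pow]; exact (isUnit_mu d 0).pow _
  -- the coefficient in `K`
  have h1 : algebraMap A K (P.coeff m) = algebraMap Ω K (mu d 0 ^ l.M) ^ (P.natDegree - m)
      * (∏ j, (X - C (r j))).coeff m := by
    rw [← coeff_map, hP, hPd]
    simp_rw [hr2]
    exact coeff_prod_scale hu r m (by omega)
  have h2 := coeff_prod_mem (star d) r hr1 m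
  apply hCIC _ _ ((p : A) * D) (pow_ne_zero _ (pow_ne_zero _ hpD)) hpD
  intro k
  obtain ⟨ω, hω⟩ := pow_mem h2 k 0
  rw [← pow_mul, ← pow_mul]
  apply dvd_of_dvd hG hr hD
  rw [hmu]
  refine ⟨ω, ?_⟩
  apply d.inj
  rw [← IsScalarTower.algebraMap_apply, map_mul (algebraMap A K) ((p : A) * D),
    map_pow (algebraMap A K) (P.coeff m), h1, mul_pow, map_mul _ _ ω, ← hω]
  have h3 := hmuK 1
  rw [pow_one, pow_one] at h3
  rw [h3]
  simp only [map_pow]
  ring

end X

end Crest.Agent.R188.Tring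
end

-- ▼ part R188/Tring5
section

set_option autoImplicit false
set_option linter.unusedSectionVars false

open TensorProduct Polynomial

namespace Crest.Agent.R188.Tring

open Crest.Agent.R183 Crest.Agent.R183.Heb Crest.Agent.R183.Lat

universe u

section

variable {p : ℕ} [hp : Fact p.Prime]
variable {A Ω K T : Type u} [CommRing A] [CommRing Ω] [CommRing K] [CommRing T]
  [Algebra A Ω] [Algebra Ω K] [Algebra A K] [IsScalarTower A Ω K] [Algebra A T]
variable {ι : Type} [Fintype ι] [DecidableEq ι]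
variable {d : Data p Ω K}

theorem G_mem_star (S : Split A K T ι) (hstar : ∀ j c, S.g j c ∈ star d) (j : ι) (κ : Ω ⊗[A] T) :
    G S j κ ∈ star d := by
  induction κ using TensorProduct.induction_on with
  | zero => rw [map_zero]; exact zero_mem _
  | tmul x t => rw [G_tmul]; exact mul_mem (Subalgebra.algebraMap_mem _ _) (hstar j t)
  | add x y hx hy => rw [map_add]; exact add_mem hx hy

/-- **Step (ii)** -/
theorem exists_E (S : Split A K T ι) (hstar : ∀ j c, S.g j c ∈ star d) (l : LData d ι)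
    (hV : l.V = (Matrix.of fun j i => S.g j (S.b i))) {D : A}
    (hδ : algebraMap A Ω D = d.δ 0)
    [IsAdicComplete (Ideal.span {(p : A)}) A]
    (hX : ∀ x ∈ BCM.X (p : A) l.L, ∃ t : T, ((p : A) * D) ^ l.M • t = ∑ i, x i • S.b i)
    {c : ℕ} (hT : BCM.Tower (p : A) l.L c) (e N : ℕ) (j : ι) :
    ∃ E : Ω ⊗[A] T, ∀ j', SM d N (G S j' E - if j' = j then algebraMap Ω K (mu d e) else 0) := by
  obtain ⟨v, hv, hv1, -⟩ := l.exists_of_MM
    (fun j' => if j' = j then algebraMap Ω K (mu d e) else 0) (fun j' => by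
      split_ifs
      · exact mu_mem_MM d e
      · exact zero_mem _)
  have h1 := hT.L_le (N + l.M) hv
  obtain ⟨y, hy, w, hw, hyw⟩ := Submodule.mem_sup.1 h1
  obtain ⟨w', rfl⟩ := BCM.mem_P.1 hw
  have hmuK : algebraMap A K (((p : A) * D) ^ l.M) = algebraMap Ω K (mu d 0 ^ l.M) := by
    rw [IsScalarTower.algebraMap_apply A Ω K, map_pow (algebraMap A Ω), map_mul (algebraMap A Ω),
      map_natCast, hδ, mu_zero]
  have h2 : ∃ E : Ω ⊗[A] T, ∀ j', algebraMap Ω K (mu d 0 ^ l.M) * G S j' E = l.val y j' := by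
    clear hyw h1
    induction hy using Submodule.span_induction with
    | mem y hy =>
      obtain ⟨x, hx, rfl⟩ := hy
      obtain ⟨t, ht⟩ := hX x hx
      refine ⟨1 ⊗ₜ t, fun j' => ?_⟩
      rw [val_bc S l hV, ← ht, map_smul, Algebra.smul_def, hmuK, G_tmul, map_one, one_mul]
    | zero => exact ⟨0, fun j' => by simp [LData.val_apply]⟩
    | add y z _ _ hy hz =>
      obtain ⟨E, hE⟩ := hy
      obtain ⟨F, hF⟩ := hz
      exact ⟨E + F, fun j' => by rw [map_add, mul_add, hE, hF, l.val_add']⟩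
    | smul r y _ hy =>
      obtain ⟨E, hE⟩ := hy
      exact ⟨r • E, fun j' => by
        rw [map_smul, Algebra.smul_def, mul_left_comm, hE, l.val_smul']⟩
  obtain ⟨E, hE⟩ := h2
  refine ⟨E, fun j' => ?_⟩
  have hst : (if j' = j then algebraMap Ω K (mu d e) else 0) ∈ star d := by
    split_ifs
    · exact Subalgebra.algebraMap_mem _ _
    · exact zero_mem _
  apply SM.of_mul (m := l.M) (sub_mem (G_mem_star S hstar j' E) hst)
  rw [mul_sub, hE]
  have h3 := hv1 j'
  rw [← hyw, l.val_add', map_natCast, l.val_smul'] at h3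
  have h4 : l.val y j' - algebraMap Ω K (mu d 0 ^ l.M) * (if j' = j then algebraMap Ω K (mu d e) else 0)
      = - (algebraMap Ω K ((p : Ω) ^ (N + l.M)) * l.val w' j') := by
    rw [LData.s] at h3
    linear_combination h3
  rw [h4]
  exact (SM.algebraMap_pow (l.val_mem_star w' j')).neg

/-- the maps `β_j = μ_e g_j : T → Ω` -/
theorem exists_beta (S : Split A K T ι) (hstar : ∀ j c, S.g j c ∈ star d) (e : ℕ) (j : ι) :
    ∃ β : T →ₗ[A] Ω, ∀ c, algebraMap Ω K (β c) = algebraMap Ω K (mu d e) * S.g j c := by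
  choose β hβ using fun c => hstar j c e
  refine ⟨{ toFun := β, map_add' := fun x y => ?_, map_smul' := fun a x => ?_ },
    fun c => (hβ c).symm⟩
  · apply d.inj
    rw [map_add, ← hβ, ← hβ, ← hβ, map_add, mul_add]
  · apply d.inj
    rw [RingHom.id_apply, Algebra.smul_def a (β x), map_mul (algebraMap Ω K), ← hβ, ← hβ, map_smul,
      Algebra.smul_def, ← IsScalarTower.algebraMap_apply]
    ring

/-- **The almost splitting and the separability elements** (steps (iv), (v)). -/
theorem exists_splitting (S : Split A K T ι) (hstar : ∀ j c, S.g j c ∈ star d) (l : LData d ι)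
    (hV : l.V = (Matrix.of fun j i => S.g j (S.b i))) (hU : l.U = S.U) {D : A}
    (hδ : algebraMap A Ω D = d.δ 0)
    [IsAdicComplete (Ideal.span {(p : A)}) A]
    (hX : ∀ x ∈ BCM.X (p : A) l.L, ∃ t : T, ((p : A) * D) ^ l.M • t = ∑ i, x i • S.b i)
    {c : ℕ} (hT : BCM.Tower (p : A) l.L c)
    (hfl : ∀ N : ℕ, Om.FlatQ A (B := Ω) (Ideal.span {(p : A) ^ N}))
    (hinj : Function.Injective (algebraMap A K))
    {k : ℕ} (hdiv : ∀ (N : ℕ) (t t' : T), S.s • t = ((p : A) ^ (N + k)) • t' →
      ∃ t'', t = ((p : A) ^ N) • t'')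
    (θ : T) (τ : ι → Ω) (hτ : ∀ j, algebraMap Ω K (τ j) = S.g j θ)
    (a₀ : A) (k₀ : ℕ) (ha₀ : a₀ ∣ ((p : A) * D) ^ k₀) (e N : ℕ) :
    ∃ (E : ι → Ω ⊗[A] T) (β : ι → T →ₗ[A] Ω),
      (∀ x : T, ∃ κ : Ω ⊗[A] T, ∑ j, β j x • E j = (mu d e) ^ 2 • (1 ⊗ₜ x) + ((p : A) ^ N) • κ) ∧
      (∃ κ : Ω ⊗[A] T, ∑ j, E j * E j = (mu d e) ^ 2 • (1 : Ω ⊗[A] T) + ((p : A) ^ N) • κ) ∧
      (∀ h : T →ₐ[A] T, (∃ c' : T, (h θ - θ) * c' = algebraMap A T a₀) →
        ∃ κ : Ω ⊗[A] T, ∑ j, Algebra.TensorProduct.map (AlgHom.id Ω Ω) h (E j) * E j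
          = ((p : A) ^ N) • κ) := by
  set c₀ := k + (l.M + 1) with hc₀
  set N₁ := N + c₀ + k₀ + c₀ with hN₁
  choose E hE using exists_E S hstar l hV hδ hX hT e N₁
  choose β hβ using exists_beta S hstar e
  have hin : ∀ (N : ℕ) (κ : Ω ⊗[A] T), (∀ j, SM d (N + c₀) (G S j κ)) →
      ∃ κ', κ = ((p : A) ^ N) • κ' := fun N κ h => exists_of_SM hfl S hinj l hU hdiv N κ h
  have hmust : algebraMap Ω K (mu d e) ∈ star d := Subalgebra.algebraMap_mem _ _
  have hE' : ∀ j j', ∃ r, SM d N₁ r ∧ G S j' (E j)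
      = (if j' = j then algebraMap Ω K (mu d e) else 0) + r :=
    fun j j' => ⟨_, hE j j', by ring⟩
  choose r hr hEr using hE'
  -- `(θ - τ_j) E_j`
  have hθE : ∀ j, ∃ κ, (1 ⊗ₜ θ) * E j - τ j • E j = ((p : A) ^ (N + c₀ + k₀)) • κ := by
    intro j
    apply hin
    intro j'
    rw [map_sub, map_mul, map_smul, G_tmul, map_one, one_mul, Algebra.smul_def, hτ, ← sub_mul,
      hEr, mul_add]
    have h1 : (S.g j' θ - S.g j θ) * (if j' = j then algebraMap Ω K (mu d e) else 0) = 0 := by
      split_ifs with h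
      · rw [h, sub_self, zero_mul]
      · rw [mul_zero]
    rw [h1, zero_add]
    exact (hr j j').mul_left (sub_mem (hstar j' θ) (hstar j θ))
  refine ⟨E, β, ?_, ?_, ?_⟩
  · intro x
    obtain ⟨κ, hκ⟩ := hin N (∑ j, β j x • E j - (mu d e) ^ 2 • (1 ⊗ₜ x)) (by
      intro j'
      rw [map_sub, map_sum, map_smul, G_tmul, map_one, one_mul, Algebra.smul_def, map_pow]
      have h1 : ∑ j, G S j' (β j x • E j) = algebraMap Ω K (mu d e) ^ 2 * S.g j' x
          + ∑ j, algebraMap Ω K (mu d e) * S.g j x * r j j' := by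
        have h2 : ∀ j, G S j' (β j x • E j)
            = (if j' = j then algebraMap Ω K (mu d e) ^ 2 * S.g j x else 0)
              + algebraMap Ω K (mu d e) * S.g j x * r j j' := by
          intro j
          rw [map_smul, Algebra.smul_def, hβ, hEr, mul_add]
          split_ifs
          · ring
          · rw [mul_zero]
        rw [Finset.sum_congr rfl fun j _ => h2 j, Finset.sum_add_distrib, Finset.sum_ite_eq]
        simp
      rw [h1, add_sub_cancel_left]
      refine SM.mono (by omega) (SM.sum _ _ fun j _ => (hr j j').mul_left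
        (mul_mem hmust (hstar j x))))
    exact ⟨κ, by rw [← hκ]; abel⟩
  · obtain ⟨κ, hκ⟩ := hin N (∑ j, E j * E j - (mu d e) ^ 2 • (1 : Ω ⊗[A] T)) (by
      intro j'
      rw [map_sub, map_sum, map_smul, map_one, Algebra.smul_def, map_pow, mul_one]
      have h1 : ∑ j, G S j' (E j * E j) = algebraMap Ω K (mu d e) ^ 2
          + ∑ j, ((if j' = j then 2 * algebraMap Ω K (mu d e) else 0) + r j j') * r j j' := by
        have h2 : ∀ j, G S j' (E j * E j)
            = (if j' = j then algebraMap Ω K (mu d e) ^ 2 else 0)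
              + ((if j' = j then 2 * algebraMap Ω K (mu d e) else 0) + r j j') * r j j' := by
          intro j
          rw [map_mul, hEr]
          split_ifs
          · ring
          · ring
        rw [Finset.sum_congr rfl fun j _ => h2 j, Finset.sum_add_distrib, Finset.sum_ite_eq]
        simp
      rw [h1, add_sub_cancel_left]
      refine SM.mono (by omega) (SM.sum _ _ fun j _ => (hr j j').mul_left
        (add_mem ?_ (hr j j').mem_star))
      split_ifs
      · exact mul_mem (by exact_mod_cast natCast_mem (star d) 2) hmust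
      · exact zero_mem _)
    exact ⟨κ, by rw [← hκ]; abel⟩
  · intro h hh
    obtain ⟨c', hc'⟩ := hh
    set Φ := Algebra.TensorProduct.map (AlgHom.id Ω Ω) h with hΦ
    have key : ∀ j, ∃ κ : Ω ⊗[A] T, Φ (E j) * E j = ((p : A) ^ N) • κ := by
      intro j
      obtain ⟨κ, hκ⟩ := hθE j
      have h1 : (1 ⊗ₜ h θ) * Φ (E j) - τ j • Φ (E j) = ((p : A) ^ (N + c₀ + k₀)) • Φ κ := by
        have h2 := congrArg Φ hκ
        rw [map_sub, map_mul, map_smul, hΦ, Algebra.TensorProduct.map_tmul, ← hΦ] at h2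
        rw [AlgHom.id_apply] at h2
        rw [h2, ← algebraMap_smul Ω ((p : A) ^ (N + c₀ + k₀)) κ, map_smul, algebraMap_smul]
      -- multiply
      have h3 : ((1 : Ω) ⊗ₜ[A] (h θ - θ)) * (Φ (E j) * E j)
          = ((p : A) ^ (N + c₀ + k₀)) • (Φ κ * E j - Φ (E j) * κ) := by
        rw [smul_sub, ← smul_mul_assoc, ← mul_smul_comm, ← h1, ← hκ, TensorProduct.tmul_sub]
        simp only [Algebra.smul_def]
        ring
      have h4 : ((1 : Ω) ⊗ₜ[A] algebraMap A T a₀) * (Φ (E j) * E j)
          = ((p : A) ^ (N + c₀ + k₀)) • ((1 ⊗ₜ c') * (Φ κ * E j - Φ (E j) * κ)) := by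
        rw [← mul_smul_comm, ← h3, ← hc', ← mul_assoc ((1 : Ω) ⊗ₜ[A] c'),
          Algebra.TensorProduct.tmul_mul_tmul, one_mul, mul_comm c']
      apply hin
      intro j'
      have h5 := congrArg (G S j') h4
      rw [map_mul, G_tmul, map_one, one_mul, AlgHom.commutes,
        ← algebraMap_smul Ω ((p : A) ^ (N + c₀ + k₀)), map_smul, Algebra.smul_def, map_pow,
        map_natCast] at h5
      obtain ⟨q, hq⟩ := ha₀
      apply SM.of_mul (m := k₀) (G_mem_star S hstar j' _)
      have h6 : algebraMap Ω K (mu d 0 ^ k₀) = algebraMap A K a₀ * algebraMap A K q := by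
        rw [← map_mul, ← hq, IsScalarTower.algebraMap_apply A Ω K, map_pow (algebraMap A Ω),
          map_mul (algebraMap A Ω), map_natCast, hδ, mu_zero]
      have h7 : algebraMap Ω K (mu d 0 ^ k₀) * G S j' (Φ (E j) * E j)
          = algebraMap Ω K ((p : Ω) ^ (N + c₀ + k₀)) * (algebraMap A K q *
            G S j' ((1 ⊗ₜ c') * (Φ κ * E j - Φ (E j) * κ))) := by
        rw [h6]
        linear_combination (algebraMap A K q) * h5
      rw [h7]
      apply SM.algebraMap_pow
      refine mul_mem ?_ (G_mem_star S hstar j' _)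
      rw [IsScalarTower.algebraMap_apply A Ω K]
      exact Subalgebra.algebraMap_mem _ _
    choose κ hκ using key
    exact ⟨∑ j, κ j, by rw [Finset.sum_congr rfl fun j _ => hκ j, Finset.smul_sum]⟩

end

end Crest.Agent.R188.Tring
end

-- ▼ part R183/Lat10
section

set_option autoImplicit false
set_option linter.unusedSectionVars false

open Polynomial TensorProduct

namespace Crest.Agent.R183.Lat

open Crest.Agent.R183.Heb
open Crest.Agent.R183.Glue
open Crest.Agent.R183.Om

universe u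

variable {p : ℕ} [hp : Fact p.Prime]

/-- `exists_out` on an environment. -/
theorem exists_out_env {A₀ : Type u} [CommRing A₀] {ϖ : ℕ → A₀} {D₀ : A₀}
    (d0 : PData p A₀ ϖ) (hr0 : Reg (p : A₀)) [IsAdicComplete (Ideal.span {(p : A₀)}) A₀]
    (hD₀ : RegMod D₀ (p : A₀)) (E : Mix.Envr p A₀ ϖ D₀)
    {C : Type u} [CommRing C] [Algebra A₀ C] [Algebra.IsIntegral A₀ C]
    {ι : Type} [Fintype ι] [DecidableEq ι] (S : Split A₀ E.K C ι) (k : ℕ)
    (hk : S.s ∣ ((p : A₀) * D₀) ^ k) : Nonempty (Out E.data S D₀ k) := by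
  have : IsLocalization.Away (mu E.data 0) E.K := by rw [E.mu_zero]; exact E.loc
  exact exists_out d0 hr0 E.M.props.1 E.M.props.2.1 E.p_nonunit E.good D₀ hD₀ E.data
    (fun e => rfl) E.δ0 S k hk


end Crest.Agent.R183.Lat
end

-- ▼ part R188/Tring6
section

set_option autoImplicit false
set_option linter.unusedSectionVars false

open TensorProduct Polynomial

namespace Crest.Agent.R188.Tring

open Crest.Agent.R183 Crest.Agent.R183.Heb Crest.Agent.R183.Lat Crest.Agent.R183.Om

section Span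

variable {A T : Type*} [CommRing A] [Nontrivial A] [CommRing T] [Algebra A T]

/-- polynomials in `θ` are linear combinations of `1, θ, …, θ^{n-1}`. -/
theorem exists_comb (f : A[X]) (hf : f.Monic) (θ : T) (hθ : aeval θ f = 0) (h : A[X]) :
    ∃ m : Fin f.natDegree → A, aeval θ h = ∑ l, m l • θ ^ (l : ℕ) := by
  have h1 : aeval θ h = aeval θ (h %ₘ f) := by
    have := congrArg (aeval θ) (Polynomial.modByMonic_add_div h f)
    rw [map_add, map_mul, hθ, zero_mul, add_zero] at this
    exact this.symm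
  refine ⟨fun i => (h %ₘ f).coeff i, ?_⟩
  rw [h1]
  have hdeg : (h %ₘ f).natDegree < f.natDegree ∨ h %ₘ f = 0 := by
    by_cases h0 : h %ₘ f = 0
    · exact Or.inr h0
    · left
      exact Polynomial.natDegree_lt_natDegree h0 (Polynomial.degree_modByMonic_lt h hf)
  rcases hdeg with hdeg | h0
  · rw [aeval_eq_sum_range' hdeg, Finset.sum_range]
  · rw [h0]; simp

end Span

section Main

variable {p : ℕ} [hp : Fact p.Prime]

theorem ne_zero_of_regMod {A : Type*} [CommRing A] {D : A} (hu : ¬ IsUnit (p : A))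
    (hD : RegMod D (p : A)) : D ≠ 0 := by
  rintro rfl
  apply hu
  have h1 := hD 1 (by rw [zero_mul]; exact dvd_zero _)
  exact isUnit_of_dvd_one h1

/-- **The almost splitting data from a generator.** -/
theorem almSplit_of_gen {A T : Type} [CommRing A] [IsDomain A] [CommRing T] [IsDomain T]
    [IsIntegrallyClosed T] [Algebra A T] [Algebra.IsIntegral A T]
    (hAT : Function.Injective (algebraMap A T)) {ϖ : ℕ → A} (M₀ : Env.Model p A ϖ)
    (hCIC : Cic.CIC A)
    (hfac : ∀ a : A, a ≠ 0 → ∃ (c : A) (k : ℕ) (D : A), a * c = (p : A) ^ k * D ∧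
      RegMod D (p : A))
    (hregT : ∀ D : A, RegMod D (p : A) → RegMod (algebraMap A T D) (p : T))
    (θ : T) (f : A[X]) (a₀ : A) (h0 : a₀ ≠ 0) (hf : f.Monic) (hθ : aeval θ f = 0)
    (hdvd : ∀ h : A[X], aeval θ h = 0 → f ∣ h) (hspan : ∀ c : T, ∃ h : A[X], a₀ • c = aeval θ h)
    (hsep : ∃ u v : A[X], u * f + v * derivative f = C a₀)
    (H : Set (T →ₐ[A] T)) (hH : ∀ h ∈ H, ∃ c' : T, (h θ - θ) * c' = algebraMap A T a₀) :
    Nonempty (AlmSplit p A T ϖ H) := by
  obtain ⟨d0, hr0, hc0, hu0⟩ := M₀.props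
  obtain ⟨c, k, D, hcD, hD⟩ := hfac a₀ h0
  have hD0 : D ≠ 0 := ne_zero_of_regMod hu0 hD
  have hp0 : (p : A) ≠ 0 := by
    intro h
    have := hr0 1 (by rw [h, zero_mul])
    exact one_ne_zero this
  have hpD : (p : A) * D ≠ 0 := mul_ne_zero hp0 hD0
  have hk : a₀ ∣ ((p : A) * D) ^ (k + 1) := by
    refine ⟨c * (p * D ^ k), ?_⟩
    rw [← mul_assoc, hcD, mul_pow]; ring
  -- the cover
  obtain ⟨Ω, _, _, M, φ, -, -, -, hgood, hsplit, hsharp⟩ :=
    Env.exists_cover M₀ (N := 1) (fun _ => f) (fun _ => hf) (k := 1) (fun _ => D)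
  obtain ⟨t, ht⟩ := hsplit 0
  obtain ⟨s, hs⟩ := hsharp 0
  have hregΩ : RegMod (algebraMap A Ω D) (p : Ω) := Env.regMod_of_good hgood hD
  let E : Mix.Envr p A ϖ D := Mix.Envr.ofModel M hgood (fun e => sh M.θ (Amp.rt (p := p) e s))
    (fun e => isRoots_sh M.θ s e) (by rw [rt_zero, ← hs]) (by rw [rt_zero, ← hs]; exact hregΩ)
  let K := E.K
  have hδ0 : E.data.δ 0 = algebraMap A E.A D := E.δ0
  -- the splitting
  have hunit : IsUnit (algebraMap A E.K a₀) := by
    have h1 := E.unit_pow (k + 1)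
    exact isUnit_of_dvd_unit (map_dvd _ hk) h1
  have hsep' : (f.map (algebraMap A E.K)).Separable := by
    obtain ⟨u, v, huv⟩ := hsep
    obtain ⟨i, hi⟩ := hunit.exists_left_inv
    have h1 := congrArg (Polynomial.map (algebraMap A E.K)) huv
    rw [Polynomial.map_add, Polynomial.map_mul, Polynomial.map_mul, Polynomial.map_C,
      ← Polynomial.derivative_map] at h1
    refine ⟨C i * u.map (algebraMap A E.K), C i * v.map (algebraMap A E.K), ?_⟩
    rw [mul_assoc, mul_assoc, ← mul_add, h1, ← C_mul, hi, C_1]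
  let τ : Fin f.natDegree → E.A := fun j => sh M.θ (t j)
  have hτ : f.map (algebraMap A E.K) = ∏ j, (X - C (algebraMap E.A E.K (τ j))) := by
    have ht' : f.map (algebraMap A E.A) = ∏ j, (X - C (τ j)) := ht
    have h1 := congrArg (Polynomial.map (algebraMap E.A E.K)) ht'
    rw [Polynomial.map_map, ← IsScalarTower.algebraMap_eq, Polynomial.map_prod] at h1
    refine h1.trans (Finset.prod_congr rfl fun j _ => ?_)
    rw [Polynomial.map_sub, Polynomial.map_X, Polynomial.map_C]
  obtain ⟨S, hSg, hSb, hSs⟩ := Split.exists_ofTheta f hf rfl θ hθ hdvd a₀ hunit hspan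
    (fun j => algebraMap E.A E.K (τ j)) hτ hsep'
  obtain ⟨O⟩ := exists_out_env d0 hr0 hD E S (k + 1) (by rw [hSs]; exact hk)
  have hinjΩ : Function.Injective (algebraMap A E.A) := by
    rw [injective_iff_map_eq_zero]
    intro x hx
    apply sep_of_isAdicComplete (p := (p : A))
    intro n
    have := Env.faithfullyFlat_of_good E.good n
    have hinj := (FaithfulSMul.algebraMap_injective (A ⧸ Ideal.span {(p : A) ^ n})
      (E.A ⧸ (Ideal.span {(p : A) ^ n}).map (algebraMap A E.A)))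
    rw [← Ideal.mem_span_singleton, ← Ideal.Quotient.eq_zero_iff_mem]
    apply hinj
    rw [map_zero]
    change Ideal.Quotient.mk _ (algebraMap A E.A x) = 0
    rw [hx, map_zero]
  have hinjK : Function.Injective (algebraMap A E.K) := by
    rw [IsScalarTower.algebraMap_eq A E.A E.K]
    exact E.data.inj.comp hinjΩ
  have hlU : O.l.U = S.U := by
    have h1 : O.l.U * (O.l.V * S.U) = S.U := by rw [← Matrix.mul_assoc, O.l.UV, Matrix.one_mul]
    rw [O.hV, S.VU, Matrix.mul_one] at h1
    exact h1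
  have hmul : ∀ i k, ∃ m : Fin f.natDegree → A, S.b i * S.b k = ∑ l, m l • S.b l := by
    intro i k
    obtain ⟨m, hm⟩ := exists_comb f hf θ hθ (X ^ ((i : ℕ) + (k : ℕ)))
    refine ⟨m, ?_⟩
    rw [hSb, hSb, ← pow_add]
    rw [map_pow, aeval_X] at hm
    rw [hm]
    exact Finset.sum_congr rfl fun l _ => by rw [hSb]
  have hX : ∀ x ∈ BCM.X (p : A) O.l.L, ∃ t : T, ((p : A) * D) ^ O.l.M • t = ∑ i, x i • S.b i := by
    intro x hx
    exact exists_of_mem_X hAT E.good hr0 hD hCIC S hinjK (by rw [hSs]; exact h0) hmul hδ0.symm hpD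
      O.l O.hV hx
  have hdiv : ∀ (N : ℕ) (t t' : T), S.s • t = ((p : A) ^ (N + (k + 1))) • t' →
      ∃ t'', t = ((p : A) ^ N) • t'' := by
    intro N t t' h
    have hk' : algebraMap A T a₀ ∣ ((p : T) * algebraMap A T D) ^ (k + 1) := by
      have := map_dvd (algebraMap A T) hk
      rwa [map_pow, map_mul, map_natCast] at this
    have hpT : ∀ x : T, (p : T) * x = 0 → x = 0 := by
      intro x hx
      have : (p : T) ≠ 0 := by
        rw [← map_natCast (algebraMap A T)]
        exact (map_ne_zero_iff _ hAT).2 hp0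
      exact (mul_eq_zero.1 hx).resolve_left this
    obtain ⟨w', hw'⟩ := div_of_dvd hpT (hregT D hD) hk' N t t' (by
      rw [hSs, Algebra.smul_def, Algebra.smul_def, map_pow, map_natCast] at h
      exact h)
    exact ⟨w', by rw [hw', Algebra.smul_def, map_pow, map_natCast]⟩
  have key := exists_splitting S O.hstar O.l O.hV hlU hδ0.symm hX O.tower
    (fun N => Env.flatQ_of_good E.good N) hinjK hdiv θ τ (fun j => (hSg j).symm) a₀ (k + 1) hk
  have hmu : ∀ e, ∃ q : E.A, algebraMap A E.A (ϖ e) * E.δ e = q * (mu E.data (e + 1)) ^ 2 := by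
    intro e
    obtain ⟨q, hq⟩ := mu_sq_dvd E.data e
    exact ⟨q, by rw [mul_comm q, ← hq]; rfl⟩
  refine ⟨{
    Ω := E.A
    good := E.good
    pdata := E.M.props.1
    reg := E.M.props.2.1
    complete := E.M.props.2.2.1
    D := D
    regD := hD
    δ := E.δ
    δ_zero := E.δ0
    δ_succ := E.hδ
    fac := ?_
    sep := ?_ }⟩
  · intro e N
    obtain ⟨q, hq⟩ := hmu e
    obtain ⟨F, β, h1, -, -⟩ := key (e + 1) N
    refine ⟨f.natDegree, fun j => q • F j, β, fun x => ?_⟩
    obtain ⟨κ, hκ⟩ := h1 x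
    refine ⟨q • κ, ?_⟩
    have h2 : ∑ j, β j x • q • F j = q • ∑ j, β j x • F j := by
      rw [Finset.smul_sum]
      exact Finset.sum_congr rfl fun j _ => smul_comm _ _ _
    rw [h2, hκ, smul_add, smul_smul, ← hq, smul_comm]
  · intro e N
    obtain ⟨q, hq⟩ := hmu e
    obtain ⟨F, β, -, h1, h2⟩ := key (e + 1) N
    refine ⟨f.natDegree, F, fun j => q • F j, ?_, fun h hh => ?_⟩
    · obtain ⟨κ, hκ⟩ := h1
      refine ⟨q • κ, ?_⟩
      have h3 : ∑ j, F j * q • F j = q • ∑ j, F j * F j := by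
        rw [Finset.smul_sum]
        exact Finset.sum_congr rfl fun j _ => mul_smul_comm _ _ _
      rw [h3, hκ, smul_add, smul_smul, ← hq, smul_comm]
    · obtain ⟨κ, hκ⟩ := h2 h (hH h hh)
      refine ⟨q • κ, ?_⟩
      have h3 : ∑ j, Algebra.TensorProduct.map (AlgHom.id E.A E.A) h (F j) * q • F j
          = q • ∑ j, Algebra.TensorProduct.map (AlgHom.id E.A E.A) h (F j) * F j := by
        rw [Finset.smul_sum]
        exact Finset.sum_congr rfl fun j _ => mul_smul_comm _ _ _
      rw [h3, hκ, smul_comm]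

end Main

end Crest.Agent.R188.Tring
end

-- ▼ part R188/TringG
section

set_option autoImplicit false

namespace Crest.Agent.R188.Tring

open Polynomial

section

variable {A F L : Type*} [CommRing A] [IsDomain A] [IsIntegrallyClosed A] [Field F] [Algebra A F]
  [IsFractionRing A F] [Field L] [Algebra F L] [Algebra A L] [IsScalarTower A F L]
  [FiniteDimensional F L] [IsGalois F L]

omit [IsIntegrallyClosed A] in
variable (A F L) in
/-- an integral primitive element -/
theorem exists_prim : ∃ θ : L, IsIntegral A θ ∧ Algebra.adjoin F {θ} = ⊤ := by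
  obtain ⟨α, hα⟩ := Field.exists_primitive_element F L
  have hFα : Algebra.adjoin F {α} = ⊤ :=
    (IntermediateField.adjoin_simple_eq_top_iff_of_isAlgebraic
      (Algebra.IsAlgebraic.isAlgebraic α)).1 hα
  have halg : IsAlgebraic A α :=
    (IsFractionRing.isAlgebraic_iff A F L).2 (Algebra.IsAlgebraic.isAlgebraic α)
  obtain ⟨y, hy, hint⟩ := halg.exists_integral_multiple
  have hy' : algebraMap A F y ≠ 0 := by
    intro h0
    apply hy
    apply IsFractionRing.injective A F
    rw [h0, map_zero]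
  have h1 : algebraMap F L (algebraMap A F y)⁻¹ * (y • α) = α := by
    rw [Algebra.smul_def, IsScalarTower.algebraMap_apply A F L, ← mul_assoc, ← map_mul,
      inv_mul_cancel₀ hy', map_one, one_mul]
  have h2 : algebraMap F L (algebraMap A F y)⁻¹ * (y • α) ∈ Algebra.adjoin F {y • α} :=
    mul_mem (Subalgebra.algebraMap_mem _ _) (Algebra.subset_adjoin rfl)
  rw [h1] at h2
  refine ⟨y • α, hint, ?_⟩
  rw [eq_top_iff, ← hFα]
  exact Algebra.adjoin_le (Set.singleton_subset_iff.2 h2)

omit [IsIntegrallyClosed A] in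
/-- clearing denominators of a Bezout relation -/
theorem exists_bezout (f : A[X]) (hf : (f.map (algebraMap A F)).Separable) :
    ∃ a : A, a ≠ 0 ∧ ∃ u v : A[X], u * f + v * derivative f = C a := by
  obtain ⟨u, v, huv⟩ := hf
  obtain ⟨b, hb, hbu⟩ := IsLocalization.integerNormalization_spec (nonZeroDivisors A) u
  obtain ⟨c, hc, hcv⟩ := IsLocalization.integerNormalization_spec (nonZeroDivisors A) v
  set u' := IsLocalization.integerNormalization (nonZeroDivisors A) u
  set v' := IsLocalization.integerNormalization (nonZeroDivisors A) v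
  refine ⟨b * c, mul_ne_zero (nonZeroDivisors.ne_zero hb) (nonZeroDivisors.ne_zero hc),
    C c * u', C b * v', ?_⟩
  apply Polynomial.map_injective (algebraMap A F) (IsFractionRing.injective A F)
  rw [Polynomial.map_add, Polynomial.map_mul, Polynomial.map_mul, Polynomial.map_mul,
    Polynomial.map_mul, map_C, map_C, hbu, hcv, map_C, map_mul]
  rw [derivative_map] at huv
  rw [Algebra.smul_def, Algebra.smul_def]
  have h1 : algebraMap A F[X] b = C (algebraMap A F b) := rfl
  have h2 : algebraMap A F[X] c = C (algebraMap A F c) := rfl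
  rw [h1, h2, C_mul]
  linear_combination (C (algebraMap A F b) * C (algebraMap A F c)) * huv

/-- **the generator lemma** -/
theorem exists_gen :
    ∃ (θ : integralClosure A L) (f : Polynomial A) (a₀ : A), a₀ ≠ 0 ∧ f.Monic ∧
      f.natDegree = Module.finrank F L ∧ aeval θ f = 0 ∧
      (∀ h : Polynomial A, aeval θ h = 0 → f ∣ h) ∧
      (∀ c : integralClosure A L, ∃ h : Polynomial A, a₀ • c = aeval θ h) ∧
      (∃ u v : Polynomial A, u * f + v * derivative f = C a₀) ∧
      (∀ g : L ≃ₐ[F] L, g ≠ 1 → ∃ c' : integralClosure A L,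
        ((g.restrictScalars A).mapIntegralClosure θ - θ) * c' =
          algebraMap A (integralClosure A L) a₀) := by
  classical
  obtain ⟨θ₀, hint, hadj⟩ := exists_prim A F L
  have hFL : Function.Injective (algebraMap A L) := by
    rw [IsScalarTower.algebraMap_eq A F L]
    exact (algebraMap F L).injective.comp (IsFractionRing.injective A F)
  have : FaithfulSMul A L := (faithfulSMul_iff_algebraMap_injective A L).2 hFL
  have : Module.IsTorsionFree A L := inferInstance
  let θ : integralClosure A L := ⟨θ₀, hint⟩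
  let f := minpoly A θ₀
  have hfm : f.Monic := minpoly.monic hint
  have hmin : minpoly F θ₀ = f.map (algebraMap A F) :=
    minpoly.isIntegrallyClosed_eq_field_fractions' F hint
  let B : PowerBasis F L := PowerBasis.ofAdjoinEqTop (Algebra.IsIntegral.isIntegral θ₀) hadj
  have hBgen : B.gen = θ₀ := PowerBasis.ofAdjoinEqTop_gen _ _
  have hdeg : f.natDegree = Module.finrank F L := by
    rw [B.finrank, ← B.natDegree_minpoly, hBgen, hmin, hfm.natDegree_map]
  have hcoe : ∀ h : A[X], ((aeval θ h : integralClosure A L) : L) = aeval θ₀ h := by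
    intro h
    exact (Polynomial.aeval_algHom_apply (integralClosure A L).val θ h).symm
  have haev : aeval θ f = 0 := by
    apply Subtype.ext
    rw [hcoe]
    exact minpoly.aeval A θ₀
  have hdvd : ∀ h : Polynomial A, aeval θ h = 0 → f ∣ h := by
    intro h hh
    refine minpoly.isIntegrallyClosed_dvd hint ?_
    rw [← hcoe, hh]; rfl
  -- the discriminant
  have hd0 : Algebra.discr F B.basis ≠ 0 := Algebra.discr_not_zero_of_basis F B.basis
  have hdint : IsIntegral A (Algebra.discr F B.basis) := by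
    refine Algebra.discr_isIntegral F fun i => ?_
    rw [B.basis_eq_pow, hBgen]
    exact hint.pow _
  obtain ⟨a₁, ha₁⟩ := (IsIntegrallyClosed.isIntegral_iff (R := A) (K := F)).1 hdint
  have ha₁0 : a₁ ≠ 0 := by
    rintro rfl
    exact hd0 (by rw [← ha₁, map_zero])
  have hgen1 : ∀ c : integralClosure A L, ∃ h : A[X], a₁ • c = aeval θ h := by
    intro c
    have h1 := Algebra.discr_mul_isIntegral_mem_adjoin F (B := B) (by rw [hBgen]; exact hint)
      (z := (c : L)) c.2
    rw [hBgen, Algebra.adjoin_singleton_eq_range_aeval] at h1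
    obtain ⟨h, hh⟩ := h1
    refine ⟨h, Subtype.ext ?_⟩
    rw [hcoe]
    change a₁ • (c : L) = _
    rw [← IsScalarTower.algebraMap_smul F a₁ (c : L), ha₁]
    exact hh.symm
  -- Bezout
  have hsep : (f.map (algebraMap A F)).Separable := by
    rw [← hmin]
    exact Algebra.IsSeparable.isSeparable F θ₀
  obtain ⟨a₂, ha₂0, u, v, huv⟩ := exists_bezout (F := F) f hsep
  -- conjugates
  have hconj : ∀ g : L ≃ₐ[F] L, g ≠ 1 → ∃ r : A, r ≠ 0 ∧ ∃ c' : integralClosure A L,
      ((g.restrictScalars A).mapIntegralClosure θ - θ) * c' =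
        algebraMap A (integralClosure A L) r := by
    intro g hg
    set x : integralClosure A L := (g.restrictScalars A).mapIntegralClosure θ - θ with hx
    have hx0 : x ≠ 0 := by
      intro h0
      apply hg
      have h1 : g θ₀ = θ₀ := by
        have h2 : (x : L) = g θ₀ - θ₀ := rfl
        rw [h0] at h2
        exact (sub_eq_zero.1 h2.symm)
      have h2 : (g : L →ₐ[F] L) = AlgHom.id F L := by
        refine B.algHom_ext ?_
        rw [hBgen]
        exact h1
      ext y
      exact DFunLike.congr_fun h2 y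
    have halg : IsAlgebraic A x := (Algebra.IsIntegral.isIntegral x).isAlgebraic
    obtain ⟨r, hr, c', hc'⟩ := halg.exists_nonzero_dvd (mem_nonZeroDivisors_of_ne_zero hx0)
    exact ⟨r, hr, c', hc'.symm⟩
  choose! r hr0 hr using hconj
  let G := (Finset.univ : Finset (L ≃ₐ[F] L)).filter (fun g => g ≠ 1)
  let P : A := ∏ g ∈ G, r g
  have hP0 : P ≠ 0 := Finset.prod_ne_zero_iff.2 fun g hg => hr0 g (Finset.mem_filter.1 hg).2
  refine ⟨θ, f, a₁ * a₂ * P, mul_ne_zero (mul_ne_zero ha₁0 ha₂0) hP0, hfm, hdeg, haev, hdvd,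
    ?_, ?_, ?_⟩
  · intro c
    obtain ⟨h, hh⟩ := hgen1 c
    refine ⟨C (a₂ * P) * h, ?_⟩
    rw [map_mul, aeval_C, ← Algebra.smul_def, ← hh, smul_smul]
    congr 1
    ring
  · refine ⟨C (a₁ * P) * u, C (a₁ * P) * v, ?_⟩
    have h1 : (C (a₁ * a₂ * P) : A[X]) = C (a₁ * P) * C a₂ := by rw [← C_mul]; congr 1; ring
    rw [h1, ← huv]
    ring
  · intro g hg
    obtain ⟨c', hc'⟩ := hr g hg
    have hgG : g ∈ G := Finset.mem_filter.2 ⟨Finset.mem_univ _, hg⟩
    have hPr : P = r g * ∏ g' ∈ G.erase g, r g' := (Finset.mul_prod_erase G r hgG).symm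
    refine ⟨c' * algebraMap A _ (a₁ * a₂ * ∏ g' ∈ G.erase g, r g'), ?_⟩
    rw [← mul_assoc, hc', ← map_mul, hPr]
    congr 1
    ring

end

end Crest.Agent.R188.Tring
end

-- ▼ part R188/Tring7
section

set_option autoImplicit false
set_option linter.unusedSectionVars false

open TensorProduct Polynomial

namespace Crest.Agent.R188.Tring

open Crest.Agent.R183 Crest.Agent.R183.Heb Crest.Agent.R183.Lat Crest.Agent.R183.Om

variable {p : ℕ} [hp : Fact p.Prime]

/-- the nontrivial elements of the Galois group, acting on the integral closure -/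
def galH (A F L : Type) [CommRing A] [Field F] [Algebra A F] [Field L] [Algebra F L] [Algebra A L]
    [IsScalarTower A F L] : Set (integralClosure A L →ₐ[A] integralClosure A L) :=
  {h | ∃ g : L ≃ₐ[F] L, g ≠ 1 ∧ h = (g.restrictScalars A).mapIntegralClosure}

/-- **The almost splitting data of `T_L`.** -/
theorem nonempty_almSplit {A F L : Type} [CommRing A] [IsDomain A] [IsIntegrallyClosed A]
    [Field F] [Algebra A F] [IsFractionRing A F] [Field L] [Algebra F L] [Algebra A L]
    [IsScalarTower A F L] [FiniteDimensional F L] [IsGalois F L] {ϖ : ℕ → A}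
    (M₀ : Env.Model p A ϖ) (hCIC : Cic.CIC A)
    (hfac : ∀ a : A, a ≠ 0 → ∃ (c : A) (k : ℕ) (D : A), a * c = (p : A) ^ k * D ∧
      RegMod D (p : A)) :
    Nonempty (AlmSplit p A (integralClosure A L) ϖ (galH A F L)) := by
  have hinjL : Function.Injective (algebraMap A L) := by
    rw [IsScalarTower.algebraMap_eq A F L]
    exact (algebraMap F L).injective.comp (IsFractionRing.injective A F)
  have hfaith : FaithfulSMul A L := (faithfulSMul_iff_algebraMap_injective A L).2 hinjL
  have hAT : Function.Injective (algebraMap A (integralClosure A L)) := by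
    intro x y hxy
    exact hinjL (congrArg (algebraMap (integralClosure A L) L) hxy)
  have hic : IsIntegrallyClosed (integralClosure A L) :=
    integralClosure.isIntegrallyClosedOfFiniteExtension F
  have hp0 : (p : A) ≠ 0 := by
    intro h
    have := M₀.props.2.1 1 (by rw [h, zero_mul])
    exact one_ne_zero this
  obtain ⟨θ, f, a₀, h0, hf, -, hθ, hdvd, hspan, hsep, hgal⟩ := exists_gen (A := A) (F := F) (L := L)
  refine almSplit_of_gen hAT M₀ hCIC hfac (fun D hD => ?_) θ f a₀ h0 hf hθ hdvd hspan hsep _ ?_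
  · have := Apl.regMod_integralClosure (L := L) hp0 hD
    rwa [map_natCast] at this
  · rintro _ ⟨g, hg, rfl⟩
    obtain ⟨c', hc'⟩ := hgal g hg
    exact ⟨c', hc'⟩

end Crest.Agent.R188.Tring
end

-- ▼ part R188/Tring8

set_option autoImplicit false
set_option linter.unusedSectionVars false

open TensorProduct Polynomial

namespace Crest.Agent.R188.Tring

open Crest.Agent.R183 Crest.Agent.R183.Om

variable {p : ℕ} [hp : Fact p.Prime]

theorem exists_uw {A T : Type*} [CommRing A] [IsDomain A] [CommRing T] [IsDomain T] [Algebra A T]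
    (θ : T) (f : A[X]) (a₀ : A) (hf : f.Monic)
    (hθ : aeval θ f = 0) (hdvd : ∀ h : A[X], aeval θ h = 0 → f ∣ h)
    (hspan : ∀ c : T, ∃ h : A[X], a₀ • c = aeval θ h) (σ c₀ : A) (hσ : a₀ * c₀ = σ) :
    ∃ (u : (Fin f.natDegree → A) →ₗ[A] T) (w : T →ₗ[A] (Fin f.natDegree → A)),
      (∀ x, w (u x) = σ • x) ∧ (∀ t, u (w t) = σ • t) := by
  let u : (Fin f.natDegree → A) →ₗ[A] T := Fintype.linearCombination A (fun l => θ ^ (l : ℕ))
  have hu : ∀ x, u x = ∑ l, x l • θ ^ (l : ℕ) := fun x => rfl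
  have huinj : Function.Injective u := by
    rw [injective_iff_map_eq_zero]
    intro x hx
    let P : A[X] := ∑ l : Fin f.natDegree, C (x l) * X ^ (l : ℕ)
    have hP : aeval θ P = 0 := by
      rw [← hx, hu]
      simp only [P, map_sum, map_mul, aeval_C, map_pow, aeval_X, Algebra.smul_def]
    have hdeg : P.degree < f.degree := by
      rw [Polynomial.degree_eq_natDegree hf.ne_zero]
      refine lt_of_le_of_lt (Polynomial.degree_sum_le _ _) ?_
      rw [Finset.sup_lt_iff (WithBot.bot_lt_coe _)]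
      intro l _
      exact lt_of_le_of_lt (Polynomial.degree_C_mul_X_pow_le _ _) (by exact_mod_cast l.2)
    have hP0 : P = 0 := by
      by_contra hne
      exact absurd (Polynomial.degree_le_of_dvd (hdvd P hP) hne) (not_le.2 hdeg)
    ext l
    have h1 := congrArg (fun q => Polynomial.coeff q (l : ℕ)) hP0
    simp only [P, Polynomial.finsetSum_coeff, Polynomial.coeff_C_mul, Polynomial.coeff_X_pow,
      Polynomial.coeff_zero] at h1
    rw [Finset.sum_eq_single l] at h1
    · simpa using h1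
    · intro b _ hb
      have : (l : ℕ) ≠ (b : ℕ) := fun h => hb (Fin.ext h.symm)
      simp [this]
    · intro h; exact absurd (Finset.mem_univ l) h
  have hex : ∀ t : T, ∃ m : Fin f.natDegree → A, a₀ • t = u m := by
    intro t
    obtain ⟨h, hh⟩ := hspan t
    obtain ⟨m, hm⟩ := exists_comb f hf θ hθ h
    exact ⟨m, by rw [hh, hm, hu]⟩
  choose m hm using hex
  let w₀ : T →ₗ[A] (Fin f.natDegree → A) :=
    { toFun := m
      map_add' := fun x y => huinj (by rw [← hm, smul_add, hm, hm, map_add])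
      map_smul' := fun a x => huinj (by rw [← hm, smul_comm, hm, map_smul, RingHom.id_apply]) }
  have hw₀ : ∀ t, u (w₀ t) = a₀ • t := fun t => (hm t).symm
  refine ⟨u, c₀ • w₀, fun x => huinj ?_, fun t => ?_⟩
  · rw [LinearMap.smul_apply, map_smul, hw₀, smul_smul, mul_comm, hσ, map_smul]
  · rw [LinearMap.smul_apply, map_smul, hw₀, smul_smul, mul_comm, hσ]

/-- **rank data of `T_L`** -/
theorem exists_rank_data {A F L : Type} [CommRing A] [IsDomain A] [IsIntegrallyClosed A]
    [Field F] [Algebra A F] [IsFractionRing A F] [Field L] [Algebra F L] [Algebra A L]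
    [IsScalarTower A F L] [FiniteDimensional F L] [IsGalois F L]
    (hfac : ∀ a : A, a ≠ 0 → ∃ (c : A) (k : ℕ) (D : A), a * c = (p : A) ^ k * D ∧
      RegMod D (p : A)) :
    ∃ (u : (Fin (Module.finrank F L) → A) →ₗ[A] integralClosure A L)
      (w : integralClosure A L →ₗ[A] (Fin (Module.finrank F L) → A)) (k : ℕ) (D : A),
      RegMod D (p : A) ∧ (∀ x, w (u x) = ((p : A) ^ k * D) • x) ∧
        (∀ t, u (w t) = ((p : A) ^ k * D) • t) := by
  obtain ⟨θ, f, a₀, h0, hf, hdeg, hθ, hdvd, hspan, -, -⟩ :=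
    exists_gen (A := A) (F := F) (L := L)
  obtain ⟨c, k, D, hcD, hD⟩ := hfac a₀ h0
  have key := exists_uw θ f a₀ hf hθ hdvd hspan ((p : A) ^ k * D) c hcD
  rw [hdeg] at key
  obtain ⟨u, w, h1, h2⟩ := key
  exact ⟨u, w, k, D, hD, h1, h2⟩

end Crest.Agent.R188.Tring
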