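import Crest.Agent.R183.BInf7
import Crest.Agent.R188.Tow1

-- ▼ part R188/Trk1
section

/-!
# R188 (helper645), block Trk, part 1: `B_∞` is free over each level `S_e = B[t^{1/p^e}]`;
the maximal ideal of `S_e`.
-/

set_option autoImplicit false
set_option linter.dupNamespace false

namespace Crest.Agent.R188.Trk

open scoped ENNReal TensorProduct NNRat
open Crest.Agent.R183 Crest.Agent.R183.BInf
open AddMonoidAlgebra (single)

section Free

variable {d : ℕ} (p : ℕ) {B : Type*} [CommRing B] (t : Fin d → B) (hp : 0 < p) (e : ℕ)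

/-- exponents `< 1 / p^e` -/
abbrev GamE (d p e : ℕ) := {δ : Gam d p // ∀ i, ((p : ℚ≥0) ^ e) * ((δ i : NP p) : ℚ≥0) < 1}

/-- `j / p^e + δ` -/
noncomputable def jn (δ : GamE d p e) (j : Fin d → Fin (p ^ e)) : Gam1 d p :=
  ⟨ex p hp e (fun i => (j i : ℕ)) + (δ : Gam d p), fun i => by
    have h0 : (0 : ℚ≥0) < (p : ℚ≥0) ^ e := pos_iff_ne_zero.mpr (pe_ne p hp e)
    have h1 := δ.2 i
    change ((j i : ℕ) : ℚ≥0) / (p : ℚ≥0) ^ e + ((δ : Gam d p) i : ℚ≥0) < 1
    have h2 : ((j i : ℕ) : ℚ≥0) + 1 ≤ (p : ℚ≥0) ^ e := by exact_mod_cast (j i).2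
    have h3 : (p : ℚ≥0) ^ e * (((j i : ℕ) : ℚ≥0) / (p : ℚ≥0) ^ e + ((δ : Gam d p) i : ℚ≥0)) <
        (p : ℚ≥0) ^ e * 1 := by
      rw [mul_add, mul_div_cancel₀ _ h0.ne', mul_one]
      exact lt_of_lt_of_le (add_lt_add_of_le_of_lt le_rfl h1) h2
    exact lt_of_mul_lt_mul_left h3 h0.le⟩

theorem fl_jn (δ : GamE d p e) (j : Fin d → Fin (p ^ e)) (i : Fin d) :
    ⌊(p : ℚ≥0) ^ e * (((jn p hp e δ j : Gam1 d p) : Gam d p) i : ℚ≥0)⌋₊ = (j i : ℕ) := by
  have h0 : (p : ℚ≥0) ^ e ≠ 0 := pe_ne p hp e
  have h1 : (p : ℚ≥0) ^ e * (((jn p hp e δ j : Gam1 d p) : Gam d p) i : ℚ≥0) =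
      ((p : ℚ≥0) ^ e * ((δ : Gam d p) i : ℚ≥0)) + ((j i : ℕ) : ℚ≥0) := by
    change (p : ℚ≥0) ^ e * (((j i : ℕ) : ℚ≥0) / (p : ℚ≥0) ^ e + ((δ : Gam d p) i : ℚ≥0)) = _
    rw [mul_add, mul_div_cancel₀ _ h0, add_comm]
  rw [h1, Nat.floor_add_natCast zero_le, Nat.floor_eq_zero.mpr (δ.2 i), zero_add]

theorem jn_inj {δ δ' : GamE d p e} {j j' : Fin d → Fin (p ^ e)}
    (h : jn p hp e δ j = jn p hp e δ' j') : δ = δ' ∧ j = j' := by
  have hj : j = j' := by
    funext i
    apply Fin.ext
    rw [← fl_jn p hp e δ j i, h, fl_jn]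
  subst hj
  refine ⟨Subtype.ext ?_, rfl⟩
  funext i
  apply Subtype.ext
  have h1 := congrArg (fun x : Gam1 d p => (((x : Gam d p) i : NP p) : ℚ≥0)) h
  have h2 : ((j i : ℕ) : ℚ≥0) / (p : ℚ≥0) ^ e + ((δ : Gam d p) i : ℚ≥0) =
      ((j i : ℕ) : ℚ≥0) / (p : ℚ≥0) ^ e + ((δ' : Gam d p) i : ℚ≥0) := h1
  exact add_left_cancel h2

theorem mon_jn (δ : GamE d p e) (j : Fin d → Fin (p ^ e)) :
    mon p t ((jn p hp e δ j : Gam1 d p) : Gam d p) =
      mon p t (ex p hp e (fun i => (j i : ℕ))) * mon p t (δ : Gam d p) :=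
  mon_add p t _ _

theorem linInd : LinearIndependent (Sub p t hp e) (fun δ : GamE d p e => mon p t (δ : Gam d p)) := by
  classical
  rw [linearIndependent_iff']
  intro s g hg δ0 hδ0
  choose c hc using fun δ => exists_sum_level p t hp e (g δ : BInf p t) (g δ).2
  have h1 : ∑ δ ∈ s, ∑ j, c δ j • basis p t (jn p hp e δ j) = 0 := by
    rw [← hg]
    refine Finset.sum_congr rfl fun δ _ => ?_
    rw [Subring.smul_def, hc δ, smul_eq_mul, Finset.sum_mul]
    refine Finset.sum_congr rfl fun j _ => ?_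
    rw [basis_apply, mon_jn, smul_mul_assoc]
  have h2 : ∀ j0, c δ0 j0 = 0 := by
    intro j0
    have h3 := congrArg (fun x => (basis p t).repr x (jn p hp e δ0 j0)) h1
    simp only [map_sum, Finsupp.finsetSum_apply, map_zero, Finsupp.coe_zero, Pi.zero_apply,
      map_smul, Module.Basis.repr_self, Finsupp.smul_apply, smul_eq_mul] at h3
    rw [Finset.sum_eq_single δ0] at h3
    · rw [Finset.sum_eq_single j0] at h3
      · rwa [Finsupp.single_eq_same, mul_one] at h3
      · intro j _ hj
        rw [Finsupp.single_apply, if_neg, mul_zero]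
        intro h4
        exact hj (jn_inj p hp e h4).2
      · intro h; exact absurd (Finset.mem_univ _) h
    · intro δ _ hδ
      refine Finset.sum_eq_zero fun j _ => ?_
      rw [Finsupp.single_apply, if_neg, mul_zero]
      intro h4
      exact hδ (jn_inj p hp e h4).1
    · intro h; exact absurd hδ0 h
  apply Subtype.ext
  rw [hc δ0]
  change _ = (0 : BInf p t)
  refine Finset.sum_eq_zero fun j _ => ?_
  rw [h2, zero_smul]

/-- division by `p^e` -/
noncomputable def divpe (x : NP p) : NP p := ⟨(x : ℚ≥0) / (p : ℚ≥0) ^ e, by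
  obtain ⟨k, n, h⟩ := x.2
  refine ⟨e + k, n, ?_⟩
  rw [pow_add, ← mul_assoc, div_mul_cancel₀ _ (pe_ne p hp e), h]⟩

theorem exists_mon_mul (γ : Gam d p) : ∃ (m : Fin d → ℕ) (δ : GamE d p e),
    mon p t γ = mon p t (ex p hp e m) * mon p t (δ : Gam d p) := by
  have h0 : (p : ℚ≥0) ^ e ≠ 0 := pe_ne p hp e
  let α : Gam d p := p ^ e • γ
  have hα : ∀ i, ((α i : NP p) : ℚ≥0) = (p : ℚ≥0) ^ e * ((γ i : NP p) : ℚ≥0) := by
    intro i
    change (((p ^ e • γ) i : NP p) : ℚ≥0) = _
    rw [Pi.smul_apply, AddSubmonoidClass.coe_nsmul, nsmul_eq_mul]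
    push_cast
    rfl
  refine ⟨fun i => fl (α i), ⟨fun i => divpe p hp e (fr (α i)), fun i => ?_⟩, ?_⟩
  · change (p : ℚ≥0) ^ e * (((fr (α i) : NP p) : ℚ≥0) / (p : ℚ≥0) ^ e) < 1
    rw [mul_div_cancel₀ _ h0]
    exact fr_lt_one _
  · rw [← mon_add]
    congr 1
    funext i
    apply Subtype.ext
    change ((γ i : NP p) : ℚ≥0) = ((fl (α i) : ℕ) : ℚ≥0) / (p : ℚ≥0) ^ e +
      ((fr (α i) : NP p) : ℚ≥0) / (p : ℚ≥0) ^ e
    rw [← add_div, add_comm, fr_add_fl, hα, mul_div_cancel_left₀ _ h0]

theorem span_mon : ⊤ ≤ Submodule.span (Sub p t hp e)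
    (Set.range fun δ : GamE d p e => mon p t (δ : Gam d p)) := by
  rintro x -
  obtain ⟨x, rfl⟩ := Ideal.Quotient.mk_surjective x
  induction x using AddMonoidAlgebra.induction_linear with
  | zero => rw [map_zero]; exact Submodule.zero_mem _
  | add x y hx hy => rw [map_add]; exact Submodule.add_mem _ hx hy
  | single γ b =>
    obtain ⟨m, δ, h⟩ := exists_mon_mul p t hp e γ
    have h1 : (Ideal.Quotient.mk (relI p t)) (single γ b) = b • mon p t γ := by
      have h : single γ b = b • (single γ 1 : AddMonoidAlgebra B (Gam d p)) := by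
        rw [AddMonoidAlgebra.smul_single, smul_eq_mul, mul_one]
      rw [h]; rfl
    let s : Sub p t hp e := ⟨b • mon p t (ex p hp e m),
      Subalgebra.smul_mem _ (mon_ex_mem p t hp e m) b⟩
    have h2 : b • mon p t γ = s • mon p t (δ : Gam d p) := by
      rw [Subring.smul_def, smul_eq_mul]
      change _ = (b • mon p t (ex p hp e m)) * _
      rw [h, smul_mul_assoc]
    rw [h1, h2]
    exact Submodule.smul_mem _ _ (Submodule.subset_span ⟨δ, rfl⟩)

/-- `B_∞` is free over each level -/
theorem free_level : Module.Free (Sub p t hp e) (BInf p t) :=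
  Module.Free.of_basis (Module.Basis.mk (linInd p t hp e) (span_mon p t hp e))

theorem flat_level : Module.Flat (Sub p t hp e) (BInf p t) := by
  have := free_level p t hp e
  infer_instance

end Free

section Max

variable {d : ℕ} (p : ℕ) {B : Type*} [CommRing B] (t : Fin d → B) (hp : 0 < p) (e : ℕ)

/-- `t_i^{1/p^e}` as an element of level `e` -/
noncomputable def rtS (i : Fin d) : Sub p t hp e := ⟨rt p t hp e i, mon_mem_Sub p t hp e _⟩

/-- `t_i` as an element of level `e` -/
noncomputable def tS (i : Fin d) : Sub p t hp e :=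
  ⟨algebraMap B (BInf p t) (t i), Subalgebra.algebraMap_mem _ _⟩

theorem rt_pow (i : Fin d) : rt p t hp e i ^ p ^ e = algebraMap B (BInf p t) (t i) := by
  induction e with
  | zero => rw [pow_zero, pow_one, rt_zero]
  | succ e ih => rw [pow_succ', pow_mul, rt_succ_pow, ih]

theorem rtS_pow (i : Fin d) : rtS p t hp e i ^ p ^ e = tS p t hp e i :=
  Subtype.ext (rt_pow p t hp e i)

/-- the maximal ideal of level `e` -/
noncomputable def mE : Ideal (Sub p t hp e) := Ideal.span (Set.range (rtS p t hp e))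

theorem tS_mem_mE (i : Fin d) : tS p t hp e i ∈ mE p t hp e := by
  rw [← rtS_pow]
  have h : rtS p t hp e i ∈ mE p t hp e := Ideal.subset_span ⟨i, rfl⟩
  exact Ideal.pow_mem_of_mem _ h _ (Nat.pow_pos hp)

/-- the structure map of level `e` -/
noncomputable def algS : B →+* Sub p t hp e :=
  (algebraMap B (BInf p t)).codRestrict (Sub p t hp e) fun b => Subalgebra.algebraMap_mem _ b

theorem aeval_mem (f : MvPolynomial (Fin d) B) :
    (MvPolynomial.aeval (fun i => rt p t hp e i)) f ∈ Sub p t hp e := ⟨f, rfl⟩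

theorem exists_sub_mem (x : Sub p t hp e) : ∃ b : B, x - algS p t hp e b ∈ mE p t hp e := by
  obtain ⟨x, f, rfl⟩ := x
  have key : ∀ f : MvPolynomial (Fin d) B, ∃ b : B, ∀ h : (MvPolynomial.aeval (fun i =>
      rt p t hp e i)) f ∈ Sub p t hp e,
      (⟨(MvPolynomial.aeval (fun i => rt p t hp e i)) f, h⟩ : Sub p t hp e) - algS p t hp e b ∈
        mE p t hp e := by
    intro f
    induction f using MvPolynomial.induction_on with
    | C a =>
      refine ⟨a, fun h => ?_⟩
      have h1 : (⟨(MvPolynomial.aeval (fun i => rt p t hp e i)) (MvPolynomial.C a), h⟩ :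
          Sub p t hp e) - algS p t hp e a = 0 := by
        apply Subtype.ext
        change (MvPolynomial.aeval (fun i => rt p t hp e i)) (MvPolynomial.C a) -
          algebraMap B (BInf p t) a = 0
        rw [MvPolynomial.aeval_C, sub_self]
      rw [h1]
      exact Ideal.zero_mem _
    | add f g hf hg =>
      obtain ⟨b, hb⟩ := hf
      obtain ⟨b', hb'⟩ := hg
      refine ⟨b + b', fun h => ?_⟩
      have h1 := hb (aeval_mem p t hp e f)
      have h2 := hb' (aeval_mem p t hp e g)
      have h3 := Ideal.add_mem _ h1 h2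
      convert h3 using 1
      apply Subtype.ext
      change (MvPolynomial.aeval (fun i => rt p t hp e i)) (f + g) -
        algebraMap B (BInf p t) (b + b') =
        ((MvPolynomial.aeval (fun i => rt p t hp e i)) f - algebraMap B (BInf p t) b) +
        ((MvPolynomial.aeval (fun i => rt p t hp e i)) g - algebraMap B (BInf p t) b')
      rw [map_add, map_add]
      ring
    | mul_X f i hf =>
      refine ⟨0, fun h => ?_⟩
      have h1 : (⟨(MvPolynomial.aeval (fun i => rt p t hp e i)) (f * MvPolynomial.X i), h⟩ :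
          Sub p t hp e) - algS p t hp e 0 =
          (⟨(MvPolynomial.aeval (fun i => rt p t hp e i)) f, aeval_mem p t hp e f⟩ :
            Sub p t hp e) *
            rtS p t hp e i := by
        apply Subtype.ext
        change (MvPolynomial.aeval (fun i => rt p t hp e i)) (f * MvPolynomial.X i) -
          algebraMap B (BInf p t) 0 =
          (MvPolynomial.aeval (fun i => rt p t hp e i)) f * rt p t hp e i
        rw [map_mul, MvPolynomial.aeval_X, map_zero, sub_zero]
      rw [h1]
      exact Ideal.mul_mem_left _ _ (Ideal.subset_span ⟨i, rfl⟩)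
  obtain ⟨b, hb⟩ := key f
  exact ⟨b, hb _⟩

variable [IsLocalRing B]

/-- the only maximal ideal of level `e` that contains the `t_i` -/
theorem eq_mE (hm : IsLocalRing.maximalIdeal B = Ideal.span (Set.range t))
    (n : Ideal (Sub p t hp e)) (hn : n.IsMaximal) (h : ∀ i, tS p t hp e i ∈ n) :
    n = mE p t hp e := by
  have h1 : mE p t hp e ≤ n := by
    rw [mE, Ideal.span_le]
    rintro _ ⟨i, rfl⟩
    refine hn.isPrime.mem_of_pow_mem (p ^ e) ?_
    rw [rtS_pow]
    exact h i
  refine le_antisymm ?_ h1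
  intro x hx
  obtain ⟨b, hb⟩ := exists_sub_mem p t hp e x
  have h2 : algS p t hp e b ∈ n := by
    have := n.sub_mem hx (h1 hb)
    rwa [sub_sub_cancel] at this
  have h3 : b ∈ IsLocalRing.maximalIdeal B := by
    rw [IsLocalRing.mem_maximalIdeal, mem_nonunits_iff]
    intro hu
    exact hn.ne_top (Ideal.eq_top_of_isUnit_mem _ h2 (hu.map (algS p t hp e)))
  have h4 : algS p t hp e b ∈ mE p t hp e := by
    rw [hm] at h3
    have h5 : Ideal.span (Set.range t) ≤ (mE p t hp e).comap (algS p t hp e) := by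
      rw [Ideal.span_le]
      rintro _ ⟨i, rfl⟩
      exact tS_mem_mE p t hp e i
    exact h5 h3
  have := Ideal.add_mem _ hb h4
  rwa [sub_add_cancel] at this

end Max

end Crest.Agent.R188.Trk
end

-- ▼ part R188/Trk2
section

/-!
# R188 (helper645), block Trk, part 2: comparison of an additive length on `A`-modules with the
lengths of the levels (upper bound), and lower bounds for superadditive invariants.
-/

set_option autoImplicit false
set_option linter.dupNamespace false

namespace Crest.Agent.R188.Trk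

open scoped ENNReal TensorProduct
open Crest.Agent.R183 Crest.Agent.R188.Tow

universe u v w

section Sup

/-- superadditive invariants of modules -/
structure SupLen (A : Type u) [CommRing A] where
  /-- the invariant -/
  L : ∀ (M : Type u) [AddCommGroup M] [Module A M], ℝ≥0∞
  congr : ∀ {M N : Type u} [AddCommGroup M] [Module A M] [AddCommGroup N] [Module A N]
    (_ : M ≃ₗ[A] N), L M = L N
  sup : ∀ {M N P : Type u} [AddCommGroup M] [Module A M] [AddCommGroup N] [Module A N]
    [AddCommGroup P] [Module A P] (f : M →ₗ[A] N) (g : N →ₗ[A] P), Function.Injective f →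
    Function.Surjective g → Function.Exact f g → L M + L P ≤ L N

/-- an additive length is superadditive -/
def SupLen.ofAddLen {A : Type u} [CommRing A] (Λ : AddLen.{u, u} A) : SupLen A where
  L := fun M _ _ => Λ.L M
  congr := fun e => Λ.L_congr e
  sup := fun f g hf hg h => (Λ.add' f g hf hg h).ge

variable {A : Type u} [CommRing A] (Ψ : SupLen A)
variable {R C : Type u} [CommRing R] [CommRing C] [Algebra R C] [Algebra R A] [Algebra C A]
  [IsScalarTower R C A] [Module.Flat R C]

/-- `A ⊗_R -` is exact on modules killed by `a` if `R → C` is flat and `C → A` is an isomorphism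
modulo `a` -/
theorem lTensor_injective (a : R)
    (sat : ∀ (x : C) (y : A), algebraMap C A x = algebraMap R A a * y →
      ∃ x', x = algebraMap R C a * x')
    (dense : ∀ y : A, ∃ (x : C) (y' : A), y - algebraMap C A x = algebraMap R A a * y')
    {N N' : Type u} [AddCommGroup N] [Module R N] [AddCommGroup N'] [Module R N']
    (hN : ∀ y : N, a • y = 0) (i : N' →ₗ[R] N) (hi : Function.Injective i) :
    Function.Injective (i.lTensor A) := by
  have hN' : ∀ y : N', a • y = 0 := fun y => hi (by rw [map_smul, hN, map_zero])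
  let f : C →ₗ[R] A := (Algebra.linearMap C A).restrictScalars R
  have hsat : ∀ (x : C) (y : A), f x = a • y → ∃ x', x = a • x' := by
    intro x y h
    rw [Algebra.smul_def] at h
    obtain ⟨x', hx'⟩ := sat x y h
    exact ⟨x', by rw [Algebra.smul_def]; exact hx'⟩
  have hdense : ∀ y : A, ∃ (x : C) (y' : A), y - f x = a • y' := by
    intro y
    obtain ⟨x, y', h⟩ := dense y
    exact ⟨x, y', by rw [Algebra.smul_def]; exact h⟩
  have h1 := Lam.rTensor_bijective f a hsat hdense hN
  have h2 := Lam.rTensor_bijective f a hsat hdense hN'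
  have h3 : Function.Injective (i.lTensor C) :=
    Module.Flat.lTensor_preserves_injective_linearMap i hi
  have h4 : ∀ x, (i.lTensor A) (f.rTensor N' x) = (f.rTensor N) (i.lTensor C x) := by
    intro x
    rw [← LinearMap.comp_apply, ← LinearMap.comp_apply, LinearMap.lTensor_comp_rTensor,
      LinearMap.rTensor_comp_lTensor]
  rw [injective_iff_map_eq_zero]
  intro x hx
  obtain ⟨y, rfl⟩ := h2.2 x
  rw [h4] at hx
  have h5 := h3 ((h1.1 (hx.trans (map_zero _).symm)).trans (map_zero _).symm)
  rw [h5, map_zero]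

/-- **lower bound for superadditive invariants** -/
theorem SupLen.tensor_le (a : R)
    (sat : ∀ (x : C) (y : A), algebraMap C A x = algebraMap R A a * y →
      ∃ x', x = algebraMap R C a * x')
    (dense : ∀ y : A, ∃ (x : C) (y' : A), y - algebraMap C A x = algebraMap R A a * y')
    (I m : Ideal R) (haI : a ∈ I) (hm : ∀ n : Ideal R, n.IsMaximal → I ≤ n → n = m)
    {N : Type u} [AddCommGroup N] [Module R N] (hN : IsFiniteLength R N)
    (hIN : ∀ x ∈ I, ∀ y : N, x • y = 0) :
    ((Module.length R N : ℕ∞) : ℝ≥0∞) * Ψ.L (A ⊗[R] (R ⧸ m)) ≤ Ψ.L (A ⊗[R] N) := by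
  induction hN with
  | of_subsingleton =>
    rw [Module.length_eq_zero]
    simp
  | @of_simple_quotient M _ _ N hs hN ih =>
    have hex : Ψ.L (A ⊗[R] N) + Ψ.L (A ⊗[R] (M ⧸ N)) ≤ Ψ.L (A ⊗[R] M) := by
      refine Ψ.sup
        (TensorProduct.AlgebraTensorModule.lTensor A A N.subtype)
        (TensorProduct.AlgebraTensorModule.lTensor A A N.mkQ) ?_ ?_ ?_
      · exact lTensor_injective (C := C) a sat dense (hIN a haI) N.subtype N.subtype_injective
      · exact LinearMap.lTensor_surjective A N.mkQ_surjective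
      · exact lTensor_exact A (LinearMap.exact_subtype_mkQ N) N.mkQ_surjective
    have hsimp : Nonempty ((M ⧸ N) ≃ₗ[R] (R ⧸ m)) := by
      obtain ⟨n, hn, ⟨e⟩⟩ := isSimpleModule_iff_quot_maximal.mp hs
      have : n = m := by
        refine hm n hn ?_
        intro x hx
        have h1 : x • e.symm (Ideal.Quotient.mk n 1) = 0 := by
          obtain ⟨y, hy⟩ := N.mkQ_surjective (e.symm (Ideal.Quotient.mk n 1))
          rw [← hy, ← map_smul, hIN x hx, map_zero]
        rw [← map_smul, LinearEquiv.map_eq_zero_iff] at h1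
        have h2 : x • (Ideal.Quotient.mk n 1) = Ideal.Quotient.mk n (x * 1) := rfl
        rw [h2, mul_one, Ideal.Quotient.eq_zero_iff_mem] at h1
        exact h1
      subst this
      exact ⟨e⟩
    obtain ⟨e⟩ := hsimp
    have h2 : Ψ.L (A ⊗[R] (M ⧸ N)) = Ψ.L (A ⊗[R] (R ⧸ m)) :=
      Ψ.congr (TensorProduct.AlgebraTensorModule.congr (LinearEquiv.refl A A) e)
    have h4 : Module.length R M = Module.length R N + Module.length R (M ⧸ N) :=
      Module.length_eq_add_of_exact N.subtype N.mkQ N.subtype_injective N.mkQ_surjective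
        (LinearMap.exact_subtype_mkQ N)
    have h5 : Module.length R (M ⧸ N) = 1 := Module.length_eq_one_iff.mpr hs
    have ih' := ih (fun x hx y => Subtype.ext (hIN x hx y))
    rw [h4, h5]
    push_cast
    rw [add_mul, one_mul]
    refine le_trans ?_ hex
    rw [h2]
    exact add_le_add ih' le_rfl

/-- the same for `A / I A` -/
theorem SupLen.quot_le (a : R)
    (sat : ∀ (x : C) (y : A), algebraMap C A x = algebraMap R A a * y →
      ∃ x', x = algebraMap R C a * x')
    (dense : ∀ y : A, ∃ (x : C) (y' : A), y - algebraMap C A x = algebraMap R A a * y')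
    (I m : Ideal R) (haI : a ∈ I) (hm : ∀ n : Ideal R, n.IsMaximal → I ≤ n → n = m)
    (hI : Module.length R (R ⧸ I) ≠ ⊤) :
    ((Module.length R (R ⧸ I) : ℕ∞) : ℝ≥0∞) * Ψ.L (A ⧸ m.map (algebraMap R A)) ≤
      Ψ.L (A ⧸ I.map (algebraMap R A)) := by
  have h1 : ∀ J : Ideal R, Ψ.L (A ⧸ J.map (algebraMap R A)) = Ψ.L (A ⊗[R] (R ⧸ J)) := fun J =>
    Ψ.congr (Algebra.TensorProduct.quotIdealMapEquivTensorQuot A J).toLinearEquiv
  rw [h1, h1]
  refine Ψ.tensor_le (C := C) a sat dense I m haI hm (Module.length_ne_top_iff.mp hI) ?_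
  intro x hx y
  obtain ⟨y, rfl⟩ := Ideal.Quotient.mk_surjective y
  have h2 : x • (Ideal.Quotient.mk I y) = Ideal.Quotient.mk I (x * y) := rfl
  rw [h2, Ideal.Quotient.eq_zero_iff_mem]
  exact Ideal.mul_mem_right _ _ hx

end Sup

section Sub

variable {A : Type u} [CommRing A] (Φ : AddLen.{u, u} A)
variable {R : Type u} [CommRing R] [Algebra R A] {κ : Type*}

/-- **upper bound**: if `Q'` is generated over `A` by the image of the `R`-module `Q` of finite
length then `Φ(Q') ≤ ℓ_R(Q) sup_m Φ(A/mA)`. -/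
theorem len_le_mul (c : ℝ≥0∞) (t : κ → R)
    (h : ∀ n : Ideal R, n.IsMaximal → (∀ i, t i ∈ n) → Φ.L (A ⧸ n.map (algebraMap R A)) ≤ c)
    {Q : Type u} [AddCommGroup Q] [Module R Q] (hQ : IsFiniteLength R Q) :
    Tors t Q → ∀ {Q' : Type u} [AddCommGroup Q'] [Module R Q'] [Module A Q'] [IsScalarTower R A Q']
    (f : Q →ₗ[R] Q') (_ : Submodule.span A (Set.range f) = ⊤),
    Φ.L Q' ≤ ((Module.length R Q : ℕ∞) : ℝ≥0∞) * c := by
  induction hQ with
  | of_subsingleton =>
    intro _ Q' _ _ _ _ f hf
    have : Subsingleton Q' := by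
      rw [← Submodule.subsingleton_iff A, ← subsingleton_iff_bot_eq_top, ← hf, eq_comm,
        Submodule.span_eq_bot]
      rintro _ ⟨x, rfl⟩
      rw [Subsingleton.elim x 0, map_zero]
    rw [Φ.L_subsingleton]
    exact zero_le
  | @of_simple_quotient M _ _ N hs hN ih =>
    intro ht Q' _ _ _ _ f hf
    let Q1 : Submodule A Q' := Submodule.span A (f '' (N : Set M))
    have hmem : ∀ n : N, (f.domRestrict N) n ∈ Q1.restrictScalars R := fun n =>
      Submodule.subset_span ⟨n.1, n.2, rfl⟩
    have h1 : Φ.L Q1 ≤ ((Module.length R N : ℕ∞) : ℝ≥0∞) * c := by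
      refine ih (ht.submodule N) (Q' := Q1)
        ((f.domRestrict N).codRestrict (Q1.restrictScalars R) hmem) ?_
      rw [eq_top_iff]
      rintro ⟨y, hy⟩ -
      have : ∀ z (hz : z ∈ Q1), (⟨z, hz⟩ : Q1) ∈ Submodule.span A
          (Set.range ((f.domRestrict N).codRestrict (Q1.restrictScalars R) hmem)) := by
        intro z hz
        induction hz using Submodule.span_induction with
        | mem x hx =>
          obtain ⟨n, hn, rfl⟩ := hx
          exact Submodule.subset_span ⟨⟨n, hn⟩, rfl⟩
        | zero => exact Submodule.zero_mem _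
        | add x y hx hy hx' hy' => exact Submodule.add_mem _ hx' hy'
        | smul a x hx hx' => exact Submodule.smul_mem _ a hx'
      exact this y hy
    have h2 : Φ.L (Q' ⧸ Q1) ≤ c := by
      have := hs.nontrivial
      obtain ⟨x0, hx0⟩ := exists_ne (0 : M ⧸ N)
      obtain ⟨x, rfl⟩ := N.mkQ_surjective x0
      have hmax := IsSimpleModule.ker_toSpanSingleton_isMaximal R hx0
      have hsurj := IsSimpleModule.toSpanSingleton_surjective R hx0
      set m : Ideal R := LinearMap.ker (LinearMap.toSpanSingleton R (M ⧸ N) (N.mkQ x)) with hm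
      have htm : ∀ i, t i ∈ m := by
        intro i
        obtain ⟨k, hk⟩ := ht x i
        refine hmax.isPrime.mem_of_pow_mem k ?_
        rw [hm, LinearMap.mem_ker, LinearMap.toSpanSingleton_apply, ← map_smul, hk, map_zero]
      let g : A →ₗ[A] Q' ⧸ Q1 := LinearMap.toSpanSingleton A (Q' ⧸ Q1) (Q1.mkQ (f x))
      have hg : m.map (algebraMap R A) ≤ LinearMap.ker g := by
        rw [Ideal.map_le_iff_le_comap]
        intro a ha
        have ha' : N.mkQ (a • x) = 0 := by
          simpa [hm, LinearMap.mem_ker, LinearMap.toSpanSingleton_apply] using ha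
        have ha'' : a • x ∈ N := by
          rwa [Submodule.mkQ_apply, Submodule.Quotient.mk_eq_zero] at ha'
        change algebraMap R A a ∈ LinearMap.ker g
        rw [LinearMap.mem_ker]
        change algebraMap R A a • Q1.mkQ (f x) = 0
        rw [← map_smul, algebraMap_smul, ← map_smul, Submodule.mkQ_apply,
          Submodule.Quotient.mk_eq_zero]
        exact Submodule.subset_span ⟨_, ha'', rfl⟩
      have hgs : Function.Surjective (Submodule.liftQ _ g hg) := by
        rw [← LinearMap.range_eq_top, Submodule.range_liftQ]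
        rw [eq_top_iff]
        rintro y -
        obtain ⟨y, rfl⟩ := Q1.mkQ_surjective y
        have hy : y ∈ Submodule.span A (Set.range f) := by rw [hf]; trivial
        induction hy using Submodule.span_induction with
        | mem z hz =>
          obtain ⟨w, rfl⟩ := hz
          obtain ⟨a, ha⟩ := hsurj (N.mkQ w)
          have : w - a • x ∈ N := by
            have : N.mkQ (w - a • x) = 0 := by
              rw [map_sub, sub_eq_zero, ← ha, map_smul]; rfl
            rwa [Submodule.mkQ_apply, Submodule.Quotient.mk_eq_zero] at this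
          refine ⟨algebraMap R A a, ?_⟩
          change algebraMap R A a • Q1.mkQ (f x) = _
          rw [← map_smul, algebraMap_smul, ← map_smul, ← sub_eq_zero, ← map_sub, ← map_sub,
            Submodule.mkQ_apply, Submodule.Quotient.mk_eq_zero]
          refine Submodule.subset_span ⟨a • x - w, ?_, rfl⟩
          rw [← neg_sub]
          exact N.neg_mem this
        | zero => rw [map_zero]; exact Submodule.zero_mem _
        | add y z _ _ hy hz => rw [map_add]; exact Submodule.add_mem _ hy hz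
        | smul a y _ hy => rw [map_smul]; exact Submodule.smul_mem _ a hy
      exact (Φ.L_le_of_surjective _ hgs).trans (h m hmax htm)
    have h3 : Φ.L Q' = Φ.L Q1 + Φ.L (Q' ⧸ Q1) := Φ.L_eq_add_quotient Q1
    have h4 : Module.length R M = Module.length R N + Module.length R (M ⧸ N) :=
      Module.length_eq_add_of_exact N.subtype N.mkQ N.subtype_injective N.mkQ_surjective
        (LinearMap.exact_subtype_mkQ N)
    have h5 : Module.length R (M ⧸ N) = 1 := Module.length_eq_one_iff.mpr hs
    rw [h3, h4, h5]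
    push_cast
    rw [add_mul, one_mul]
    exact add_le_add h1 h2

end Sub

end Crest.Agent.R188.Trk
end

-- ▼ part R188/Trk3
section

/-!
# R188 (helper645), block Trk, part 3: the base length `Λ` on `A`-modules (`A` = `p`-completion of
`B_∞`), and its uniqueness.
-/

set_option autoImplicit false
set_option linter.dupNamespace false
set_option linter.unusedSectionVars false

namespace Crest.Agent.R188.Trk

open scoped ENNReal TensorProduct
open Crest.Agent.R183 Crest.Agent.R183.BInf Crest.Agent.R188.Tow IsLocalRing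

universe u v w

section Base

variable {d : ℕ} (p : ℕ) {B : Type u} [CommRing B] [IsNoetherianRing B] (t : Fin d → B) (hp : 0 < p)
variable (A : Type u) [CommRing A] [Algebra (BInf p t) A]

/-- the length of `A`-modules -/
noncomputable abbrev LA : AddLen.{u, u} A :=
  (AddLen.ofTower (tower p t hp)).restrict (algebraMap (BInf p t) A)

omit [IsNoetherianRing B] in
/-- the parameters in `A` -/
noncomputable def tA (i : Fin d) : A := algebraMap (BInf p t) A (algebraMap B (BInf p t) (t i))

variable {A}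

theorem LA_eq (V : Type u) [AddCommGroup V] [Module A V] [Module (BInf p t) V]
    [IsScalarTower (BInf p t) A V] : (LA p t hp A).L V = (tower p t hp).lam V := by
  rw [AddLen.restrict_L _ _ _ (fun a x => (algebraMap_smul A a x).symm), AddLen.ofTower_L]

omit [IsNoetherianRing B] in
theorem mem_span_of_compl (hc : Om.IsCompl (p : BInf p t) (algebraMap (BInf p t) A))
    {V : Type*} [AddCommGroup V] [Module A V] [Module (BInf p t) V]
    [IsScalarTower (BInf p t) A V] (E : Set V) (k : ℕ) (hk : ∀ x : V, (p : A) ^ k • x = 0) {x : V}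
    (hx : x ∈ Submodule.span A E) : x ∈ Submodule.span (BInf p t) E := by
  induction hx using Submodule.span_induction with
  | mem x hx => exact Submodule.subset_span hx
  | zero => exact Submodule.zero_mem _
  | add x y _ _ hx hy => exact Submodule.add_mem _ hx hy
  | smul a x _ hx =>
    obtain ⟨c, y, hy⟩ := hc.dense k a
    rw [map_natCast] at hy
    have h1 : a • x = c • x := by
      have h2 : (a - algebraMap (BInf p t) A c) • x = 0 := by
        rw [hy, mul_comm, mul_smul, hk, smul_zero]
      rw [sub_smul, sub_eq_zero, algebraMap_smul] at h2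
      exact h2
    rw [h1]
    exact Submodule.smul_mem _ _ hx

/-- `Λ` is continuous -/
theorem contOn_LA : ContOn (LA p t hp A) (tA p t A) := by
  intro V _ _ _
  let _ : Module (BInf p t) V := Module.compHom V (algebraMap (BInf p t) A)
  have _ : IsScalarTower (BInf p t) A V := ⟨fun a b x => by
    rw [Algebra.smul_def, mul_smul]; rfl⟩
  rw [LA_eq, (tower p t hp).lam_eq_iSup_span]
  refine iSup_mono fun E => ?_
  rw [LA_eq p t hp (Submodule.span A (E : Set V))]
  have h : Submodule.span (BInf p t) (E : Set V) ≤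
      (Submodule.span A (E : Set V)).restrictScalars (BInf p t) := by
    rw [Submodule.span_le]
    exact fun x hx => Submodule.subset_span hx
  exact (tower p t hp).lam_le_of_injective (Submodule.inclusion h)
    (Submodule.inclusion_injective h)

omit [IsNoetherianRing B] in
theorem span_tA_pow [Algebra B A] [IsScalarTower B (BInf p t) A] (N : ℕ) :
    (Ideal.span (Set.range fun i => t i ^ N)).map (algebraMap B A) =
      Ideal.span (Set.range fun i => tA p t A i ^ N) := by
  rw [Ideal.map_span, ← Set.range_comp]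
  congr 2
  funext i
  rw [Function.comp_apply, map_pow, IsScalarTower.algebraMap_apply B (BInf p t) A]
  rfl

/-- a finitely generated torsion module is killed by `t_i^k`, `k ≫ 0`. -/
theorem exists_pow_smul {A : Type*} [CommRing A] {ι : Type*} {t : ι → A} {V : Type*}
    [AddCommGroup V] [Module A V]
    (ht : Tors t V) (hfg : Module.Finite A V) (i : ι) : ∃ k : ℕ, ∀ x : V, t i ^ k • x = 0 := by
  obtain ⟨E, hE⟩ := hfg.fg_top
  choose n hn using fun x => ht x i
  refine ⟨E.sup n, fun x => ?_⟩
  have hx : x ∈ Submodule.span A (E : Set V) := by rw [hE]; trivial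
  induction hx using Submodule.span_induction with
  | mem x hx =>
    obtain ⟨c, hc⟩ := Nat.exists_eq_add_of_le (Finset.le_sup (f := n) hx)
    rw [hc, add_comm, pow_add, mul_smul, hn, smul_zero]
  | zero => rw [smul_zero]
  | add x y _ _ hx hy => rw [smul_add, hx, hy, add_zero]
  | smul a x _ hx => rw [smul_comm, hx, smul_zero]

variable [IsLocalRing B] [Algebra B A] [IsScalarTower B (BInf p t) A]

/-- the value of `Λ` on `A/(t^N)` -/
theorem LA_pow (hc : Om.IsCompl (p : BInf p t) (algebraMap (BInf p t) A))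
    (hm : maximalIdeal B = Ideal.span (Set.range t)) (i0 : Fin d) (hi0 : t i0 = p) (N : ℕ) :
    (LA p t hp A).L (A ⧸ Ideal.span (Set.range fun i => tA p t A i ^ N)) =
      ((Module.length B (B ⧸ Ideal.span (Set.range fun i => t i ^ N)) : ℕ∞) : ℝ≥0∞) := by
  rw [← span_tA_pow, LA_eq]
  have e := (Algebra.TensorProduct.quotIdealMapEquivTensorQuot A
    (Ideal.span (Set.range fun i => t i ^ N))).toLinearEquiv
  rw [(tower p t hp).lam_congr (e.restrictScalars (BInf p t))]
  refine lam_tensor_compl p t hp hc (fun i => ?_) _ N ?_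
  · rw [hm]; exact Ideal.subset_span ⟨i, rfl⟩
  · intro y
    obtain ⟨y, rfl⟩ := Ideal.Quotient.mk_surjective y
    have h2 : ((p : B) ^ N) • (Ideal.Quotient.mk (Ideal.span (Set.range fun i => t i ^ N)) y) =
      Ideal.Quotient.mk _ ((p : B) ^ N * y) := rfl
    rw [h2, Ideal.Quotient.eq_zero_iff_mem]
    refine Ideal.mul_mem_right _ _ (Ideal.subset_span ⟨i0, ?_⟩)
    change t i0 ^ N = _
    rw [hi0]

theorem eq_max (hm : maximalIdeal B = Ideal.span (Set.range t)) (N : ℕ) (n : Ideal B)
    (hn : n.IsMaximal) (_ : Ideal.span (Set.range fun i => t i ^ N) ≤ n) :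
    n = Ideal.span (Set.range t) := by
  rw [IsLocalRing.eq_maximalIdeal hn, hm]

/-- **lower bound, level 0** -/
theorem SupLen.pow_le (hc : Om.IsCompl (p : BInf p t) (algebraMap (BInf p t) A))
    (hm : maximalIdeal B = Ideal.span (Set.range t)) (i0 : Fin d) (hi0 : t i0 = p) (N : ℕ)
    (hl : Module.length B (B ⧸ Ideal.span (Set.range fun i => t i ^ N)) ≠ ⊤) (Ψ : SupLen A) :
    ((Module.length B (B ⧸ Ideal.span (Set.range fun i => t i ^ N)) : ℕ∞) : ℝ≥0∞) *
        Ψ.L (A ⧸ Ideal.span (Set.range (tA p t A))) ≤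
      Ψ.L (A ⧸ Ideal.span (Set.range fun i => tA p t A i ^ N)) := by
  have h := Ψ.quot_le (R := B) (C := BInf p t) ((p : B) ^ N) (fun x y hxy => by
      rw [map_pow, map_natCast] at hxy
      obtain ⟨z, hz⟩ := hc.sat N x ⟨y, by rw [map_natCast, hxy]⟩
      exact ⟨z, by rw [map_pow, map_natCast, hz]⟩) (fun y => by
      obtain ⟨x, z, hz⟩ := hc.dense N y
      exact ⟨x, z, by rw [hz, map_natCast, map_pow, map_natCast]⟩)
    (Ideal.span (Set.range fun i => t i ^ N)) (Ideal.span (Set.range t))
    (Ideal.subset_span ⟨i0, by change t i0 ^ N = _; rw [hi0]⟩) (eq_max t hm N) hl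
  rw [span_tA_pow p t] at h
  have h1 := span_tA_pow p t (A := A) 1
  simp only [pow_one] at h1
  rwa [h1] at h

section Level

variable (e : ℕ)

omit [IsNoetherianRing B] [IsLocalRing B] in
theorem length_level_ne_top (hm : (Ideal.span (Set.range t)).IsMaximal) :
    Module.length (Sub p t hp e) (Sub p t hp e ⧸
      ((Ideal.span (Set.range t)).map (algebraMap B (BInf p t))).comap (Sub p t hp e).subtype) =
      ((p ^ d) ^ e : ℕ) := by
  rw [length_level p t hp _ hm (fun i => Ideal.subset_span ⟨i, rfl⟩) e]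
  push_cast
  rw [← pow_mul, ← pow_mul, mul_comm]

/-- **lower bound, level `e`** -/
theorem SupLen.level_le (hc : Om.IsCompl (p : BInf p t) (algebraMap (BInf p t) A))
    (hm : maximalIdeal B = Ideal.span (Set.range t)) (i0 : Fin d) (hi0 : t i0 = p)
    (Ψ : SupLen A) :
    ((p ^ d : ℕ) : ℝ≥0∞) ^ e * Ψ.L (A ⧸ (mE p t hp e).map (algebraMap (Sub p t hp e) A)) ≤
      Ψ.L (A ⧸ Ideal.span (Set.range (tA p t A))) := by
  have hmax : (Ideal.span (Set.range t)).IsMaximal := by rw [← hm]; infer_instance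
  set I : Ideal (Sub p t hp e) :=
    ((Ideal.span (Set.range t)).map (algebraMap B (BInf p t))).comap (Sub p t hp e).subtype with hI
  have hlen := length_level_ne_top p t hp e hmax
  rw [← hI] at hlen
  have htI : ∀ i, tS p t hp e i ∈ I := fun i => by
    rw [hI, Ideal.mem_comap]
    exact Ideal.mem_map_of_mem _ (Ideal.subset_span ⟨i, rfl⟩)
  have hflat := flat_level p t hp e
  have hcoe : ∀ x : Sub p t hp e, algebraMap (Sub p t hp e) A x =
    algebraMap (BInf p t) A (x : BInf p t) := fun x => rfl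
  have _ : IsScalarTower (Sub p t hp e) (BInf p t) A := IsScalarTower.of_algebraMap_eq fun x => rfl
  have h := Ψ.quot_le (R := Sub p t hp e) (C := BInf p t) (p : Sub p t hp e) (fun x y hxy => by
      rw [map_natCast] at hxy
      obtain ⟨z, hz⟩ := hc.sat 1 x ⟨y, by rw [map_natCast, pow_one, hxy]⟩
      exact ⟨z, by rw [map_natCast, hz, pow_one]⟩) (fun y => by
      obtain ⟨x, z, hz⟩ := hc.dense 1 y
      exact ⟨x, z, by rw [hz, map_natCast, map_natCast, pow_one]⟩)
    I (mE p t hp e) (by
      have := htI i0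
      have h1 : tS p t hp e i0 = (p : Sub p t hp e) := by
        apply Subtype.ext
        change algebraMap B (BInf p t) (t i0) = _
        rw [hi0, map_natCast]; rfl
      rwa [h1] at this)
    (fun n hn hIn => eq_mE p t hp e hm n hn fun i => hIn (htI i)) (by
      rw [hlen]; exact ENat.natCast_ne_top _)
  have hIA : I.map (algebraMap (Sub p t hp e) A) = Ideal.span (Set.range (tA p t A)) := by
    apply le_antisymm
    · rw [Ideal.map_le_iff_le_comap]
      intro x hx
      rw [Ideal.mem_comap, hcoe]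
      have h1 : (Ideal.span (Set.range t)).map (algebraMap B (BInf p t)) ≤
          (Ideal.span (Set.range (tA p t A))).comap (algebraMap (BInf p t) A) := by
        rw [Ideal.map_span, Ideal.span_le]
        rintro _ ⟨_, ⟨i, rfl⟩, rfl⟩
        exact Ideal.subset_span ⟨i, rfl⟩
      exact h1 hx
    · rw [Ideal.span_le]
      rintro _ ⟨i, rfl⟩
      exact Ideal.mem_map_of_mem (algebraMap (Sub p t hp e) A) (htI i)
  rw [hIA, hlen] at h
  have h2 : ((((p ^ d) ^ e : ℕ) : ℕ∞) : ℝ≥0∞) = ((p ^ d : ℕ) : ℝ≥0∞) ^ e := by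
    push_cast
    rfl
  rwa [h2] at h

/-- **upper bound**, finitely generated modules -/
theorem le_of_fg (hc : Om.IsCompl (p : BInf p t) (algebraMap (BInf p t) A))
    (hm : maximalIdeal B = Ideal.span (Set.range t)) (i0 : Fin d) (hi0 : t i0 = p)
    (Φ : AddLen.{u, u} A) (hΦ : Φ.L (A ⧸ Ideal.span (Set.range (tA p t A))) ≠ ⊤)
    (V : Type u) [AddCommGroup V] [Module A V] (hV : Tors (tA p t A) V) (hfg : Module.Finite A V)
    (hLV : (LA p t hp A).L V ≠ ⊤) :
    Φ.L V ≤ Φ.L (A ⧸ Ideal.span (Set.range (tA p t A))) * (LA p t hp A).L V := by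
  classical
  let _ : Module (BInf p t) V := Module.compHom V (algebraMap (BInf p t) A)
  have _ : IsScalarTower (BInf p t) A V := ⟨fun a b x => by
    rw [Algebra.smul_def, mul_smul]; rfl⟩
  set ρ := Φ.L (A ⧸ Ideal.span (Set.range (tA p t A))) with hρ
  obtain ⟨E, hE⟩ := hfg.fg_top
  obtain ⟨k, hk⟩ := exists_pow_smul hV hfg i0
  have hk' : ∀ x : V, (p : A) ^ k • x = 0 := by
    intro x
    have h1 : tA p t A i0 = (p : A) := by
      unfold tA
      rw [hi0, map_natCast, map_natCast]
    rw [← h1, hk]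
  have hE' : Submodule.span (BInf p t) (E : Set V) = ⊤ := by
    rw [eq_top_iff]
    rintro x -
    exact mem_span_of_compl p t hc (E : Set V) k hk' (by rw [hE]; trivial)
  have hL : (LA p t hp A).L V = ⨅ e, (tower p t hp).a e (E : Set V) := by
    rw [LA_eq, (tower p t hp).lam_eq_lamSet (tower_union p t hp) E hE']
    rfl
  have key : ∀ e, (tower p t hp).a e (E : Set V) ≠ ⊤ →
      Φ.L V ≤ ρ * (tower p t hp).a e (E : Set V) := by
    intro e he
    let S := Sub p t hp e
    have _ : IsScalarTower S A V := ⟨fun a b x => by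
      rw [Algebra.smul_def, mul_smul]
      rfl⟩
    let Q := Submodule.span S (E : Set V)
    have ha : (tower p t hp).a e (E : Set V) = ((Module.length S Q : ℕ∞) : ℝ≥0∞) /
      ((p ^ d : ℕ) : ℝ≥0∞) ^ e := rfl
    have hc0 : ((p ^ d : ℕ) : ℝ≥0∞) ^ e ≠ 0 := (tower p t hp).cE_ne_zero e
    have hct : ((p ^ d : ℕ) : ℝ≥0∞) ^ e ≠ ⊤ := (tower p t hp).cE_ne_top e
    have hQ : Module.length S Q ≠ ⊤ := by
      intro htop
      apply he
      rw [ha, htop, ENat.toENNReal_top, ENNReal.top_div_of_ne_top hct]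
    have htQ : Tors (tS p t hp e) Q := by
      intro x i
      obtain ⟨m, hm⟩ := hV (x : V) i
      refine ⟨m, Subtype.ext ?_⟩
      have : ((tS p t hp e i ^ m • x : Q) : V) = tA p t A i ^ m • (x : V) := by
        change ((tS p t hp e i ^ m : S) : BInf p t) • (x : V) = _
        have h1 : ((tS p t hp e i ^ m : S) : BInf p t) =
          algebraMap B (BInf p t) (t i) ^ m := rfl
        rw [h1, ← algebraMap_smul A, map_pow]
        rfl
      rw [this, hm]
      rfl
    have h1 := len_le_mul Φ (R := S) (Φ.L (A ⧸ (mE p t hp e).map (algebraMap S A)))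
      (tS p t hp e) (fun n hn ht => by rw [eq_mE p t hp e hm n hn ht])
      (Module.length_ne_top_iff.mp hQ) htQ Q.subtype (by
        rw [eq_top_iff, ← hE]
        refine Submodule.span_mono ?_
        intro x hx
        exact ⟨⟨x, Submodule.subset_span hx⟩, rfl⟩)
    have h2 := SupLen.level_le p t hp e hc hm i0 hi0 (SupLen.ofAddLen Φ)
    have h3 : ((p ^ d : ℕ) : ℝ≥0∞) ^ e * Φ.L (A ⧸ (mE p t hp e).map (algebraMap S A)) ≤ ρ := h2
    have h4 : Φ.L (A ⧸ (mE p t hp e).map (algebraMap S A)) ≤ ρ / ((p ^ d : ℕ) : ℝ≥0∞) ^ e := by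
      rw [ENNReal.le_div_iff_mul_le (Or.inl hc0) (Or.inl hct), mul_comm]
      exact h3
    rw [ha]
    refine h1.trans ((mul_le_mul_right h4 _).trans (le_of_eq ?_))
    rw [← mul_div_assoc, ← mul_div_assoc, mul_comm]
  rw [hL]
  by_cases hρ0 : ρ = 0
  · rw [hL] at hLV
    have h1 : ∃ e, (tower p t hp).a e (E : Set V) ≠ ⊤ := by
      by_contra hcon
      push Not at hcon
      apply hLV
      simp only [hcon, iInf_const]
    obtain ⟨e, he⟩ := h1
    have := key e he
    rw [hρ0, zero_mul] at this ⊢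
    exact this
  · rw [ENNReal.mul_iInf_of_ne hρ0 hΦ]
    refine le_iInf fun e => ?_
    by_cases he : (tower p t hp).a e (E : Set V) = ⊤
    · rw [he, ENNReal.mul_top hρ0]; exact le_top
    · exact key e he

end Level

end Base

end Crest.Agent.R188.Trk
end

-- ▼ part R188/Trk4

/-!
# R188 (helper645), block Trk, part 4: uniqueness of the base length.
-/

set_option autoImplicit false
set_option linter.dupNamespace false
set_option linter.unusedSectionVars false

namespace Crest.Agent.R188.Trk

open scoped ENNReal TensorProduct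
open Crest.Agent.R183 Crest.Agent.R183.BInf Crest.Agent.R188.Tow IsLocalRing

universe u v w

section Surj

variable {A : Type u} [CommRing A] {d : ℕ} {t : Fin d → A}

/-- `A / (t^N)` -/
abbrev QN (t : Fin d → A) (N : ℕ) : Type u := A ⧸ Ideal.span (Set.range fun i => t i ^ N)

theorem tors_QN (t : Fin d → A) (N : ℕ) : Tors t (QN t N) := by
  intro x i
  obtain ⟨x, rfl⟩ := Ideal.Quotient.mk_surjective x
  refine ⟨N, ?_⟩
  have h2 : (t i ^ N) • (Ideal.Quotient.mk (Ideal.span (Set.range fun i => t i ^ N)) x) =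
      Ideal.Quotient.mk _ (t i ^ N * x) := rfl
  rw [h2, Ideal.Quotient.eq_zero_iff_mem]
  exact Ideal.mul_mem_right _ _ (Ideal.subset_span ⟨i, rfl⟩)

theorem tors_pi {V : Type*} [AddCommGroup V] [Module A V] (h : Tors t V) (r : ℕ) :
    Tors t (Fin r → V) := by
  intro x i
  choose n hn using fun j => h (x j) i
  refine ⟨∑ j, n j, ?_⟩
  funext j
  obtain ⟨c, hc⟩ := Nat.exists_eq_add_of_le
    (Finset.single_le_sum (f := n) (fun _ _ => Nat.zero_le _) (Finset.mem_univ j))
  rw [Pi.smul_apply, hc, add_comm, pow_add, mul_smul, hn, smul_zero, Pi.zero_apply]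

/-- f.g. torsion modules are quotients of `(A/(t^N))^r` -/
theorem exists_surj {V : Type*} [AddCommGroup V] [Module A V] (hV : Tors t V)
    (hfg : Module.Finite A V) : ∃ (N r : ℕ) (f : (Fin r → QN t N) →ₗ[A] V),
    0 < N ∧ Function.Surjective f := by
  classical
  choose k hk using fun i => exists_pow_smul hV hfg i
  obtain ⟨r, v, hv⟩ := Module.Finite.exists_fin (R := A) (M := V)
  let N := ∑ i, k i + 1
  have hN : ∀ i (x : V), t i ^ N • x = 0 := by
    intro i x
    obtain ⟨c, hc⟩ := Nat.exists_eq_add_of_le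
      ((Finset.single_le_sum (f := k) (fun _ _ => Nat.zero_le _) (Finset.mem_univ i)).trans
        (Nat.le_succ _))
    change t i ^ (∑ i, k i).succ • x = 0
    rw [hc, add_comm, pow_add, mul_smul, hk, smul_zero]
  have hj : ∀ j, Ideal.span (Set.range fun i => t i ^ N) ≤
      LinearMap.ker (LinearMap.toSpanSingleton A V (v j)) := by
    intro j
    rw [Ideal.span_le]
    rintro _ ⟨i, rfl⟩
    change t i ^ N ∈ LinearMap.ker _
    rw [LinearMap.mem_ker, LinearMap.toSpanSingleton_apply, hN]
  let g : (Fin r → QN t N) →ₗ[A] V :=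
    LinearMap.lsum A (fun _ => QN t N) A (fun j => Submodule.liftQ _ _ (hj j))
  refine ⟨N, r, g, Nat.succ_pos _, ?_⟩
  intro y
  have hy : y ∈ Submodule.span A (Set.range v) := by rw [hv]; trivial
  rw [Submodule.mem_span_range_iff_exists_fun] at hy
  obtain ⟨c, rfl⟩ := hy
  refine ⟨fun j => Ideal.Quotient.mk _ (c j), ?_⟩
  change (LinearMap.lsum A (fun _ => QN t N) A (fun j => Submodule.liftQ _ _ (hj j)))
    (fun j => Ideal.Quotient.mk _ (c j)) = _
  rw [LinearMap.lsum_apply, LinearMap.sum_apply]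
  rfl

end Surj

/-- the standing assumptions on the base -/
structure Par {d : ℕ} (p : ℕ) {B : Type u} [CommRing B] [IsLocalRing B] (t : Fin d → B)
    (i0 : Fin d) : Prop where
  max : maximalIdeal B = Ideal.span (Set.range t)
  eq : t i0 = p
  len : ∀ N : ℕ, Module.length B (B ⧸ Ideal.span (Set.range fun i => t i ^ N)) = ((N ^ d : ℕ) : ℕ∞)

section Uniq

variable {d : ℕ} (p : ℕ) {B : Type u} [CommRing B] [IsNoetherianRing B] [IsLocalRing B]
variable (t : Fin d → B) (hp : 0 < p)
variable {A : Type u} [CommRing A] [Algebra (BInf p t) A] [Algebra B A]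
  [IsScalarTower B (BInf p t) A]
variable (hc : Om.IsCompl (p : BInf p t) (algebraMap (BInf p t) A)) {i0 : Fin d}
  (hP : Par p t i0)

include hc hP

/-- (GROW 1) -/
theorem LA_QN (N : ℕ) : (LA p t hp A).L (QN (tA p t A) N) = (N : ℝ≥0∞) ^ d := by
  have h := LA_pow p t hp hc hP.max i0 hP.eq N
  rw [hP.len N] at h
  refine h.trans ?_
  push_cast
  rfl


/-- (GROW 2) for superadditive invariants -/
theorem SupLen.QN_le (Ψ : SupLen A) (N : ℕ) :
    (N : ℝ≥0∞) ^ d * Ψ.L (A ⧸ Ideal.span (Set.range (tA p t A))) ≤ Ψ.L (QN (tA p t A) N) := by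
  have h := SupLen.pow_le p t hc hP.max i0 hP.eq N (by rw [hP.len]; exact ENat.natCast_ne_top _) Ψ
  rw [hP.len] at h
  have h2 : (((N ^ d : ℕ) : ℕ∞) : ℝ≥0∞) = (N : ℝ≥0∞) ^ d := by push_cast; rfl
  rwa [h2] at h

/-- finitely generated torsion modules have finite length -/
theorem LA_ne_top {V : Type u} [AddCommGroup V] [Module A V] (hV : Tors (tA p t A) V)
    (hfg : Module.Finite A V) : (LA p t hp A).L V ≠ ⊤ := by
  obtain ⟨N, r, f, -, hf⟩ := exists_surj hV hfg
  refine ne_top_of_le_ne_top ?_ ((LA p t hp A).L_le_of_surjective f hf)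
  rw [AddLen.L_finset_pi, LA_QN p t hp hc hP]
  exact ENNReal.mul_ne_top (ENNReal.natCast_ne_top _) (ENNReal.pow_ne_top (ENNReal.natCast_ne_top _))

/-- **upper bound** -/
theorem le_of_cont (Φ : AddLen.{u, u} A) (hΦc : ContOn Φ (tA p t A))
    (hΦ : Φ.L (A ⧸ Ideal.span (Set.range (tA p t A))) ≠ ⊤)
    (V : Type u) [AddCommGroup V] [Module A V] (hV : Tors (tA p t A) V) :
    Φ.L V ≤ Φ.L (A ⧸ Ideal.span (Set.range (tA p t A))) * (LA p t hp A).L V := by
  refine (hΦc V hV).trans (iSup_le fun E => ?_)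
  have hfg : Module.Finite A (Submodule.span A (E : Set V)) :=
    Module.Finite.iff_fg.mpr (Submodule.fg_span E.finite_toSet)
  refine (le_of_fg p t hp hc hP.max i0 hP.eq Φ hΦ _ (hV.submodule _) hfg
    (LA_ne_top p t hp hc hP (hV.submodule _) hfg)).trans ?_
  exact mul_le_mul_right ((LA p t hp A).L_submodule_le _) _

/-- **uniqueness of the base length** -/
theorem eq_of_cont (Φ : AddLen.{u, u} A) (hΦc : ContOn Φ (tA p t A))
    (hΦ : Φ.L (A ⧸ Ideal.span (Set.range (tA p t A))) ≠ ⊤)
    (V : Type u) [AddCommGroup V] [Module A V] (hV : Tors (tA p t A) V) :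
    Φ.L V = Φ.L (A ⧸ Ideal.span (Set.range (tA p t A))) * (LA p t hp A).L V := by
  classical
  set ρ := Φ.L (A ⧸ Ideal.span (Set.range (tA p t A))) with hρ
  refine le_antisymm (le_of_cont p t hp hc hP Φ hΦc hΦ V hV) ?_
  -- the finitely generated case
  have key : ∀ (W : Type u) [AddCommGroup W] [Module A W], Tors (tA p t A) W →
      Module.Finite A W → ρ * (LA p t hp A).L W ≤ Φ.L W := by
    intro W _ _ hW hfg
    obtain ⟨N, r, f, -, hf⟩ := exists_surj hW hfg
    have hpi : Tors (tA p t A) (Fin r → QN (tA p t A) N) := tors_pi (tors_QN _ _) r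
    have h1 : Φ.L (Fin r → QN (tA p t A) N) = Φ.L (LinearMap.ker f) + Φ.L W :=
      Φ.add' (LinearMap.ker f).subtype f (Submodule.subtype_injective _) hf
        (LinearMap.exact_subtype_ker_map f)
    have h2 : (LA p t hp A).L (Fin r → QN (tA p t A) N) =
        (LA p t hp A).L (LinearMap.ker f) + (LA p t hp A).L W :=
      (LA p t hp A).add' (LinearMap.ker f).subtype f (Submodule.subtype_injective _) hf
        (LinearMap.exact_subtype_ker_map f)
    have h3 : ρ * (LA p t hp A).L (Fin r → QN (tA p t A) N) ≤ Φ.L (Fin r → QN (tA p t A) N) := by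
      rw [AddLen.L_finset_pi, AddLen.L_finset_pi, LA_QN p t hp hc hP]
      have h4 := SupLen.QN_le p t hc hP (SupLen.ofAddLen Φ) N
      have h5 : (N : ℝ≥0∞) ^ d * ρ ≤ Φ.L (QN (tA p t A) N) := h4
      calc ρ * (r * (N : ℝ≥0∞) ^ d) = r * ((N : ℝ≥0∞) ^ d * ρ) := by ring
        _ ≤ r * Φ.L (QN (tA p t A) N) := mul_le_mul_right h5 _
    have h4 := le_of_cont p t hp hc hP Φ hΦc hΦ (LinearMap.ker f) (hpi.submodule _)
    have hfin : (LA p t hp A).L (Fin r → QN (tA p t A) N) ≠ ⊤ := by
      rw [AddLen.L_finset_pi, LA_QN p t hp hc hP]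
      exact ENNReal.mul_ne_top (ENNReal.natCast_ne_top _)
        (ENNReal.pow_ne_top (ENNReal.natCast_ne_top _))
    have h5 : ρ * (LA p t hp A).L (LinearMap.ker f) ≠ ⊤ := by
      refine ENNReal.mul_ne_top hΦ (ne_top_of_le_ne_top hfin ?_)
      rw [h2]
      exact le_self_add
    rw [h1, h2, mul_add] at h3
    have h6 : ρ * (LA p t hp A).L (LinearMap.ker f) + ρ * (LA p t hp A).L W ≤
        ρ * (LA p t hp A).L (LinearMap.ker f) + Φ.L W := h3.trans (add_le_add h4 le_rfl)
    exact (ENNReal.add_le_add_iff_left h5).mp h6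
  have hcont := contOn_LA p t hp (A := A) V hV
  refine (mul_le_mul_right hcont ρ).trans ?_
  rw [ENNReal.mul_iSup]
  refine iSup_le fun E => ?_
  refine (key _ (hV.submodule _) (Module.Finite.iff_fg.mpr
    (Submodule.fg_span E.finite_toSet))).trans ?_
  exact Φ.L_submodule_le _

end Uniq

end Crest.Agent.R188.Trk
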