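import Mathlib
import Crest.Agent.R188.LenWorld5
import Crest.Agent.R188.TowInst
import Crest.Agent.R188.Chr5
import Crest.Agent.R188.Trk4
import Mathlib.LinearAlgebra.TensorProduct.Finiteness
import Crest.Agent.R188.Tow1
import Crest.Agent.R183.Om5
import Mathlib.RingTheory.TensorProduct.DirectLimitFG
import Mathlib.RingTheory.TensorProduct.Quotient
import Crest.Agent.R188.Tow2
import Crest.Agent.R188.Tring8
import Crest.Agent.R188.LenWorld3
import Crest.Agent.R188.PerfB8
import Crest.Agent.R183.Mix1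
import Crest.Agent.R183.RegPS
import Crest.Agent.R183.BInf7
import Crest.Agent.R183.CoreM
import Crest.Agent.R188.Frb4
import Crest.Agent.R183.HSGrowth
import Crest.Agent.R183.CohenDim
import Mathlib.RingTheory.OrderOfVanishing.Basic
import Crest.Agent.R188.LenNull2
import Crest.Agent.R188.TringD

-- ▼ part R188/LenWorld6
section

set_option autoImplicit false
set_option linter.unusedSectionVars false

namespace Crest.Agent.R188.LenWorld

open WittVector Crest.Agent.R183 Crest.Agent.R188.Prf Crest.Agent.R188.Wit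
open Crest.Agent.R188.LenW Crest.Agent.R188.Tow Crest.Agent.R188.KosG Crest.Agent.R188.Apl
open Crest.Agent.R188.Asm (BB BPlus tB SharpPair World LP)
open Crest.Agent.R183.Om (PData Reg RegMod IsCompl)
open Crest.Agent.R183.BInf
open scoped ENNReal TensorProduct

section world

variable {p : ℕ} [hp : Fact p.Prime] {k : Type} [Field k] [CharP k p] [PerfectRing k p] {b : ℕ}
  {A : Type} [CommRing A] [Algebra (BI p k b) A] [Algebra (BB p k b) A] {ϖ : ℕ → A}

theorem IsBase.charZero (hA : IsBase p k b A ϖ) : CharZero A :=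
  charZero_of_injective_algebraMap hA.injB

/-- the world, from the four inputs on the completed base -/
theorem nonempty_world_of_hyp (hA : IsBase p k b A ϖ) {F K : Type} [Field F] [Field K]
    [Algebra A F] [IsFractionRing A F] [Algebra F K] [Algebra A K] [IsScalarTower A F K]
    [IsAlgClosure F K]
    (hFL : TowI.HypFL A F K (tA p k b A) (lenB p k b A))
    (hDEC : TowI.HypDEC A F K (tA p k b A) (lenB p k b A))
    (hKOS : ∀ (L : FiniteGaloisIntermediateField F K) (n : ℤ), 1 ≤ n →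
      kh (lenB p k b A) (List.ofFn (tA p k b A)) (integralClosure A L) n = 0)
    (hsmall : LenNull.Small (lenB p k b A) (tA p k b A) p ϖ) : Nonempty (World p k b) := by
  have hdom := hA.dom
  have hcA : CharZero A := IsBase.charZero hA
  have hcF : CharZero F := charZero_of_injective_algebraMap (IsFractionRing.injective A F)
  have hK : IsAlgClosed K := IsAlgClosure.isAlgClosed F
  have hfs : FaithfulSMul A K := by
    rw [faithfulSMul_iff_algebraMap_injective, IsScalarTower.algebraMap_eq A F K]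
    exact (algebraMap F K).injective.comp (IsFractionRing.injective A F)
  obtain ⟨W⟩ := IsBase.nonempty_rworld (F := K) hA
  let D := TowI.galTower (K := K) (TowL.contOn_lenA p (tb b p (WittVector p k)) hp.out.pos
    (tA p k b A)) (fun V _ _ hV hT => lenB_fin hA V hV hT) hFL hDEC
  refine nonempty_world_of (F := K) hA W D (fun x => TowI.exists_mem_SL x) rfl rfl ?_ hsmall
  intro L n hn
  rw [← hKOS L n hn]
  have h1 := (kh_change (f := RingHom.id A) (lenB p k b A) (lenB p k b A)
    (fun X X' _ _ _ _ e he => (lenB p k b A).L_congr { e with map_smul' := he })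
    (integralClosure A L) (TowI.SL A F K L) (TowI.eL (L : IntermediateField F K)).toAddEquiv
    (fun a x => map_smul (TowI.eL (L : IntermediateField F K)) a x)
    (List.ofFn (tA p k b A)) n).symm
  have h2 : List.map (RingHom.id A) (List.ofFn (tA p k b A)) = List.ofFn (tA p k b A) :=
    List.map_id _
  rw [h2] at h1
  exact h1

end world

end Crest.Agent.R188.LenWorld
end

-- ▼ part R188/Trk5
section

/-!
# R188 (helper645), block Trk, part 5: the rank lemma (RK).
-/

set_option autoImplicit false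
set_option linter.dupNamespace false
set_option linter.unusedSectionVars false

namespace Crest.Agent.R188.Trk

open scoped ENNReal TensorProduct
open Crest.Agent.R183 Crest.Agent.R183.BInf Crest.Agent.R188.Tow IsLocalRing

universe u v w

/-- limit argument -/
theorem le_of_growth {a b c : ℝ≥0∞} (hc : c ≠ ⊤) (d : ℕ)
    (h : ∀ N : ℕ, 0 < N → a * (N : ℝ≥0∞) ^ d * N ≤ b * (N : ℝ≥0∞) ^ d * N + c * (N : ℝ≥0∞) ^ d) :
    a ≤ b := by
  have h1 : ∀ N : ℕ, 0 < N → a ≤ b + c / N := by
    intro N hN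
    have hN0 : (N : ℝ≥0∞) ≠ 0 := by exact_mod_cast hN.ne'
    have hNt : (N : ℝ≥0∞) ≠ ⊤ := ENNReal.natCast_ne_top _
    have hX0 : (N : ℝ≥0∞) ^ d * N ≠ 0 := mul_ne_zero (pow_ne_zero _ hN0) hN0
    have hXt : (N : ℝ≥0∞) ^ d * N ≠ ⊤ := ENNReal.mul_ne_top (ENNReal.pow_ne_top hNt) hNt
    have h2 : a * ((N : ℝ≥0∞) ^ d * N) ≤ (b + c / N) * ((N : ℝ≥0∞) ^ d * N) := by
      have h3 := h N hN
      have h4 : (b + c / N) * ((N : ℝ≥0∞) ^ d * N) =
          b * (N : ℝ≥0∞) ^ d * N + c * (N : ℝ≥0∞) ^ d := by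
        rw [add_mul, ← mul_assoc]
        congr 1
        rw [mul_comm ((N : ℝ≥0∞) ^ d) (N : ℝ≥0∞), ← mul_assoc, ENNReal.div_mul_cancel hN0 hNt]
      rw [h4, ← mul_assoc]
      exact h3
    exact (ENNReal.mul_le_mul_iff_left hX0 hXt).mp h2
  have h2 : Filter.Tendsto (fun N : ℕ => b + c / (N : ℝ≥0∞)) Filter.atTop (nhds (b + 0)) := by
    refine Filter.Tendsto.add tendsto_const_nhds ?_
    have := ENNReal.Tendsto.const_mul (a := c) ENNReal.tendsto_inv_nat_nhds_zero (Or.inr hc)
    rw [mul_zero] at this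
    exact this
  rw [add_zero] at h2
  refine ge_of_tendsto h2 ?_
  filter_upwards [Filter.eventually_gt_atTop 0] with N hN
  exact h1 N hN

section Gen

variable {A : Type u} [CommRing A] (Λ : AddLen.{u, u} A)

/-- `V / σ V` -/
abbrev QS (σ : A) (V : Type u) [AddCommGroup V] [Module A V] : Type u :=
  V ⧸ LinearMap.range (LinearMap.lsmul A V σ)

/-- `V[σ]` -/
abbrev KS (σ : A) (V : Type u) [AddCommGroup V] [Module A V] : Type u :=
  LinearMap.ker (LinearMap.lsmul A V σ)

theorem L_KS (σ : A) (V : Type u) [AddCommGroup V] [Module A V] (h : Λ.L V ≠ ⊤) :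
    Λ.L (KS σ V) = Λ.L (QS σ V) := by
  have h1 := Λ.L_ker_add_range (LinearMap.lsmul A V σ)
  have h2 := Λ.L_eq_add_quotient (LinearMap.range (LinearMap.lsmul A V σ))
  have h3 : Λ.L (LinearMap.range (LinearMap.lsmul A V σ)) ≠ ⊤ :=
    ne_top_of_le_ne_top h (Λ.L_submodule_le _)
  rw [h1, add_comm] at h2
  exact (ENNReal.add_right_inj h3).mp h2

/-- `(A^n) ⊗ V ≃ V^n` -/
noncomputable def freeE (n : ℕ) (V : Type u) [AddCommGroup V] [Module A V] :
    (Fin n → A) ⊗[A] V ≃ₗ[A] (Fin n → V) :=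
  (TensorProduct.comm A (Fin n → A) V).trans (TensorProduct.piScalarRight A A V (Fin n))

theorem L_free (n : ℕ) (V : Type u) [AddCommGroup V] [Module A V] :
    Λ.L ((Fin n → A) ⊗[A] V) = n * Λ.L V := by
  rw [Λ.L_congr (freeE n V), Λ.L_finset_pi]

theorem tors_tensor {κ : Type*} {t : κ → A} (T : Type u) [AddCommGroup T] [Module A T] {V : Type u}
    [AddCommGroup V] [Module A V] (h : Tors t V) : Tors t (T ⊗[A] V) := by
  intro x i
  induction x using TensorProduct.induction_on with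
  | zero => exact ⟨0, smul_zero _⟩
  | tmul c m =>
    obtain ⟨n, hn⟩ := h m i
    exact ⟨n, by rw [← TensorProduct.tmul_smul, hn, TensorProduct.tmul_zero]⟩
  | add x y hx hy =>
    obtain ⟨n, hn⟩ := hx
    obtain ⟨m, hm⟩ := hy
    refine ⟨n + m, ?_⟩
    have e1 : t i ^ (n + m) • x = 0 := by rw [add_comm, pow_add, mul_smul, hn, smul_zero]
    have e2 : t i ^ (n + m) • y = 0 := by rw [pow_add, mul_smul, hm, smul_zero]
    rw [smul_add, e1, e2, add_zero]

end Gen

section RK

variable {A : Type u} [CommRing A] (Λ : AddLen.{u, u} A) {κ : Type*} (t : κ → A)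
variable (T : Type u) [AddCommGroup T] [Module A T]

/-- tensoring with `T` is exact up to null on torsion modules -/
def Tor0 : Prop := ∀ {V' V : Type u} [AddCommGroup V'] [Module A V'] [AddCommGroup V] [Module A V]
  (f : V' →ₗ[A] V), Function.Injective f → Tors t V →
  Λ.L (LinearMap.ker (f.lTensor T)) = 0

variable {t T} (h0 : Tor0 Λ t T)

include h0 in
theorem phi_add {M N P : Type u} [AddCommGroup M] [Module A M] [AddCommGroup N] [Module A N]
    [AddCommGroup P] [Module A P] (f : M →ₗ[A] N) (g : N →ₗ[A] P) (hf : Function.Injective f)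
    (hg : Function.Surjective g) (H : Function.Exact f g) (hN : Tors t N) :
    Λ.L (T ⊗[A] N) = Λ.L (T ⊗[A] M) + Λ.L (T ⊗[A] P) := by
  have h1 : Λ.L (T ⊗[A] N) = Λ.L (LinearMap.ker (g.lTensor T)) + Λ.L (T ⊗[A] P) :=
    Λ.add' (LinearMap.ker (g.lTensor T)).subtype (g.lTensor T) (Submodule.subtype_injective _)
      (LinearMap.lTensor_surjective T hg) (LinearMap.exact_subtype_ker_map _)
  have h2 : LinearMap.ker (g.lTensor T) = LinearMap.range (f.lTensor T) :=
    (lTensor_exact T H hg).linearMap_ker_eq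
  have h3 := Λ.L_ker_add_range (f.lTensor T)
  rw [h0 f hf hN, zero_add] at h3
  rw [h1, h2, h3]

open Classical in
/-- `V ↦ Λ(T ⊗ V)` -/
noncomputable def phi : AddLen.{u, u} A where
  L := fun V _ _ => if Tors t V then Λ.L (T ⊗[A] V) else ⊤
  zero' := fun V _ _ h => by
    have : Tors t V := fun x i => ⟨0, Subsingleton.elim _ _⟩
    rw [if_pos this]
    exact Λ.L_subsingleton
  add' := by
    intro M N P _ _ _ _ _ _ f g hf hg H
    by_cases hN : Tors t N
    · rw [if_pos hN, if_pos (hN.of_injective f hf), if_pos (hN.of_surjective g hg)]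
      exact phi_add Λ h0 f g hf hg H hN
    · rw [if_neg hN]
      by_cases hM : Tors t M
      · by_cases hP : Tors t P
        · exact absurd (hM.of_exact hP f g H) hN
        · rw [if_neg hP, add_top]
      · rw [if_neg hM, top_add]

theorem phi_L {V : Type u} [AddCommGroup V] [Module A V] (h : Tors t V) :
    (phi Λ h0).L V = Λ.L (T ⊗[A] V) := if_pos h

theorem phi_cont (hc : ContOn Λ t) : ContOn (phi Λ h0) t := by
  classical
  intro V _ _ hV
  rw [phi_L Λ h0 hV]
  refine (hc _ (tors_tensor T hV)).trans (iSup_le fun F => ?_)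
  obtain ⟨N, hN, hF⟩ := TensorProduct.exists_finite_submodule_right_of_setFinite
    (F : Set (T ⊗[A] V)) F.finite_toSet
  rw [Module.Finite.iff_fg] at hN
  obtain ⟨E, rfl⟩ := hN
  have h1 : Submodule.span A (F : Set (T ⊗[A] V)) ≤
      LinearMap.range ((Submodule.span A (E : Set V)).subtype.lTensor T) := by
    rw [Submodule.span_le]; exact hF
  refine le_trans ?_ (le_iSup _ E)
  rw [phi_L Λ h0 (hV.submodule _)]
  exact (L_mono Λ h1).trans (Λ.L_le_of_surjective _ (LinearMap.surjective_rangeRestrict _))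

open Classical in
/-- `V ↦ Λ(im(T₀ ⊗ V → T ⊗ V))` is superadditive -/
noncomputable def psi (T₀ : Submodule A T) : SupLen A where
  L := fun V _ _ => if Tors t V then Λ.L (LinearMap.range (T₀.subtype.rTensor V)) else ⊤
  congr := by
    intro M N _ _ _ _ e
    have key : ∀ {M N : Type u} [AddCommGroup M] [Module A M] [AddCommGroup N] [Module A N]
      (e : M ≃ₗ[A] N), Tors t M → (Tors t N ∧
        Λ.L (LinearMap.range (T₀.subtype.rTensor N)) ≤
          Λ.L (LinearMap.range (T₀.subtype.rTensor M))) := by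
      intro M N _ _ _ _ e hM
      refine ⟨hM.of_injective e.symm.toLinearMap e.symm.injective, ?_⟩
      refine Λ.L_le_of_surjective (((e.toLinearMap.lTensor T).domRestrict _).codRestrict
        (LinearMap.range (T₀.subtype.rTensor N)) ?_) ?_
      · rintro ⟨_, x, rfl⟩
        refine ⟨e.toLinearMap.lTensor T₀ x, ?_⟩
        change (T₀.subtype.rTensor N) (e.toLinearMap.lTensor T₀ x) =
          (e.toLinearMap.lTensor T) (T₀.subtype.rTensor M x)
        rw [← LinearMap.comp_apply, ← LinearMap.comp_apply, LinearMap.lTensor_comp_rTensor,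
          LinearMap.rTensor_comp_lTensor]
      · rintro ⟨_, x, rfl⟩
        obtain ⟨y, rfl⟩ := (LinearMap.lTensor_surjective T₀ e.surjective :
          Function.Surjective (e.toLinearMap.lTensor T₀)) x
        refine ⟨⟨T₀.subtype.rTensor M y, y, rfl⟩, Subtype.ext ?_⟩
        change (e.toLinearMap.lTensor T) (T₀.subtype.rTensor M y) =
          (T₀.subtype.rTensor N) (e.toLinearMap.lTensor T₀ y)
        rw [← LinearMap.comp_apply, ← LinearMap.comp_apply, LinearMap.lTensor_comp_rTensor,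
          LinearMap.rTensor_comp_lTensor]
    by_cases hM : Tors t M
    · obtain ⟨hN, h1⟩ := key e hM
      obtain ⟨_, h2⟩ := key e.symm hN
      rw [if_pos hM, if_pos hN]
      exact le_antisymm h2 h1
    · have hN : ¬ Tors t N := fun h => hM (key e.symm h).1
      rw [if_neg hM, if_neg hN]
  sup := by
    intro M N P _ _ _ _ _ _ f g hf hg H
    by_cases hN : Tors t N
    swap
    · rw [if_neg hN]; exact le_top
    have hM := hN.of_injective f hf
    have hP := hN.of_surjective g hg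
    rw [if_pos hN, if_pos hM, if_pos hP]
    have comm : ∀ {X Y : Type u} [AddCommGroup X] [Module A X] [AddCommGroup Y] [Module A Y]
        (h : X →ₗ[A] Y) (x : T₀ ⊗[A] X), (h.lTensor T) (T₀.subtype.rTensor X x) =
          (T₀.subtype.rTensor Y) (h.lTensor T₀ x) := by
      intro X Y _ _ _ _ h x
      rw [← LinearMap.comp_apply, ← LinearMap.comp_apply, LinearMap.lTensor_comp_rTensor,
        LinearMap.rTensor_comp_lTensor]
    let res : ∀ {X Y : Type u} [AddCommGroup X] [Module A X] [AddCommGroup Y] [Module A Y]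
        (_ : X →ₗ[A] Y), LinearMap.range (T₀.subtype.rTensor X) →ₗ[A]
          LinearMap.range (T₀.subtype.rTensor Y) := fun {X Y} _ _ _ _ h =>
      ((h.lTensor T).domRestrict _).codRestrict (LinearMap.range (T₀.subtype.rTensor Y)) (by
        rintro ⟨_, x, rfl⟩
        exact ⟨h.lTensor T₀ x, (comm h x).symm⟩)
    have hG : Function.Surjective (res g) := by
      rintro ⟨_, x, rfl⟩
      obtain ⟨y, rfl⟩ := LinearMap.lTensor_surjective T₀ hg x
      exact ⟨⟨T₀.subtype.rTensor N y, y, rfl⟩, Subtype.ext (comm g y)⟩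
    have h1 : Λ.L (LinearMap.range (T₀.subtype.rTensor N)) =
        Λ.L (LinearMap.ker (res g)) + Λ.L (LinearMap.range (T₀.subtype.rTensor P)) :=
      Λ.add' (LinearMap.ker (res g)).subtype (res g) (Submodule.subtype_injective _) hG
        (LinearMap.exact_subtype_ker_map _)
    have h2 := Λ.L_ker_add_range (res f)
    have h3 : Λ.L (LinearMap.ker (res f)) = 0 := by
      have h4 := h0 f hf hN
      refine le_antisymm (le_trans ?_ h4.le) zero_le
      refine Λ.L_le_of_injective (((LinearMap.range (T₀.subtype.rTensor M)).subtype.domRestrict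
        (LinearMap.ker (res f))).codRestrict (LinearMap.ker (f.lTensor T)) ?_) ?_
      · rintro ⟨x, hx⟩
        rw [LinearMap.mem_ker] at hx ⊢
        exact congrArg Subtype.val hx
      · intro x y hxy
        have := congrArg Subtype.val hxy
        exact Subtype.ext (Subtype.ext this)
    have h4 : LinearMap.range (res f) ≤ LinearMap.ker (res g) := by
      rintro _ ⟨x, rfl⟩
      rw [LinearMap.mem_ker]
      apply Subtype.ext
      change (g.lTensor T) ((f.lTensor T) (x : T ⊗[A] M)) = 0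
      rw [← LinearMap.comp_apply, ← LinearMap.lTensor_comp]
      have : g ∘ₗ f = 0 := LinearMap.ext fun y => H.apply_apply_eq_zero y
      rw [this, LinearMap.lTensor_zero, LinearMap.zero_apply]
    rw [h2, h3, zero_add, h1]
    exact add_le_add (L_mono Λ h4) le_rfl

theorem psi_L (T₀ : Submodule A T) {V : Type u} [AddCommGroup V] [Module A V] (h : Tors t V) :
    (psi Λ h0 T₀).L V = Λ.L (LinearMap.range (T₀.subtype.rTensor V)) := if_pos h

/-- upper bound for `psi` -/
theorem psi_bound {n : ℕ} (u : (Fin n → A) →ₗ[A] T) (w : T →ₗ[A] (Fin n → A)) (σ : A)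
    (huw : ∀ x, u (w x) = σ • x) {r : ℕ} (x : Fin r → T) (V : Type u) [AddCommGroup V]
    [Module A V] :
    Λ.L (LinearMap.range ((LinearMap.range u ⊔ Submodule.span A (Set.range x)).subtype.rTensor V)) ≤
      n * Λ.L V + r * Λ.L (QS σ V) := by
  classical
  let P := LinearMap.range (u.rTensor V)
  let s : (Fin r → V) →ₗ[A] T ⊗[A] V :=
    LinearMap.lsum A (fun _ => V) A (fun j => TensorProduct.mk A T V (x j))
  have hs : ∀ v, s v = ∑ j, x j ⊗ₜ v j := by
    intro v
    change (LinearMap.lsum A (fun _ => V) A (fun j => TensorProduct.mk A T V (x j))) v = _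
    rw [LinearMap.lsum_apply, LinearMap.sum_apply]
    rfl
  let S := LinearMap.range s
  have h1 : LinearMap.range
      ((LinearMap.range u ⊔ Submodule.span A (Set.range x)).subtype.rTensor V) ≤ P ⊔ S := by
    rintro _ ⟨z, rfl⟩
    induction z using TensorProduct.induction_on with
    | zero => rw [map_zero]; exact Submodule.zero_mem _
    | add a b ha hb => rw [map_add]; exact Submodule.add_mem _ ha hb
    | tmul y v =>
      rw [LinearMap.rTensor_tmul]
      obtain ⟨y, hy⟩ := y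
      obtain ⟨a, ⟨a, rfl⟩, b, hb, rfl⟩ := Submodule.mem_sup.mp hy
      rw [Submodule.mem_span_range_iff_exists_fun] at hb
      obtain ⟨c, rfl⟩ := hb
      change (u a + ∑ i, c i • x i) ⊗ₜ[A] v ∈ _
      rw [TensorProduct.add_tmul]
      refine Submodule.add_mem_sup ⟨a ⊗ₜ v, by rw [LinearMap.rTensor_tmul]⟩
        ⟨fun i => c i • v, ?_⟩
      rw [hs, TensorProduct.sum_tmul]
      refine Finset.sum_congr rfl fun i _ => ?_
      rw [TensorProduct.tmul_smul, TensorProduct.smul_tmul']
  have hj : ∀ j, LinearMap.range (LinearMap.lsmul A V σ) ≤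
      LinearMap.ker (P.mkQ ∘ₗ TensorProduct.mk A T V (x j)) := by
    rintro j _ ⟨v, rfl⟩
    rw [LinearMap.mem_ker, LinearMap.comp_apply, TensorProduct.mk_apply, LinearMap.lsmul_apply,
      TensorProduct.tmul_smul, TensorProduct.smul_tmul', ← huw, Submodule.mkQ_apply,
      Submodule.Quotient.mk_eq_zero]
    exact ⟨w (x j) ⊗ₜ v, by rw [LinearMap.rTensor_tmul]⟩
  let h : (Fin r → QS σ V) →ₗ[A] (T ⊗[A] V) ⧸ P :=
    LinearMap.lsum A (fun _ => QS σ V) A (fun j => Submodule.liftQ _ _ (hj j))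
  have hh : ∀ v : Fin r → V, h (fun j => Submodule.Quotient.mk (v j)) = P.mkQ (s v) := by
    intro v
    change (LinearMap.lsum A (fun _ => QS σ V) A (fun j => Submodule.liftQ _ _ (hj j)))
      (fun j => Submodule.Quotient.mk (v j)) = _
    rw [LinearMap.lsum_apply, LinearMap.sum_apply, hs, map_sum]
    rfl
  let g : (P ⊔ S : Submodule A (T ⊗[A] V)) →ₗ[A] (T ⊗[A] V) ⧸ P := P.mkQ ∘ₗ (P ⊔ S).subtype
  have h2 := Λ.L_ker_add_range g
  have h3 : Λ.L (LinearMap.ker g) ≤ n * Λ.L V := by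
    rw [← L_free Λ n V]
    refine le_trans ?_ (Λ.L_le_of_surjective (u.rTensor V).rangeRestrict
      (LinearMap.surjective_rangeRestrict _))
    refine Λ.L_le_of_injective (((P ⊔ S).subtype.domRestrict
      (LinearMap.ker g)).codRestrict P ?_) ?_
    · rintro ⟨y, hy⟩
      rw [LinearMap.mem_ker] at hy
      change P.mkQ (y : T ⊗[A] V) = 0 at hy
      rw [Submodule.mkQ_apply, Submodule.Quotient.mk_eq_zero] at hy
      exact hy
    · intro y z hyz
      have := congrArg Subtype.val hyz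
      exact Subtype.ext (Subtype.ext this)
  have h4 : Λ.L (LinearMap.range g) ≤ r * Λ.L (QS σ V) := by
    have h5 : LinearMap.range g ≤ LinearMap.range h := by
      rintro _ ⟨⟨y, hy⟩, rfl⟩
      obtain ⟨a, ha, b, ⟨v, rfl⟩, rfl⟩ := Submodule.mem_sup.mp hy
      refine ⟨fun j => Submodule.Quotient.mk (v j), ?_⟩
      rw [hh]
      change _ = P.mkQ (a + s v)
      have h6 : P.mkQ a = 0 := (Submodule.Quotient.mk_eq_zero P).mpr ha
      rw [map_add, h6, zero_add]
    refine (L_mono Λ h5).trans ((Λ.L_le_of_surjective _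
      (LinearMap.surjective_rangeRestrict h)).trans (le_of_eq ?_))
    rw [Λ.L_finset_pi]
  refine (L_mono Λ h1).trans ?_
  rw [h2]
  exact add_le_add h3 h4

/-- lower bound for `phi` -/
theorem phi_lower {n : ℕ} (u : (Fin n → A) →ₗ[A] T) (w : T →ₗ[A] (Fin n → A)) (σ : A)
    (hwu : ∀ x, w (u x) = σ • x) (V : Type u) [AddCommGroup V]
    [Module A V] (hV : Λ.L V ≠ ⊤) :
    n * Λ.L V ≤ n * Λ.L (QS σ V) + Λ.L (T ⊗[A] V) := by
  have h1 := Λ.L_ker_add_range (u.rTensor V)
  rw [L_free] at h1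
  rw [h1]
  refine add_le_add ?_ (Λ.L_submodule_le _)
  rw [← L_KS Λ σ V hV, ← Λ.L_finset_pi]
  have hcomp : ∀ z : (Fin n → A) ⊗[A] V, w.rTensor V (u.rTensor V z) = σ • z := by
    intro z
    rw [← LinearMap.comp_apply, ← LinearMap.rTensor_comp]
    have : w ∘ₗ u = σ • LinearMap.id := LinearMap.ext fun y => hwu y
    rw [this, LinearMap.rTensor_smul, LinearMap.rTensor_id]
    rfl
  refine Λ.L_le_of_injective (LinearMap.pi fun j =>
    (((LinearMap.proj j ∘ₗ (freeE n V).toLinearMap).domRestrict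
      (LinearMap.ker (u.rTensor V))).codRestrict (LinearMap.ker (LinearMap.lsmul A V σ)) ?_)) ?_
  · rintro ⟨z, hz⟩
    rw [LinearMap.mem_ker] at hz
    have h2 : σ • z = 0 := by rw [← hcomp, hz, map_zero]
    rw [LinearMap.mem_ker, LinearMap.lsmul_apply]
    change σ • ((freeE n V) z) j = 0
    rw [← Pi.smul_apply, ← map_smul, h2, map_zero, Pi.zero_apply]
  · intro y z hyz
    apply Subtype.ext
    apply (freeE n V).injective
    funext j
    exact congrArg Subtype.val (congrFun hyz j)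

end RK

section Main

variable {d : ℕ} (p : ℕ) {B : Type u} [CommRing B] [IsNoetherianRing B] [IsLocalRing B]
variable (t : Fin d → B) (hp : 0 < p)
variable {A : Type u} [CommRing A] [Algebra (BInf p t) A] [Algebra B A]
  [IsScalarTower B (BInf p t) A]
variable (hc : Om.IsCompl (p : BInf p t) (algebraMap (BInf p t) A)) {i0 : Fin d}
  (hP : Par p t i0)

theorem tors_one {A : Type u} [CommRing A] {κ : Type*} (t : κ → A) :
    Tors t (A ⧸ Ideal.span (Set.range t)) := by
  intro x i
  obtain ⟨x, rfl⟩ := Ideal.Quotient.mk_surjective x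
  refine ⟨1, ?_⟩
  have h2 : (t i ^ 1) • (Ideal.Quotient.mk (Ideal.span (Set.range t)) x) =
      Ideal.Quotient.mk _ (t i ^ 1 * x) := rfl
  rw [h2, Ideal.Quotient.eq_zero_iff_mem, pow_one]
  exact Ideal.mul_mem_right _ _ (Ideal.subset_span ⟨i, rfl⟩)

include hc hP

/-- **(RK)**, growth form -/
theorem rk_growth {T : Type u} [AddCommGroup T] [Module A T] {n : ℕ} (u : (Fin n → A) →ₗ[A] T)
    (w : T →ₗ[A] (Fin n → A)) (σ : A) (hwu : ∀ x, w (u x) = σ • x)
    (huw : ∀ x, u (w x) = σ • x) (C : ℝ≥0∞) (hC : C ≠ ⊤)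
    (hσ : ∀ N : ℕ, 0 < N →
      (LA p t hp A).L (QS σ (QN (tA p t A) N)) * N ≤ C * (N : ℝ≥0∞) ^ d)
    (h0 : Tor0 (LA p t hp A) (tA p t A) T) (V : Type u) [AddCommGroup V] [Module A V]
    (hV : Tors (tA p t A) V) : (LA p t hp A).L (T ⊗[A] V) = n * (LA p t hp A).L V := by
  classical
  -- step (b)
  have hb : (LA p t hp A).L (T ⊗[A] (A ⧸ Ideal.span (Set.range (tA p t A)))) ≤ n := by
    refine (contOn_LA p t hp (A := A) _ (tors_tensor T (tors_one (tA p t A)))).trans
      (iSup_le fun F => ?_)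
    obtain ⟨N', hN', hF⟩ := TensorProduct.exists_finite_submodule_left_of_setFinite
      (F : Set (T ⊗[A] (A ⧸ Ideal.span (Set.range (tA p t A))))) F.finite_toSet
    rw [Module.Finite.iff_fg, Submodule.fg_iff_exists_fin_generating_family] at hN'
    obtain ⟨r, x, rfl⟩ := hN'
    let T₀ := LinearMap.range u ⊔ Submodule.span A (Set.range x)
    have h1 : (LA p t hp A).L (Submodule.span A (F : Set (T ⊗[A] (A ⧸ Ideal.span
        (Set.range (tA p t A)))))) ≤ (psi (LA p t hp A) h0 T₀).L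
          (A ⧸ Ideal.span (Set.range (tA p t A))) := by
      rw [psi_L _ h0 T₀ (tors_one (tA p t A))]
      refine L_mono _ ?_
      rw [Submodule.span_le]
      refine hF.trans ?_
      rintro _ ⟨z, rfl⟩
      refine ⟨(Submodule.inclusion (le_sup_right :
        Submodule.span A (Set.range x) ≤ T₀)).rTensor _ z, ?_⟩
      rw [← LinearMap.comp_apply, ← LinearMap.rTensor_comp]
      rfl
    refine h1.trans ?_
    have hrC : (r : ℝ≥0∞) * C ≠ ⊤ := ENNReal.mul_ne_top (ENNReal.natCast_ne_top _) hC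
    refine le_of_growth hrC d fun N hN => ?_
    have h2 := SupLen.QN_le p t hc hP (psi (LA p t hp A) h0 T₀) N
    rw [psi_L _ h0 T₀ (tors_QN (tA p t A) N)] at h2
    have h3 := psi_bound (LA p t hp A) u w σ huw x (QN (tA p t A) N)
    rw [LA_QN p t hp hc hP] at h3
    have h4 := h2.trans h3
    have h5 := hσ N hN
    calc _ = (N : ℝ≥0∞) ^ d * (psi (LA p t hp A) h0 T₀).L
          (A ⧸ Ideal.span (Set.range (tA p t A))) * N := by ring
      _ ≤ (n * (N : ℝ≥0∞) ^ d + r * (LA p t hp A).L (QS σ (QN (tA p t A) N))) * N :=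
          mul_le_mul_left h4 _
      _ = n * (N : ℝ≥0∞) ^ d * N + r * ((LA p t hp A).L (QS σ (QN (tA p t A) N)) * N) := by ring
      _ ≤ n * (N : ℝ≥0∞) ^ d * N + r * (C * (N : ℝ≥0∞) ^ d) :=
          add_le_add le_rfl (mul_le_mul_right h5 _)
      _ = n * (N : ℝ≥0∞) ^ d * N + r * C * (N : ℝ≥0∞) ^ d := by ring
  -- step (a)
  have hρ := phi_L (LA p t hp A) h0 (tors_one (tA p t A))
  set ρ := (LA p t hp A).L (T ⊗[A] (A ⧸ Ideal.span (Set.range (tA p t A)))) with hρdef
  have hρt : (phi (LA p t hp A) h0).L (A ⧸ Ideal.span (Set.range (tA p t A))) ≠ ⊤ := by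
    rw [hρ]; exact ne_top_of_le_ne_top (ENNReal.natCast_ne_top _) hb
  have ha : ∀ (V : Type u) [AddCommGroup V] [Module A V], Tors (tA p t A) V →
      (LA p t hp A).L (T ⊗[A] V) = ρ * (LA p t hp A).L V := by
    intro V _ _ hV
    have := eq_of_cont p t hp hc hP (phi (LA p t hp A) h0)
      (phi_cont (LA p t hp A) h0 (contOn_LA p t hp)) hρt V hV
    rwa [phi_L _ h0 hV, hρ] at this
  -- step (c)
  have hcc : (n : ℝ≥0∞) ≤ ρ := by
    have hnC : (n : ℝ≥0∞) * C ≠ ⊤ := ENNReal.mul_ne_top (ENNReal.natCast_ne_top _) hC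
    refine le_of_growth hnC d fun N hN => ?_
    have hfin : (LA p t hp A).L (QN (tA p t A) N) ≠ ⊤ := by
      rw [LA_QN p t hp hc hP]
      exact ENNReal.pow_ne_top (ENNReal.natCast_ne_top _)
    have h1 := phi_lower (LA p t hp A) u w σ hwu (QN (tA p t A) N) hfin
    rw [ha _ (tors_QN (tA p t A) N), LA_QN p t hp hc hP] at h1
    have h5 := hσ N hN
    calc (n : ℝ≥0∞) * (N : ℝ≥0∞) ^ d * N
        ≤ (n * (LA p t hp A).L (QS σ (QN (tA p t A) N)) + ρ * (N : ℝ≥0∞) ^ d) * N :=
          mul_le_mul_left h1 _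
      _ = ρ * (N : ℝ≥0∞) ^ d * N + n * ((LA p t hp A).L (QS σ (QN (tA p t A) N)) * N) := by ring
      _ ≤ ρ * (N : ℝ≥0∞) ^ d * N + n * (C * (N : ℝ≥0∞) ^ d) :=
          add_le_add le_rfl (mul_le_mul_right h5 _)
      _ = ρ * (N : ℝ≥0∞) ^ d * N + n * C * (N : ℝ≥0∞) ^ d := by ring
  rw [ha V hV, le_antisymm hb hcc]

end Main

end Crest.Agent.R188.Trk
end

-- ▼ part R188/TowNul1
section

set_option autoImplicit false

namespace Crest.Agent.R188.TowN

open scoped ENNReal TensorProduct
open Crest.Agent.R183 Crest.Agent.R183.Om Crest.Agent.R188.Tow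

universe u v w

section Lemmas

variable {A : Type*} [CommRing A] {M V V' : Type*} [AddCommGroup M] [Module A M]
  [AddCommGroup V] [Module A V] [AddCommGroup V'] [Module A V']

theorem exists_fg_lTensor (x : M ⊗[A] V) : ∃ V0 : Submodule A V, V0.FG ∧
    ∃ y : M ⊗[A] V0, V0.subtype.lTensor M y = x := by
  obtain ⟨V0, h0, y, hy⟩ := Submodule.exists_fg_le_eq_rTensor_subtype (TensorProduct.comm A M V x)
  refine ⟨V0, h0, (TensorProduct.comm A M V0).symm y, ?_⟩
  apply (TensorProduct.comm A M V).injective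
  rw [hy, ← LinearMap.comm_comp_rTensor_comp_comm_eq]
  simp

theorem fg_zero (V0 : Submodule A V) (h0 : V0.FG) (y : M ⊗[A] V0)
    (h : V0.subtype.lTensor M y = 0) : ∃ (V1 : Submodule A V) (h1 : V0 ≤ V1), V1.FG ∧
      (Submodule.inclusion h1).lTensor M y = 0 := by
  have h2 : LinearMap.rTensor M V0.subtype (TensorProduct.comm A M V0 y) = 0 := by
    rw [← LinearMap.comm_comp_lTensor_comp_comm_eq]
    simp [h]
  obtain ⟨V1, h1, hV1, h3⟩ := TensorProduct.eq_zero_of_fg_of_subtype_eq_zero h0 h2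
  refine ⟨V1, h1, hV1, ?_⟩
  apply (TensorProduct.comm A M V1).injective
  rw [map_zero, ← h3, ← LinearMap.comm_comp_lTensor_comp_comm_eq]
  simp

end Lemmas

section Flat

variable {A : Type u} [CommRing A] {Ω : Type v} [CommRing Ω] [Algebra A Ω]

/-- `Ω ⊗_A V → (Ω/I) ⊗_{A/I} V` has a left inverse when `I V = 0` -/
theorem exists_retract (I : Ideal A) (V : Type*) [AddCommGroup V] [Module A V] [Module (A ⧸ I) V]
    [IsScalarTower A (A ⧸ I) V] :
    ∃ (u : (Ω ⊗[A] V) →+ ((Ω ⧸ I.map (algebraMap A Ω)) ⊗[A ⧸ I] V))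
      (w : ((Ω ⧸ I.map (algebraMap A Ω)) ⊗[A ⧸ I] V) →+ (Ω ⊗[A] V)),
      (∀ ω v, u (ω ⊗ₜ v) = Ideal.Quotient.mk _ ω ⊗ₜ v) ∧ ∀ x, w (u x) = x := by
  have hI : ∀ a ∈ I, ∀ v : V, a • v = 0 := by
    intro a ha v
    rw [← one_smul (A ⧸ I) v, ← smul_assoc]
    have : a • (1 : A ⧸ I) = 0 := by
      rw [Algebra.smul_def, mul_one]
      exact Ideal.Quotient.eq_zero_iff_mem.2 ha
    rw [this, zero_smul]
  let f1 : Ω →+ V →+ ((Ω ⧸ I.map (algebraMap A Ω)) ⊗[A ⧸ I] V) :=
    { toFun := fun ω =>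
        { toFun := fun v => Ideal.Quotient.mk _ ω ⊗ₜ v
          map_zero' := TensorProduct.tmul_zero _ _
          map_add' := fun v v' => TensorProduct.tmul_add _ _ _ }
      map_zero' := by
        ext v
        change Ideal.Quotient.mk _ 0 ⊗ₜ v = 0
        rw [map_zero, TensorProduct.zero_tmul]
      map_add' := fun ω ω' => by
        ext v
        change Ideal.Quotient.mk _ (ω + ω') ⊗ₜ v = _
        rw [map_add, TensorProduct.add_tmul]
        rfl }
  let u : (Ω ⊗[A] V) →+ ((Ω ⧸ I.map (algebraMap A Ω)) ⊗[A ⧸ I] V) :=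
    TensorProduct.liftAddHom f1 (by
      intro a ω v
      change Ideal.Quotient.mk _ (a • ω) ⊗ₜ v = Ideal.Quotient.mk _ ω ⊗ₜ (a • v)
      have h1 : Ideal.Quotient.mk (I.map (algebraMap A Ω)) (a • ω) =
          (Ideal.Quotient.mk I a) • (Ideal.Quotient.mk (I.map (algebraMap A Ω)) ω) := by
        rw [Algebra.smul_def, Algebra.smul_def, map_mul]; rfl
      have h2 : a • v = (Ideal.Quotient.mk I a) • v := (algebraMap_smul (A ⧸ I) a v).symm
      rw [h1, h2, TensorProduct.smul_tmul])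
  let f2 : Ω →+ V →+ (Ω ⊗[A] V) :=
    { toFun := fun ω =>
        { toFun := fun v => ω ⊗ₜ v
          map_zero' := TensorProduct.tmul_zero _ _
          map_add' := fun v v' => TensorProduct.tmul_add _ _ _ }
      map_zero' := by
        ext v
        exact TensorProduct.zero_tmul _ _
      map_add' := fun ω ω' => by
        ext v
        exact TensorProduct.add_tmul _ _ _ }
  have hf2 : ∀ x ∈ (I.map (algebraMap A Ω)), f2 x = 0 := by
    intro x hx
    induction hx using Submodule.span_induction with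
    | mem y hy =>
      obtain ⟨a, ha, rfl⟩ := hy
      ext v
      change (algebraMap A Ω a) ⊗ₜ v = 0
      rw [Algebra.algebraMap_eq_smul_one, TensorProduct.smul_tmul, hI a ha, TensorProduct.tmul_zero]
    | zero => exact map_zero _
    | add y z _ _ hy hz => rw [map_add, hy, hz, add_zero]
    | smul a y _ hy =>
      ext v
      change (a * y) ⊗ₜ v = 0
      have h1 : y ⊗ₜ[A] v = 0 := DFunLike.congr_fun hy v
      have h2 : (a * y) ⊗ₜ[A] v = a • (y ⊗ₜ[A] v) := by
        rw [TensorProduct.smul_tmul', smul_eq_mul]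
      rw [h2, h1, smul_zero]
  let f3 : (Ω ⧸ I.map (algebraMap A Ω)) →+ V →+ (Ω ⊗[A] V) :=
    QuotientAddGroup.lift (I.map (algebraMap A Ω)).toAddSubgroup f2 (fun x hx => hf2 x hx)
  have hf3 : ∀ ω, f3 (Ideal.Quotient.mk _ ω) = f2 ω := fun ω => rfl
  let w : ((Ω ⧸ I.map (algebraMap A Ω)) ⊗[A ⧸ I] V) →+ (Ω ⊗[A] V) :=
    TensorProduct.liftAddHom f3 (by
      intro a ω v
      obtain ⟨a, rfl⟩ := Ideal.Quotient.mk_surjective a
      obtain ⟨ω, rfl⟩ := Ideal.Quotient.mk_surjective ω
      have h1 : (Ideal.Quotient.mk I a) • (Ideal.Quotient.mk (I.map (algebraMap A Ω)) ω) =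
          Ideal.Quotient.mk (I.map (algebraMap A Ω)) (a • ω) := by
        rw [Algebra.smul_def, Algebra.smul_def, map_mul]; rfl
      have h2 : (Ideal.Quotient.mk I a) • v = a • v := algebraMap_smul (A ⧸ I) a v
      rw [h1, h2, hf3, hf3]
      change (a • ω) ⊗ₜ v = ω ⊗ₜ (a • v)
      exact TensorProduct.smul_tmul _ _ _)
  refine ⟨u, w, fun ω v => rfl, fun x => ?_⟩
  induction x with
  | zero => rw [map_zero, map_zero]
  | add x y hx hy => rw [map_add, map_add, hx, hy]
  | tmul ω v => rfl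

/-- `Ω ⊗ V' → Ω ⊗ V` is injective when `V' → V` is, `I V = 0` and `Ω / I` is flat over `A / I` -/
theorem lTensor_inj (I : Ideal A) (h : FlatQ A (B := Ω) I) {V' V : Type*} [AddCommGroup V']
    [Module A V'] [AddCommGroup V] [Module A V] (f : V' →ₗ[A] V) (hf : Function.Injective f)
    (hV : ∀ a ∈ I, ∀ v : V, a • v = 0) : Function.Injective (f.lTensor Ω) := by
  have hV' : ∀ a ∈ I, ∀ v : V', a • v = 0 := fun a ha v => hf (by
    rw [map_smul, map_zero, hV a ha])
  have t1 : Module.IsTorsionBySet A V (I : Set A) := fun v a => hV a.1 a.2 v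
  have t2 : Module.IsTorsionBySet A V' (I : Set A) := fun v a => hV' a.1 a.2 v
  let _ : Module (A ⧸ I) V := t1.module
  let _ : Module (A ⧸ I) V' := t2.module
  have s1 : IsScalarTower A (A ⧸ I) V := t1.isScalarTower
  have s2 : IsScalarTower A (A ⧸ I) V' := t2.isScalarTower
  let f' : V' →ₗ[A ⧸ I] V :=
    { toFun := f
      map_add' := map_add f
      map_smul' := by
        intro a v
        obtain ⟨a, rfl⟩ := Ideal.Quotient.mk_surjective a
        exact map_smul f a v }
  have hfl : Module.Flat (A ⧸ I) (Ω ⧸ I.map (algebraMap A Ω)) := h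
  have h1 : Function.Injective (f'.lTensor (Ω ⧸ I.map (algebraMap A Ω))) :=
    Module.Flat.lTensor_preserves_injective_linearMap f' hf
  obtain ⟨u, w, hu, hw⟩ := exists_retract (Ω := Ω) I V
  obtain ⟨u', w', hu', hw'⟩ := exists_retract (Ω := Ω) I V'
  have hsq : ∀ x, f'.lTensor (Ω ⧸ I.map (algebraMap A Ω)) (u' x) = u (f.lTensor Ω x) := by
    intro x
    induction x with
    | zero => simp only [map_zero]
    | add x y hx hy => simp only [map_add, hx, hy]
    | tmul ω v => rw [hu', LinearMap.lTensor_tmul, LinearMap.lTensor_tmul, hu]; rfl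
  rw [injective_iff_map_eq_zero]
  intro x hx
  have h2 : u' x = 0 := h1 (by rw [hsq, hx, map_zero, map_zero])
  rw [← hw' x, h2, map_zero]

theorem exists_pow_of_fg (a : A) {V : Type*} [AddCommGroup V] [Module A V] (V0 : Submodule A V)
    (h0 : V0.FG) (h : ∀ v ∈ V0, ∃ n : ℕ, a ^ n • v = 0) : ∃ n : ℕ, ∀ v ∈ V0, a ^ n • v = 0 := by
  classical
  obtain ⟨s, rfl⟩ := h0
  have h1 : ∀ v : s, ∃ n : ℕ, a ^ n • (v : V) = 0 := fun v => h v (Submodule.subset_span v.2)
  choose n hn using h1
  refine ⟨∑ v, n v, fun v hv => ?_⟩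
  induction hv using Submodule.span_induction with
  | mem y hy =>
    have h2 : n ⟨y, hy⟩ ≤ ∑ v, n v := Finset.single_le_sum (fun _ _ => Nat.zero_le _)
      (Finset.mem_univ (⟨y, hy⟩ : s))
    obtain ⟨k, hk⟩ := Nat.exists_eq_add_of_le h2
    rw [hk, add_comm, pow_add, mul_smul, hn ⟨y, hy⟩, smul_zero]
  | zero => exact smul_zero _
  | add y z _ _ hy hz => rw [smul_add, hy, hz, add_zero]
  | smul b y _ hy => rw [smul_comm, hy, smul_zero]

/-- the same for `V` of unbounded `a`-power torsion -/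
theorem lTensor_inj_tors (a : A) (h : ∀ n : ℕ, FlatQ A (B := Ω) (Ideal.span {a ^ n}))
    {V' V : Type*} [AddCommGroup V'] [Module A V'] [AddCommGroup V] [Module A V] (f : V' →ₗ[A] V)
    (hf : Function.Injective f) (hV : ∀ v : V, ∃ n : ℕ, a ^ n • v = 0) :
    Function.Injective (f.lTensor Ω) := by
  rw [injective_iff_map_eq_zero]
  intro x hx
  obtain ⟨V0, h0, y, rfl⟩ := exists_fg_lTensor x
  -- the image of `V0`
  let g : V0 →ₗ[A] V := f ∘ₗ V0.subtype
  have hg : Function.Injective g := hf.comp V0.subtype_injective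
  let g' : V0 →ₗ[A] LinearMap.range g := g.rangeRestrict
  have hg' : (LinearMap.range g).subtype ∘ₗ g' = g := rfl
  have h1 : (LinearMap.range g).subtype.lTensor Ω (g'.lTensor Ω y) = 0 := by
    rw [← LinearMap.lTensor_comp_apply, hg', LinearMap.lTensor_comp_apply, hx]
  have hfg : (LinearMap.range g).FG := by
    have : (⊤ : Submodule A V0).FG := (Submodule.fg_top V0).2 h0
    rw [LinearMap.range_eq_map]
    exact this.map g
  obtain ⟨V1, h2, hV1, h3⟩ := fg_zero _ hfg _ h1
  obtain ⟨n, hn⟩ := exists_pow_of_fg a V1 hV1 fun v _ => hV v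
  have h4 : Function.Injective (((Submodule.inclusion h2) ∘ₗ g').lTensor Ω) := by
    refine lTensor_inj (Ideal.span {a ^ n}) (h n) _ ?_ ?_
    · refine (Submodule.inclusion_injective h2).comp fun v v' hvv => hg ?_
      exact congrArg Subtype.val hvv
    · intro b hb v
      obtain ⟨c, rfl⟩ := Ideal.mem_span_singleton'.1 hb
      exact Subtype.ext (by rw [mul_smul]; simp [hn v.1 v.2])
  have h5 : y = 0 := h4 (by rw [LinearMap.lTensor_comp_apply, h3, map_zero])
  rw [h5, map_zero]

end Flat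

section Null

variable {A : Type u} [CommRing A] {Ω : Type v} [CommRing Ω] [Algebra A Ω] {κ : Type w}

/-- the statement (FACT): ideals that contain all `μ e` after the cover are null -/
def FactN (Λ : AddLen.{u, u} A) (s : κ → A) (μ : ℕ → Ω) : Prop :=
  ∀ I : Ideal A, (∀ i, ∃ N : ℕ, s i ^ N ∈ I) → (∀ e, μ e ∈ I.map (algebraMap A Ω)) →
    Λ.L (A ⧸ I) = 0

variable {Λ : AddLen.{u, u} A} {s : κ → A} {μ : ℕ → Ω}

/-- length of a cyclic submodule -/
theorem L_span_eq (Λ : AddLen.{u, u} A) {X : Type u} [AddCommGroup X] [Module A X] (x : X) :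
    Λ.L (Submodule.span A {x}) = Λ.L (A ⧸ LinearMap.ker (LinearMap.toSpanSingleton A X x)) := by
  have e := (LinearMap.toSpanSingleton A X x).quotKerEquivRange
  rw [Λ.L_congr e]
  have h : LinearMap.range (LinearMap.toSpanSingleton A X x) = Submodule.span A {x} :=
    LinearMap.range_toSpanSingleton x
  rw [h]

/-- an element killed by all `μ e` after the cover is null -/
theorem null_of_mul (F : FactN Λ s μ) (i0 : κ)
    (h : ∀ n : ℕ, FlatQ A (B := Ω) (Ideal.span {s i0 ^ n})) {X : Type u} [AddCommGroup X]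
    [Module A X] (hX : ∀ v : X, ∃ n : ℕ, s i0 ^ n • v = 0) (x : X)
    (hx : ∀ i, ∃ N : ℕ, s i ^ N • x = 0) (hμ : ∀ e, (μ e) ⊗ₜ[A] x = 0) :
    Λ.L (Submodule.span A {x}) = 0 := by
  rw [L_span_eq]
  set f := LinearMap.toSpanSingleton A X x with hf
  refine F (LinearMap.ker f) (fun i => ?_) fun e => ?_
  · obtain ⟨N, hN⟩ := hx i
    exact ⟨N, by rwa [LinearMap.mem_ker, hf, LinearMap.toSpanSingleton_apply]⟩
  · let g : (A ⧸ LinearMap.ker f) →ₗ[A] X := Submodule.liftQ _ f le_rfl
    have hg : Function.Injective g :=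
      LinearMap.ker_eq_bot.mp (Submodule.ker_liftQ_eq_bot _ _ _ le_rfl)
    have h1 := lTensor_inj_tors (s i0) h g hg hX
    have h2 : (μ e) ⊗ₜ[A] (Submodule.Quotient.mk (1 : A) : A ⧸ LinearMap.ker f) = 0 := by
      apply h1
      rw [map_zero, LinearMap.lTensor_tmul]
      have : g (Submodule.Quotient.mk (1 : A)) = x := by
        change Submodule.liftQ _ f le_rfl (Submodule.Quotient.mk (1 : A)) = x
        rw [Submodule.liftQ_apply, hf, LinearMap.toSpanSingleton_apply, one_smul]
      rw [this, hμ]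
    let e' := Algebra.TensorProduct.quotIdealMapEquivTensorQuot Ω (LinearMap.ker f : Ideal A)
    have h3 : e' (Ideal.Quotient.mk _ (μ e)) = 0 := by
      have h4 : e' (algebraMap Ω _ (μ e)) = algebraMap Ω _ (μ e) := e'.commutes (μ e)
      rw [Algebra.TensorProduct.algebraMap_apply] at h4
      change e' (Ideal.Quotient.mk _ (μ e)) = _ at h4
      rw [h4]
      exact h2
    rw [← Ideal.Quotient.eq_zero_iff_mem]
    exact (map_eq_zero_iff _ e'.injective).1 h3

end Null

end Crest.Agent.R188.TowN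
end

-- ▼ part R188/TowNul2
section

set_option autoImplicit false

namespace Crest.Agent.R188.TowN

open scoped ENNReal TensorProduct
open Crest.Agent.R183 Crest.Agent.R183.Om Crest.Agent.R188.Tow

universe u v w

section Tor

variable {A : Type u} [CommRing A] {Ω : Type v} [CommRing Ω] [Algebra A Ω]

/-- almost factorisation of `Ω ⊗ T` through free modules (field `fac` of `Tring.AlmSplit`) -/
def Fac (p : A) (μ : ℕ → Ω) (T : Type*) [AddCommGroup T] [Module A T] : Prop :=
  ∀ e N : ℕ, ∃ (n : ℕ) (E : Fin n → Ω ⊗[A] T) (β : Fin n → T →ₗ[A] Ω),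
    ∀ x : T, ∃ κ : Ω ⊗[A] T, ∑ j, β j x • E j = μ e • ((1 : Ω) ⊗ₜ[A] x) + (p ^ N) • κ

/-- `t ↦ t ⊗ v` -/
noncomputable def ins (A : Type*) [CommRing A] (T : Type*) [AddCommGroup T] [Module A T]
    {V : Type*} [AddCommGroup V] [Module A V] (v : V) : T →ₗ[A] T ⊗[A] V :=
  (TensorProduct.mk A T V).flip v

theorem ins_smul {T : Type*} [AddCommGroup T] [Module A T] {V : Type*} [AddCommGroup V]
    [Module A V] (a : A) (v : V) (x : Ω ⊗[A] T) :
    (ins A T v).lTensor Ω (a • x) = (ins A T (a • v)).lTensor Ω x := by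
  have h : ins A T (a • v) = a • ins A T v := by
    unfold ins
    rw [map_smul]
  rw [h, LinearMap.lTensor_smul, map_smul]
  rfl

theorem ins_add {T : Type*} [AddCommGroup T] [Module A T] {V : Type*} [AddCommGroup V]
    [Module A V] (v w : V) (x : Ω ⊗[A] T) :
    (ins A T (v + w)).lTensor Ω x = (ins A T v).lTensor Ω x + (ins A T w).lTensor Ω x := by
  have h : ins A T (v + w) = ins A T v + ins A T w := by
    unfold ins
    rw [map_add]
  rw [h, LinearMap.lTensor_add]
  rfl

/-- `lTensor` commutes with the left action of `Ω` -/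
theorem lTensor_smul_left {M N : Type*} [AddCommGroup M] [Module A M] [AddCommGroup N] [Module A N]
    (f : M →ₗ[A] N) (ω : Ω) (x : Ω ⊗[A] M) : f.lTensor Ω (ω • x) = ω • f.lTensor Ω x := by
  induction x with
  | zero => simp
  | add x y hx hy => simp only [smul_add, map_add, hx, hy]
  | tmul a m => simp only [TensorProduct.smul_tmul', LinearMap.lTensor_tmul]

/-- the map `ω ⊗ v ↦ ω · (E ⊗ v)` -/
noncomputable def Th {T : Type*} [AddCommGroup T] [Module A T] {V : Type*} [AddCommGroup V]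
    [Module A V] (E : Ω ⊗[A] T) : (Ω ⊗[A] V) →ₗ[A] Ω ⊗[A] (T ⊗[A] V) :=
  TensorProduct.lift
    (LinearMap.mk₂ A (fun (ω : Ω) (v : V) => ω • (ins A T v).lTensor Ω E)
      (fun ω ω' v => add_smul _ _ _)
      (fun a ω v => by rw [smul_assoc])
      (fun ω v v' => by rw [ins_add, smul_add])
      (fun a ω v => by
        rw [← ins_smul, map_smul, smul_comm]))

theorem Th_tmul {T : Type*} [AddCommGroup T] [Module A T] {V : Type*} [AddCommGroup V]
    [Module A V] (E : Ω ⊗[A] T) (ω : Ω) (v : V) :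
    Th E (ω ⊗ₜ[A] v) = ω • (ins A T v).lTensor Ω E := rfl

variable {p : A} {μ : ℕ → Ω} {T : Type*} [AddCommGroup T] [Module A T]
  {V' V : Type*} [AddCommGroup V'] [Module A V'] [AddCommGroup V] [Module A V]

theorem sum_Th {n : ℕ} (E : Fin n → Ω ⊗[A] T) (β : Fin n → T →ₗ[A] Ω) (m : Ω) (N : ℕ)
    (h : ∀ x : T, ∃ κ : Ω ⊗[A] T, ∑ j, β j x • E j = m • ((1 : Ω) ⊗ₜ[A] x) + (p ^ N) • κ)
    (hV : ∀ v : V, p ^ N • v = 0) (y : T ⊗[A] V) :
    ∑ j, Th (E j) ((β j).rTensor V y) = m ⊗ₜ[A] y := by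
  induction y with
  | zero => simp
  | add x y hx hy => simp only [map_add, Finset.sum_add_distrib, hx, hy, TensorProduct.tmul_add]
  | tmul t v =>
    obtain ⟨κ, hκ⟩ := h t
    simp only [LinearMap.rTensor_tmul, Th_tmul, ← lTensor_smul_left]
    rw [← map_sum, hκ, map_add, ins_smul, hV, lTensor_smul_left, LinearMap.lTensor_tmul]
    have h0 : ins A T (0 : V) = 0 := by
      unfold ins
      rw [map_zero]
    rw [h0, LinearMap.lTensor_zero, LinearMap.zero_apply, add_zero, TensorProduct.smul_tmul',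
      smul_eq_mul, mul_one]
    rfl

/-- **(TOR0), elementwise** -/
theorem tmul_eq_zero_of_fac (hfl : ∀ n : ℕ, FlatQ A (B := Ω) (Ideal.span {p ^ n}))
    (hT : Fac p μ T) (f : V' →ₗ[A] V) (hf : Function.Injective f)
    (hV : ∀ v : V, ∃ n : ℕ, p ^ n • v = 0) (x : T ⊗[A] V') (hx : f.lTensor T x = 0) (e : ℕ) :
    (μ e) ⊗ₜ[A] x = (0 : Ω ⊗[A] (T ⊗[A] V')) := by
  obtain ⟨V0, h0, y, rfl⟩ := exists_fg_lTensor x
  let g : V0 →ₗ[A] V := f ∘ₗ V0.subtype
  have hg : Function.Injective g := hf.comp V0.subtype_injective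
  have hy : g.lTensor T y = 0 := by rw [LinearMap.lTensor_comp_apply, hx]
  obtain ⟨N, hN⟩ := exists_pow_of_fg p V0 h0 fun v _ => by
    obtain ⟨n, hn⟩ := hV (f v)
    exact ⟨n, hf (by rw [map_smul, hn, map_zero])⟩
  obtain ⟨n, E, β, hβ⟩ := hT e N
  have h1 : ∀ j, (β j).rTensor V0 y = 0 := by
    intro j
    apply lTensor_inj_tors p hfl g hg hV
    have h2 : g.lTensor Ω ((β j).rTensor V0 y) = (β j).rTensor V (g.lTensor T y) := by
      rw [← LinearMap.comp_apply, ← LinearMap.comp_apply, LinearMap.lTensor_comp_rTensor,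
        LinearMap.rTensor_comp_lTensor]
    rw [h2, hy, map_zero, map_zero]
  have h3 := sum_Th (p := p) E β (μ e) N hβ (fun v : V0 => Subtype.ext (by simp [hN v.1 v.2])) y
  have h4 : (μ e) ⊗ₜ[A] y = (0 : Ω ⊗[A] (T ⊗[A] V0)) := by
    rw [← h3]
    exact Finset.sum_eq_zero fun j _ => by rw [h1, map_zero]
  have h5 : (V0.subtype.lTensor T).lTensor Ω ((μ e) ⊗ₜ[A] y) = 0 := by rw [h4, map_zero]
  exact h5

end Tor

section Null

variable {A : Type u} [CommRing A] {Ω : Type v} [CommRing Ω] [Algebra A Ω] {κ : Type w}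
variable {Λ : AddLen.{u, u} A} {s : κ → A} {μ : ℕ → Ω} {T : Type u} [AddCommGroup T] [Module A T]
  {V' V : Type u} [AddCommGroup V'] [Module A V'] [AddCommGroup V] [Module A V]

theorem tors_tensor_left (p : A) (hV : ∀ v : V, ∃ n : ℕ, p ^ n • v = 0) (x : T ⊗[A] V) :
    ∃ n : ℕ, p ^ n • x = 0 := by
  induction x with
  | zero => exact ⟨0, smul_zero _⟩
  | add x y hx hy =>
    obtain ⟨n, hn⟩ := hx
    obtain ⟨m, hm⟩ := hy
    refine ⟨n + m, ?_⟩
    rw [smul_add, pow_add, mul_smul, mul_smul, hm, smul_zero, add_zero, smul_comm, hn, smul_zero]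
  | tmul t v =>
    obtain ⟨n, hn⟩ := hV v
    exact ⟨n, by rw [← TensorProduct.tmul_smul, hn, TensorProduct.tmul_zero]⟩

/-- (TOR0): a torsion element of the kernel of `T ⊗ V' → T ⊗ V` is null -/
theorem null_of_lTensor (F : FactN Λ s μ) (i0 : κ)
    (hfl : ∀ n : ℕ, FlatQ A (B := Ω) (Ideal.span {s i0 ^ n})) (hT : Fac (s i0) μ T)
    (f : V' →ₗ[A] V) (hf : Function.Injective f) (hV : ∀ v : V, ∃ n : ℕ, s i0 ^ n • v = 0)
    (x : T ⊗[A] V') (hx : f.lTensor T x = 0) (hxs : ∀ i, ∃ N : ℕ, s i ^ N • x = 0) :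
    Λ.L (Submodule.span A {x}) = 0 := by
  refine null_of_mul F i0 hfl (fun y => tors_tensor_left (s i0) (fun v => ?_) y) x hxs
    (fun e => tmul_eq_zero_of_fac hfl hT f hf hV x hx e)
  obtain ⟨n, hn⟩ := hV (f v)
  exact ⟨n, hf (by rw [map_smul, hn, map_zero])⟩

/-- **(TOR0)** -/
theorem ker_lTensor_null (F : FactN Λ s μ) (hc : ContOn Λ s) (i0 : κ)
    (hfl : ∀ n : ℕ, FlatQ A (B := Ω) (Ideal.span {s i0 ^ n})) (hT : Fac (s i0) μ T)
    (f : V' →ₗ[A] V) (hf : Function.Injective f) (hV : Tors s V) :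
    Λ.L (LinearMap.ker (f.lTensor T)) = 0 := by
  have hV' : Tors s V' := hV.of_injective f hf
  have hTV : Tors s (T ⊗[A] V') := fun x i => tors_tensor_left (s i) (fun v => hV' v i) x
  rw [hc.eq_zero_iff (hTV.submodule _)]
  rintro ⟨x, hx⟩
  have h1 := null_of_lTensor F i0 hfl hT f hf (fun v => hV v i0) x hx (hTV x)
  have h2 := L_span_image Λ (LinearMap.ker (f.lTensor T)).subtype (Submodule.subtype_injective _)
    {(⟨x, hx⟩ : LinearMap.ker (f.lTensor T))}
  rw [← h2, Set.image_singleton]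
  exact h1

end Null

section Dec

variable {A : Type u} [CommRing A] {Ω : Type v} [CommRing Ω] [Algebra A Ω] {κ : Type w}
variable {T : Type u} [CommRing T] [Algebra A T]

/-- field `sep` of `Tring.AlmSplit` -/
def Sep (p : A) (μ : ℕ → Ω) (H : Set (T →ₐ[A] T)) : Prop :=
  ∀ e N : ℕ, ∃ (n : ℕ) (E F : Fin n → Ω ⊗[A] T),
    (∃ κ : Ω ⊗[A] T, ∑ j, E j * F j = μ e • (1 : Ω ⊗[A] T) + (p ^ N) • κ) ∧
    ∀ h ∈ H, ∃ κ : Ω ⊗[A] T,
      ∑ j, Algebra.TensorProduct.map (AlgHom.id Ω Ω) h (E j) * F j = (p ^ N) • κ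

variable {V : Type u} [AddCommGroup V] [Module A V] [Module T V] [IsScalarTower A T V]

/-- `c ↦ c v` -/
noncomputable def act (v : V) : T →ₗ[A] V := (LinearMap.toSpanSingleton T V v).restrictScalars A

theorem act_apply (v : V) (c : T) : act (A := A) v c = c • v := rfl

variable {G : Type} (σ : G → (T →ₐ[A] T))

/-- the bilinear map `(E, F) ↦ (σ_g(E) σ_{g0}(F) v)_g` with values in `Ω ⊗ decSub` -/
theorem exists_Xi (g0 : G) (v : V) (E F : Ω ⊗[A] T) : ∃ z : Ω ⊗[A] (decSub σ V),
    ∀ g : G, (LinearMap.proj g ∘ₗ (decSub σ V).subtype).lTensor Ω z =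
      (act v).lTensor Ω (Algebra.TensorProduct.map (AlgHom.id Ω Ω) (σ g) E *
        Algebra.TensorProduct.map (AlgHom.id Ω Ω) (σ g0) F) := by
  induction E with
  | zero => exact ⟨0, fun g => by simp⟩
  | add x y hx hy =>
    obtain ⟨z, hz⟩ := hx
    obtain ⟨z', hz'⟩ := hy
    exact ⟨z + z', fun g => by rw [map_add, hz, hz', map_add, add_mul, map_add]⟩
  | tmul ω a =>
    induction F with
    | zero => exact ⟨0, fun g => by simp⟩
    | add x y hx hy =>
      obtain ⟨z, hz⟩ := hx
      obtain ⟨z', hz'⟩ := hy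
      exact ⟨z + z', fun g => by
        rw [map_add, hz, hz', map_add, mul_add, map_add]⟩
    | tmul ω' b =>
      refine ⟨(ω * ω') ⊗ₜ ⟨fun g => σ g a • (σ g0 b • v), Submodule.subset_span ⟨a, _, rfl⟩⟩,
        fun g => ?_⟩
      rw [LinearMap.lTensor_tmul, Algebra.TensorProduct.map_tmul, Algebra.TensorProduct.map_tmul,
        Algebra.TensorProduct.tmul_mul_tmul, LinearMap.lTensor_tmul, act_apply, mul_smul]
      rfl

theorem act_smul (a : A) (v : V) (x : Ω ⊗[A] T) :
    (act (A := A) v).lTensor Ω (a • x) = (act (A := A) (a • v)).lTensor Ω x := by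
  have h : act (A := A) (T := T) (a • v) = a • act (A := A) v := by
    ext c
    rw [LinearMap.smul_apply, act_apply, act_apply, smul_comm]
  rw [h, LinearMap.lTensor_smul, map_smul]
  rfl

theorem bc_smul (h : T →ₐ[A] T) (a : A) (y : Ω ⊗[A] T) :
    Algebra.TensorProduct.map (AlgHom.id Ω Ω) h (a • y) =
      a • Algebra.TensorProduct.map (AlgHom.id Ω Ω) h y := by
  rw [← algebraMap_smul Ω a y, map_smul, algebraMap_smul]

/-- elements of `Ω ⊗ (G → V)` are determined by their coordinates -/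
theorem eq_of_proj {G : Type} [Finite G] {x y : Ω ⊗[A] (G → V)}
    (h : ∀ g : G, (LinearMap.proj (R := A) (φ := fun _ : G => V) g).lTensor Ω x =
      (LinearMap.proj (R := A) (φ := fun _ : G => V) g).lTensor Ω y) : x = y := by
  classical
  have := Fintype.ofFinite G
  have key : ∀ z : Ω ⊗[A] (G → V), z = ∑ g, (LinearMap.single A (fun _ : G => V) g).lTensor Ω
      ((LinearMap.proj (R := A) (φ := fun _ : G => V) g).lTensor Ω z) := by
    intro z
    induction z with
    | zero => simp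
    | add x y hx hy =>
      simp only [map_add, Finset.sum_add_distrib]
      rw [← hx, ← hy]
    | tmul ω w =>
      simp only [LinearMap.lTensor_tmul]
      rw [← TensorProduct.tmul_sum]
      congr 1
      exact (Finset.univ_sum_single w).symm
  rw [key x, key y]
  exact Finset.sum_congr rfl fun g _ => by rw [h g]

theorem tmul_eq_zero_of_sep {p : A} {μ : ℕ → Ω} {H : Set (T →ₐ[A] T)} (hS : Sep p μ H)
    {G : Type} [Finite G] {σ : G → (T →ₐ[A] T)}
    (hσ : ∀ g g0, g ≠ g0 → ∃ h ∈ H, σ g = (σ g0).comp h) (e : ℕ)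
    (hV : ∀ v : V, ∃ n : ℕ, p ^ n • v = 0) (x : (G → V) ⧸ decSub σ V) :
    (μ e) ⊗ₜ[A] x = (0 : Ω ⊗[A] ((G → V) ⧸ decSub σ V)) := by
  classical
  have := Fintype.ofFinite G
  -- the elements `δ_{g0} v`
  have key : ∀ (g0 : G) (v : V),
      (μ e) ⊗ₜ[A] (decSub σ V).mkQ (Pi.single g0 v) = 0 := by
    intro g0 v
    obtain ⟨N, hN⟩ := hV v
    obtain ⟨n, E, F, ⟨κ, hκ⟩, h2⟩ := hS e N
    choose z hz using fun j => exists_Xi (Ω := Ω) σ g0 v (E j) (F j)
    have hv0 : ∀ y : Ω ⊗[A] T, (act (A := A) v).lTensor Ω (p ^ N • y) = 0 := by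
      intro y
      rw [act_smul, hN]
      have : act (A := A) (T := T) (0 : V) = 0 := by
        ext c
        rw [act_apply, smul_zero, LinearMap.zero_apply]
      rw [this, LinearMap.lTensor_zero, LinearMap.zero_apply]
    have h3 : (decSub σ V).subtype.lTensor Ω (∑ j, z j) = (μ e) ⊗ₜ[A] (Pi.single g0 v) := by
      refine eq_of_proj fun g => ?_
      rw [← LinearMap.lTensor_comp_apply, map_sum]
      simp only [hz]
      rw [← map_sum, LinearMap.lTensor_tmul, LinearMap.proj_apply]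
      by_cases hg : g = g0
      · subst hg
        simp only [← map_mul]
        rw [← map_sum, hκ, map_add, map_smul, bc_smul, map_one, map_add, hv0, add_zero,
          lTensor_smul_left, Pi.single_eq_same, Algebra.TensorProduct.one_def,
          LinearMap.lTensor_tmul, act_apply, one_smul, TensorProduct.smul_tmul', smul_eq_mul,
          mul_one]
      · obtain ⟨h, hh, hgh⟩ := hσ g g0 hg
        obtain ⟨κ', hκ'⟩ := h2 h hh
        have h4 : ∀ y : Ω ⊗[A] T, Algebra.TensorProduct.map (AlgHom.id Ω Ω) (σ g) y =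
            Algebra.TensorProduct.map (AlgHom.id Ω Ω) (σ g0)
              (Algebra.TensorProduct.map (AlgHom.id Ω Ω) h y) := by
          intro y
          rw [hgh]
          induction y with
          | zero => simp only [map_zero]
          | add x y hx hy => simp only [map_add, hx, hy]
          | tmul ω t => simp only [Algebra.TensorProduct.map_tmul, AlgHom.comp_apply,
              AlgHom.coe_id, id_eq]
        simp only [h4, ← map_mul]
        rw [← map_sum, hκ', bc_smul, hv0, Pi.single_eq_of_ne hg, TensorProduct.tmul_zero]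
    have h5 : (decSub σ V).mkQ.lTensor Ω ((μ e) ⊗ₜ[A] (Pi.single g0 v : G → V)) = 0 := by
      rw [← h3, ← LinearMap.lTensor_comp_apply]
      have : (decSub σ V).mkQ ∘ₗ (decSub σ V).subtype = 0 := by
        ext w
        simp
      rw [this, LinearMap.lTensor_zero, LinearMap.zero_apply]
    exact h5
  obtain ⟨w, rfl⟩ := (decSub σ V).mkQ_surjective x
  have h6 : w = ∑ g, Pi.single g (w g) := (Finset.univ_sum_single w).symm
  rw [h6, map_sum, TensorProduct.tmul_sum]
  exact Finset.sum_eq_zero fun g _ => key g (w g)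

/-- **(DEC)** -/
theorem dec_null {Λ : AddLen.{u, u} A} {s : κ → A} {μ : ℕ → Ω} (F : FactN Λ s μ)
    (hc : ContOn Λ s) (i0 : κ) (hfl : ∀ n : ℕ, FlatQ A (B := Ω) (Ideal.span {s i0 ^ n}))
    {H : Set (T →ₐ[A] T)} (hS : Sep (s i0) μ H) {G : Type} [Finite G] {σ : G → (T →ₐ[A] T)}
    (hσ : ∀ g g0, g ≠ g0 → ∃ h ∈ H, σ g = (σ g0).comp h) (hV : Tors s V) :
    Λ.L ((G → V) ⧸ decSub σ V) = 0 := by
  have := Fintype.ofFinite G
  have hQ : Tors s ((G → V) ⧸ decSub σ V) := hV.pi.quotient _
  rw [hc.eq_zero_iff hQ]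
  intro x
  exact null_of_mul F i0 hfl (fun y => hQ y i0) x (hQ x)
    (fun e => tmul_eq_zero_of_sep hS hσ e (fun v => hV v i0) x)

end Dec

end Crest.Agent.R188.TowN
end

-- ▼ part R188/Tring9
section

set_option autoImplicit false
set_option linter.unusedSectionVars false

open TensorProduct Polynomial
open scoped ENNReal

namespace Crest.Agent.R188.Tring

open Crest.Agent.R183 Crest.Agent.R183.BInf Crest.Agent.R183.Om Crest.Agent.R188.Tow
  Crest.Agent.R188.TowN Crest.Agent.R188.Trk Crest.Agent.R188.TowI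

variable {p : ℕ} [hpr : Fact p.Prime]

/-- the multiplier `μ_e` of an almost splitting -/
noncomputable def AlmSplit.mu {A T : Type} [CommRing A] [CommRing T] [Algebra A T]
    {ϖ : ℕ → A} {H : Set (T →ₐ[A] T)} (M : AlmSplit p A T ϖ H) (e : ℕ) : M.Ω :=
  algebraMap A M.Ω (ϖ e) * M.δ e

theorem AlmSplit.flat {A T : Type} [CommRing A] [CommRing T] [Algebra A T]
    {ϖ : ℕ → A} {H : Set (T →ₐ[A] T)} (M : AlmSplit p A T ϖ H) (n : ℕ) :
    Om.FlatQ A (B := M.Ω) (Ideal.span {(p : A) ^ n}) := Env.flatQ_of_good M.good n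

theorem AlmSplit.facN {A T : Type} [CommRing A] [CommRing T] [Algebra A T]
    {ϖ : ℕ → A} {H : Set (T →ₐ[A] T)} (M : AlmSplit p A T ϖ H) : Fac (p : A) M.mu T := M.fac

/-- **(TOR0)** for the ring of an almost splitting -/
theorem AlmSplit.tor0 {A T : Type} [CommRing A] [CommRing T] [Algebra A T]
    {ϖ : ℕ → A} {H : Set (T →ₐ[A] T)} (M : AlmSplit p A T ϖ H) {Λ : AddLen.{0, 0} A} {κ : Type}
    {s : κ → A} (i0 : κ) (hs : s i0 = p) (hc : ContOn Λ s) (F : FactN Λ s M.mu) :
    Trk.Tor0 Λ s T := by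
  intro V' V _ _ _ _ f hf hV
  exact ker_lTensor_null F hc i0 (fun n => by rw [hs]; exact M.flat n) (by rw [hs]; exact M.facN)
    f hf hV

section FL

variable {d : ℕ} {B : Type} [CommRing B] [IsNoetherianRing B] [IsLocalRing B]
variable (t : Fin d → B) (hp : 0 < p)
variable {A : Type} [CommRing A] [Algebra (BInf p t) A] [Algebra B A]
  [IsScalarTower B (BInf p t) A]

/-- the growth hypothesis of the rank lemma for `σ = p^k D` -/
def Grow (p : ℕ) {d : ℕ} {B : Type} [CommRing B] [IsNoetherianRing B] [IsLocalRing B]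
    (t : Fin d → B) (hp : 0 < p) (A : Type) [CommRing A] [Algebra (BInf p t) A] [Algebra B A]
    [IsScalarTower B (BInf p t) A] : Prop :=
  ∀ (k : ℕ) (D : A), RegMod D (p : A) → ∃ C : ℝ≥0∞, C ≠ ⊤ ∧ ∀ N : ℕ, 0 < N →
    (LA p t hp A).L (QS ((p : A) ^ k * D) (QN (tA p t A) N)) * N ≤ C * (N : ℝ≥0∞) ^ d

/-- **(FL)** -/
theorem hypFL [IsDomain A] [IsIntegrallyClosed A] {F K : Type} [Field F] [Field K] [Algebra A F]
    [IsFractionRing A F] [Algebra F K] [Algebra A K] [IsScalarTower A F K]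
    (hc : Om.IsCompl (p : BInf p t) (algebraMap (BInf p t) A)) {i0 : Fin d}
    (hP : Par p t i0) {ϖ : ℕ → A} (M₀ : Env.Model p A ϖ) (hCIC : Cic.CIC A)
    (hfac : ∀ a : A, a ≠ 0 → ∃ (c : A) (k : ℕ) (D : A), a * c = (p : A) ^ k * D ∧
      RegMod D (p : A))
    (hgrow : Grow p t hp A)
    (hfact : ∀ (T : Type) [CommRing T] [Algebra A T] (H : Set (T →ₐ[A] T))
      (M : AlmSplit p A T ϖ H), FactN (LA p t hp A) (tA p t A) M.mu) :
    HypFL A F K (tA p t A) (LA p t hp A) := by
  intro L V _ _ hV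
  obtain ⟨u, w, k, D, hD, h1, h2⟩ := exists_rank_data (p := p) (A := A) (F := F) (L := L) hfac
  obtain ⟨C, hC, hσ⟩ := hgrow k D hD
  obtain ⟨M⟩ := nonempty_almSplit (F := F) (L := L) M₀ hCIC hfac
  have hs : tA p t A i0 = (p : A) := by
    rw [tA, hP.eq, map_natCast, map_natCast]
  exact rk_growth p t hp hc hP u w _ h1 h2 C hC hσ
    (M.tor0 i0 hs (contOn_LA p t hp) (hfact _ _ M)) V hV

end FL

end Crest.Agent.R188.Tring
end

-- ▼ part R188/TowNul3
section

set_option autoImplicit false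

namespace Crest.Agent.R188.TowN

open scoped ENNReal TensorProduct
open Crest.Agent.R183 Crest.Agent.R183.Om Crest.Agent.R188.Tow Crest.Agent.R188.KosG

universe u v w

/-! ### tensor product of a module and a complex -/

section tens

variable {A : Type u} [CommRing A] (N : Type u) [AddCommGroup N] [Module A N]

/-- `N ⊗ K` -/
noncomputable def tens (K : GCx.{u, u} A) : GCx.{u, u} A where
  T := N ⊗[A] K.T
  gr := fun i => LinearMap.range ((K.gr i).subtype.lTensor N)
  D := K.D.lTensor N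
  D_gr := by
    rintro i _ ⟨x, rfl⟩
    let Di : K.gr i →ₗ[A] K.gr (i - 1) := K.D.restrict (K.D_gr i)
    refine ⟨Di.lTensor N x, ?_⟩
    rw [← LinearMap.lTensor_comp_apply, ← LinearMap.lTensor_comp_apply]
    rfl
  DD := fun x => by
    have h : K.D ∘ₗ K.D = 0 := LinearMap.ext fun y => K.DD y
    rw [← LinearMap.lTensor_comp_apply, h, LinearMap.lTensor_zero, LinearMap.zero_apply]

theorem fst_prodRight {V W : Type u} [AddCommGroup V] [Module A V] [AddCommGroup W] [Module A W]
    (x : N ⊗[A] (V × W)) : (TensorProduct.prodRight A A N V W x).1 =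
      (LinearMap.fst A V W).lTensor N x := by
  induction x with
  | zero => simp
  | add x y hx hy => rw [map_add, map_add, Prod.fst_add, hx, hy]
  | tmul n v => rfl

theorem snd_prodRight {V W : Type u} [AddCommGroup V] [Module A V] [AddCommGroup W] [Module A W]
    (x : N ⊗[A] (V × W)) : (TensorProduct.prodRight A A N V W x).2 =
      (LinearMap.snd A V W).lTensor N x := by
  induction x with
  | zero => simp
  | add x y hx hy => rw [map_add, map_add, Prod.snd_add, hx, hy]
  | tmul n v => rfl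

theorem eq_inl_add_inr {V W : Type u} [AddCommGroup V] [Module A V] [AddCommGroup W] [Module A W]
    (x : N ⊗[A] (V × W)) : x = (LinearMap.inl A V W).lTensor N ((LinearMap.fst A V W).lTensor N x) +
      (LinearMap.inr A V W).lTensor N ((LinearMap.snd A V W).lTensor N x) := by
  rw [← LinearMap.lTensor_comp_apply, ← LinearMap.lTensor_comp_apply, ← LinearMap.add_apply,
    ← LinearMap.lTensor_add]
  have h : (LinearMap.inl A V W ∘ₗ LinearMap.fst A V W) +
      (LinearMap.inr A V W ∘ₗ LinearMap.snd A V W) = LinearMap.id := by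
    ext x <;> simp
  rw [h, LinearMap.lTensor_id, LinearMap.id_apply]

theorem mem_range_prod {V W : Type u} [AddCommGroup V] [Module A V] [AddCommGroup W] [Module A W]
    (P : Submodule A V) (Q : Submodule A W) (x : N ⊗[A] (V × W)) :
    ((TensorProduct.prodRight A A N V W x).1 ∈ LinearMap.range (P.subtype.lTensor N) ∧
      (TensorProduct.prodRight A A N V W x).2 ∈ LinearMap.range (Q.subtype.lTensor N)) ↔
      x ∈ LinearMap.range ((P.prod Q).subtype.lTensor N) := by
  constructor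
  · rintro ⟨⟨y1, h1⟩, ⟨y2, h2⟩⟩
    rw [fst_prodRight] at h1
    rw [snd_prodRight] at h2
    have i1 : ∃ j1 : P →ₗ[A] (P.prod Q), (P.prod Q).subtype ∘ₗ j1 =
        LinearMap.inl A V W ∘ₗ P.subtype :=
      ⟨LinearMap.codRestrict _ (LinearMap.inl A V W ∘ₗ P.subtype)
        (fun c => ⟨c.2, Submodule.zero_mem _⟩), rfl⟩
    have i2 : ∃ j2 : Q →ₗ[A] (P.prod Q), (P.prod Q).subtype ∘ₗ j2 =
        LinearMap.inr A V W ∘ₗ Q.subtype :=
      ⟨LinearMap.codRestrict _ (LinearMap.inr A V W ∘ₗ Q.subtype)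
        (fun c => ⟨Submodule.zero_mem _, c.2⟩), rfl⟩
    obtain ⟨j1, hj1⟩ := i1
    obtain ⟨j2, hj2⟩ := i2
    refine ⟨j1.lTensor N y1 + j2.lTensor N y2, ?_⟩
    rw [map_add, ← LinearMap.lTensor_comp_apply, ← LinearMap.lTensor_comp_apply, hj1, hj2,
      LinearMap.lTensor_comp_apply, LinearMap.lTensor_comp_apply, h1, h2]
    exact (eq_inl_add_inr N x).symm
  · rintro ⟨y, rfl⟩
    refine ⟨?_, ?_⟩
    · rw [fst_prodRight]
      let k1 : (P.prod Q) →ₗ[A] P :=
        LinearMap.codRestrict _ (LinearMap.fst A V W ∘ₗ (P.prod Q).subtype) (fun c => c.2.1)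
      refine ⟨k1.lTensor N y, ?_⟩
      rw [← LinearMap.lTensor_comp_apply, ← LinearMap.lTensor_comp_apply]
      rfl
    · rw [snd_prodRight]
      let k2 : (P.prod Q) →ₗ[A] Q :=
        LinearMap.codRestrict _ (LinearMap.snd A V W ∘ₗ (P.prod Q).subtype) (fun c => c.2.2)
      refine ⟨k2.lTensor N y, ?_⟩
      rw [← LinearMap.lTensor_comp_apply, ← LinearMap.lTensor_comp_apply]
      rfl

theorem prodRight_cone {V : Type u} [AddCommGroup V] [Module A V] (b : A) (D : V →ₗ[A] V)
    (x : N ⊗[A] (V × V)) :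
    TensorProduct.prodRight A A N V V (((D.coprod (LinearMap.lsmul A V b)).prod
      (-(D.comp (LinearMap.snd A V V)))).lTensor N x) =
    (D.lTensor N (TensorProduct.prodRight A A N V V x).1 +
      b • (TensorProduct.prodRight A A N V V x).2,
      -(D.lTensor N (TensorProduct.prodRight A A N V V x).2)) := by
  induction x with
  | zero =>
    refine Prod.ext ?_ ?_
    · simp
    · simp
  | add x y hx hy =>
    rw [map_add, map_add, hx, hy]
    refine Prod.ext ?_ ?_
    · simp only [Prod.fst_add, Prod.snd_add, map_add, smul_add]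
      abel
    · simp only [Prod.snd_add, map_add, neg_add]
  | tmul n v =>
    obtain ⟨v, w⟩ := v
    refine Prod.ext ?_ ?_
    · change n ⊗ₜ[A] (D v + b • w) = n ⊗ₜ[A] (D v) + b • (n ⊗ₜ[A] w)
      rw [TensorProduct.tmul_add, TensorProduct.tmul_smul]
    · change n ⊗ₜ[A] (-(D w)) = -(n ⊗ₜ[A] (D w))
      rw [TensorProduct.tmul_neg]

/-- `N ⊗ cone b K ≅ cone b (N ⊗ K)` -/
noncomputable def tensCone (b : A) (K : GCx.{u, u} A) :
    GCx.Iso (tens N (GCx.cone b K)) (GCx.cone b (tens N K)) where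
  e := TensorProduct.prodRight A A N K.T K.T
  gr := fun i x => mem_range_prod N (K.gr i) (K.gr (i - 1)) x
  comm := fun x => prodRight_cone N b K.D x

theorem mem_range_ite {C : Type u} [AddCommGroup C] [Module A C] (i : ℤ) (x : N ⊗[A] C) :
    x ∈ (if i = 0 then (⊤ : Submodule A (N ⊗[A] C)) else ⊥) ↔
      x ∈ LinearMap.range ((if i = 0 then (⊤ : Submodule A C) else ⊥ : Submodule A C).subtype.lTensor
        N) := by
  by_cases hi : i = 0
  · rw [if_pos hi, if_pos hi]
    refine ⟨fun _ => ?_, fun _ => trivial⟩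
    have : Function.Surjective ((⊤ : Submodule A C).subtype.lTensor N) :=
      LinearMap.lTensor_surjective N fun c => ⟨⟨c, trivial⟩, rfl⟩
    exact this x
  · rw [if_neg hi, if_neg hi]
    constructor
    · intro hx
      rw [Submodule.mem_bot] at hx
      rw [hx]
      exact Submodule.zero_mem _
    · rintro ⟨y, rfl⟩
      have : (⊥ : Submodule A C).subtype = 0 := by
        ext ⟨c, hc⟩
        exact (Submodule.mem_bot A).1 hc
      rw [this, LinearMap.lTensor_zero, LinearMap.zero_apply]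
      exact Submodule.zero_mem _

/-- `N ⊗ K(l; C) ≅ K(l; N ⊗ C)` -/
theorem tensKos (l : List A) (C : Type u) [AddCommGroup C] [Module A C] :
    Nonempty (GCx.Iso (tens N (kos l C)) (kos l (N ⊗[A] C))) := by
  induction l with
  | nil =>
    refine ⟨{ e := LinearEquiv.refl A (N ⊗[A] C), gr := fun i x => mem_range_ite N i x,
              comm := ?_ }⟩
    intro x
    have h : (0 : C →ₗ[A] C).lTensor N = 0 := LinearMap.lTensor_zero N
    exact DFunLike.congr_fun h x
  | cons a l ih =>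
    obtain ⟨φ⟩ := ih
    exact ⟨(tensCone N a (kos l C)).trans (φ.cone a)⟩

end tens

/-! ### direct summands -/

section spl

variable {A : Type u} [CommRing A]

/-- the graded pieces are direct summands -/
def Spl (K : GCx.{u, v} A) : Prop :=
  ∀ i, ∃ π : K.T →ₗ[A] K.T, (∀ x, π x ∈ K.gr i) ∧ ∀ x ∈ K.gr i, π x = x

theorem Spl.kos (l : List A) (C : Type v) [AddCommGroup C] [Module A C] : Spl (kos l C) := by
  induction l with
  | nil =>
    intro i
    by_cases hi : i = 0
    · refine ⟨LinearMap.id, fun x => ?_, fun x _ => rfl⟩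
      change x ∈ (if i = 0 then (⊤ : Submodule A C) else ⊥)
      rw [if_pos hi]
      trivial
    · refine ⟨0, fun x => Submodule.zero_mem _, ?_⟩
      have key : ∀ x : C, x ∈ (if i = 0 then (⊤ : Submodule A C) else ⊥) →
          (0 : C →ₗ[A] C) x = x := by
        intro x hx
        rw [if_neg hi, Submodule.mem_bot] at hx
        rw [hx]
        rfl
      exact key
  | cons a l ih =>
    intro i
    obtain ⟨π, h1, h2⟩ := ih i
    obtain ⟨π', h1', h2'⟩ := ih (i - 1)
    refine ⟨π.prodMap π', ?_, ?_⟩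
    · rintro ⟨x, y⟩
      exact ⟨h1 x, h1' y⟩
    · rintro ⟨x, y⟩ ⟨hx, hy⟩
      exact Prod.ext (h2 x hx) (h2' y hy)

theorem Spl.inj {K : GCx.{u, v} A} (h : Spl K) (N : Type w) [AddCommGroup N] [Module A N] (i : ℤ) :
    Function.Injective ((K.gr i).subtype.lTensor N) := by
  obtain ⟨π, h1, h2⟩ := h i
  let π' : K.T →ₗ[A] K.gr i := LinearMap.codRestrict _ π h1
  have h3 : π' ∘ₗ (K.gr i).subtype = LinearMap.id := by
    ext x
    exact h2 x.1 x.2
  intro x y hxy
  have h4 := congrArg (π'.lTensor N) hxy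
  rwa [← LinearMap.lTensor_comp_apply, ← LinearMap.lTensor_comp_apply, h3, LinearMap.lTensor_id,
    LinearMap.id_apply, LinearMap.id_apply] at h4

end spl

/-! ### exactness of the Koszul complex of a weakly regular sequence -/

section exact

variable {A : Type u} [CommRing A]

open Classical in
/-- the length with values `0` and `∞` -/
noncomputable def topLen (A : Type u) [CommRing A] : AddLen.{u, v} A where
  L M _ _ := if Subsingleton M then 0 else ⊤
  zero' M _ _ h := if_pos h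
  add' := by
    intro M N P _ _ _ _ _ _ f g hf hg hfg
    by_cases hM : Subsingleton M
    · by_cases hP : Subsingleton P
      · have : Subsingleton N := by
          refine ⟨fun x y => ?_⟩
          have h0 : ∀ x : N, x = 0 := by
            intro x
            obtain ⟨z, hz⟩ := (hfg x).1 (Subsingleton.elim _ _)
            rw [← hz, Subsingleton.elim z 0, map_zero]
          rw [h0 x, h0 y]
        rw [if_pos this, if_pos hM, if_pos hP, add_zero]
      · have : ¬ Subsingleton N := fun h => hP ⟨fun x y => by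
          obtain ⟨x, rfl⟩ := hg x
          obtain ⟨y, rfl⟩ := hg y
          rw [Subsingleton.elim x y]⟩
        rw [if_neg this, if_neg hP, add_top]
    · have : ¬ Subsingleton N := fun h => hM ⟨fun x y => hf (Subsingleton.elim _ _)⟩
      rw [if_neg this, if_neg hM, top_add]

theorem topLen_eq_zero {M : Type v} [AddCommGroup M] [Module A M] (h : (topLen A).L M = 0) :
    Subsingleton M := by
  by_contra hM
  have : (topLen A).L M = ⊤ := if_neg hM
  rw [this] at h
  exact ENNReal.top_ne_zero h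

/-- `kh l C i = 0`, `i ≥ 1`, for `l` weakly regular on `C` -/
theorem kh_eq_zero_of_regular (Λ : AddLen.{u, v} A) (l : List A) (C : Type v) [AddCommGroup C]
    [Module A C] (h : RingTheory.Sequence.IsWeaklyRegular C l) (i : ℤ) (hi : 1 ≤ i) :
    kh Λ l C i = 0 := by
  induction l generalizing C with
  | nil => exact kh_eq_zero Λ C [] i (Or.inr (by rw [List.length_nil]; push_cast; omega))
  | cons a l ih =>
    rw [RingTheory.Sequence.isWeaklyRegular_cons_iff] at h
    have h1 := ih (QuotSMulTop a C) h.2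
    rw [← h1]
    refine LenWorld.kh_cons_regular Λ a l C (QuotSMulTop a C) (Submodule.mkQ _)
      (Submodule.mkQ_surjective _) ?_ ?_ ?_ i
    · intro x hx
      exact h.1 (by simpa using hx)
    · intro x
      rw [Submodule.mkQ_apply, Submodule.Quotient.mk_eq_zero]
      exact Submodule.smul_mem_pointwise_smul _ _ _ trivial
    · intro x hx
      rw [Submodule.mkQ_apply, Submodule.Quotient.mk_eq_zero] at hx
      obtain ⟨y, -, hy⟩ := (Submodule.mem_smul_pointwise_iff_exists _ _ _).1 hx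
      exact ⟨y, hy⟩

theorem Z_le_B_of_regular (l : List A) (C : Type v) [AddCommGroup C]
    [Module A C] (h : RingTheory.Sequence.IsWeaklyRegular C l) (i : ℤ) (hi : 1 ≤ i) :
    (kos l C).Z i ≤ (kos l C).B i := by
  have h1 : Subsingleton ((kos l C).H i) :=
    topLen_eq_zero (kh_eq_zero_of_regular (topLen.{u, v} A) l C h i hi)
  intro z hz
  exact ((kos l C).cls_eq_zero (z := ⟨z, hz⟩)).1 (Subsingleton.elim _ _)

end exact

/-! ### (KOS0) -/

section main

variable {A : Type u} [CommRing A] {Ω : Type v} [CommRing Ω] [Algebra A Ω] {κ : Type w}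
variable {Λ : AddLen.{u, u} A} {s : κ → A} {μ : ℕ → Ω} {N : Type u} [AddCommGroup N] [Module A N]

theorem null_cls (F : FactN Λ s μ) (i0 : κ)
    (hfl : ∀ n : ℕ, FlatQ A (B := Ω) (Ideal.span {s i0 ^ n})) (hN : Fac (s i0) μ N)
    (K : GCx.{u, u} A) (hspl : Spl K) (hK : ∀ v : K.T, ∃ n : ℕ, s i0 ^ n • v = 0) (i : ℤ)
    (hex : K.Z i ≤ K.B i) (z : (tens N K).Z i)
    (hz : ∀ k, ∃ m : ℕ, s k ^ m • (tens N K).cls i z = 0) :
    Λ.L (Submodule.span A {(tens N K).cls i z}) = 0 := by
  obtain ⟨⟨z₀, hz₀⟩, hzD⟩ := z.2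
  let z₁ : N ⊗[A] K.T := z.1
  replace hz₀ : (K.gr i).subtype.lTensor N z₀ = z₁ := hz₀
  replace hzD : K.D.lTensor N z₁ = 0 := hzD
  let sub := (K.gr i).subtype
  let Di : K.gr i →ₗ[A] (K.gr i).map K.D := K.D.submoduleMap (K.gr i)
  have hDi : Function.Surjective Di := LinearMap.submoduleMap_surjective _ _
  have hcomp : ((K.gr i).map K.D).subtype ∘ₗ Di = K.D ∘ₗ sub := rfl
  set z' := Di.lTensor N z₀ with hz'
  have h1 : ((K.gr i).map K.D).subtype.lTensor N z' = 0 := by
    rw [hz', ← LinearMap.lTensor_comp_apply, hcomp, LinearMap.lTensor_comp_apply, hz₀, hzD]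
  -- claim 1
  have c1 : ∀ a : A, a • z' = 0 → a • (tens N K).cls i z = 0 := by
    intro a ha
    rw [← map_smul, GCx.cls_eq_zero]
    change a • (z : (tens N K).T) ∈ (tens N K).B i
    have h2 : Di.lTensor N (a • z₀) = 0 := by rw [map_smul, ← hz', ha]
    obtain ⟨w₀, hw₀⟩ := (lTensor_exact N (LinearMap.exact_subtype_ker_map Di) hDi _).1 h2
    let j : LinearMap.ker Di →ₗ[A] K.B i :=
      { toFun := fun x => ⟨x.1.1, hex ⟨x.1.2, congrArg Subtype.val x.2⟩⟩
        map_add' := fun _ _ => rfl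
        map_smul' := fun _ _ => rfl }
    let D' : K.gr (i + 1) →ₗ[A] K.B i := K.D.submoduleMap (K.gr (i + 1))
    have hD' : Function.Surjective D' := LinearMap.submoduleMap_surjective _ _
    obtain ⟨w₁, hw₁⟩ := LinearMap.lTensor_surjective N hD' (j.lTensor N w₀)
    refine ⟨(K.gr (i + 1)).subtype.lTensor N w₁, ⟨w₁, rfl⟩, ?_⟩
    change K.D.lTensor N ((K.gr (i + 1)).subtype.lTensor N w₁) = a • z₁
    rw [← LinearMap.lTensor_comp_apply]
    have e1 : K.D ∘ₗ (K.gr (i + 1)).subtype = (K.B i).subtype ∘ₗ D' := rfl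
    rw [e1, LinearMap.lTensor_comp_apply, hw₁, ← LinearMap.lTensor_comp_apply]
    have e2 : (K.B i).subtype ∘ₗ j = sub ∘ₗ (LinearMap.ker Di).subtype := rfl
    rw [e2, LinearMap.lTensor_comp_apply, hw₀, map_smul, hz₀]
  -- claim 2
  have c2 : ∀ a : A, a • (tens N K).cls i z = 0 → a • z' = 0 := by
    intro a ha
    rw [← map_smul, GCx.cls_eq_zero] at ha
    obtain ⟨_, ⟨w₁, rfl⟩, hw⟩ := ha
    replace hw : K.D.lTensor N ((K.gr (i + 1)).subtype.lTensor N w₁) = a • z₁ := hw
    let D'' : K.gr (i + 1) →ₗ[A] K.gr i :=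
      { toFun := fun x => ⟨K.D x.1, (K.B_le_Z i ⟨x.1, x.2, rfl⟩).1⟩
        map_add' := fun x y => Subtype.ext (map_add K.D _ _)
        map_smul' := fun c x => Subtype.ext (map_smul K.D _ _) }
    have e1 : K.D ∘ₗ (K.gr (i + 1)).subtype = sub ∘ₗ D'' := rfl
    rw [← LinearMap.lTensor_comp_apply, e1, LinearMap.lTensor_comp_apply, ← hz₀, ← map_smul] at hw
    have h3 := hspl.inj N i hw
    rw [hz', ← map_smul, ← h3, ← LinearMap.lTensor_comp_apply]
    have e2 : Di ∘ₗ D'' = 0 := by
      ext x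
      exact K.DD x.1
    rw [e2, LinearMap.lTensor_zero, LinearMap.zero_apply]
  have h4 : Λ.L (Submodule.span A {z'}) = 0 :=
    null_of_lTensor F i0 hfl hN ((K.gr i).map K.D).subtype (Submodule.subtype_injective _) hK z' h1
      (fun k => by
        obtain ⟨m, hm⟩ := hz k
        exact ⟨m, c2 _ hm⟩)
  rw [L_span_eq] at h4 ⊢
  have h5 : LinearMap.ker (LinearMap.toSpanSingleton A _ ((tens N K).cls i z)) =
      LinearMap.ker (LinearMap.toSpanSingleton A _ z') := by
    ext a
    rw [LinearMap.mem_ker, LinearMap.mem_ker, LinearMap.toSpanSingleton_apply,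
      LinearMap.toSpanSingleton_apply]
    exact ⟨c2 a, c1 a⟩
  rw [h5]
  exact h4

/-- Koszul homology of `N ⊗ C` -/
theorem kh_tensor_null (F : FactN Λ s μ) (hc : ContOn Λ s) (i0 : κ)
    (hfl : ∀ n : ℕ, FlatQ A (B := Ω) (Ideal.span {s i0 ^ n})) (hN : Fac (s i0) μ N)
    (l : List A) (C : Type u) [AddCommGroup C] [Module A C] (hC : ∀ c : C, s i0 • c = 0)
    (hs : ∀ k, s k ∈ l ∨ ∀ c : C, s k • c = 0)
    (hreg : RingTheory.Sequence.IsWeaklyRegular C l) (i : ℤ) (hi : 1 ≤ i) :
    kh Λ l (N ⊗[A] C) i = 0 := by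
  obtain ⟨φ⟩ := tensKos N l C
  have hnh : ∀ k, s k ∈ (tens N (kos l C)).NHI := by
    intro k
    have h1 : s k ∈ (kos l (N ⊗[A] C)).NHI := by
      refine span_le_NHI (N ⊗[A] C) l ?_
      rcases hs k with h | h
      · exact Ideal.mem_sup_left (Ideal.subset_span h)
      · refine Ideal.mem_sup_right (Module.mem_annihilator.2 fun x => ?_)
        induction x with
        | zero => exact smul_zero _
        | add x y hx hy => rw [smul_add, hx, hy, add_zero]
        | tmul n c => rw [← TensorProduct.tmul_smul, h, TensorProduct.tmul_zero]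
    exact GCx.Iso.NH φ.symm h1
  have htors : Tors s ((tens N (kos l C)).H i) := fun x k =>
    ⟨1, by rw [pow_one]; exact GCx.NH.smul_H (hnh k) i x⟩
  change (kos l (N ⊗[A] C)).h Λ i = 0
  rw [← φ.h_eq]
  change Λ.L ((tens N (kos l C)).H i) = 0
  rw [hc.eq_zero_iff htors]
  intro x
  obtain ⟨z, rfl⟩ := (tens N (kos l C)).cls_surj i x
  refine null_cls F i0 hfl hN (kos l C) (Spl.kos l C) (fun v => ⟨1, ?_⟩) i
    (Z_le_B_of_regular l C hreg i hi) z (fun k => htors _ k)
  rw [pow_one]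
  -- `s i0` kills the total module
  have key : ∀ (l : List A) (v : (kos l C).T), s i0 • v = 0 := by
    intro l
    induction l with
    | nil => exact hC
    | cons a l ih =>
      rintro ⟨v, w⟩
      exact Prod.ext (ih v) (ih w)
  exact key l v

/-- **(KOS0)**: `H_i(p, l; T)` is null for `i ≥ 1`, `p = s i0` regular on `T`, `l` weakly regular
on `A / p`. -/
theorem kos0 (F : FactN Λ s μ) (hc : ContOn Λ s) (i0 : κ)
    (hfl : ∀ n : ℕ, FlatQ A (B := Ω) (Ideal.span {s i0 ^ n})) (hN : Fac (s i0) μ N)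
    (hp : ∀ x : N, s i0 • x = 0 → x = 0) (l : List A) (hs : ∀ k, s k = s i0 ∨ s k ∈ l)
    (hreg : RingTheory.Sequence.IsWeaklyRegular (A ⧸ Ideal.span {s i0}) l) (i : ℤ) (hi : 1 ≤ i) :
    kh Λ (s i0 :: l) N i = 0 := by
  have hC : ∀ c : A ⧸ Ideal.span {s i0}, s i0 • c = 0 := by
    intro c
    rw [Algebra.smul_def]
    have : algebraMap A (A ⧸ Ideal.span {s i0}) (s i0) = 0 :=
      Ideal.Quotient.eq_zero_iff_mem.2 (Ideal.mem_span_singleton_self _)
    rw [this, zero_mul]
  rw [← kh_tensor_null F hc i0 hfl hN l (A ⧸ Ideal.span {s i0}) hC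
    (fun k => (hs k).symm.imp id fun h => by rw [h]; exact hC) hreg i hi]
  let g : N →ₗ[A] N ⊗[A] (A ⧸ Ideal.span {s i0}) := (TensorProduct.mk A N _).flip 1
  have hg : ∀ x, g x = x ⊗ₜ 1 := fun x => rfl
  let e := TensorProduct.tensorQuotEquivQuotSMul N (Ideal.span {s i0})
  have he : ∀ x, e (g x) = Submodule.Quotient.mk x := by
    intro x
    rw [hg]
    exact TensorProduct.tensorQuotEquivQuotSMul_tmul_mk (I := Ideal.span {s i0}) x 1 |>.trans
      (by rw [one_smul])
  refine LenWorld.kh_cons_regular Λ (s i0) l N _ g ?_ hp ?_ ?_ i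
  · intro y
    obtain ⟨x, hx⟩ := Submodule.Quotient.mk_surjective _ (e y)
    exact ⟨x, e.injective (by rw [he, hx])⟩
  · intro x
    rw [hg, TensorProduct.smul_tmul, hC, TensorProduct.tmul_zero]
  · intro x hx
    have h1 := he x
    rw [hx, map_zero] at h1
    have h2 := (Submodule.Quotient.mk_eq_zero _).1 h1.symm
    rw [Submodule.ideal_span_singleton_smul] at h2
    obtain ⟨y, -, hy⟩ := (Submodule.mem_smul_pointwise_iff_exists _ _ _).1 h2
    exact ⟨y, hy⟩

end main

end Crest.Agent.R188.TowN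
end

-- ▼ part R188/TowNul4
section

set_option autoImplicit false
set_option linter.unusedSectionVars false

namespace Crest.Agent.R188.TowN

open scoped ENNReal TensorProduct Pointwise
open Crest.Agent.R183 Crest.Agent.R183.BInf Crest.Agent.R183.Om Crest.Agent.R188.Tow
  Crest.Agent.R188.TowI Crest.Agent.R188.Tring Crest.Agent.R188.Trk Crest.Agent.R188.KosG
open RingTheory.Sequence

section

variable {p : ℕ} [hpr : Fact p.Prime]
variable {d : ℕ} {B : Type} [CommRing B] [IsNoetherianRing B] [IsLocalRing B]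
variable (t : Fin d → B) (hp : 0 < p)
variable {A : Type} [CommRing A] [Algebra (BInf p t) A] [Algebra B A]
  [IsScalarTower B (BInf p t) A]

theorem tA_i0 {i0 : Fin d} (hP : Par p t i0) : tA p t A i0 = (p : A) := by
  rw [tA, hP.eq, map_natCast, map_natCast]

/-- **(DEC)** for the integral closures `T_L` -/
theorem hypDEC [IsDomain A] [IsIntegrallyClosed A] {F K : Type} [Field F] [Field K] [Algebra A F]
    [IsFractionRing A F] [Algebra F K] [Algebra A K] [IsScalarTower A F K]
    {i0 : Fin d} (hP : Par p t i0) {ϖ : ℕ → A} (M₀ : Env.Model p A ϖ) (hCIC : Cic.CIC A)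
    (hfac : ∀ a : A, a ≠ 0 → ∃ (c : A) (k : ℕ) (D : A), a * c = (p : A) ^ k * D ∧
      RegMod D (p : A))
    (hfact : ∀ (T : Type) [CommRing T] [Algebra A T] (H : Set (T →ₐ[A] T))
      (M : AlmSplit p A T ϖ H), FactN (LA p t hp A) (tA p t A) M.mu) :
    HypDEC A F K (tA p t A) (LA p t hp A) := by
  intro L V _ _ _ _ hV
  obtain ⟨M⟩ := nonempty_almSplit (F := F) (L := L) M₀ hCIC hfac
  have hs : tA p t A i0 = (p : A) := tA_i0 t hP
  refine dec_null (hfact _ _ M) (contOn_LA p t hp) i0 (fun n => by rw [hs]; exact M.flat n)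
    (H := galH A F L) (by rw [hs]; exact M.sep) ?_ hV
  intro g g0 hg
  refine ⟨((g0⁻¹ * g).restrictScalars A).mapIntegralClosure, ⟨g0⁻¹ * g, fun h => hg ?_, rfl⟩, ?_⟩
  · exact (inv_mul_eq_one.1 h).symm
  · refine AlgHom.ext fun x => Subtype.ext ?_
    change (g (x : L) : L) = g0 ((g0⁻¹ * g) (x : L))
    rw [AlgEquiv.mul_apply]
    exact (g0.apply_symm_apply _).symm

variable (hc : Om.IsCompl (p : BInf p t) (algebraMap (BInf p t) A))
include hc

/-- the images of a weakly regular sequence `p, l` of `B` in `A / p` -/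
theorem regular_quot (l : List B) (hreg : IsWeaklyRegular B ((p : B) :: l)) :
    IsWeaklyRegular (A ⧸ Ideal.span {(p : A)}) (l.map (algebraMap B A)) := by
  have h1 : IsWeaklyRegular (BInf p t) (((p : B) :: l).map (algebraMap B (BInf p t))) :=
    hreg.of_flat
  rw [List.map_cons, map_natCast, isWeaklyRegular_cons_iff] at h1
  have h2 := h1.2
  -- `BInf / p ≅ A / p`
  let f : BInf p t →ₗ[BInf p t] (A ⧸ Ideal.span {(p : A)}) :=
    Algebra.linearMap (BInf p t) (A ⧸ Ideal.span {(p : A)})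
  have hf : ∀ x, f x = Ideal.Quotient.mk _ (algebraMap (BInf p t) A x) := by
    intro x
    exact IsScalarTower.algebraMap_apply (BInf p t) A (A ⧸ Ideal.span {(p : A)}) x
  have hp0 : algebraMap (BInf p t) A (p : BInf p t) = (p : A) := map_natCast _ _
  have hs : Function.Surjective f := by
    intro y
    obtain ⟨a, rfl⟩ := Ideal.Quotient.mk_surjective y
    obtain ⟨b, hb⟩ := hc.dense 1 a
    refine ⟨b, ?_⟩
    rw [hf, Ideal.Quotient.eq, Ideal.mem_span_singleton, ← dvd_neg, neg_sub, ← hp0]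
    rwa [pow_one] at hb
  have hk : (p : BInf p t) • (⊤ : Submodule (BInf p t) (BInf p t)) = LinearMap.ker f := by
    ext x
    rw [LinearMap.mem_ker, hf, Ideal.Quotient.eq_zero_iff_mem, Ideal.mem_span_singleton]
    constructor
    · intro hx
      obtain ⟨y, -, rfl⟩ := (Submodule.mem_smul_pointwise_iff_exists _ _ _).1 hx
      rw [smul_eq_mul, map_mul, hp0]
      exact dvd_mul_right _ _
    · intro hx
      have h3 := hc.sat 1 x (by rw [pow_one, hp0]; exact hx)
      rw [pow_one] at h3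
      obtain ⟨y, rfl⟩ := h3
      exact Submodule.smul_mem_pointwise_smul _ _ _ trivial
  let e : QuotSMulTop (p : BInf p t) (BInf p t) ≃ₗ[BInf p t] (A ⧸ Ideal.span {(p : A)}) :=
    (Submodule.quotEquivOfEq _ _ hk).trans (f.quotKerEquivOfSurjective hs)
  have h4 : IsWeaklyRegular (A ⧸ Ideal.span {(p : A)}) (l.map (algebraMap B (BInf p t))) :=
    (e.isWeaklyRegular_congr _).1 h2
  have h5 := (isWeaklyRegular_map_algebraMap_iff (M := A ⧸ Ideal.span {(p : A)})
    (R := BInf p t) (S := A) (l.map (algebraMap B (BInf p t)))).2 h4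
  rw [List.map_map] at h5
  have h6 : (algebraMap (BInf p t) A : BInf p t → A) ∘ (algebraMap B (BInf p t)) =
      algebraMap B A := by
    funext b
    exact (IsScalarTower.algebraMap_apply B (BInf p t) A b).symm
  rwa [h6] at h5

end

section zero

variable {p : ℕ} [hpr : Fact p.Prime]
variable {n : ℕ} {B : Type} [CommRing B] [IsNoetherianRing B] [IsLocalRing B]
variable (t : Fin (n + 1) → B) (hp : 0 < p)
variable {A : Type} [CommRing A] [Algebra (BInf p t) A] [Algebra B A]
  [IsScalarTower B (BInf p t) A]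
variable (hc : Om.IsCompl (p : BInf p t) (algebraMap (BInf p t) A))
include hc

/-- **(KOS0)** for the ring of an almost splitting -/
theorem kos0_almSplit (hP : Par p t 0) (hreg : IsWeaklyRegular B (List.ofFn t))
    {T : Type} [CommRing T] [Algebra A T] (hT : ∀ x : T, (p : T) * x = 0 → x = 0)
    {ϖ : ℕ → A} {H : Set (T →ₐ[A] T)} (M : AlmSplit p A T ϖ H)
    (hfact : FactN (LA p t hp A) (tA p t A) M.mu) (i : ℤ) (hi : 1 ≤ i) :
    kh (LA p t hp A) (List.ofFn (tA p t A)) T i = 0 := by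
  have hs : tA p t A 0 = (p : A) := tA_i0 t hP
  rw [List.ofFn_succ] at hreg ⊢
  refine kos0 hfact (contOn_LA p t hp) 0 (fun n => by rw [hs]; exact M.flat n)
    (by rw [hs]; exact M.facN) ?_ (List.ofFn fun j : Fin n => tA p t A j.succ) ?_ ?_ i hi
  · intro x hx
    rw [hs, Algebra.smul_def, map_natCast] at hx
    exact hT x hx
  · intro k
    refine Fin.cases (Or.inl rfl) (fun j => Or.inr ?_) k
    exact (List.mem_ofFn' _ _).2 ⟨j, rfl⟩
  · rw [hs]
    rw [hP.eq] at hreg
    have h1 := regular_quot t hc _ hreg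
    rw [List.map_ofFn] at h1
    have h2 : (algebraMap B A : B → A) ∘ (fun j : Fin n => t j.succ) =
        fun j : Fin n => tA p t A j.succ := by
      funext j
      exact (IsScalarTower.algebraMap_apply B (BInf p t) A _)
    rwa [h2] at h1


end zero

section Witt

open IsLocalRing

variable (n p : ℕ) [hp : Fact p.Prime] (K : Type) [Field K] [CharP K p] [PerfectRing K p]

/-- `(p, X_1, …, X_n)` is weakly regular on `W(K)[[X]]` -/
theorem isWeaklyRegular_tb :
    IsWeaklyRegular (MvPowerSeries (Fin n) (WittVector p K)) (List.ofFn (tb n p (WittVector p K))) := by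
  have hregW : IsRegularLocalRing (WittVector p K) :=
    (Cohen.isCohen_witt p K).isRegularLocalRing
  refine PerfB.isWeaklyRegular_of_ofList ?_ ?_
  · have h1 : ringKrullDim (WittVector p K) = 1 :=
      IsDiscreteValuationRing.ringKrullDim_eq_one _
    rw [List.length_ofFn, Cohen.ringKrullDim_mvPowerSeries, h1, add_comm]
    rfl
  · rw [maximalIdeal_tb, Ideal.ofList]
    congr 1
    ext x
    simp only [List.mem_ofFn, Set.mem_range, Set.mem_ofPred_eq]

end Witt

end Crest.Agent.R188.TowN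
end

-- ▼ part R183/MixReg
section

set_option autoImplicit false
set_option linter.unusedSectionVars false

namespace Crest.Agent.R183.MixReg

open Crest.Agent.R183.Glue Crest.Agent.R183.W Crest.Agent.R183.Om Crest.Agent.R183.CoreM

section

variable {n : ℕ} {R : Type*} [CommRing R]

local notation "PS" => MvPowerSeries (Fin n) R

/-- membership in the ideal generated by `X_i^k`, `i ∈ l`, and a constant `a`. -/
theorem mem_span_X_pow_append_iff (k : ℕ) (l : List (Fin n)) (a : R) (f : PS) :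
    f ∈ Ideal.span {y : PS | y ∈ l.map (fun i => (MvPowerSeries.X i : PS) ^ k) ++
        [MvPowerSeries.C a]} ↔
      ∀ m : Fin n →₀ ℕ, (∀ i ∈ l, m i < k) → a ∣ MvPowerSeries.coeff m f := by
  classical
  have hset : {y : PS | y ∈ l.map (fun i => (MvPowerSeries.X i : PS) ^ k) ++
      [MvPowerSeries.C a]} = {y : PS | y ∈ l.map (fun i => (MvPowerSeries.X i : PS) ^ k)} ∪
        {MvPowerSeries.C a} := by
    ext y
    simp only [List.mem_append, List.mem_singleton, Set.mem_ofPred_eq, Set.mem_union,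
      Set.mem_singleton_iff]
  rw [hset, Ideal.span_union, Submodule.mem_sup]
  constructor
  · rintro ⟨f1, h1, f2, h2, rfl⟩ m hm
    rw [PC.mem_span_X_pow_iff] at h1
    rw [Ideal.mem_span_singleton'] at h2
    obtain ⟨c, rfl⟩ := h2
    rw [map_add, h1 m hm, zero_add, mul_comm, MvPowerSeries.coeff_C_mul]
    exact dvd_mul_right _ _
  · intro h
    let g : PS := fun m => if hm : (∀ i ∈ l, m i < k) then (h m hm).choose else 0
    have hg : ∀ m (hm : ∀ i ∈ l, m i < k), MvPowerSeries.coeff m f =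
        a * MvPowerSeries.coeff m g := by
      intro m hm
      have e : MvPowerSeries.coeff m g = (h m hm).choose := by
        show (if hm : (∀ i ∈ l, m i < k) then (h m hm).choose else 0) = _
        rw [dif_pos hm]
      rw [e]
      exact (h m hm).choose_spec
    refine ⟨f - MvPowerSeries.C a * g, ?_, MvPowerSeries.C a * g, ?_, by ring⟩
    · rw [PC.mem_span_X_pow_iff]
      intro m hm
      rw [map_sub, MvPowerSeries.coeff_C_mul, hg m hm, sub_self]
    · exact Ideal.mul_mem_right _ _ (Ideal.mem_span_singleton_self _)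




end

section Witt

variable (p : ℕ) [hp : Fact p.Prime] (K : Type*) [Field K] [CharP K p] [PerfectRing K p] (m : ℕ)


end Witt

section Boo

variable (p : ℕ) [hp : Fact p.Prime] (K : Type*) [Field K] [CharP K p] [PerfectRing K p] (m : ℕ)



end Boo

end Crest.Agent.R183.MixReg
end

-- ▼ part R188/Trk6
section

/-!
# R188 (helper645), block Trk, part 6: the base `W(K)[[X_1..X_n]]`: `Par`, growth.
-/

set_option autoImplicit false
set_option linter.dupNamespace false
set_option linter.unusedSectionVars false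

namespace Crest.Agent.R188.Trk

open scoped ENNReal TensorProduct
open Crest.Agent.R183 Crest.Agent.R183.BInf Crest.Agent.R188.Tow IsLocalRing

universe u v w

section Witt

variable (n p : ℕ) [hp : Fact p.Prime] (K : Type u) [Field K] [CharP K p] [PerfectRing K p]

theorem reg_p_witt (x : WittVector p K) (hx : (p : WittVector p K) * x = 0) : x = 0 :=
  Amp.p_cancel (by rw [hx, mul_zero])

theorem length_witt (N : ℕ) :
    Module.length (WittVector p K) (WittVector p K ⧸ Ideal.span {(p : WittVector p K) ^ N}) =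
      N := by
  have h1 : Ring.ord (WittVector p K) (p : WittVector p K) = 1 := by
    change Module.length (WittVector p K) (WittVector p K ⧸ Ideal.span {(p : WittVector p K)}) = 1
    rw [← Cohen.maximalIdeal_witt, Module.length_eq_one_iff]
    exact (isSimpleModule_iff_quot_maximal).mpr
      ⟨maximalIdeal (WittVector p K), inferInstance, ⟨LinearEquiv.refl _ _⟩⟩
  have h2 : (p : WittVector p K) ∈ nonZeroDivisors (WittVector p K) := by
    rw [mem_nonZeroDivisors_iff]
    exact ⟨fun x hx => reg_p_witt p K x hx,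
      fun x hx => reg_p_witt p K x (by rwa [mul_comm] at hx)⟩
  have h3 := Ring.ord_pow h2 N
  rw [h1] at h3
  change Ring.ord (WittVector p K) ((p : WittVector p K) ^ N) = N
  rw [h3]
  simp

/-- membership in `(p^N, X^N)` -/
theorem mem_tb_pow (N : ℕ) (f : MvPowerSeries (Fin n) (WittVector p K)) :
    f ∈ Ideal.span (Set.range fun i => tb n p (WittVector p K) i ^ N) ↔
      ∀ m : Fin n →₀ ℕ, (∀ i, m i < N) → (p : WittVector p K) ^ N ∣ MvPowerSeries.coeff m f := by
  have h := MixReg.mem_span_X_pow_append_iff (n := n) N (List.finRange n)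
    ((p : WittVector p K) ^ N) f
  have hset : {y : MvPowerSeries (Fin n) (WittVector p K) | y ∈ (List.finRange n).map
      (fun i => (MvPowerSeries.X i : MvPowerSeries (Fin n) (WittVector p K)) ^ N) ++
        [MvPowerSeries.C ((p : WittVector p K) ^ N)]} =
      Set.range fun i => tb n p (WittVector p K) i ^ N := by
    ext y
    simp only [List.mem_append, List.mem_map, List.mem_finRange, true_and, List.mem_singleton,
      Set.mem_ofPred_eq, Set.mem_range]
    constructor
    · rintro (⟨i, rfl⟩ | rfl)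
      · exact ⟨i.succ, rfl⟩
      · refine ⟨0, ?_⟩
        change (p : MvPowerSeries (Fin n) (WittVector p K)) ^ N = _
        rw [map_pow, map_natCast]
    · rintro ⟨i, rfl⟩
      refine Fin.cases ?_ (fun i => ?_) i
      · right
        change (p : MvPowerSeries (Fin n) (WittVector p K)) ^ N = _
        rw [map_pow, map_natCast]
      · exact Or.inl ⟨i, rfl⟩
  rw [hset] at h
  rw [h]
  constructor
  · intro h1 m hm
    exact h1 m fun i _ => hm i
  · intro h1 m hm
    exact h1 m fun i => hm i (List.mem_finRange i)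

/-- **`Par` for `W(K)[[X_1..X_n]]`** -/
theorem par_witt : Par p (tb n p (WittVector p K)) 0 where
  max := maximalIdeal_tb n p K
  eq := tb_zero
  len := by
    intro N
    classical
    let W := WittVector p K
    let PS := MvPowerSeries (Fin n) W
    let I : Ideal PS := Ideal.span (Set.range fun i => tb n p W i ^ N)
    have hres : ∀ x : PS, ∃ a : W, x - algebraMap W PS a ∈ maximalIdeal PS := by
      intro x
      refine ⟨MvPowerSeries.constantCoeff x, ?_⟩
      rw [mem_maximalIdeal, mem_nonunits_iff, MvPowerSeries.isUnit_iff_constantCoeff]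
      have h1 : algebraMap W PS (MvPowerSeries.constantCoeff x) =
        MvPowerSeries.C (MvPowerSeries.constantCoeff x) := rfl
      rw [h1, map_sub, MvPowerSeries.constantCoeff_C, sub_self]
      exact not_isUnit_zero
    have h1 : Module.length W (PS ⧸ I) = Module.length PS (PS ⧸ I) :=
      Lam.length_eq_of_isLocalRing hres (PS ⧸ I)
    let ex : (Fin n → Fin N) → (Fin n →₀ ℕ) := fun m => Finsupp.equivFunOnFinite.symm
      fun i => (m i : ℕ)
    let g : PS →ₗ[W] ((Fin n → Fin N) → W ⧸ Ideal.span {(p : W) ^ N}) :=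
      LinearMap.pi fun m => (Submodule.mkQ (Ideal.span {(p : W) ^ N})) ∘ₗ
        MvPowerSeries.coeff (ex m)
    have hgs : Function.Surjective g := by
      intro c
      choose c' hc' using fun m => (Submodule.mkQ_surjective (Ideal.span {(p : W) ^ N})) (c m)
      let f : PS := fun m => if hm : ∀ i, m i < N then c' (fun i => ⟨m i, hm i⟩) else 0
      refine ⟨f, ?_⟩
      funext m
      change Submodule.mkQ _ (MvPowerSeries.coeff (ex m) f) = _
      rw [← hc' m]
      congr 1
      have hm : ∀ i, (ex m) i < N := fun i => (m i).2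
      exact dif_pos hm
    have hgk : LinearMap.ker g = I.restrictScalars W := by
      ext f
      rw [LinearMap.mem_ker, Submodule.restrictScalars_mem, mem_tb_pow]
      constructor
      · intro h m hm
        have h2 := congrFun h (fun i => ⟨m i, hm i⟩)
        change Submodule.mkQ _ (MvPowerSeries.coeff (ex fun i => ⟨m i, hm i⟩) f) = 0 at h2
        rw [Submodule.mkQ_apply, Submodule.Quotient.mk_eq_zero, Ideal.mem_span_singleton] at h2
        have h3 : ex (fun i => ⟨m i, hm i⟩) = m := by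
          ext i; rfl
        rwa [h3] at h2
      · intro h
        funext m
        change Submodule.mkQ _ (MvPowerSeries.coeff (ex m) f) = 0
        rw [Submodule.mkQ_apply, Submodule.Quotient.mk_eq_zero, Ideal.mem_span_singleton]
        exact h (ex m) fun i => (m i).2
    have e : (PS ⧸ I) ≃ₗ[W] ((Fin n → Fin N) → W ⧸ Ideal.span {(p : W) ^ N}) :=
      ((Submodule.Quotient.restrictScalarsEquiv W I).symm.trans
        (Submodule.quotEquivOfEq _ _ hgk.symm)).trans (g.quotKerEquivOfSurjective hgs)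
    change Module.length PS (PS ⧸ I) = _
    rw [← h1, e.length_eq, Module.length_pi, length_witt, ENat.card_eq_coe_fintype_card,
      Fintype.card_fun, Fintype.card_fin, Fintype.card_fin, pow_succ]
    push_cast
    rfl

end Witt

section Calc

variable {A : Type u} [CommRing A] (Λ : AddLen.{u, u} A)

theorem L_quot_anti {I J : Ideal A} (h : I ≤ J) : Λ.L (A ⧸ J) ≤ Λ.L (A ⧸ I) :=
  Λ.L_le_of_surjective (Submodule.factor h) (Submodule.factor_surjective h)

/-- `L(A/I) ≤ L(A/(I : a)) + L(A/(I, a))` in the form: `I'' a ≤ I`. -/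
theorem L_colon_le (I I'' : Ideal A) (a : A) (h : ∀ x ∈ I'', a * x ∈ I) :
    Λ.L (A ⧸ I) ≤ Λ.L (A ⧸ I'') + Λ.L (A ⧸ (I ⊔ Ideal.span {a})) := by
  have h1 : I'' ≤ Submodule.comap (LinearMap.mulLeft A a) I := fun x hx => h x hx
  let f : (A ⧸ I'') →ₗ[A] (A ⧸ I) := Submodule.mapQ I'' I (LinearMap.mulLeft A a) h1
  let g : (A ⧸ I) →ₗ[A] (A ⧸ (I ⊔ Ideal.span {a})) := Submodule.factor le_sup_left
  refine Λ.L_le_add_of_exact f g ?_
  intro y
  obtain ⟨y, rfl⟩ := Submodule.mkQ_surjective _ y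
  constructor
  · intro hy
    change (Submodule.mkQ (I ⊔ Ideal.span {a})) y = 0 at hy
    rw [Submodule.mkQ_apply, Submodule.Quotient.mk_eq_zero] at hy
    obtain ⟨u, hu, v, hv, rfl⟩ := Submodule.mem_sup.mp hy
    obtain ⟨c, rfl⟩ := Ideal.mem_span_singleton'.mp hv
    refine ⟨Submodule.mkQ I'' c, ?_⟩
    change Submodule.mkQ I (a * c) = Submodule.mkQ I (u + c * a)
    rw [← sub_eq_zero, ← map_sub, Submodule.mkQ_apply, Submodule.Quotient.mk_eq_zero]
    have : a * c - (u + c * a) = -u := by ring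
    rw [this]
    exact I.neg_mem hu
  · rintro ⟨x, hx⟩
    obtain ⟨x, rfl⟩ := Submodule.mkQ_surjective _ x
    rw [← hx]
    change (Submodule.mkQ (I ⊔ Ideal.span {a})) (a * x) = 0
    rw [Submodule.mkQ_apply, Submodule.Quotient.mk_eq_zero]
    exact Ideal.mem_sup_right (Ideal.mem_span_singleton'.mpr ⟨x, mul_comm x a⟩)

theorem L_mul_le (I : Ideal A) (a b : A) :
    Λ.L (A ⧸ (I ⊔ Ideal.span {a * b})) ≤
      Λ.L (A ⧸ (I ⊔ Ideal.span {b})) + Λ.L (A ⧸ (I ⊔ Ideal.span {a})) := by
  have h1 := L_colon_le Λ (I ⊔ Ideal.span {a * b}) (I ⊔ Ideal.span {b}) a (by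
    intro x hx
    obtain ⟨u, hu, v, hv, rfl⟩ := Submodule.mem_sup.mp hx
    obtain ⟨c, rfl⟩ := Ideal.mem_span_singleton'.mp hv
    rw [mul_add]
    refine Ideal.add_mem _ (Ideal.mem_sup_left (I.mul_mem_left _ hu)) (Ideal.mem_sup_right ?_)
    rw [Ideal.mem_span_singleton']
    exact ⟨c, by ring⟩)
  refine h1.trans (add_le_add le_rfl (L_quot_anti Λ ?_))
  exact sup_le_sup_right le_sup_left _

theorem L_pow_le (I : Ideal A) (a : A) (k : ℕ) :
    Λ.L (A ⧸ (I ⊔ Ideal.span {a ^ k})) ≤ k * Λ.L (A ⧸ (I ⊔ Ideal.span {a})) := by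
  induction k with
  | zero =>
    have : (I ⊔ Ideal.span {a ^ 0}) = ⊤ := by rw [pow_zero, Ideal.span_singleton_one, sup_top_eq]
    rw [this]
    have : Subsingleton (A ⧸ (⊤ : Ideal A)) := Ideal.Quotient.subsingleton_iff.2 rfl
    rw [Λ.L_subsingleton]
    exact zero_le
  | succ k ih =>
    rw [pow_succ']
    refine (L_mul_le Λ I a (a ^ k)).trans ?_
    push_cast
    rw [add_mul, one_mul]
    exact add_le_add ih le_rfl

/-- `L(A/I) ≤ k L(A/(I, a))` if `a^k ∈ I` -/
theorem L_le_pow (I : Ideal A) (a : A) (k : ℕ) (h : a ^ k ∈ I) :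
    Λ.L (A ⧸ I) ≤ k * Λ.L (A ⧸ (I ⊔ Ideal.span {a})) := by
  refine (L_quot_anti Λ ?_).trans (L_pow_le Λ I a k)
  exact sup_le le_rfl ((Ideal.span_singleton_le_iff_mem _).mpr h)

end Calc

section Gen

variable {d : ℕ} (p : ℕ) {B : Type u} [CommRing B] [IsNoetherianRing B] [IsLocalRing B]
variable (t : Fin d → B) (hp : 0 < p)
variable {A : Type u} [CommRing A] [Algebra (BInf p t) A] [Algebra B A]
  [IsScalarTower B (BInf p t) A]

/-- `Λ(A/IA) = ℓ(B/I)` -/
theorem LA_map (hc : Om.IsCompl (p : BInf p t) (algebraMap (BInf p t) A))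
    (hm : maximalIdeal B = Ideal.span (Set.range t)) (I : Ideal B) (k : ℕ)
    (hk : (p : B) ^ k ∈ I) :
    (LA p t hp A).L (A ⧸ I.map (algebraMap B A)) =
      ((Module.length B (B ⧸ I) : ℕ∞) : ℝ≥0∞) := by
  rw [LA_eq]
  have e := (Algebra.TensorProduct.quotIdealMapEquivTensorQuot A I).toLinearEquiv
  rw [(tower p t hp).lam_congr (e.restrictScalars (BInf p t))]
  refine lam_tensor_compl p t hp hc (fun i => ?_) _ k ?_
  · rw [hm]; exact Ideal.subset_span ⟨i, rfl⟩
  · intro y
    obtain ⟨y, rfl⟩ := Ideal.Quotient.mk_surjective y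
    have h2 : ((p : B) ^ k) • (Ideal.Quotient.mk I y) = Ideal.Quotient.mk _ ((p : B) ^ k * y) := rfl
    rw [h2, Ideal.Quotient.eq_zero_iff_mem]
    exact Ideal.mul_mem_right _ _ hk

end Gen

section Growth

variable (n p : ℕ) [hp : Fact p.Prime] (K : Type u) [Field K] [CharP K p] [PerfectRing K p]

local notation "BW" => MvPowerSeries (Fin n) (WittVector p K)
local notation "tW" => tb n p (WittVector p K)

theorem dim_BW : ringKrullDim BW = ((n + 1 : ℕ) : WithBot ℕ∞) := by
  have h1 : ringKrullDim (WittVector p K) = 1 :=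
    IsDiscreteValuationRing.ringKrullDim_eq_one _
  rw [Cohen.ringKrullDim_mvPowerSeries, h1, add_comm]
  rfl

theorem reg_p_BW (x : BW) (hx : (p : BW) * x = 0) : x = 0 := by
  exact (pbasis_witt n p K).reg x hx

/-- growth modulo `p` -/
theorem growth_p : ∃ C : ℕ, ∀ N : ℕ, 0 < N →
    Module.length BW (BW ⧸ (Ideal.span {(p : BW)} ⊔ Ideal.span (Set.range fun i => tW i ^ N))) ≤
      ((C * N ^ n : ℕ) : ℕ∞) := by
  obtain ⟨C, hC⟩ := HS.growth_quot_regular (R := BW) (p : BW) (by
    rw [mem_nonZeroDivisors_iff]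
    exact ⟨fun x hx => reg_p_BW n p K x hx,
      fun x hx => reg_p_BW n p K x (by rwa [mul_comm] at hx)⟩) 1 (n + 1) (dim_BW n p K) tW (t := 1)
    (by rw [pow_one, maximalIdeal_tb])
  refine ⟨C, fun N hN => ?_⟩
  have := hC N hN
  rwa [pow_one, Nat.add_sub_cancel] at this

/-- growth modulo `(p, D)` -/
theorem growth_pD (D : BW) (hD : ¬ (p : BW) ∣ D) : ∃ C : ℕ, ∀ N : ℕ, 0 < N →
    Module.length BW (BW ⧸ (Ideal.span {(p : BW)} ⊔ Ideal.span {D} ⊔
      Ideal.span (Set.range fun i => tW i ^ N))) * N ≤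
      ((C * N ^ n : ℕ) : ℕ∞) := by
  let R := MvPowerSeries (Fin n) K
  let φ : BW →+* R := MvPowerSeries.map (WittVector.constantCoeff (p := p) (R := K))
  have hk : ∀ x : WittVector p K, WittVector.constantCoeff x = 0 ↔ (p : WittVector p K) ∣ x :=
    fun x => Om.W_dvd_p_iff.symm
  have hs : Function.Surjective φ := BInf.map_surjective _ (by
    intro x
    exact ⟨WittVector.teichmuller p x, Om.constCoeff_teich x⟩)
  have hker : ∀ x : BW, φ x = 0 ↔ (p : BW) ∣ x := fun x =>
    (natCast_dvd_iff_map _ hk x).symm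
  have hD0 : φ D ≠ 0 := fun h => hD ((hker D).mp h)
  -- comparison of the lengths
  have hlen : ∀ N : ℕ, 0 < N → Module.length BW (BW ⧸ (Ideal.span {(p : BW)} ⊔ Ideal.span {D} ⊔
      Ideal.span (Set.range fun i => tW i ^ N))) ≤ Module.length R (R ⧸ (Ideal.span {φ D ^ 1} ⊔
        Ideal.span (Set.range fun i : Fin n => (MvPowerSeries.X i : R) ^ N))) := by
    intro N hN
    let _ : Algebra BW R := φ.toAlgebra
    set J : Ideal R := Ideal.span {φ D ^ 1} ⊔
        Ideal.span (Set.range fun i : Fin n => (MvPowerSeries.X i : R) ^ N) with hJ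
    set I : Ideal BW := Ideal.span {(p : BW)} ⊔ Ideal.span {D} ⊔
      Ideal.span (Set.range fun i => tW i ^ N) with hI
    have hJI : J.comap φ ≤ I := by
      have h1 : J = (Ideal.span {D} ⊔ Ideal.span (Set.range fun i : Fin n =>
          (MvPowerSeries.X i : BW) ^ N)).map φ := by
        rw [Ideal.map_sup, Ideal.map_span, Ideal.map_span, Set.image_singleton, hJ, pow_one,
          ← Set.range_comp]
        congr 3
        funext i
        rw [Function.comp_apply, map_pow]
        congr 1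
        exact (MvPowerSeries.map_X _ _).symm
      rw [h1, Ideal.comap_map_of_surjective' φ hs]
      refine sup_le (sup_le (le_sup_right.trans le_sup_left) ?_) ?_
      · refine le_trans ?_ le_sup_right
        rw [Ideal.span_le]
        rintro _ ⟨i, rfl⟩
        exact Ideal.subset_span ⟨i.succ, rfl⟩
      · intro x hx
        rw [RingHom.mem_ker, hker] at hx
        exact Ideal.mem_sup_left (Ideal.mem_sup_left (Ideal.mem_span_singleton.mpr hx))
    have h2 : Module.length BW (BW ⧸ I) ≤ Module.length BW (BW ⧸ J.comap φ) :=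
      Module.length_le_of_surjective (Submodule.factor hJI) (Submodule.factor_surjective hJI)
    refine h2.trans ?_
    have h3 : Module.length BW (R ⧸ J) = Module.length R (R ⧸ J) :=
      Lam.length_eq_of_same fun x => by
        obtain ⟨a, rfl⟩ := hs x
        exact ⟨a, fun m => (algebraMap_smul R a m)⟩
    rw [← h3]
    let g : BW →ₗ[BW] R ⧸ J := (Submodule.mkQ J).restrictScalars BW ∘ₗ Algebra.linearMap BW R
    have hg : ∀ x, g x = Submodule.mkQ J (φ x) := fun x => rfl
    have hgk : J.comap φ = LinearMap.ker g := by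
      ext x
      rw [LinearMap.mem_ker, hg, Submodule.mkQ_apply, Submodule.Quotient.mk_eq_zero]
      rfl
    refine Module.length_le_of_injective (Submodule.liftQ _ g hgk.le) ?_
    rw [← LinearMap.ker_eq_bot]
    exact Submodule.ker_liftQ_eq_bot _ _ _ hgk.ge
  rcases Nat.eq_zero_or_pos n with hn | hn
  · -- `n = 0`: `φ D` is a unit
    subst hn
    refine ⟨0, fun N hN => ?_⟩
    have hu : IsUnit (φ D) := by
      rw [MvPowerSeries.isUnit_iff_constantCoeff, isUnit_iff_ne_zero]
      intro h0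
      apply hD0
      ext m
      rw [map_zero]
      have : m = 0 := Subsingleton.elim _ _
      rw [this]
      exact h0
    have h1 := hlen N hN
    have h2 : Ideal.span {φ D ^ 1} = ⊤ := by
      rw [pow_one]; exact Ideal.span_singleton_eq_top.2 hu
    rw [h2, top_sup_eq] at h1
    have : Subsingleton (R ⧸ (⊤ : Ideal R)) := Ideal.Quotient.subsingleton_iff.2 rfl
    have h3 : Module.length R (R ⧸ (⊤ : Ideal R)) = 0 := Module.length_eq_zero
    rw [h3] at h1
    have h4 := le_antisymm h1 (zero_le)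
    rw [h4]
    simp
  · have hdim : ringKrullDim R = ((n : ℕ) : WithBot ℕ∞) := by
      rw [Cohen.ringKrullDim_mvPowerSeries, ringKrullDim_eq_zero_of_field, zero_add]
    obtain ⟨C, hC⟩ := HS.growth_quot_regular (R := R) (φ D)
      (mem_nonZeroDivisors_of_ne_zero hD0) 1 n hdim
      (fun i : Fin n => (MvPowerSeries.X i : R)) (t := 1) (by
        rw [pow_one, Cohen.maximalIdeal_mvPowerSeries, IsLocalRing.maximalIdeal_eq_bot,
          Ideal.map_bot, bot_sup_eq])
    refine ⟨C, fun N hN => ?_⟩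
    have h1 := (hlen N hN).trans (hC N hN)
    calc _ ≤ ((C * N ^ (n - 1) : ℕ) : ℕ∞) * N := mul_le_mul_left h1 _
      _ = ((C * N ^ n : ℕ) : ℕ∞) := by
        rw [← Nat.cast_mul, mul_assoc, ← pow_succ, Nat.sub_add_cancel hn]

end Growth

section Growth2

variable {n p : ℕ} [hp : Fact p.Prime] {K : Type u} [Field K] [CharP K p] [PerfectRing K p]

local notation "BX" => MvPowerSeries (Fin n) (WittVector p K)
local notation "tX" => tb n p (WittVector p K)

variable {A : Type u} [CommRing A] [Algebra (BInf p (tb n p (WittVector p K))) A]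
  [Algebra (MvPowerSeries (Fin n) (WittVector p K)) A]
  [IsScalarTower (MvPowerSeries (Fin n) (WittVector p K)) (BInf p (tb n p (WittVector p K))) A]
variable (hc : Om.IsCompl (p : BInf p (tb n p (WittVector p K)))
  (algebraMap (BInf p (tb n p (WittVector p K))) A))

local notation "ΛA" => LA p tX hp.out.pos A
local notation "ta" => tA p tX A

include hc in
/-- an element of `A` has a `p`-power in the image of `B` modulo `p` -/
theorem exists_pow_base (D : A) : ∃ (e : ℕ) (D₁ : BX), (p : A) ∣ D ^ p ^ e - algebraMap BX A D₁ := by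
  obtain ⟨x, hx⟩ := hc.dense 1 D
  rw [map_natCast, pow_one] at hx
  obtain ⟨e, he⟩ := exists_mem_SA p tX hp.out.pos x
  have key : ∀ (e : ℕ) (a : BInf p tX), a ∈ SA p tX hp.out.pos e →
      ∃ b : BX, (p : BInf p tX) ∣ a ^ p ^ e - algebraMap BX _ b := by
    intro e
    induction e with
    | zero =>
      intro a ha
      obtain ⟨c, hcc⟩ := exists_sum_level p tX hp.out.pos 0 a ha
      have h1 : ∃ b : BX, a = algebraMap BX _ b := by
        rw [hcc]
        refine ⟨∑ j, c j * ∏ i, tX i ^ ((j i : ℕ)), ?_⟩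
        rw [map_sum]
        refine Finset.sum_congr rfl fun j _ => ?_
        rw [ex_level_zero, mon_natG, map_mul]
        exact Algebra.smul_def (c j) (algebraMap BX (BInf p tX) _)
      obtain ⟨b, rfl⟩ := h1
      exact ⟨b, by rw [pow_zero, pow_one, sub_self]; exact dvd_zero _⟩
    | succ e ih =>
      intro a ha
      obtain ⟨a', ha', h1⟩ := Frb.exists_pow_mod tX e ha
      obtain ⟨b, hb⟩ := ih a' ha'
      refine ⟨b, ?_⟩
      have h2 : (p : BInf p tX) ∣ (a ^ p) ^ p ^ e - a' ^ p ^ e :=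
        h1.trans (sub_dvd_pow_sub_pow _ _ _)
      have h3 := dvd_add h2 hb
      rw [← pow_mul, ← pow_succ'] at h3
      convert h3 using 1
      ring
  obtain ⟨b, hb⟩ := key e x he
  refine ⟨e, b, ?_⟩
  have h1 : (p : A) ∣ D ^ p ^ e - (algebraMap (BInf p tX) A x) ^ p ^ e :=
    hx.trans (sub_dvd_pow_sub_pow _ _ _)
  have h2 : (p : A) ∣ (algebraMap (BInf p tX) A x) ^ p ^ e - algebraMap BX A b := by
    have := map_dvd (algebraMap (BInf p tX) A) hb
    rwa [map_natCast, map_sub, map_pow, ← IsScalarTower.algebraMap_apply] at this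
  have h3 := dvd_add h1 h2
  convert h3 using 1
  ring

theorem regMod_pow {R : Type*} [CommRing R] {D q : R} (h : Om.RegMod D q) (k : ℕ) :
    Om.RegMod (D ^ k) q := by
  induction k with
  | zero => intro x hx; simpa using hx
  | succ k ih =>
    intro x hx
    rw [pow_succ, mul_assoc] at hx
    exact h x (ih _ hx)

include hc in
/-- growth modulo `p` in `A` -/
theorem growthA_p : ∃ C : ℕ, ∀ N : ℕ, 0 < N → ∀ 𝔞 : Ideal A, (p : A) ∈ 𝔞 →
    (∀ i, ta i ^ N ∈ 𝔞) → (ΛA).L (A ⧸ 𝔞) ≤ C * (N : ℝ≥0∞) ^ n := by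
  obtain ⟨C, hC⟩ := growth_p n p K
  refine ⟨C, fun N hN 𝔞 hp𝔞 ht𝔞 => ?_⟩
  set I : Ideal BX := Ideal.span {(p : BX)} ⊔ Ideal.span (Set.range fun i => tX i ^ N) with hI
  have h1 : I.map (algebraMap BX A) ≤ 𝔞 := by
    rw [hI, Ideal.map_sup, span_tA_pow p tX, Ideal.map_span, Set.image_singleton, map_natCast]
    refine sup_le ((Ideal.span_singleton_le_iff_mem _).mpr hp𝔞) ?_
    rw [Ideal.span_le]
    rintro _ ⟨i, rfl⟩
    exact ht𝔞 i
  refine (L_quot_anti _ h1).trans ?_
  rw [LA_map p tX hp.out.pos hc (maximalIdeal_tb n p K) I 1 (by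
    rw [pow_one]; exact Ideal.mem_sup_left (Ideal.mem_span_singleton_self _))]
  refine (ENat.toENNReal_mono (hC N hN)).trans (le_of_eq ?_)
  push_cast
  rfl

include hc in
/-- growth modulo `(p, D)` in `A` -/
theorem growthA_pD (hpu : ¬ IsUnit (p : A)) (D : A) (hD : Om.RegMod D (p : A)) :
    ∃ C : ℕ, ∀ N : ℕ, 0 < N → ∀ 𝔞 : Ideal A, (p : A) ∈ 𝔞 → D ∈ 𝔞 →
    (∀ i, ta i ^ N ∈ 𝔞) → (ΛA).L (A ⧸ 𝔞) * N ≤ C * (N : ℝ≥0∞) ^ n := by
  obtain ⟨e, D₁, hD₁⟩ := exists_pow_base hc D
  have hne : ¬ (p : BX) ∣ D₁ := by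
    intro h
    have h1 : (p : A) ∣ algebraMap BX A D₁ := by
      have := map_dvd (algebraMap BX A) h
      rwa [map_natCast] at this
    have h2 : (p : A) ∣ D ^ p ^ e := by
      have := dvd_add hD₁ h1
      rwa [sub_add_cancel] at this
    have h3 : (p : A) ∣ 1 := regMod_pow hD (p ^ e) 1 (by rwa [mul_one])
    exact hpu (isUnit_of_dvd_one h3)
  obtain ⟨C, hC⟩ := growth_pD n p K D₁ hne
  refine ⟨C, fun N hN 𝔞 hp𝔞 hD𝔞 ht𝔞 => ?_⟩
  set I : Ideal BX := Ideal.span {(p : BX)} ⊔ Ideal.span {D₁} ⊔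
    Ideal.span (Set.range fun i => tX i ^ N) with hI
  have hD1 : algebraMap BX A D₁ ∈ 𝔞 := by
    obtain ⟨z, hz⟩ := hD₁
    have h1 : algebraMap BX A D₁ = D ^ p ^ e - p * z := by rw [← hz]; ring
    rw [h1]
    exact 𝔞.sub_mem (Ideal.pow_mem_of_mem _ hD𝔞 _ (Nat.pow_pos hp.out.pos))
      (𝔞.mul_mem_right _ hp𝔞)
  have h1 : I.map (algebraMap BX A) ≤ 𝔞 := by
    rw [hI, Ideal.map_sup, Ideal.map_sup, span_tA_pow p tX, Ideal.map_span, Set.image_singleton,
      map_natCast, Ideal.map_span, Set.image_singleton]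
    refine sup_le (sup_le ((Ideal.span_singleton_le_iff_mem _).mpr hp𝔞)
      ((Ideal.span_singleton_le_iff_mem _).mpr hD1)) ?_
    rw [Ideal.span_le]
    rintro _ ⟨i, rfl⟩
    exact ht𝔞 i
  refine (mul_le_mul_left (L_quot_anti _ h1) _).trans ?_
  rw [LA_map p tX hp.out.pos hc (maximalIdeal_tb n p K) I 1 (by
    rw [pow_one]; exact Ideal.mem_sup_left (Ideal.mem_sup_left (Ideal.mem_span_singleton_self _)))]
  have h2 := ENat.toENNReal_mono (hC N hN)
  push_cast at h2
  exact h2

/-- `V/σV` for `V = A/(t^N)` -/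
theorem L_QS_QN {A : Type u} [CommRing A] (Λ : AddLen.{u, u} A) {d : ℕ} (t : Fin d → A) (σ : A)
    (N : ℕ) : Λ.L (QS σ (QN t N)) ≤
      Λ.L (A ⧸ (Ideal.span (Set.range fun i => t i ^ N) ⊔ Ideal.span {σ})) := by
  let g : A →ₗ[A] QS σ (QN t N) := (Submodule.mkQ _) ∘ₗ (Submodule.mkQ _)
  have hg : Function.Surjective g :=
    (Submodule.mkQ_surjective _).comp (Submodule.mkQ_surjective _)
  have hk : (Ideal.span (Set.range fun i => t i ^ N) ⊔ Ideal.span {σ}) ≤ LinearMap.ker g := by
    refine sup_le ?_ ?_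
    · intro x hx
      rw [LinearMap.mem_ker, LinearMap.comp_apply]
      have : Submodule.mkQ (Ideal.span (Set.range fun i => t i ^ N)) x = 0 := by
        rw [Submodule.mkQ_apply, Submodule.Quotient.mk_eq_zero]; exact hx
      rw [this, map_zero]
    · rw [Ideal.span_singleton_le_iff_mem, LinearMap.mem_ker, LinearMap.comp_apply,
        Submodule.mkQ_apply, Submodule.Quotient.mk_eq_zero]
      refine ⟨Submodule.mkQ _ (1 : A), ?_⟩
      rw [LinearMap.lsmul_apply, ← map_smul, smul_eq_mul, mul_one]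
  refine Λ.L_le_of_surjective (Submodule.liftQ _ g hk) ?_
  rw [← LinearMap.range_eq_top, Submodule.range_liftQ]
  exact LinearMap.range_eq_top.mpr hg

include hc in
/-- **(GROW 3)**: growth for `σ = p^k D` -/
theorem growthA_sigma (hpu : ¬ IsUnit (p : A)) (D : A) (hD : Om.RegMod D (p : A)) (k : ℕ) :
    ∃ C : ℕ, ∀ N : ℕ, 0 < N →
      (ΛA).L (QS ((p : A) ^ k * D) (QN ta N)) * N ≤ C * (N : ℝ≥0∞) ^ (n + 1) := by
  obtain ⟨C1, hC1⟩ := growthA_p (K := K) hc
  obtain ⟨C2, hC2⟩ := growthA_pD hc hpu D hD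
  refine ⟨k * C1 + C2, fun N hN => ?_⟩
  set J : Ideal A := Ideal.span (Set.range fun i => ta i ^ N) with hJ
  have htJ : ∀ i, ta i ^ N ∈ J := fun i => Ideal.subset_span ⟨i, rfl⟩
  have hpJ : (p : A) ^ N ∈ J := by
    have h1 := htJ 0
    have h2 : ta 0 = (p : A) := by
      unfold tA
      rw [tb_zero, map_natCast, map_natCast]
    rwa [h2] at h1
  have h1 : (ΛA).L (QS ((p : A) ^ k * D) (QN ta N)) ≤
      (ΛA).L (A ⧸ (J ⊔ Ideal.span {D})) + k * (ΛA).L (A ⧸ (J ⊔ Ideal.span {(p : A)})) :=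
    (L_QS_QN _ _ _ _).trans ((L_mul_le _ _ _ _).trans (add_le_add le_rfl (L_pow_le _ _ _ _)))
  have h2 : (ΛA).L (A ⧸ (J ⊔ Ideal.span {D})) ≤
      N * (ΛA).L (A ⧸ (J ⊔ Ideal.span {D} ⊔ Ideal.span {(p : A)})) :=
    L_le_pow _ _ _ _ (Ideal.mem_sup_left hpJ)
  have h3 := hC1 N hN (J ⊔ Ideal.span {(p : A)})
    (Ideal.mem_sup_right (Ideal.mem_span_singleton_self _)) fun i => Ideal.mem_sup_left (htJ i)
  have h4 := hC2 N hN (J ⊔ Ideal.span {D} ⊔ Ideal.span {(p : A)})
    (Ideal.mem_sup_right (Ideal.mem_span_singleton_self _))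
    (Ideal.mem_sup_left (Ideal.mem_sup_right (Ideal.mem_span_singleton_self _)))
    fun i => Ideal.mem_sup_left (Ideal.mem_sup_left (htJ i))
  set X := (ΛA).L (A ⧸ (J ⊔ Ideal.span {(p : A)})) with hX
  set Y := (ΛA).L (A ⧸ (J ⊔ Ideal.span {D} ⊔ Ideal.span {(p : A)})) with hY
  calc _ ≤ (N * Y + k * X) * N := mul_le_mul_left (h1.trans (add_le_add h2 le_rfl)) _
    _ = N * (Y * N) + k * X * N := by ring
    _ ≤ N * (C2 * (N : ℝ≥0∞) ^ n) + k * (C1 * (N : ℝ≥0∞) ^ n) * N := by gcongr
    _ = ((k * C1 + C2 : ℕ) : ℝ≥0∞) * (N : ℝ≥0∞) ^ (n + 1) := by push_cast; ring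


end Growth2

end Crest.Agent.R188.Trk
end

-- ▼ part R188/Trk7
section

/-!
# R188 (helper645), block Trk, part 7: the small numbers (`LenNull.Small`).
-/

set_option autoImplicit false
set_option linter.dupNamespace false
set_option linter.unusedSectionVars false

namespace Crest.Agent.R188.Trk

open scoped ENNReal TensorProduct
open Crest.Agent.R183 Crest.Agent.R183.BInf Crest.Agent.R188.Tow IsLocalRing

universe u v w

section Small

variable {n p : ℕ} [hp : Fact p.Prime] {K : Type u} [Field K] [CharP K p] [PerfectRing K p]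

local notation "BX" => MvPowerSeries (Fin n) (WittVector p K)
local notation "tX" => tb n p (WittVector p K)

variable {A : Type u} [CommRing A] [Algebra (BInf p (tb n p (WittVector p K))) A]
  [Algebra (MvPowerSeries (Fin n) (WittVector p K)) A]
  [IsScalarTower (MvPowerSeries (Fin n) (WittVector p K)) (BInf p (tb n p (WittVector p K))) A]
variable (hc : Om.IsCompl (p : BInf p (tb n p (WittVector p K)))
  (algebraMap (BInf p (tb n p (WittVector p K))) A))
variable {ϖ : ℕ → A} (hpd : Om.PData p A ϖ)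

local notation "ΛA" => LA p tX hp.out.pos A
local notation "ta" => tA p tX A

include hpd in
/-- Frobenius, iterated -/
theorem frob_iter {κ : Type} (i0 : κ) (m : ℕ) : ∀ (g : κ → A), g i0 = ϖ m →
    (ΛA).L (A ⧸ Ideal.span (Set.range fun i => g i ^ p ^ m)) =
      ((p ^ (n + 1) : ℕ) : ℝ≥0∞) ^ m * (ΛA).L (A ⧸ Ideal.span (Set.range g)) := by
  induction m with
  | zero =>
    intro g _
    have : (fun i => g i ^ p ^ 0) = g := by funext i; rw [pow_zero, pow_one]
    rw [this, pow_zero, one_mul]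
  | succ m ih =>
    intro g hg
    have h1 := ih (fun i => g i ^ p) (by rw [hg, hpd.roots])
    have h2 : (fun i => g i ^ p ^ (m + 1)) = fun i => (g i ^ p) ^ p ^ m := by
      funext i; rw [← pow_mul, ← pow_succ']
    rw [h2, h1]
    obtain ⟨ψ, hψ⟩ := Frb.exists_tw_span hpd (fun i => g i ^ p) g (fun _ => rfl)
    have e1 : Ideal.span {ϖ 1} ⊔ Ideal.span (Set.range g) = Ideal.span (Set.range g) := by
      rw [sup_eq_right, Ideal.span_singleton_le_iff_mem]
      have h3 : ϖ 1 = g i0 ^ p ^ m := by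
        rw [hg, add_comm m 1, hpd.roots']
      rw [h3]
      have h4 : g i0 ∈ Ideal.span (Set.range g) := Ideal.subset_span ⟨i0, rfl⟩
      exact Ideal.pow_mem_of_mem _ h4 _ (Nat.pow_pos hp.out.pos)
    have e2 : Ideal.span {(p : A)} ⊔ Ideal.span (Set.range fun i => g i ^ p) =
        Ideal.span (Set.range fun i => g i ^ p) := by
      rw [sup_eq_right, Ideal.span_singleton_le_iff_mem]
      have h3 : (p : A) = (g i0 ^ p) ^ p ^ m := by
        rw [hg, hpd.roots, hpd.pow_eq_p]
      rw [h3]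
      have h4 : g i0 ^ p ∈ Ideal.span (Set.range fun i => g i ^ p) := Ideal.subset_span ⟨i0, rfl⟩
      exact Ideal.pow_mem_of_mem _ h4 _ (Nat.pow_pos hp.out.pos)
    have h5 := Frb.restrict_frob tX (pbasis_witt n p K) (algebraMap (BInf p tX) A) ψ hψ.smul
      hψ.kill
    rw [e1, e2] at h5
    have h6 : (ΛA).L (A ⧸ Ideal.span (Set.range fun i => g i ^ p)) =
      ((p ^ (n + 1) : ℕ) : ℝ≥0∞) * (ΛA).L (A ⧸ Ideal.span (Set.range g)) := h5
    rw [h6, ← mul_assoc, ← pow_succ]

theorem span_option {R : Type*} [CommRing R] {κ : Type*} (g : Option κ → R) :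
    Ideal.span (Set.range g) = Ideal.span (Set.range fun i => g (some i)) ⊔
      Ideal.span {g none} := by
  apply le_antisymm
  · rw [Ideal.span_le]
    rintro _ ⟨i, rfl⟩
    cases i with
    | none => exact Ideal.mem_sup_right (Ideal.mem_span_singleton_self _)
    | some i => exact Ideal.mem_sup_left (Ideal.subset_span ⟨i, rfl⟩)
  · refine sup_le ?_ ?_
    · rw [Ideal.span_le]
      rintro _ ⟨i, rfl⟩
      exact Ideal.subset_span ⟨some i, rfl⟩
    · rw [Ideal.span_singleton_le_iff_mem]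
      exact Ideal.subset_span ⟨none, rfl⟩

include hc hpd in
/-- (small1) -/
theorem small1 : ∃ C : ℕ, ∀ N : ℕ, 0 < N → ∀ m : ℕ,
    (p : ℝ≥0∞) ^ m * (ΛA).L (A ⧸ (LenNull.J ta N ⊔ Ideal.span {ϖ m})) ≤
      C * (N : ℝ≥0∞) ^ n := by
  obtain ⟨C, hC⟩ := growthA_p (K := K) hc
  refine ⟨C, fun N hN m => ?_⟩
  let g : Option (Fin (n + 1)) → A := fun o => o.elim (ϖ m) (fun i => ta i ^ N)
  have hg : Ideal.span (Set.range g) = LenNull.J ta N ⊔ Ideal.span {ϖ m} := span_option g
  have hq0 : 0 < p ^ m := Nat.pow_pos hp.out.pos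
  have h1 := frob_iter (K := K) (n := n) hpd none m g rfl
  rw [hg] at h1
  have h2 := hC (N * p ^ m) (Nat.mul_pos hN hq0) (Ideal.span (Set.range fun i => g i ^ p ^ m))
    (by
      have h3 : g none ^ p ^ m = (p : A) := hpd.pow_eq_p m
      rw [← h3]
      exact Ideal.subset_span ⟨none, rfl⟩)
    (fun i => by
      rw [pow_mul]
      exact Ideal.subset_span ⟨some i, rfl⟩)
  rw [h1] at h2
  have hqe : ((p ^ m : ℕ) : ℝ≥0∞) = (p : ℝ≥0∞) ^ m := by push_cast; rfl
  have hp0 : (p : ℝ≥0∞) ≠ 0 := by exact_mod_cast hp.out.ne_zero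
  have hX0 : ((p : ℝ≥0∞) ^ m) ^ n ≠ 0 := pow_ne_zero _ (pow_ne_zero _ hp0)
  have hXt : ((p : ℝ≥0∞) ^ m) ^ n ≠ ⊤ :=
    ENNReal.pow_ne_top (ENNReal.pow_ne_top (ENNReal.natCast_ne_top _))
  refine (ENNReal.mul_le_mul_iff_right hX0 hXt).mp ?_
  calc ((p : ℝ≥0∞) ^ m) ^ n * ((p : ℝ≥0∞) ^ m *
        (ΛA).L (A ⧸ (LenNull.J ta N ⊔ Ideal.span {ϖ m})))
      = ((p ^ (n + 1) : ℕ) : ℝ≥0∞) ^ m *
        (ΛA).L (A ⧸ (LenNull.J ta N ⊔ Ideal.span {ϖ m})) := by
        push_cast; ring
    _ ≤ C * ((N * p ^ m : ℕ) : ℝ≥0∞) ^ n := h2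
    _ = ((p : ℝ≥0∞) ^ m) ^ n * (C * (N : ℝ≥0∞) ^ n) := by push_cast; ring

include hc hpd in
/-- (small2) -/
theorem small2 (hpu : ¬ IsUnit (p : A)) (D : A) (hD : Om.RegMod D (p : A)) :
    ∃ C : ℕ, ∀ N : ℕ, 0 < N → ∀ (m : ℕ) (η : A), (p : A) ∣ η ^ p ^ m - D →
    (p : ℝ≥0∞) ^ m * (((p ^ m * N : ℕ) : ℝ≥0∞) *
      (ΛA).L (A ⧸ (LenNull.J ta N ⊔ Ideal.span {ϖ m} ⊔ Ideal.span {η}))) ≤
      C * (N : ℝ≥0∞) ^ n := by
  obtain ⟨C, hC⟩ := growthA_pD hc hpu D hD
  refine ⟨C, fun N hN m η hη => ?_⟩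
  let g : Option (Option (Fin (n + 1))) → A := fun o =>
    o.elim η (fun o => o.elim (ϖ m) (fun i => ta i ^ N))
  have hg : Ideal.span (Set.range g) = LenNull.J ta N ⊔ Ideal.span {ϖ m} ⊔ Ideal.span {η} := by
    rw [span_option, span_option]
    rfl
  have hq0 : 0 < p ^ m := Nat.pow_pos hp.out.pos
  have h1 := frob_iter (K := K) (n := n) hpd (some none) m g rfl
  rw [hg] at h1
  have hp𝔞 : (p : A) ∈ Ideal.span (Set.range fun i => g i ^ p ^ m) := by
    have h3 : g (some none) ^ p ^ m = (p : A) := hpd.pow_eq_p m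
    rw [← h3]
    exact Ideal.subset_span ⟨some none, rfl⟩
  have h2 := hC (N * p ^ m) (Nat.mul_pos hN hq0) (Ideal.span (Set.range fun i => g i ^ p ^ m))
    hp𝔞
    (by
      obtain ⟨z, hz⟩ := hη
      have h3 : D = g none ^ p ^ m - p * z := by
        change D = η ^ p ^ m - p * z
        rw [← hz]; ring
      rw [h3]
      exact Ideal.sub_mem _ (Ideal.subset_span ⟨none, rfl⟩) (Ideal.mul_mem_right _ _ hp𝔞))
    (fun i => by
      rw [pow_mul]
      exact Ideal.subset_span ⟨some (some i), rfl⟩)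
  rw [h1] at h2
  have hp0 : (p : ℝ≥0∞) ≠ 0 := by exact_mod_cast hp.out.ne_zero
  have hX0 : ((p : ℝ≥0∞) ^ m) ^ n ≠ 0 := pow_ne_zero _ (pow_ne_zero _ hp0)
  have hXt : ((p : ℝ≥0∞) ^ m) ^ n ≠ ⊤ :=
    ENNReal.pow_ne_top (ENNReal.pow_ne_top (ENNReal.natCast_ne_top _))
  refine (ENNReal.mul_le_mul_iff_right hX0 hXt).mp ?_
  calc ((p : ℝ≥0∞) ^ m) ^ n * ((p : ℝ≥0∞) ^ m * (((p ^ m * N : ℕ) : ℝ≥0∞) *
        (ΛA).L (A ⧸ (LenNull.J ta N ⊔ Ideal.span {ϖ m} ⊔ Ideal.span {η}))))
      = ((p ^ (n + 1) : ℕ) : ℝ≥0∞) ^ m *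
        (ΛA).L (A ⧸ (LenNull.J ta N ⊔ Ideal.span {ϖ m} ⊔ Ideal.span {η})) *
          ((N * p ^ m : ℕ) : ℝ≥0∞) := by
        push_cast; ring
    _ ≤ C * ((N * p ^ m : ℕ) : ℝ≥0∞) ^ n := h2
    _ = ((p : ℝ≥0∞) ^ m) ^ n * (C * (N : ℝ≥0∞) ^ n) := by push_cast; ring

include hc hpd in
/-- **the small numbers** -/
theorem small (hpu : ¬ IsUnit (p : A)) : LenNull.Small (ΛA) ta p ϖ := by
  intro D hD η hη k N ε hε
  rcases Nat.eq_zero_or_pos N with hN | hN
  · subst hN
    refine ⟨0, ?_⟩
    have hJ : LenNull.J ta 0 = ⊤ := by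
      rw [Ideal.eq_top_iff_one]
      exact Ideal.subset_span ⟨0, by simp⟩
    rw [hJ, top_sup_eq, top_sup_eq]
    have : Subsingleton (A ⧸ (⊤ : Ideal A)) := Ideal.Quotient.subsingleton_iff.2 rfl
    rw [(ΛA).L_subsingleton]
    simp
  · obtain ⟨C1, h1⟩ := small1 (K := K) hc hpd
    obtain ⟨C2, h2⟩ := small2 hc hpd hpu D hD
    let K0 : ℕ := k * (C1 * N ^ n) + C2 * N ^ n
    obtain ⟨m, hm⟩ := ENNReal.exists_nat_mul_gt hε.ne' (ENNReal.natCast_ne_top K0)
    refine ⟨m, ?_⟩
    have hp0 : (p : ℝ≥0∞) ^ m ≠ 0 := pow_ne_zero _ (by exact_mod_cast hp.out.ne_zero)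
    have hpt : (p : ℝ≥0∞) ^ m ≠ ⊤ := ENNReal.pow_ne_top (ENNReal.natCast_ne_top _)
    refine (ENNReal.mul_le_mul_iff_right hp0 hpt).mp ?_
    have h3 := h1 N hN m
    have h4 := h2 N hN m (η m) (hη m)
    have hmp : (m : ℝ≥0∞) ≤ (p : ℝ≥0∞) ^ m := by
      have : m ≤ p ^ m := (Nat.lt_pow_self hp.out.one_lt).le
      exact_mod_cast this
    set X := (ΛA).L (A ⧸ (LenNull.J ta N ⊔ Ideal.span {ϖ m})) with hX
    set Y := (ΛA).L (A ⧸ (LenNull.J ta N ⊔ Ideal.span {ϖ m} ⊔ Ideal.span {η m})) with hY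
    calc (p : ℝ≥0∞) ^ m * (k * X + ((p ^ m * N : ℕ) : ℝ≥0∞) * Y)
        = k * ((p : ℝ≥0∞) ^ m * X) + (p : ℝ≥0∞) ^ m * (((p ^ m * N : ℕ) : ℝ≥0∞) * Y) := by ring
      _ ≤ k * (C1 * (N : ℝ≥0∞) ^ n) + C2 * (N : ℝ≥0∞) ^ n := by gcongr
      _ = (K0 : ℝ≥0∞) := by push_cast [K0]; ring
      _ ≤ m * ε := hm.le
      _ ≤ (p : ℝ≥0∞) ^ m * ε := mul_le_mul_left hmp _

end Small

end Crest.Agent.R188.Trk
end

-- ▼ part R188/Trk8
section

/-!
# R188 (helper645), block Trk, part 8: (FACT).
-/

set_option autoImplicit false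
set_option linter.dupNamespace false
set_option linter.unusedSectionVars false

namespace Crest.Agent.R188.Trk

open scoped ENNReal TensorProduct
open Crest.Agent.R183 Crest.Agent.R183.BInf Crest.Agent.R188.Tow IsLocalRing

universe u v w

theorem dvd_sub_pow_sub {R : Type*} [CommRing R] {p : ℕ} [hp : Fact p.Prime] (x y : R) (m : ℕ) :
    (p : R) ∣ (x - y) ^ p ^ m - (x ^ p ^ m - y ^ p ^ m) := by
  rw [← Ideal.mem_span_singleton, ← Ideal.Quotient.eq_zero_iff_mem]
  by_cases hu : IsUnit (p : R)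
  · rw [Ideal.Quotient.eq_zero_iff_mem, Ideal.span_singleton_eq_top.2 hu]; trivial
  · have : Nontrivial (R ⧸ Ideal.span {(p : R)}) :=
      Ideal.Quotient.nontrivial_iff.2 (fun h => hu (Ideal.span_singleton_eq_top.1 h))
    have : CharP (R ⧸ Ideal.span {(p : R)}) p := by
      refine (CharP.charP_iff_prime_eq_zero hp.out).2 ?_
      rw [← map_natCast (Ideal.Quotient.mk (Ideal.span {(p : R)})),
        Ideal.Quotient.eq_zero_iff_mem]
      exact Ideal.mem_span_singleton_self _
    rw [map_sub, map_sub, map_pow, map_pow, map_pow, map_sub, sub_pow_char_pow, sub_self]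

section Flat

variable {A : Type u} [CommRing A] {Ω : Type v} [CommRing Ω] [Algebra A Ω]

/-- colon ideals and flatness modulo `a^N` -/
theorem colon_mem (a : A) (N : ℕ) (hfl : Om.FlatQ A (B := Ω) (Ideal.span {a ^ N}))
    (I I'' : Ideal A) (ha : a ^ N ∈ I) (x : A) (h1 : ∀ y ∈ I'', x * y ∈ I)
    (h2 : ∀ y, x * y ∈ I → y ∈ I'') (ω : Ω)
    (hω : algebraMap A Ω x * ω ∈ I.map (algebraMap A Ω)) : ω ∈ I''.map (algebraMap A Ω) := by
  let f : (A ⧸ I'') →ₗ[A] (A ⧸ I) := Submodule.mapQ I'' I (LinearMap.mulLeft A x)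
    (fun y hy => h1 y hy)
  have hf : Function.Injective f := by
    rw [injective_iff_map_eq_zero]
    intro y hy
    obtain ⟨y, rfl⟩ := Submodule.mkQ_surjective _ y
    change Submodule.mkQ I (x * y) = 0 at hy
    rw [Submodule.mkQ_apply, Submodule.Quotient.mk_eq_zero] at hy ⊢
    exact h2 y hy
  have h3 := TowN.lTensor_inj (Ω := Ω) (Ideal.span {a ^ N}) hfl f hf (by
    intro b hb v
    obtain ⟨c, rfl⟩ := Ideal.mem_span_singleton'.1 hb
    obtain ⟨v, rfl⟩ := Submodule.mkQ_surjective _ v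
    rw [← map_smul, Submodule.mkQ_apply, Submodule.Quotient.mk_eq_zero, smul_eq_mul]
    exact I.mul_mem_right _ (I.mul_mem_left _ ha))
  have key : ∀ (J : Ideal A) (z : Ω), z ∈ J.map (algebraMap A Ω) ↔
      z ⊗ₜ[A] (Submodule.mkQ J (1 : A)) = 0 := by
    intro J z
    let e' := Algebra.TensorProduct.quotIdealMapEquivTensorQuot Ω J
    have h4 : e' (algebraMap Ω _ z) = algebraMap Ω _ z := e'.commutes z
    rw [Algebra.TensorProduct.algebraMap_apply] at h4
    change e' (Ideal.Quotient.mk _ z) = z ⊗ₜ[A] (Submodule.mkQ J (1 : A)) at h4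
    rw [← h4, map_eq_zero_iff _ e'.injective, Ideal.Quotient.eq_zero_iff_mem]
  rw [key]
  rw [key] at hω
  apply h3
  rw [map_zero, LinearMap.lTensor_tmul, ← hω]
  have h5 : f (Submodule.mkQ I'' 1) = x • Submodule.mkQ I (1 : A) := by
    change Submodule.mkQ I (x * 1) = _
    rw [← map_smul, smul_eq_mul]
  rw [h5, TensorProduct.tmul_smul, TensorProduct.smul_tmul', Algebra.smul_def]

/-- contraction of ideals along a good cover -/
theorem mem_of_map_mem {p : ℕ} (h : W.Good (p : A) (algebraMap A Ω)) (N : ℕ) (J : Ideal A)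
    (hJ : (p : A) ^ N ∈ J) (y : A) (hy : algebraMap A Ω y ∈ J.map (algebraMap A Ω)) : y ∈ J := by
  have hff := Env.faithfullyFlat_of_good h N
  set I0 : Ideal A := Ideal.span {(p : A) ^ N} with hI0
  let R := A ⧸ I0
  let S := Ω ⧸ I0.map (algebraMap A Ω)
  let Jb : Ideal R := J.map (Ideal.Quotient.mk I0)
  have h1 : (Jb.map (algebraMap R S)).comap (algebraMap R S) = Jb :=
    Ideal.comap_map_eq_self_of_faithfullyFlat Jb
  have h2 : Ideal.Quotient.mk I0 y ∈ Jb := by
    rw [← h1, Ideal.mem_comap]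
    have h3 : algebraMap R S (Ideal.Quotient.mk I0 y) =
      Ideal.Quotient.mk (I0.map (algebraMap A Ω)) (algebraMap A Ω y) := rfl
    rw [h3]
    have h4 : (J.map (algebraMap A Ω)).map (Ideal.Quotient.mk (I0.map (algebraMap A Ω))) ≤
        Jb.map (algebraMap R S) := by
      rw [Ideal.map_map, Ideal.map_le_iff_le_comap]
      intro z hz
      rw [Ideal.mem_comap]
      exact Ideal.mem_map_of_mem (algebraMap R S) (Ideal.mem_map_of_mem _ hz)
    exact h4 (Ideal.mem_map_of_mem _ hy)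
  have h5 : I0 ≤ J := by rw [hI0, Ideal.span_singleton_le_iff_mem]; exact hJ
  have h6 : y ∈ Jb.comap (Ideal.Quotient.mk I0) := h2
  rwa [Ideal.comap_map_of_surjective' _ Ideal.Quotient.mk_surjective, Ideal.mk_ker,
    sup_eq_left.mpr h5] at h6

end Flat

section Fact

variable {n p : ℕ} [hp : Fact p.Prime] {K : Type u} [Field K] [CharP K p] [PerfectRing K p]

local notation "BX" => MvPowerSeries (Fin n) (WittVector p K)
local notation "tX" => tb n p (WittVector p K)

variable {A : Type u} [CommRing A] [Algebra (BInf p (tb n p (WittVector p K))) A]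
  [Algebra (MvPowerSeries (Fin n) (WittVector p K)) A]
  [IsScalarTower (MvPowerSeries (Fin n) (WittVector p K)) (BInf p (tb n p (WittVector p K))) A]
variable (hc : Om.IsCompl (p : BInf p (tb n p (WittVector p K)))
  (algebraMap (BInf p (tb n p (WittVector p K))) A))
variable {ϖ : ℕ → A} (hpd : Om.PData p A ϖ)
variable {Ω : Type v} [CommRing Ω] [Algebra A Ω]

include hc hpd in
/-- **(FACT)** -/
theorem factN (hpu : ¬ IsUnit (p : A)) (good : W.Good (p : A) (algebraMap A Ω))
    (pdata : Om.PData p Ω (fun e => algebraMap A Ω (ϖ e))) (reg : Om.Reg (p : Ω)) (D : A)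
    (regD : Om.RegMod D (p : A)) (δ : ℕ → Ω) (δ_zero : δ 0 = algebraMap A Ω D)
    (δ_succ : ∀ e, δ (e + 1) ^ p = δ e) :
    TowN.FactN (LA p tX hp.out.pos A) (tA p tX A) (fun e => algebraMap A Ω (ϖ e) * δ e) := by
  intro I hI hμ
  choose N' hN' using hI
  let N := ∑ i, N' i
  have hN : ∀ i, tA p tX A i ^ N ∈ I := by
    intro i
    obtain ⟨c, hcc⟩ := Nat.exists_eq_add_of_le
      (Finset.single_le_sum (f := N') (fun _ _ => Nat.zero_le _) (Finset.mem_univ i))
    change tA p tX A i ^ (∑ i, N' i) ∈ I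
    rw [hcc, pow_add]
    exact I.mul_mem_right _ (hN' i)
  have hJI : LenNull.J (tA p tX A) N ≤ I := by
    unfold LenNull.J
    rw [Ideal.span_le]
    rintro _ ⟨i, rfl⟩
    exact hN i
  have hpI : (p : A) ^ N ∈ I := by
    have h1 := hN 0
    have h2 : tA p tX A 0 = (p : A) := by
      unfold tA
      rw [tb_zero, map_natCast, map_natCast]
    rwa [h2] at h1
  have hδ : ∀ m, δ m ^ p ^ m = algebraMap A Ω D := by
    intro m
    induction m with
    | zero => rw [pow_zero, pow_one, δ_zero]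
    | succ m ih => rw [pow_succ', pow_mul, δ_succ, ih]
  have hη : ∀ m, ∃ η : A, (p : A) ∣ η ^ p ^ m - D := by
    intro m
    induction m with
    | zero => exact ⟨D, by rw [pow_zero, pow_one, sub_self]; exact dvd_zero _⟩
    | succ m ih =>
      obtain ⟨η, hη⟩ := ih
      obtain ⟨y, hy⟩ := hpd.fsurj η
      refine ⟨y, ?_⟩
      have h1 : (p : A) ∣ (y ^ p) ^ p ^ m - η ^ p ^ m :=
        (dvd_sub_comm.mp hy).trans (sub_dvd_pow_sub_pow _ _ _)
      have h2 := dvd_add h1 hη
      rw [← pow_mul, ← pow_succ'] at h2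
      convert h2 using 1
      ring
  choose η hη using hη
  rw [← le_zero_iff]
  refine ENNReal.le_of_forall_pos_le_add ?_
  intro ε hε _
  rw [zero_add]
  obtain ⟨m, hm⟩ := small hc hpd hpu D regD η hη 1 N ε (by exact_mod_cast hε)
  refine le_trans ?_ hm
  rw [Nat.cast_one, one_mul]
  -- the colon ideal
  let I'' : Ideal A := Submodule.comap (LinearMap.mulLeft A (ϖ m)) I
  have hI''1 : ∀ y ∈ I'', ϖ m * y ∈ I := fun y hy => hy
  have hII'' : I ≤ I'' := fun y hy => I.mul_mem_left _ hy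
  have h1 : δ m ∈ I''.map (algebraMap A Ω) :=
    colon_mem (p : A) N (Env.flatQ_of_good good N) I I'' hpI (ϖ m) hI''1 (fun y hy => hy) (δ m)
      (hμ m)
  have h2 : algebraMap A Ω (ϖ m) ∣ algebraMap A Ω (η m) - δ m := by
    refine pdata.finj_iter reg m ?_
    have h3 := dvd_sub_pow_sub (p := p) (algebraMap A Ω (η m)) (δ m) m
    have h4 : (p : Ω) ∣ algebraMap A Ω (η m) ^ p ^ m - δ m ^ p ^ m := by
      rw [hδ, ← map_pow, ← map_sub, ← map_natCast (algebraMap A Ω)]
      exact map_dvd _ (hη m)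
    have h5 := dvd_add h3 h4
    rwa [sub_add_cancel] at h5
  have h3 : η m ∈ I'' ⊔ Ideal.span {ϖ m} := by
    refine mem_of_map_mem good N _ (Ideal.mem_sup_left (hII'' hpI)) _ ?_
    obtain ⟨z, hz⟩ := h2
    have h4 : algebraMap A Ω (η m) = δ m + algebraMap A Ω (ϖ m) * z := by rw [← hz]; ring
    rw [h4, Ideal.map_sup]
    refine Ideal.add_mem _ (Ideal.mem_sup_left h1) (Ideal.mem_sup_right ?_)
    exact Ideal.mul_mem_right _ _ (Ideal.mem_map_of_mem _ (Ideal.mem_span_singleton_self _))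
  have h4 := L_colon_le (LA p tX hp.out.pos A) I I'' (ϖ m) hI''1
  have h5 : (LA p tX hp.out.pos A).L (A ⧸ I'') ≤ ((p ^ m * N : ℕ) : ℝ≥0∞) *
      (LA p tX hp.out.pos A).L (A ⧸ (I'' ⊔ Ideal.span {ϖ m})) := by
    refine L_le_pow _ _ _ _ (hII'' ?_)
    rw [pow_mul, hpd.pow_eq_p]
    exact hpI
  refine h4.trans ?_
  rw [add_comm]
  refine add_le_add (L_quot_anti _ (sup_le_sup_right hJI _)) (h5.trans ?_)
  refine mul_le_mul_right (L_quot_anti _ ?_) _
  refine sup_le (sup_le ((hJI.trans hII'').trans le_sup_left) le_sup_right) ?_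
  rw [Ideal.span_singleton_le_iff_mem]
  exact h3

end Fact

section Split

variable {n p : ℕ} [hp : Fact p.Prime] {K : Type} [Field K] [CharP K p] [PerfectRing K p]

local notation "BX" => MvPowerSeries (Fin n) (WittVector p K)
local notation "tX" => tb n p (WittVector p K)

variable {A : Type} [CommRing A] [Algebra (BInf p (tb n p (WittVector p K))) A]
  [Algebra (MvPowerSeries (Fin n) (WittVector p K)) A]
  [IsScalarTower (MvPowerSeries (Fin n) (WittVector p K)) (BInf p (tb n p (WittVector p K))) A]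
variable (hc : Om.IsCompl (p : BInf p (tb n p (WittVector p K)))
  (algebraMap (BInf p (tb n p (WittVector p K))) A))
variable {ϖ : ℕ → A} (hpd : Om.PData p A ϖ)

include hc hpd in
/-- (FACT) for almost splitting data -/
theorem factN_almSplit (hpu : ¬ IsUnit (p : A)) {T : Type} [CommRing T] [Algebra A T]
    {H : Set (T →ₐ[A] T)} (M : Tring.AlmSplit p A T ϖ H) :
    TowN.FactN (LA p tX hp.out.pos A) (tA p tX A) (fun e => algebraMap A M.Ω (ϖ e) * M.δ e) :=
  factN hc hpd hpu M.good M.pdata M.reg M.D M.regD M.δ M.δ_zero M.δ_succ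

end Split

end Crest.Agent.R188.Trk
end

-- ▼ part R188/LenWorld7

set_option autoImplicit false
set_option linter.unusedSectionVars false

namespace Crest.Agent.R188.LenWorld

open WittVector Crest.Agent.R183 Crest.Agent.R188.Prf Crest.Agent.R188.Wit
open Crest.Agent.R188.LenW Crest.Agent.R188.Tow Crest.Agent.R188.KosG Crest.Agent.R188.Apl
open Crest.Agent.R188.Asm (BB BPlus tB SharpPair World LP)
open Crest.Agent.R183.Om (PData Reg RegMod IsCompl)
open Crest.Agent.R183.BInf
open scoped ENNReal TensorProduct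

theorem nonempty_world (p : ℕ) [hp : Fact p.Prime] (k : Type) [Field k] [CharP k p]
    [PerfectRing k p] (b : ℕ) : Nonempty (World p k b) := by
  obtain ⟨A, _, _, _, ϖ, hA⟩ := exists_isBase p k b
  have hdom := hA.dom
  have hnor := hA.normal
  have htow := hA.tower
  obtain ⟨M₀⟩ := hA.model
  have hfac : ∀ a : A, a ≠ 0 → ∃ (c : A) (k : ℕ) (D : A), a * c = (p : A) ^ k * D ∧
      RegMod D (p : A) := by
    intro a ha
    obtain ⟨e, i, m, D, -, hD, hDr⟩ := hA.fac a ha
    exact ⟨_, _, _, hD, hDr⟩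
  have htA : Trk.tA p (tb b p (WittVector p k)) A = tA p k b A := by
    funext i
    exact (IsScalarTower.algebraMap_apply (BB p k b) (BI p k b) A _).symm
  have hfact : ∀ (T : Type) [CommRing T] [Algebra A T] (H : Set (T →ₐ[A] T))
      (M : Tring.AlmSplit p A T ϖ H), TowN.FactN (Trk.LA p (tb b p (WittVector p k)) hp.out.pos A)
        (Trk.tA p (tb b p (WittVector p k)) A) M.mu :=
    fun T _ _ H M => Trk.factN_almSplit hA.compl hA.pdata hA.nonunit M
  have hgrow : Tring.Grow p (tb b p (WittVector p k)) hp.out.pos A := by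
    intro m D hD
    obtain ⟨C, hC⟩ := Trk.growthA_sigma hA.compl hA.nonunit D hD m
    exact ⟨C, ENNReal.natCast_ne_top C, hC⟩
  have hpar := Trk.par_witt b p k
  have hFL := Tring.hypFL (tb b p (WittVector p k)) hp.out.pos (F := FractionRing A)
    (K := AlgebraicClosure (FractionRing A)) hA.compl hpar M₀ hA.cic hfac hgrow hfact
  have hDEC := TowN.hypDEC (tb b p (WittVector p k)) hp.out.pos (F := FractionRing A)
    (K := AlgebraicClosure (FractionRing A)) hpar M₀ hA.cic hfac hfact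
  have hsmall := Trk.small hA.compl hA.pdata hA.nonunit
  rw [htA] at hFL hDEC hsmall
  refine nonempty_world_of_hyp hA (F := FractionRing A)
    (K := AlgebraicClosure (FractionRing A)) hFL hDEC ?_ hsmall
  intro L n hn
  obtain ⟨M⟩ := Tring.nonempty_almSplit (F := FractionRing A) (L := L) M₀ hA.cic hfac
  have h1 := TowN.kos0_almSplit (tb b p (WittVector p k)) hp.out.pos hA.compl hpar
    (TowN.isWeaklyRegular_tb b p k) (T := integralClosure A L) ?_ M (hfact _ _ M) n hn
  · rw [htA] at h1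
    exact h1
  · have hcA : CharZero A := IsBase.charZero hA
    have hcF : CharZero (FractionRing A) :=
      charZero_of_injective_algebraMap (IsFractionRing.injective A (FractionRing A))
    have hcL : CharZero L := charZero_of_injective_algebraMap (algebraMap (FractionRing A) L).injective
    intro x hx
    have hpL : (p : integralClosure A L) ≠ 0 := by
      intro h
      have := congrArg (algebraMap (integralClosure A L) L) h
      rw [map_natCast, map_zero] at this
      exact hp.out.ne_zero (by exact_mod_cast this)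
    exact (mul_eq_zero.1 hx).resolve_left hpL

end Crest.Agent.R188.LenWorld
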