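import Crest.Agent.R188.ChiLift
import Crest.Agent.R188.Asm2
import Crest.Agent.R188.Asm3
import Crest.Agent.R188.AsmG3

-- ▼ part R188/Slt1
section

set_option autoImplicit false
set_option linter.unusedSectionVars false

namespace Crest.Agent.R188.Slt

open scoped ENNReal
open Crest.Agent.R183 Crest.Agent.R183.Res Crest.Agent.R188.Chi

universe u v

section ideal

variable {Γ : Type u} [CommRing Γ]

/-- the almost closure of an ideal `𝔟` with respect to a system `c` -/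
def K (c : ℕ → Γ) (𝔟 : Ideal Γ) : Ideal Γ where
  carrier := {x | ∀ n, c n * x ∈ 𝔟}
  add_mem' := fun {x y} hx hy n => by rw [mul_add]; exact add_mem (hx n) (hy n)
  zero_mem' := fun n => by rw [mul_zero]; exact zero_mem _
  smul_mem' := fun a x hx n => by
    rw [smul_eq_mul, mul_left_comm]; exact Ideal.mul_mem_left _ _ (hx n)


lemma le_K (c : ℕ → Γ) (𝔟 : Ideal Γ) : 𝔟 ≤ K c 𝔟 := fun _ hx n => Ideal.mul_mem_left _ _ hx

/-- `ξ` is regular modulo the almost closure -/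
lemma mem_K_of_mul {c : ℕ → Γ} {𝔟 : Ideal Γ} {p : ℕ} (hp : 2 ≤ p) (hc : ∀ n, c (n + 1) ^ p = c n)
    {ξ : Γ} (hξ : ∀ z, ξ * z ∈ 𝔟 → ∀ n, c n * z ∈ 𝔟) {z : Γ} (hz : ξ * z ∈ K c 𝔟) :
    z ∈ K c 𝔟 := by
  intro n
  have h1 : ξ * (c (n + 1) * z) ∈ 𝔟 := by
    rw [mul_left_comm]; exact hz (n + 1)
  have h2 := hξ _ h1 (n + 1)
  obtain ⟨q, rfl⟩ := Nat.exists_eq_add_of_le' hp
  have h3 : c n * z = c (n + 1) ^ q * (c (n + 1) * (c (n + 1) * z)) := by
    rw [← hc n, pow_add]; ring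
  rw [h3]
  exact Ideal.mul_mem_left _ _ h2

end ideal

section lift

variable {S R : Type u} [CommRing S] [CommRing R] {φ : S →+* R} {E : S}
  {Γ Ω : Type u} [CommRing Γ] [CommRing Ω] [Algebra Γ Ω] [Algebra S Γ] [Algebra R Ω] {ξ : Γ}




end lift

section chi

variable {S : Type u} [CommRing S] {Γ : Type u} [CommRing Γ] [Algebra S Γ]
  (Λ : AddLen.{u, u} Γ) (G : MCx S)




end chi

end Crest.Agent.R188.Slt
end

-- ▼ part R188/Slt2
section

set_option autoImplicit false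
set_option linter.unusedSectionVars false

namespace Crest.Agent.R188.Slt

open scoped ENNReal
open Crest.Agent.R183 Crest.Agent.R183.Res Crest.Agent.R188.Chi Crest.Agent.R188.Asm

section trans

variable {S R Γ Ω A' M : Type} [CommRing S] [CommRing R] [CommRing Γ] [CommRing Ω] [CommRing A']
  [AddCommGroup M] [Module R M] [Module S M]
  {π : S →+* R} (hπ : Function.Surjective π) {E : S} (hker : RingHom.ker π = Ideal.span {E})
  (hE : E ∈ nonZeroDivisors S) {F : MCx R} {ε : (F.ι 0 → R) →ₗ[R] M} (hF : IsRes F ε)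
  (hM : ∀ (s : S) (m : M), s • m = π s • m) {G : MCx S} {εG : (G.ι 0 → S) →ₗ[S] M}
  (hG : IsRes G εG)
  {φ : S →+* Γ} [Algebra Γ Ω] (hs : Function.Surjective (algebraMap Γ Ω)) {ξ : Γ}
  (hk : RingHom.ker (algebraMap Γ Ω) = Ideal.span {ξ}) (hreg : ∀ x : Γ, ξ * x = 0 → x = 0)
  {u : Γˣ} (hu : φ E = ξ * u)
  [Algebra Ω A'] (ψ : R →+* A') {χ : A' →+* Ω} (hχ : ∀ x : Ω, χ (algebraMap Ω A' x) = x)
  (hcomp : ∀ s, algebraMap Γ Ω (φ s) = χ (ψ (π s)))
  (Λ : AddLen.{0, 0} Γ)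

include hπ hker hE hF hM hG hs hk hreg hu hχ hcomp

/-- **translation**, general form -/
theorem hX_tr {X' X : Type} [AddCommGroup X'] [Module Γ X'] [AddCommGroup X] [Module Ω X]
    (g : X' →+ X) (hg : ∀ (a : Γ) (x : X'), g (a • x) = algebraMap Γ Ω a • g x)
    (hgs : Function.Surjective g) (hgk : ∀ x, g x = 0 → ∃ y, x = ξ • y)
    (hgr : ∀ y : X', ξ • y = 0 → y = 0)
    {X₂ : Type} [AddCommGroup X₂] [Module A' X₂] (e : X ≃+ X₂)
    (he : ∀ (a : A') (x : X), e (χ a • x) = a • e x) (i : ℕ) :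
    hX ((Λ.restrict (algebraMap Γ Ω)).restrict (algebraMap Ω A')) (F.map ψ) X₂ i =
      hX Λ (G.map φ) X' i := by
  let _ : Module R X := Module.compHom X (χ.comp ψ)
  let _ : Module Γ X := Module.compHom X (algebraMap Γ Ω)
  let _ : Module S X' := Module.compHom X' φ
  have : SMulCommClass R Ω X := ⟨fun r x y => smul_comm (χ (ψ r)) x y⟩
  have : SMulCommClass R Γ X := ⟨fun r x y => smul_comm (χ (ψ r)) (algebraMap Γ Ω x) y⟩
  have : SMulCommClass S Γ X' := ⟨fun r x y => smul_comm (φ r) x y⟩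
  have h1 : hX ((Λ.restrict (algebraMap Γ Ω)).restrict (algebraMap Ω A')) (F.map ψ) X₂ i =
      hX (Λ.restrict (algebraMap Γ Ω)) F X i :=
    hX_change ψ F (algebraMap Ω A') (Λ.restrict (algebraMap Γ Ω)) e
      (fun r x => he (ψ r) x) (fun a x => by
        have := he (algebraMap Ω A' a) x
        rwa [hχ] at this) i
  have h2 : hX (Λ.restrict (algebraMap Γ Ω)) F X i = hX Λ F X i :=
    hX_restrict F (algebraMap Γ Ω) Λ (fun _ _ => rfl) i
  let gl : X' →ₗ[Γ] X := { g with map_smul' := hg }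
  have hL : LiftData π E gl :=
    { lin := fun s x => by
        show g (φ s • x) = χ (ψ (π s)) • g x
        rw [hg, hcomp]
      surj := hgs
      ker := fun x hx => by
        obtain ⟨y, hy⟩ := hgk x hx
        refine ⟨(↑u⁻¹ : Γ) • y, ?_⟩
        show x = φ E • (↑u⁻¹ : Γ) • y
        rw [hu, smul_smul, mul_assoc, Units.mul_inv, mul_one, hy]
      zero := fun y => by
        show g (φ E • y) = 0
        have h0 : algebraMap Γ Ω ξ = 0 := by
          have : ξ ∈ RingHom.ker (algebraMap Γ Ω) := by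
            rw [hk]; exact Ideal.mem_span_singleton_self ξ
          exact this
        rw [hg, hu, map_mul, h0, zero_mul, zero_smul]
      reg := fun y hy => by
        have h0 : φ E • y = 0 := hy
        rw [hu, mul_smul] at h0
        have h3 := hgr _ h0
        have h4 : y = (↑u⁻¹ : Γ) • (u : Γ) • y := by
          rw [smul_smul, Units.inv_mul, one_smul]
        rw [h4, h3, smul_zero] }
  have h3 : hX Λ G X' i = hX Λ F X i := hX_lift_eq Λ hπ hker hE hF hM hG hL i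
  have h4 : hX Λ (G.map φ) X' i = hX Λ G X' i := hX_mapψ φ G Λ (fun _ _ => rfl) i
  rw [h1, h2, ← h3, h4]

/-- **translation for `Γ → Ω`** -/
theorem hX_tr_top {X₂ : Type} [AddCommGroup X₂] [Module A' X₂] (e : Ω ≃+ X₂)
    (he : ∀ (a : A') (x : Ω), e (χ a * x) = a • e x) (i : ℕ) :
    hX ((Λ.restrict (algebraMap Γ Ω)).restrict (algebraMap Ω A')) (F.map ψ) X₂ i =
      hX Λ (G.map φ) Γ i := by
  refine hX_tr hπ hker hE hF hM hG hs hk hreg hu ψ hχ hcomp Λ
    (g := (algebraMap Γ Ω : Γ →+ Ω)) (fun a x => ?_) hs (fun x hx => ?_) hreg e he i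
  · exact map_mul (algebraMap Γ Ω) a x
  · have h1 : x ∈ RingHom.ker (algebraMap Γ Ω) := hx
    rw [hk, Ideal.mem_span_singleton] at h1
    exact h1

/-- **translation for an ideal `𝔎` of `Γ` with `ξ` regular modulo `𝔎`** -/
theorem hX_tr_ideal {𝔎 : Ideal Γ} (h𝔎 : ∀ z, ξ * z ∈ 𝔎 → z ∈ 𝔎)
    {X₂ : Type} [AddCommGroup X₂] [Module A' X₂] (e : ↥(𝔎.map (algebraMap Γ Ω)) ≃+ X₂)
    (he : ∀ (a : A') (x : ↥(𝔎.map (algebraMap Γ Ω))), e (χ a • x) = a • e x) (i : ℕ) :
    hX ((Λ.restrict (algebraMap Γ Ω)).restrict (algebraMap Ω A')) (F.map ψ) X₂ i =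
      hX Λ (G.map φ) ↥𝔎 i := by
  refine hX_tr hπ hker hE hF hM hG hs hk hreg hu ψ hχ hcomp Λ
    (g := { toFun := fun x => ⟨algebraMap Γ Ω x.1, Ideal.mem_map_of_mem _ x.2⟩
            map_zero' := Subtype.ext (map_zero _)
            map_add' := fun x y => Subtype.ext (map_add _ _ _) }) (fun a x => ?_) ?_
    (fun x hx => ?_) (fun y hy => ?_) e he i
  · exact Subtype.ext (map_mul (algebraMap Γ Ω) a x.1)
  · rintro ⟨y, hy⟩
    obtain ⟨x, hx, hxy⟩ := (Ideal.mem_map_iff_of_surjective _ hs).1 hy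
    exact ⟨⟨x, hx⟩, Subtype.ext hxy⟩
  · have h1 : x.1 ∈ RingHom.ker (algebraMap Γ Ω) := congrArg Subtype.val hx
    rw [hk, Ideal.mem_span_singleton] at h1
    obtain ⟨y, hy⟩ := h1
    exact ⟨⟨y, h𝔎 _ (by rw [← hy]; exact x.2)⟩, Subtype.ext hy⟩
  · exact Subtype.ext (hreg _ (congrArg Subtype.val hy))

end trans

end Crest.Agent.R188.Slt
end

-- ▼ part R188/Slt3

set_option autoImplicit false
set_option linter.unusedSectionVars false

namespace Crest.Agent.R188.Slt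

open scoped ENNReal
open WittVector Crest.Agent.R183 Crest.Agent.R183.Res Crest.Agent.R188.Chi Crest.Agent.R188.Asm
open Crest.Agent.R188.Prf Crest.Agent.R188.Wit Crest.Agent.R188.Flg Crest.Agent.R188.Cmp
open Crest.Agent.R188.KosG

attribute [local instance] World.ringP

section gamma

variable {p : ℕ} [hp : Fact p.Prime] {k : Type} [Field k] [CharP k p] {b : ℕ} (W : World p k b)

/-- the almost ideal of `W(P)` -/
noncomputable def aG (h : W.P) : Ideal (WittVector p W.P) :=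
  Ideal.span (Set.range fun n => teichmuller p (W.perf.rtn n h))

variable {S : Type} [CommRing S] {G : MCx S} {φ : S →+* WittVector p W.P} {J : Ideal S}
  (hJ : ∀ a ∈ J, G.NHom a) {c : ℕ} (hcp : (p : WittVector p W.P) ^ c ∈ J.map φ)
  (hct : ∀ i, teichmuller p (W.t i) ^ c ∈ J.map φ)
  {h₀ : W.P} {r₀ : ℕ → BPlus p k b} (hs : SharpPair W.perf W.ι h₀ r₀) (hr₀ : r₀ 0 ≠ 0)

include hJ hcp hct hs hr₀

/-- null modules over `W(P)` -/
theorem gamma_null (Y : Type) [AddCommGroup Y] [Module (WittVector p W.P) Y]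
    (hY : ∀ a ∈ aG W h₀, ∀ y : Y, a • y = 0)
    (hN : ∀ a, (G.map φ).NHom a → ∀ y : Y, a • y = 0) : W.Λ.L Y = 0 := by
  have h1 : J.map φ ≤ Module.annihilator (WittVector p W.P) Y := by
    rw [Ideal.map_le_iff_le_comap]
    intro a ha
    rw [Ideal.mem_comap, Module.mem_annihilator]
    exact hN _ ((hJ a ha).map φ)
  have h2 : ∀ a ∈ J.map φ, ∀ y : Y, a • y = 0 := fun a ha => Module.mem_annihilator.1 (h1 ha)
  exact W.null h₀ r₀ hs hr₀ Y (fun y => ⟨c, h2 _ hcp y, fun i => h2 _ (hct i) y⟩)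
    (fun n y => hY _ (Ideal.subset_span ⟨n, rfl⟩) y)

/-- **the Euler functional over `W(P)`** -/
noncomputable def eulerG {D : ℕ} (hD : G.Len D) :
    EulerFun (WittVector p W.P) (WittVector p W.P) (aG W h₀) :=
  Chi.eulerFun W.Λ (G.map φ) D (fun n hn => hD n hn)
    (fun Y _ _ hY hN => gamma_null W hJ hcp hct hs hr₀ Y hY hN)

/-- **main computation over `W(P)`**: `χ(𝔎) = χ(W(P))` -/
theorem gamma_main {D : ℕ} (hD : G.Len D) {I : Ideal W.P}
    (h1 : ∀ i, hX W.Λ (G.map φ) (WittVector p W.P) i ≠ ⊤)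
    (h2 : ∀ i, hX W.Λ (G.map φ) (WittVector p W.P ⧸ WtI W I) i ≠ ⊤)
    (h3 : chiX W.Λ (G.map φ) (WittVector p W.P ⧸ WtI W I) (D + 1) = 0) :
    (∀ i, hX W.Λ (G.map φ) ↥(K (fun n => teichmuller p (W.perf.rtn n h₀)) (WtI W I)) i ≠ ⊤) ∧
      chiX W.Λ (G.map φ) ↥(K (fun n => teichmuller p (W.perf.rtn n h₀)) (WtI W I)) (D + 1) =
        chiX W.Λ (G.map φ) (WittVector p W.P) (D + 1) := by
  let E := eulerG W hJ hcp hct hs hr₀ hD
  have e1 : E.Fn (WittVector p W.P) := h1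
  have e2 : E.Fn (WittVector p W.P ⧸ WtI W I) := h2
  have e3 : E.val (WittVector p W.P ⧸ WtI W I) = 0 := h3
  have e4 : E.Fn ↥(WtI W I) := E.fn_submodule _ e1 e2
  have e5 : E.val (WittVector p W.P) = E.val ↥(WtI W I) := by
    rw [E.val_quot _ e4 e2, e3, add_zero]
  have hle : WtI W I ≤ K (fun n => teichmuller p (W.perf.rtn n h₀)) (WtI W I) := le_K _ _
  have halm : ∀ a ∈ aG W h₀, ∀ x ∈ K (fun n => teichmuller p (W.perf.rtn n h₀)) (WtI W I),
      algebraMap (WittVector p W.P) (WittVector p W.P) a • x ∈ WtI W I := by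
    intro a ha x hx
    have h5 : aG W h₀ ≤ Submodule.comap (LinearMap.mulRight (WittVector p W.P) x) (WtI W I) := by
      rw [aG, Ideal.span_le]
      rintro _ ⟨n, rfl⟩
      exact hx n
    exact h5 ha
  have e6 := E.fn_alm hle halm
  have e7 := E.val_alm hle halm e4
  exact ⟨e6.1 e4, by rw [show chiX W.Λ (G.map φ) (WittVector p W.P) (D + 1) =
    E.val ↥(WtI W I) from e5, e7]; rfl⟩

end gamma

section regular

variable {p : ℕ} [hp : Fact p.Prime] {k : Type} [Field k] [CharP k p] {b : ℕ} (W : World p k b)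

/-- `ξ` is regular modulo `𝔎` -/
theorem xi_mem_K {I : Ideal W.P} (hI : Digit.Convex p I) {h₀ : W.P} {m : ℕ} (hm : h₀ ^ m ∈ I)
    (z : WittVector p W.P)
    (hz : W.ξ * z ∈ K (fun n => teichmuller p (W.perf.rtn n h₀)) (WtI W I)) :
    z ∈ K (fun n => teichmuller p (W.perf.rtn n h₀)) (WtI W I) := by
  refine mem_K_of_mul hp.out.two_le (fun n => ?_) (fun z hz n => ?_) hz
  · show teichmuller p (W.perf.rtn (n + 1) h₀) ^ p = teichmuller p (W.perf.rtn n h₀)
    rw [← map_pow, W.perf.rtn_succ_pow]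
  · show teichmuller p (W.perf.rtn n h₀) * z ∈ WtI W I
    have h4 := xi_torsion_WI W.perf hI W.dist hz hm (n + m)
    have h5 : W.perf.rtn (n + m) (h₀ ^ m) ∣ W.perf.rtn n h₀ := by
      rw [W.perf.rtn_pow_comm]
      refine ⟨W.perf.rtn (n + m) h₀ ^ (p ^ m - m), ?_⟩
      rw [← pow_add, Nat.add_sub_cancel' (Nat.lt_pow_self hp.out.one_lt).le,
        W.perf.rtn_add_pow]
    obtain ⟨r, hr⟩ := h5
    have : teichmuller p (W.perf.rtn n h₀) * z =
        teichmuller p r * (teichmuller p (W.perf.rtn (n + m) (h₀ ^ m)) * z) := by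
      rw [← mul_assoc, ← map_mul, mul_comm r, ← hr]
    rw [this]
    exact Ideal.mul_mem_left _ _ h4

/-- `a^{1/p^∞} θ(𝔎) ⊆ J = θ(W~(I)) ⊆ θ(𝔎)` -/
theorem JI_le (I : Ideal W.P) (h₀ : W.P) :
    JI W I ≤ (K (fun n => teichmuller p (W.perf.rtn n h₀)) (WtI W I)).map (θ W.ξ) :=
  Ideal.map_mono (le_K _ _)

theorem aI_mul_mem (I : Ideal W.P) (h₀ : W.P) :
    ∀ a ∈ aI W h₀, ∀ x ∈ (K (fun n => teichmuller p (W.perf.rtn n h₀)) (WtI W I)).map (θ W.ξ),
      a * x ∈ JI W I := by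
  intro a ha x hx
  obtain ⟨y, hy, rfl⟩ := (Ideal.mem_map_iff_of_surjective _ (θ_surjective W.ξ)).1 hx
  have h5 : aI W h₀ ≤ Submodule.comap (LinearMap.mulRight (Om W.ξ) (θ W.ξ y)) (JI W I) := by
    rw [aI, Ideal.span_le]
    rintro _ ⟨n, rfl⟩
    show sh W.ξ (W.perf.rtn n h₀) * θ W.ξ y ∈ JI W I
    have : sh W.ξ (W.perf.rtn n h₀) * θ W.ξ y =
        θ W.ξ (teichmuller p (W.perf.rtn n h₀) * y) := (map_mul (θ W.ξ) _ _).symm
    rw [this]
    exact Ideal.mem_map_of_mem _ (hy n)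
  exact h5 ha

end regular

end Crest.Agent.R188.Slt
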