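import Crest.Agent.R188.Asm3
import Crest.Agent.R188.PerfC2
import Crest.Agent.R188.Noe6
import Crest.Agent.R188.AsmG3
import Crest.Agent.R188.Top4
import Crest.Agent.R188.Slt3
import Crest.Agent.R188.Lft5
import Crest.Agent.R183.RD10
import Crest.Agent.R188.PerfC3
import Crest.Agent.R188.SX3
import Crest.Agent.R188.KosF
import Crest.Agent.R188.PerfB8
import Crest.Agent.R188.Tay1
import Crest.Agent.R183.CohenWitt
import Crest.Agent.R183.CohenNoether
import Crest.Agent.R183.BInf7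
import Crest.Agent.R188.Tay8

-- ▼ part R188/Slt4
section

set_option autoImplicit false
set_option linter.unusedSectionVars false

namespace Crest.Agent.R188.Slt

open scoped ENNReal
open WittVector Crest.Agent.R183 Crest.Agent.R183.Res Crest.Agent.R188.Chi Crest.Agent.R188.Asm
open Crest.Agent.R188.Prf Crest.Agent.R188.Wit Crest.Agent.R188.KosG Crest.Agent.R188.PerfC

attribute [local instance] World.ringP

section kh

variable {p : ℕ} [hp : Fact p.Prime] {P : Type} [CommRing P] (h : IsPerf p P)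
  (Λ : AddLen.{0, 0} (WittVector p P))

include h

/-- **`W(P)` versus `P`** -/
theorem kh_gamma (l : List P) (i : ℤ) :
    kh Λ ((p : WittVector p P) :: l.map (teichmuller p)) (WittVector p P) i =
      kh (LP Λ) l P i := by
  let _ : Module (WittVector p P) P := Module.compHom P (constantCoeff (p := p) (R := P))
  conv_rhs => rw [← map_coeff (p := p) l]
  rw [kh_restrict (constantCoeff (p := p) (R := P)) (fun _ _ => rfl) Λ]
  rcases lt_or_ge i 0 with hi | hi
  · rw [kh_eq_zero _ _ _ i (Or.inl hi), kh_eq_zero _ _ _ i (Or.inl hi)]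
  obtain ⟨n, rfl⟩ := Int.eq_ofNat_of_zero_le hi
  let g : WittVector p P →ₗ[WittVector p P] P :=
    { toFun := fun x => x.coeff 0
      map_add' := fun x y => map_add (constantCoeff (p := p) (R := P)) x y
      map_smul' := fun a x => map_mul (constantCoeff (p := p) (R := P)) a x }
  have h1 := SX.h0_cons_regular Λ (X := WittVector p P) (p : WittVector p P)
    (l.map (teichmuller p)) g (fun x hx => p_regular h hx) (fun x => ?_) (fun x => ?_) n
  · rwa [h0_eq_kh, h0_eq_kh] at h1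
  · exact ⟨teichmuller p x, teichmuller_coeff_zero p x⟩
  · show x.coeff 0 = 0 ↔ _
    rw [← p_dvd_iff h]
    exact ⟨fun ⟨y, hy⟩ => ⟨y, hy.symm⟩, fun ⟨y, hy⟩ => ⟨y, hy.symm⟩⟩

theorem kh_gamma' {n : ℕ} (v : Fin n → P) (i : ℤ) :
    kh Λ (List.ofFn (fun j => teichmuller p (v j)) ++ [(p : WittVector p P)])
      (WittVector p P) i = kh (LP Λ) (List.ofFn v) P i := by
  rw [← kh_gamma h, ← kh_perm Λ _ (List.perm_append_singleton _ _).symm]
  rw [List.map_ofFn]
  rfl

/-- **`W(P)/W~(I)` versus `P/I`** -/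
theorem kh_gamma_quot {I : Ideal P} (hI : Digit.Convex p I) {n : ℕ} (v : Fin n → P) (i : ℤ) :
    kh Λ (List.ofFn (fun j => teichmuller p (v j)) ++ [(p : WittVector p P)])
      (WittVector p P ⧸ WI h.p_zero I) i = kh (LP Λ) (List.ofFn v) (P ⧸ I) i := by
  rw [← kh_quot h Λ hI, ← kh_perm Λ _ (List.perm_append_singleton _ _).symm]
  rw [List.map_ofFn]
  rfl

end kh

/-- `L(C/(l)C) = kh_0` for a ring -/
theorem kh_zero_ring {A : Type} [CommRing A] (Λ : AddLen.{0, 0} A) (l : List A) :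
    kh Λ l A 0 = Λ.L (A ⧸ Ideal.ofList l) := by
  rw [kh_zero]
  exact Λ.L_congr (Submodule.quotEquivOfEq _ _ (Noe.ofList_smul_top l))

section world

variable {p : ℕ} [hp : Fact p.Prime] {k : Type} [Field k] [CharP k p] {b : ℕ} (W : World p k b)

/-- `([t_0], …, [t_b], p)` -/
noncomputable def vt : List (WittVector p W.P) :=
  List.ofFn (fun i => teichmuller p (W.t i)) ++ [(p : WittVector p W.P)]

theorem kh_vt (j : ℤ) (hj : 1 ≤ j) : kh W.Λ (vt W) (WittVector p W.P) j = 0 := by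
  rw [vt, kh_gamma' W.perf]
  exact W.L_reg j hj

theorem L_vt : W.Λ.L (WittVector p W.P ⧸ Ideal.ofList (vt W)) =
    (LP W.Λ).L (W.P ⧸ Ideal.span (Set.range W.t)) := by
  rw [← kh_zero_ring, vt, kh_gamma' W.perf, kh_zero_ring]
  have : Ideal.ofList (List.ofFn W.t) = Ideal.span (Set.range W.t) := by
    unfold Ideal.ofList
    congr 1
    ext x
    exact List.mem_ofFn
  rw [this]

theorem L_vt_ne_zero : W.Λ.L (WittVector p W.P ⧸ Ideal.ofList (vt W)) ≠ 0 := by
  rw [L_vt]; exact W.L_ne_zero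

theorem L_vt_ne_top : W.Λ.L (WittVector p W.P ⧸ Ideal.ofList (vt W)) ≠ ⊤ := by
  rw [L_vt]; exact W.L_ne_top

theorem p_mem_vt : (p : WittVector p W.P) ∈ Ideal.ofList (vt W) :=
  Ideal.subset_span (by simp [vt])

theorem teich_t_mem_vt (i) : teichmuller p (W.t i) ∈ Ideal.ofList (vt W) :=
  Ideal.subset_span (List.mem_append_left _ (List.mem_ofFn.2 ⟨i, rfl⟩))

/-- `c ∈ rad (t)` ⟹ `[c]^K ∈ ([t], p)` -/
theorem teich_pow_mem_vt {c : W.P} (hc : c ∈ (Ideal.span (Set.range W.t)).radical) :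
    ∃ K : ℕ, teichmuller p c ^ K ∈ Ideal.ofList (vt W) := by
  obtain ⟨K, hK⟩ := hc
  refine ⟨K, ?_⟩
  have h1 : Ideal.span (Set.range W.t) =
      (Ideal.span (Set.range fun i => teichmuller p (W.t i))).map
        (constantCoeff (p := p) (R := W.P)) := by
    rw [Ideal.map_span, ← Set.range_comp]
    have h7 : (⇑(constantCoeff (p := p) (R := W.P)) ∘ fun i => teichmuller p (W.t i)) = W.t := by
      funext i
      exact teichmuller_coeff_zero p _
    rw [h7]
  rw [h1] at hK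
  obtain ⟨y, hy, hyc⟩ := (Ideal.mem_map_iff_of_surjective _ (fun x =>
    ⟨teichmuller p x, teichmuller_coeff_zero p x⟩)).1 hK
  have h2 : (p : WittVector p W.P) ∣ teichmuller p c ^ K - y := by
    rw [p_dvd_iff W.perf]
    have : constantCoeff (teichmuller p c ^ K - y) = 0 := by
      rw [map_sub, map_pow, hyc]
      have : constantCoeff (teichmuller p c) = c := teichmuller_coeff_zero p c
      rw [this, sub_self]
    exact this
  obtain ⟨z, hz⟩ := h2
  have h3 : teichmuller p c ^ K = y + (p : WittVector p W.P) * z := by rw [← hz]; ring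
  rw [h3]
  refine add_mem ?_ (Ideal.mul_mem_right _ _ (p_mem_vt W))
  have h4 : Ideal.span (Set.range fun i => teichmuller p (W.t i)) ≤ Ideal.ofList (vt W) := by
    rw [Ideal.span_le]
    rintro _ ⟨i, rfl⟩
    exact teich_t_mem_vt W i
  exact h4 hy

end world

end Crest.Agent.R188.Slt
end

-- ▼ part R188/Asm5
section

/-!
# R188, assembly (helper702), part 5: `CORE` from the contract of `Asm3`
-/

set_option autoImplicit false
set_option linter.unusedSectionVars false

namespace Crest.Agent.R188.Asm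

open WittVector Crest.Agent.R183 Crest.Agent.R183.Res Crest.Agent.R188.Prf Crest.Agent.R188.Wit
open Crest.Agent.R188.Chi Crest.Agent.R188.KosG
open scoped ENNReal TensorProduct

variable {p : ℕ} [hp : Fact p.Prime] {k : Type} [Field k] [CharP k p] [IsAlgClosed k] {b : ℕ}

/-- **TRANSFER** (helper622, `Slt.main`) -/
def Transfer (W : World p k b) : Prop :=
  ∀ (R A M : Type) [CommRing R] [IsRegularLocalRing R] [CommRing A] [Algebra R A]
    [Algebra (BB p k b) A] [AddCommGroup M] [Module R M] [Module.Finite R M] (d a : ℕ)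
    (_ : Sit p k b R A M d a) (F : MCx R) (ε : (F.ι 0 → R) →ₗ[R] M) (_ : IsRes F ε)
    (_ : F.Len d) (γ : A →ₐ[BB p k b] BPlus p k b),
    (∀ i, hX (ΛA W A) (GA W A F) (Flg.Tw (Tri.charOm (Om W.ξ) γ)) i ≠ ⊤) ∧
    0 < chiX (ΛA W A) (GA W A F) (Flg.Tw (Tri.charOm (Om W.ξ) γ)) (d + 1) ∧
    ∀ (h : W.P) (hr : ℕ → BPlus p k b), SharpPair W.perf W.ι h hr → hr 0 ≠ 0 →
      ∀ I : Ideal W.P, Good W h I →
      (∀ i, hX (ΛA W A) (GA W A F) ↥(Flg.twI (Tri.charOm (Om W.ξ) γ) (JI W I)) i ≠ ⊤) ∧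
      chiX (ΛA W A) (GA W A F) ↥(Flg.twI (Tri.charOm (Om W.ξ) γ) (JI W I)) (d + 1) =
        chiX (ΛA W A) (GA W A F) (Flg.Tw (Tri.charOm (Om W.ξ) γ)) (d + 1)

theorem World.c_pos (W : World p k b) : 0 < W.c :=
  ENNReal.toReal_pos W.L_ne_zero W.L_ne_top

theorem mB_le_maximalIdeal (b : ℕ) : mB p k b ≤ IsLocalRing.maximalIdeal (BB p k b) := by
  have h1 : IsLocalRing.maximalIdeal (BB p k b) = _ :=
    R183.Cohen.maximalIdeal_mvPowerSeries (σ := Fin b) (Λ := WittVector p k)
  rw [mB, Ideal.span_le]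
  rintro _ ⟨i, rfl⟩
  rw [h1]
  refine Fin.cases ?_ (fun j => ?_) i
  · refine Ideal.mem_sup_left ?_
    have h2 : (p : WittVector p k) ∈ IsLocalRing.maximalIdeal (WittVector p k) := by
      rw [R183.Cohen.maximalIdeal_witt]
      exact Ideal.subset_span rfl
    have h3 := Ideal.mem_map_of_mem (MvPowerSeries.C : WittVector p k →+* BB p k b) h2
    rw [map_natCast] at h3
    exact h3
  · exact Ideal.mem_sup_right (Ideal.subset_span ⟨j, rfl⟩)

/-- multiplication by `ι c` is injective for `c ≠ 0` -/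
theorem World.isSMulRegular (W : World p k b) {c : BPlus p k b} (hc : c ≠ 0) :
    IsSMulRegular (Om W.ξ) c := by
  intro x y hxy
  have h1 : W.ι c * x = W.ι c * y := hxy
  have h2 : W.ι c * (x - y) = 0 := by rw [mul_sub, h1, sub_self]
  exact sub_eq_zero.1 (W.reg_ι c hc _ h2)

theorem sh_mem_JI (W : World p k b) {I : Ideal W.P} {x : W.P} (hx : x ∈ I) :
    sh W.ξ x ∈ JI W I := by
  refine Ideal.mem_map_of_mem _ ?_
  show ∀ n, (WittVector.teichmuller p x).coeff n ∈ I ^ p ^ n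
  intro n
  cases n with
  | zero => rw [WittVector.teichmuller_coeff_zero, pow_zero, pow_one]; exact hx
  | succ n =>
    rw [WittVector.teichmuller_coeff_pos p x _ (Nat.succ_pos n)]
    exact Ideal.zero_mem _

theorem Good.exists_mem {W : World p k b} {h : W.P} {I : Ideal W.P} (hI : Good W h I)
    {hr : ℕ → BPlus p k b} (hsp : SharpPair W.perf W.ι h hr) (hne : hr 0 ≠ 0) :
    ∃ c : BB p k b, c ≠ 0 ∧ algebraMap (BB p k b) (Om W.ξ) c ∈ JI W I := by
  obtain ⟨m, hm⟩ := hI.mem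
  obtain ⟨c', c, hc0, hc⟩ := Tri.bPlus_exists_mul (pow_ne_zero m hne)
  refine ⟨c, hc0, ?_⟩
  rw [World.algebraMap_BB, ← hc, map_mul, map_pow, ← AsmG.SharpPair.sh_eq hsp]
  have h1 : sh W.ξ h ^ m = sh W.ξ (h ^ m) := (sh_pow W.ξ h m).symm
  rw [h1]
  exact Ideal.mul_mem_right _ _ (sh_mem_JI W hm)

section formula

variable (W : World p k b) (hT : Twist W) (hL : LeftSide W) (hS : Transfer W)
  {R A M : Type} [CommRing R] [IsRegularLocalRing R] [CommRing A] [Algebra R A]
  [Algebra (BB p k b) A] [AddCommGroup M] [Module R M] [Module.Finite R M] {d a : ℕ}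
  (Z : Sit p k b R A M d a) {F : MCx R} {ε : (F.ι 0 → R) →ₗ[R] M} (hF : IsRes F ε)
  (hlen : F.Len d)

include hT hL hS Z hF hlen

theorem formula {N : Type} [AddCommGroup N] [Module A N] [Module R N] [IsScalarTower R A N]
    [Module (BB p k b) N] [IsScalarTower (BB p k b) A N] {r : ℕ}
    (e : Module.Basis (Fin r) (BB p k b) N) {L : Matrix (Fin r) (Fin r) (BPlus p k b)}
    {γ : Fin r → A →ₐ[BB p k b] BPlus p k b}
    (hfl : Tri.IsFlag (Tri.actMatrix (A := A) e) L γ) :
    Top.pair R d M N * W.c =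
      ∑ j, chiX (ΛA W A) (GA W A F) (Flg.Tw (Tri.charOm (Om W.ξ) (γ j))) (d + 1) := by
  rcases Nat.eq_zero_or_pos r with h0 | hr
  · subst h0
    have : Subsingleton N := e.equivFun.toEquiv.subsingleton
    rw [Top.pair_subsingleton_right, zero_mul]
    simp
  obtain ⟨h, hr', hsp, hne, I, m, hmono, hgood⟩ := hT r hr L hfl.det_ne_zero
  have hntA := Z.ntA
  have hfinA := Z.finA
  obtain ⟨c, hc⟩ := AsmG.exists_pow_mem_annihilator (R := R) (A := A) (B := BB p k b) (M := M)
    Z.surjA Z.proper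
  -- the Euler functional
  let E := AsmG.eulerW W (A := A) (R := R) (M := M) (fun _ => rfl)
    (fun i => hc _ (mB_le_maximalIdeal b (Ideal.subset_span ⟨i, rfl⟩)))
    (F := F) (fun m hm => hF.nhom (fun x => Module.mem_annihilator.1 hm x)) hlen hsp hne
  let V := Tri.OmV (Om W.ξ) (Tri.actMatrix (A := A) e)
  let cd := Tri.OmV.coord (Om W.ξ) (Tri.actMatrix (A := A) e)
  have hreg : IsSMulRegular (Om W.ξ) L.det := W.isSMulRegular hfl.det_ne_zero
  obtain ⟨⟨hV1, hV2⟩, hV3⟩ := hL R A M d a Z F ε hF hlen N r e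
  let T : Fin (r + 1) → ℕ := fun _ => m + 1
  have hmem := (hgood T).exists_mem hsp hne
  obtain ⟨hQ1, hQ2⟩ := hV3 (JI W (I T)) hmem (hgood T).fin
  have hVfin : E.Fn V := hV1
  have hQfin : E.Fn (V ⧸ Flg.JV (AO W A) cd (JI W (I T))) := hQ1
  have hJfin : E.Fn (Flg.JV (AO W A) cd (JI W (I T))) := E.fn_submodule _ hVfin hQfin
  have h1 : E.val V = E.val (Flg.JV (AO W A) cd (JI W (I T))) := by
    have h2 := E.val_quot (Flg.JV (AO W A) cd (JI W (I T))) hJfin hQfin
    have h3 : E.val (V ⧸ Flg.JV (AO W A) cd (JI W (I T))) = 0 := hQ2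
    rw [h2, h3, add_zero]
  have key := Flg.flag_formula_of_twist E (b := cd) (l := Tri.rows (Om W.ξ) L)
    (γ := Tri.charN (Om W.ξ) hr γ) (hfl.flg (Om W.ξ) _ hr hreg)
    (fun x hx => Tri.eq_zero_of_rows (Om W.ξ) _ hreg x hx) hmono T (fun _ => le_rfl)
    hJfin (fun k hk => by
      rw [Tri.charN_of_lt (Om W.ξ) hr γ hk]
      exact ((hS R A M d a Z F ε hF hlen (γ ⟨k, hk⟩)).2.2 h hr' hsp hne _ (hgood _)).1)
    h1 (fun k hk => by
      rw [Tri.charN_of_lt (Om W.ξ) hr γ hk]
      exact ((hS R A M d a Z F ε hF hlen (γ ⟨k, hk⟩)).2.2 h hr' hsp hne _ (hgood _)).2)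
  have h4 : E.val V = Top.pair R d M N * W.c := hV2
  rw [← h4, key, Finset.sum_range]
  refine Finset.sum_congr rfl fun j _ => ?_
  rw [Tri.charN_of_lt (Om W.ξ) hr γ j.2]
  rfl

end formula

end Crest.Agent.R188.Asm

namespace Crest.Agent.R188.Asm

open Crest.Agent.R183 Crest.Agent.R183.Res Crest.Agent.R188.Chi Crest.Agent.R188.Wit

/-- **`CORE` from worlds satisfying the contract** -/
theorem core_of (hW : ∀ (p : ℕ) [Fact p.Prime] (k : Type) [Field k] [IsAlgClosed k] [CharP k p]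
    (b : ℕ), ∃ W : World p k b, Twist W ∧ LeftSide W ∧ Transfer W) : Top.CORE := by
  intro p _ k _ _ _ R _ _ hcomp d a b hdim hd π hπ f hf hker A _ _ _ hsurj _ _ _ hcomm M _ _ _
    hsupp hfl
  obtain ⟨W, hT, hL, hS⟩ := hW p k b
  have Z : Sit p k b R A M d a :=
    { complete := hcomp
      dim := hdim
      hd := hd
      π := π
      π_surj := hπ
      f := f
      f_mem := hf
      ker_π := hker
      ntA := inferInstance
      surjA := hsurj
      finA := inferInstance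
      freeA := inferInstance
      comm := hcomm
      finM := inferInstance
      dimM := hsupp
      proper := hfl }
  obtain ⟨F, ε, hF, -, hlen⟩ := exists_res_len hdim M
  refine ⟨fun γ => chiX (ΛA W A) (GA W A F) (Flg.Tw (Tri.charOm (Om W.ξ) γ)) (d + 1) / W.c,
    fun γ => div_pos (hS R A M d a Z F ε hF hlen γ).2.1 W.c_pos, ?_⟩
  intro N _ _ _ _ _ _ r e L γ hfl'
  have h1 := formula W hT hL hS Z hF hlen e hfl'
  rw [← Finset.sum_div, ← h1, mul_div_cancel_right₀ _ W.c_pos.ne']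

end Crest.Agent.R188.Asm
end

-- ▼ part R188/Slt5
section

set_option autoImplicit false
set_option linter.unusedSectionVars false

namespace Crest.Agent.R188.Slt

open scoped ENNReal TensorProduct
open WittVector Crest.Agent.R183 Crest.Agent.R183.Res Crest.Agent.R188.Chi Crest.Agent.R188.Asm
open Crest.Agent.R188.Prf Crest.Agent.R188.Wit Crest.Agent.R188.KosG
open IsLocalRing

section ring

variable (p : ℕ) [hp : Fact p.Prime] (k : Type) [Field k] [CharP k p] [IsAlgClosed k]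

theorem mB_eq (d : ℕ) : mB p k d = maximalIdeal (BB p k d) := by
  have : PerfectRing k p := PerfectField.toPerfectRing p
  exact le_antisymm (mB_le_maximalIdeal d) Lft.maximalIdeal_BB_le

theorem isRegular_BB (d : ℕ) : IsRegularLocalRing (BB p k d) := by
  have : PerfectRing k p := PerfectField.toPerfectRing p
  have : IsRegularLocalRing (WittVector p k) := (Cohen.isCohen_witt p k).isRegularLocalRing
  exact Cohen.isRegularLocalRing_mvPowerSeries d

theorem dim_BB (d : ℕ) : ringKrullDim (BB p k d) = ((d + 1 : ℕ) : WithBot ℕ∞) := by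
  have : PerfectRing k p := PerfectField.toPerfectRing p
  exact RD.ringKrullDim_mv_witt p k d

end ring

section sit

variable {p : ℕ} [hp : Fact p.Prime] {k : Type} [Field k] [CharP k p] [IsAlgClosed k] {b : ℕ}
  (W : World p k b) {R A M : Type} [CommRing R] [IsRegularLocalRing R] [CommRing A] [Algebra R A]
  [Algebra (BB p k b) A] [AddCommGroup M] [Module R M] {d a : ℕ} (Z : Sit p k b R A M d a)
  (γ : A →ₐ[BB p k b] BPlus p k b)

/-- `E = p - f` -/
noncomputable def Ee : BB p k d := MvPowerSeries.C (p : WittVector p k) - Z.f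

/-- `S → R → A` -/
noncomputable def sg : BB p k d →+* A := (algebraMap R A).comp Z.π

/-- `S → B^+` -/
noncomputable def gg : BB p k d →+* BPlus p k b := (γ : A →+* BPlus p k b).comp (sg Z)

theorem pi_E : Z.π (Ee Z) = 0 := by
  have : Ee Z ∈ RingHom.ker Z.π := by
    rw [Z.ker_π]; exact Ideal.mem_span_singleton_self _
  exact this

theorem nonempty_lift : Nonempty (Lft.Lift W (gg Z γ) (Ee Z)) := by
  have : PerfectRing k p := PerfectField.toPerfectRing p
  have := Z.ntA
  have := Z.finA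
  refine Lft.nonempty_lift W (sg Z) γ (Z.surjA.comp Z.π_surj) (fun w => Z.comm w) Z.f Z.f_mem ?_
  show algebraMap R A (Z.π (Ee Z)) = 0
  rw [pi_E, map_zero]

/-- the annihilator over `S` -/
noncomputable def Jn : Ideal (BB p k d) := (Module.annihilator R M).comap Z.π

theorem mem_Jn {s : BB p k d} : s ∈ Jn Z ↔ ∀ m : M, Z.π s • m = 0 := by
  rw [Jn, Ideal.mem_comap, Module.mem_annihilator]

theorem E_mem_Jn : Ee Z ∈ Jn Z := by
  rw [mem_Jn]
  intro m
  rw [pi_E, zero_smul]

variable (L : Lft.Lift W (gg Z γ) (Ee Z))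

/-- elements of `γ(A)` coming from `Ann M` -/
theorem gamma_mem {m : R} (hm : m ∈ Module.annihilator R M) :
    γ (algebraMap R A m) ∈ (Jn Z).map (gg Z γ) := by
  obtain ⟨s, rfl⟩ := Z.π_surj m
  exact Ideal.mem_map_of_mem (gg Z γ) (show s ∈ Jn Z from hm)

/-- `[u]^c ∈ φ(Ann M) W(P)` for the sharp elements over `m_B` -/
theorem teich_mem [Module.Finite R M] : ∃ c : ℕ, ∀ (u : W.P) (r : ℕ → BPlus p k b)
    (z : BB p k b), SharpPair W.perf W.ι u r →
      r 0 = algebraMap (BB p k b) (BPlus p k b) z → z ∈ mB p k b →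
      teichmuller p u ^ c ∈ (Jn Z).map L.φ := by
  have := Z.ntA
  have := Z.finA
  obtain ⟨c, hc⟩ := AsmG.exists_pow_mem_annihilator (R := R) (A := A) (B := BB p k b) (M := M)
    Z.surjA Z.proper
  refine ⟨c, fun u r z hsp hr hz => ?_⟩
  apply L.mem_map (E_mem_Jn Z)
  obtain ⟨m, hm, hm2⟩ := hc z (mB_le_maximalIdeal b hz)
  have h1 : θ W.ξ (teichmuller p u ^ c) =
      W.ι (algebraMap (BB p k b) (BPlus p k b) z ^ c) := by
    rw [map_pow, map_pow, ← hr, ← AsmG.SharpPair.sh_eq hsp]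
    rfl
  rw [h1]
  apply Ideal.mem_map_of_mem
  have h2 : algebraMap (BB p k b) (BPlus p k b) z ^ c = γ (algebraMap R A m) := by
    rw [hm2, map_pow, γ.commutes]
  rw [h2]
  exact gamma_mem Z γ hm

include Z in
theorem ann_sup [Module.Finite R M] : ∃ c : ℕ, maximalIdeal R ^ c ≤
    Module.annihilator R M ⊔ RingHom.ker (algebraMap R A) := by
  have hfin : Module.Finite R A := Module.Finite.of_surjective (Algebra.linearMap R A) Z.surjA
  obtain ⟨c, hc⟩ := Noe.exists_pow_le_of_ringKrullDim_le_zero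
    (Noe.ringKrullDim_le_zero_of_isFiniteLength Z.proper)
  refine ⟨c, hc.trans (sup_le_sup_left ?_ _)⟩
  intro n hn
  have := Module.mem_annihilator.1 hn (1 : A)
  rwa [Algebra.smul_def, mul_one] at this

theorem pi_mem_max {s : BB p k d} (hs : s ∈ mB p k d) : Z.π s ∈ maximalIdeal R := by
  rw [mB_eq] at hs
  have : IsLocalHom Z.π := IsLocalHom.of_surjective Z.π Z.π_surj
  rw [mem_maximalIdeal, mem_nonunits_iff] at hs ⊢
  exact fun h => hs (isUnit_of_map_unit Z.π s h)

/-- `φ(s)^c ∈ φ(Ann M) W(P)` for `s ∈ m_S` -/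
theorem phi_mem [Module.Finite R M] : ∃ c : ℕ, ∀ s ∈ mB p k d,
    L.φ s ^ c ∈ (Jn Z).map L.φ := by
  obtain ⟨c, hc⟩ := ann_sup Z
  refine ⟨c, fun s hs => ?_⟩
  apply L.mem_map (E_mem_Jn Z)
  obtain ⟨m, hm, n, hn, hmn⟩ := Submodule.mem_sup.1 (hc (Ideal.pow_mem_pow (pi_mem_max Z hs) c))
  have hn' : algebraMap R A n = 0 := hn
  have h1 : θ W.ξ (L.φ s ^ c) = W.ι (γ (algebraMap R A m)) := by
    rw [← map_pow, L.θ_φ]
    congr 1
    show γ (algebraMap R A (Z.π (s ^ c))) = _
    rw [map_pow, ← hmn, map_add, hn', add_zero]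
  rw [h1]
  exact Ideal.mem_map_of_mem _ (gamma_mem Z γ hm)

/-- `φ(s)^K ∈ ([t], p)` for `s ∈ m_S` -/
theorem phi_mem_vt {s : BB p k d} (hs : s ∈ mB p k d) :
    ∃ K : ℕ, L.φ s ^ K ∈ Ideal.ofList (vt W) := by
  have h1 : (mB p k d).map L.φ ≤ (Ideal.ofList (vt W)).radical := by
    rw [mB, Ideal.map_span, Ideal.span_le]
    rintro _ ⟨_, ⟨i, rfl⟩, rfl⟩
    refine Fin.cases ?_ (fun i => ?_) i
    · refine ⟨1, ?_⟩
      rw [pow_one]
      show L.φ (p : BB p k d) ∈ _
      rw [map_natCast]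
      exact p_mem_vt W
    · show L.φ (MvPowerSeries.X i) ∈ _
      rw [L.φ_X]
      exact teich_pow_mem_vt W (L.a_rad i)
  exact h1 (Ideal.mem_map_of_mem _ hs)

end sit

end Crest.Agent.R188.Slt
end

-- ▼ part R188/Slt6
section

set_option autoImplicit false
set_option linter.unusedSectionVars false

namespace Crest.Agent.R188.Slt

open scoped ENNReal TensorProduct
open WittVector Crest.Agent.R183 Crest.Agent.R183.Res Crest.Agent.R188.Asm
open Crest.Agent.R188.Chi (hX chiX hX_eq chiX_eq chiX_eq_of_len exists_res_len IsRes)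
open Crest.Agent.R188.Prf Crest.Agent.R188.Wit Crest.Agent.R188.KosG
open IsLocalRing

section sit

variable {p : ℕ} [hp : Fact p.Prime] {k : Type} [Field k] [CharP k p] [IsAlgClosed k] {b : ℕ}
  (W : World p k b) {R A M : Type} [CommRing R] [IsRegularLocalRing R] [CommRing A] [Algebra R A]
  [Algebra (BB p k b) A] [AddCommGroup M] [Module R M] {d a : ℕ} (Z : Sit p k b R A M d a)
  (γ : A →ₐ[BB p k b] BPlus p k b)

/-- `M` over `S` -/
@[reducible] noncomputable def modS : Module (BB p k d) M := Module.compHom M Z.π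

theorem ann_eq : @Module.annihilator (BB p k d) M _ _ (modS Z) = Jn Z := by
  let _ : Module (BB p k d) M := modS Z
  ext s
  rw [Module.mem_annihilator, mem_Jn]
  rfl

theorem finite_S : @Module.Finite (BB p k d) M _ _ (modS Z) := by
  let _ : Module (BB p k d) M := modS Z
  let _ : Algebra (BB p k d) R := Z.π.toAlgebra
  have : IsScalarTower (BB p k d) R M := IsScalarTower.of_algebraMap_smul fun _ _ => rfl
  have : Module.Finite (BB p k d) R :=
    Module.Finite.of_surjective (Algebra.linearMap (BB p k d) R) Z.π_surj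
  have := Z.finM
  exact Module.Finite.trans R M

theorem supportDim_S : @Module.supportDim (BB p k d) _ M _ (modS Z) = (a : ℕ) := by
  let _ : Module (BB p k d) M := modS Z
  let _ : Algebra (BB p k d) R := Z.π.toAlgebra
  have : IsScalarTower (BB p k d) R M := IsScalarTower.of_algebraMap_smul fun _ _ => rfl
  have : Module.Finite (BB p k d) M := finite_S Z
  rw [Noe.supportDim_of_surjective (R := BB p k d) (S := R) Z.π_surj]
  exact Z.dimM

theorem dim_quot_Jn : ringKrullDim (BB p k d ⧸ Jn Z) = (a : ℕ) := by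
  let _ : Module (BB p k d) M := modS Z
  have : Module.Finite (BB p k d) M := finite_S Z
  rw [← ann_eq Z, ← Module.supportDim_eq_ringKrullDim_quotient_annihilator]
  exact supportDim_S Z

theorem Jn_le : Jn Z ≤ maximalIdeal (BB p k d) := by
  apply le_maximalIdeal
  intro h
  have h1 := dim_quot_Jn Z
  have : Subsingleton (BB p k d ⧸ Jn Z) := Ideal.Quotient.subsingleton_iff.2 h
  rw [ringKrullDim_eq_bot_of_subsingleton] at h1
  exact absurd h1 (by simp)

theorem exists_t : ∃ t : List (BB p k d), t.length = a ∧ (∀ x ∈ t, x ∈ mB p k d) ∧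
    ∃ N, mB p k d ^ N ≤ Jn Z ⊔ Ideal.ofList t := by
  have := isRegular_BB p k d
  obtain ⟨t, ht, c, hc⟩ := Noe.exists_sop (Jn_le Z) (dim_quot_Jn Z).le
  refine ⟨List.ofFn t, List.length_ofFn, fun x hx => ?_, c, ?_⟩
  · obtain ⟨i, rfl⟩ := List.mem_ofFn.1 hx
    rw [mB_eq]
    exact ht i
  · have h1 : Ideal.ofList (List.ofFn t) = Ideal.span (Set.range t) := by
      unfold Ideal.ofList
      congr 1
      ext x
      exact List.mem_ofFn
    rw [mB_eq, h1]
    exact hc

theorem E_ne_zero : Ee Z ≠ 0 := by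
  intro h
  have h1 : MvPowerSeries.constantCoeff (σ := Fin d) (R := WittVector p k) (Ee Z) = 0 := by
    rw [h, map_zero]
  have h2 : Ideal.span (Set.range (MvPowerSeries.X : Fin d → BB p k d)) ≤
      RingHom.ker (MvPowerSeries.constantCoeff (σ := Fin d) (R := WittVector p k)) := by
    rw [Ideal.span_le]
    rintro _ ⟨i, rfl⟩
    exact MvPowerSeries.constantCoeff_X i
  have h3 : MvPowerSeries.constantCoeff (σ := Fin d) (R := WittVector p k) Z.f = 0 := h2 Z.f_mem
  rw [Ee, map_sub, h3, sub_zero, MvPowerSeries.constantCoeff_C] at h1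
  have : PerfectRing k p := PerfectField.toPerfectRing p
  exact WittVector.p_nonzero p k h1

variable (L : Lft.Lift W (gg Z γ) (Ee Z))

/-- **positivity over `W(P)`** -/
theorem positive (hP : SPositive p k) {G : MCx (BB p k d)}
    {εG : letI := modS Z; (G.ι 0 → BB p k d) →ₗ[BB p k d] M}
    (hG : letI := modS Z; IsRes G εG) {D : ℕ} (hD : G.Len D) :
    (∀ i, hX W.Λ (G.map L.φ) (WittVector p W.P) i ≠ ⊤) ∧
      0 < chiX W.Λ (G.map L.φ) (WittVector p W.P) (D + 1) := by
  let _ : Module (BB p k d) M := modS Z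
  have := finite_S Z
  have := Z.finM
  obtain ⟨t, ht1, ht2, ht3⟩ := exists_t Z
  obtain ⟨c, hc⟩ := phi_mem W Z γ L
  obtain ⟨c', hc'⟩ := teich_mem W Z γ L
  refine hP d M G εG hG D hD (WittVector p W.P) L.φ W.Λ t
    (List.ofFn fun i => teichmuller p (W.t i)) ?_ ht2 ?_ ?_ ?_ ?_ ?_ ?_ ?_ ?_
  · rw [ann_eq Z]; exact ht3
  · rw [ann_eq Z]
    exact fun s hs => ⟨c, hc s hs⟩
  · rw [ann_eq Z]
    intro x hx
    obtain ⟨i, rfl⟩ := List.mem_ofFn.1 hx
    exact ⟨c', hc' _ _ _ (W.t_sharp i) (W.tr_zero i) (Ideal.subset_span ⟨i, rfl⟩)⟩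
  · exact fun s hs => phi_mem_vt W Z γ L hs
  · rw [ht1]; exact supportDim_S Z
  · rw [ht1, List.length_ofFn, Z.hd]
  · exact kh_vt W
  · exact L_vt_ne_zero W
  · exact L_vt_ne_top W

/-- **vanishing over `W(P)`** -/
theorem vanish (hV : SVanish p k) {G : MCx (BB p k d)}
    {εG : letI := modS Z; (G.ι 0 → BB p k d) →ₗ[BB p k d] M}
    (hG : letI := modS Z; IsRes G εG) {D : ℕ} (hD : G.Len D) {h : W.P} {I : Ideal W.P}
    (hI : Good W h I) :
    (∀ i, hX W.Λ (G.map L.φ) (WittVector p W.P ⧸ WtI W I) i ≠ ⊤) ∧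
      chiX W.Λ (G.map L.φ) (WittVector p W.P ⧸ WtI W I) (D + 1) = 0 := by
  let _ : Module (BB p k d) M := modS Z
  have := finite_S Z
  have := Z.finM
  obtain ⟨t, ht1, ht2, ht3⟩ := exists_t Z
  obtain ⟨c, hc⟩ := phi_mem W Z γ L
  obtain ⟨c', hc'⟩ := teich_mem W Z γ L
  obtain ⟨z, v, zr, hz1, hz2, hz3, hz4⟩ := hI.growth
  refine hV d M G εG hG D hD (WittVector p W.P) L.φ W.Λ (WittVector p W.P ⧸ WtI W I) t
    (List.ofFn fun i => teichmuller p (v i)) ?_ ht2 ?_ ?_ ?_ ?_
  · rw [ann_eq Z]; exact ht3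
  · rw [ann_eq Z]
    exact fun s hs => ⟨c, hc s hs⟩
  · rw [ann_eq Z]
    intro x hx
    obtain ⟨i, rfl⟩ := List.mem_ofFn.1 hx
    exact ⟨c', hc' _ _ _ (hz2 i) (hz3 i) (hz1 i)⟩
  · intro j
    rw [kh_gamma_quot W.perf W.Λ hI.convex]
    exact hz4 j
  · rw [ht1, List.length_ofFn, Z.hd]
    omega

end sit

end Crest.Agent.R188.Slt
end

-- ▼ part R188/Slt7
section

set_option autoImplicit false
set_option linter.unusedSectionVars false

namespace Crest.Agent.R188.Slt

open scoped ENNReal TensorProduct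
open WittVector Crest.Agent.R183 Crest.Agent.R183.Res Crest.Agent.R188.Asm
open Crest.Agent.R188.Chi (hX chiX hX_eq chiX_eq chiX_eq_of_len exists_res_len IsRes)
open Crest.Agent.R188.Prf Crest.Agent.R188.Wit Crest.Agent.R188.KosG
open IsLocalRing

section main

variable {p : ℕ} [hp : Fact p.Prime] {k : Type} [Field k] [CharP k p] [IsAlgClosed k] {b : ℕ}
  (W : World p k b)

theorem chiX_congr_hX {A₁ A₂ R₁ R₂ X₁ X₂ : Type} [CommRing A₁] [CommRing A₂] [CommRing R₁]
    [CommRing R₂] [AddCommGroup X₁] [Module A₁ X₁] [Module R₁ X₁] [SMulCommClass R₁ A₁ X₁]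
    [AddCommGroup X₂] [Module A₂ X₂] [Module R₂ X₂] [SMulCommClass R₂ A₂ X₂]
    {Λ₁ : AddLen.{0, 0} A₁} {Λ₂ : AddLen.{0, 0} A₂} {F₁ : MCx R₁} {F₂ : MCx R₂}
    (h : ∀ i, hX Λ₁ F₁ X₁ i = hX Λ₂ F₂ X₂ i) (N : ℕ) :
    chiX Λ₁ F₁ X₁ N = chiX Λ₂ F₂ X₂ N := by
  rw [chiX_eq, chiX_eq]
  exact Finset.sum_congr rfl fun i _ => by rw [h]

/-- **TRANSFER** -/
theorem transfer (hV : SVanish p k) (hP : SPositive p k) : Transfer W := by
  intro R A M _ _ _ _ _ _ _ _ d a Z F ε hF hlen γ
  obtain ⟨L⟩ := nonempty_lift W Z γ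
  let _ : Module (BB p k d) M := modS Z
  have := finite_S Z
  have := isRegular_BB p k d
  have hntA := Z.ntA
  have hfinA := Z.finA
  obtain ⟨G, εG, hG, -, hGl⟩ := exists_res_len (dim_BB p k d) M
  obtain ⟨hp1, hp2⟩ := positive W Z γ L hP hG hGl
  obtain ⟨u, hu⟩ := L.assoc
  have hker : RingHom.ker Z.π = Ideal.span {Ee Z} := Z.ker_π
  have hE : Ee Z ∈ nonZeroDivisors (BB p k d) := mem_nonZeroDivisors_of_ne_zero (E_ne_zero Z)
  have hM : ∀ (s : BB p k d) (m : M), s • m = Z.π s • m := fun _ _ => rfl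
  have hχ : ∀ x : Om W.ξ, (Tri.charOm (Om W.ξ) γ : AO W A →+* Om W.ξ)
      (algebraMap (Om W.ξ) (AO W A) x) = x := fun x => (Tri.charOm (Om W.ξ) γ).commutes x
  have hcomp : ∀ s, algebraMap (WittVector p W.P) (Om W.ξ) (L.φ s) =
      (Tri.charOm (Om W.ξ) γ : AO W A →+* Om W.ξ) (rA W A (Z.π s)) := by
    intro s
    have h1 : (Tri.charOm (Om W.ξ) γ : AO W A →+* Om W.ξ) (rA W A (Z.π s)) =
        Tri.charOm (Om W.ξ) γ ((1 : Om W.ξ) ⊗ₜ[BB p k b] algebraMap R A (Z.π s)) := rfl
    rw [h1, Tri.charOm_tmul, one_mul]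
    exact L.θ_φ s
  have hmk : RingHom.ker (algebraMap (WittVector p W.P) (Om W.ξ)) = Ideal.span {W.ξ} :=
    Ideal.mk_ker
  have hreg : ∀ x : WittVector p W.P, W.ξ * x = 0 → x = 0 := fun x hx =>
    xi_regular W.perf W.dist hx
  have lenGA : (GA W A F).Len d := fun n hn => hlen n hn
  -- translation for `Ω`
  have tr1 : ∀ i, hX (ΛA W A) (GA W A F) (Flg.Tw (Tri.charOm (Om W.ξ) γ)) i =
      hX W.Λ (G.map L.φ) (WittVector p W.P) i :=
    hX_tr_top Z.π_surj hker hE hF hM hG (θ_surjective W.ξ) hmk hreg hu.symm (rA W A) hχ hcomp W.Λ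
      (AddEquiv.refl (Om W.ξ)) (fun _ _ => rfl)
  have val1 : chiX (ΛA W A) (GA W A F) (Flg.Tw (Tri.charOm (Om W.ξ) γ)) (d + 1) =
      chiX W.Λ (G.map L.φ) (WittVector p W.P) (d + 1 + 1) := by
    rw [← chiX_congr_hX tr1]
    exact (chiX_eq_of_len _ _ _ lenGA (by omega)).symm
  refine ⟨fun i => by rw [tr1]; exact hp1 i, by rw [val1]; exact hp2, ?_⟩
  intro h hr hsp hne I hI
  obtain ⟨hv1, hv2⟩ := vanish W Z γ L hV hG hGl hI
  obtain ⟨m, hm⟩ := hI.mem
  -- nilpotence of `p`, `[t_i]`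
  have := Z.finM
  obtain ⟨c1, hc1⟩ := phi_mem W Z γ L
  obtain ⟨c2, hc2⟩ := teich_mem W Z γ L
  have hcp : (p : WittVector p W.P) ^ (c1 + c2) ∈ (Jn Z).map L.φ := by
    rw [pow_add]
    refine Ideal.mul_mem_right _ _ ?_
    have h1 := hc1 (p : BB p k d) (Ideal.subset_span ⟨0, rfl⟩)
    rwa [map_natCast] at h1
  have hct : ∀ i, teichmuller p (W.t i) ^ (c1 + c2) ∈ (Jn Z).map L.φ := by
    intro i
    rw [pow_add]
    exact Ideal.mul_mem_left _ _
      (hc2 _ _ _ (W.t_sharp i) (W.tr_zero i) (Ideal.subset_span ⟨i, rfl⟩))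
  have hJ : ∀ s ∈ Jn Z, G.NHom s := fun s hs => hG.nhom (fun m => (mem_Jn Z).1 hs m)
  obtain ⟨hg1, hg2⟩ := gamma_main W hJ hcp hct hsp hne hGl (I := I) hp1 hv1 hv2
  -- translation for `θ(𝔎)`
  set 𝔎 := K (fun n => teichmuller p (W.perf.rtn n h)) (WtI W I) with h𝔎
  have tr2 : ∀ i, hX (ΛA W A) (GA W A F)
      ↥(Flg.twI (Tri.charOm (Om W.ξ) γ) (𝔎.map (θ W.ξ))) i =
        hX W.Λ (G.map L.φ) ↥𝔎 i :=
    hX_tr_ideal Z.π_surj hker hE hF hM hG (θ_surjective W.ξ) hmk hreg hu.symm (rA W A) hχ hcomp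
      W.Λ (xi_mem_K W hI.convex hm)
      { toFun := fun x => ⟨x.1, x.2⟩
        invFun := fun x => ⟨x.1, x.2⟩
        left_inv := fun _ => rfl
        right_inv := fun _ => rfl
        map_add' := fun _ _ => rfl } (fun _ _ => rfl)
  have val2 : chiX (ΛA W A) (GA W A F)
      ↥(Flg.twI (Tri.charOm (Om W.ξ) γ) (𝔎.map (θ W.ξ))) (d + 1) =
        chiX W.Λ (G.map L.φ) ↥𝔎 (d + 1 + 1) := by
    rw [← chiX_congr_hX tr2]
    exact (chiX_eq_of_len _ _ _ lenGA (by omega)).symm
  -- the Euler functional over `A'`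
  obtain ⟨c, hc⟩ := AsmG.exists_pow_mem_annihilator (R := R) (A := A) (B := BB p k b) (M := M)
    Z.surjA Z.proper
  let E := AsmG.eulerW W (A := A) (R := R) (M := M) (fun _ => rfl)
    (fun i => hc _ (mB_le_maximalIdeal b (Ideal.subset_span ⟨i, rfl⟩)))
    (F := F) (fun m hm => hF.nhom (fun x => Module.mem_annihilator.1 hm x)) hlen hsp hne
  have hle : Flg.twI (Tri.charOm (Om W.ξ) γ) (JI W I) ≤
      Flg.twI (Tri.charOm (Om W.ξ) γ) (𝔎.map (θ W.ξ)) := fun x hx => JI_le W I h hx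
  have halm : ∀ a ∈ AsmG.almI W.perf W.ξ h,
      ∀ x ∈ Flg.twI (Tri.charOm (Om W.ξ) γ) (𝔎.map (θ W.ξ)),
        algebraMap (Om W.ξ) (AO W A) a • x ∈ Flg.twI (Tri.charOm (Om W.ξ) γ) (JI W I) := by
    intro a ha x hx
    have h1 : (algebraMap (Om W.ξ) (AO W A) a • x).out = a * x.out := by
      show (Tri.charOm (Om W.ξ) γ : AO W A →+* Om W.ξ) (algebraMap (Om W.ξ) (AO W A) a) * x.out = _
      rw [hχ]
    show (algebraMap (Om W.ξ) (AO W A) a • x).out ∈ JI W I
    rw [h1]
    exact aI_mul_mem W I h a ha x.out hx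
  have hF2 : E.Fn ↥(Flg.twI (Tri.charOm (Om W.ξ) γ) (𝔎.map (θ W.ξ))) := fun i => by
    show hX (ΛA W A) (GA W A F) _ i ≠ ⊤
    rw [tr2]
    exact hg1 i
  have hF1 : E.Fn ↥(Flg.twI (Tri.charOm (Om W.ξ) γ) (JI W I)) := (E.fn_alm hle halm).2 hF2
  have hval : E.val ↥(Flg.twI (Tri.charOm (Om W.ξ) γ) (JI W I)) =
      E.val ↥(Flg.twI (Tri.charOm (Om W.ξ) γ) (𝔎.map (θ W.ξ))) := E.val_alm hle halm hF1
  refine ⟨hF1, ?_⟩
  have hval' : chiX (ΛA W A) (GA W A F) ↥(Flg.twI (Tri.charOm (Om W.ξ) γ) (JI W I)) (d + 1) =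
      chiX (ΛA W A) (GA W A F) ↥(Flg.twI (Tri.charOm (Om W.ξ) γ) (𝔎.map (θ W.ξ))) (d + 1) := hval
  rw [hval', val2, hg2, val1]

end main

end Crest.Agent.R188.Slt
end

-- ▼ part R188/PerfC4
section

set_option autoImplicit false
set_option linter.unusedSectionVars false

namespace Crest.Agent.R188.PerfC

open scoped ENNReal Pointwise TensorProduct
open IsLocalRing
open WittVector Crest.Agent.R183 Crest.Agent.R188.Chi Crest.Agent.R188.KosG
open Crest.Agent.R183.Res Crest.Agent.R183.Cohen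
open Crest.Agent.R188.Wit Crest.Agent.R188.Prf Crest.Agent.R188.Asm Crest.Agent.R188.PerfB

universe u w

/-! ### the quotient `(Ω/J)^r` -/

section quot

variable {Ω A : Type u} [CommRing Ω] [CommRing A] [Algebra Ω A]
variable {V : Type u} [AddCommGroup V] [Module Ω V] [Module A V] [IsScalarTower Ω A V] {r : ℕ}

/-- `V/JV ≃ (Ω/J)^r` -/
noncomputable def quotEquiv (b : V ≃ₗ[Ω] (Fin r → Ω)) (J : Ideal Ω) :
    (V ⧸ Flg.JV A b J) ≃ₗ[Ω] (Fin r → Ω ⧸ J) :=
  (Submodule.Quotient.restrictScalarsEquiv Ω (Flg.JV A b J)).symm ≪≫ₗ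
    (Submodule.quotEquivOfEq _ _ (by
      ext x
      rw [LinearMap.mem_ker]
      constructor
      · intro hx
        funext c
        exact (Submodule.Quotient.mk_eq_zero _).2 (hx c)
      · intro hx c
        exact (Submodule.Quotient.mk_eq_zero _).1 (congrFun hx c))) ≪≫ₗ
    (LinearMap.quotKerEquivOfSurjective
      ((LinearMap.pi fun c => J.mkQ ∘ₗ LinearMap.proj c : (Fin r → Ω) →ₗ[Ω] (Fin r → Ω ⧸ J)) ∘ₗ
        (b : V →ₗ[Ω] (Fin r → Ω))) (by
      intro y
      have h : ∀ c, ∃ x : Ω, J.mkQ x = y c := fun c => Submodule.mkQ_surjective _ _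
      choose x hx using h
      refine ⟨b.symm x, ?_⟩
      funext c
      show J.mkQ (b (b.symm x) c) = y c
      rw [b.apply_symm_apply, hx]))

lemma quotEquiv_mk (b : V ≃ₗ[Ω] (Fin r → Ω)) (J : Ideal Ω) (x : V) (c : Fin r) :
    quotEquiv (A := A) b J (Submodule.Quotient.mk x) c = Submodule.Quotient.mk (b x c) := rfl

variable {R : Type w} [CommRing R] {B : Type w} [CommRing B] [IsRegularLocalRing B] [Algebra B Ω]
variable {N : Type w} [AddCommGroup N] [Module R N] [Module B N] [SMulCommClass R B N]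
variable (Λ : AddLen.{u, u} Ω)

/-- `χ(s; X) = 0` if `b₀ ≠ 0` kills `X` -/
theorem chi_eq_zero_of_smul {s : List B} (hd : ringKrullDim B = s.length)
    (hsm : Ideal.ofList s = maximalIdeal B) {X : Type u} [AddCommGroup X] [Module Ω X] [Module B X]
    [IsScalarTower B Ω X] {b₀ : B} (hb₀ : b₀ ≠ 0) (hX : ∀ x : X, b₀ • x = 0)
    (hXf : KFin Λ X (s.map (algebraMap B Ω))) :
    KosG.chi Λ X (s.map (algebraMap B Ω)) = 0 := by
  obtain ⟨K, ε, hK, -, hKl⟩ := exists_res_len hd (B ⧸ maximalIdeal B)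
  have hs := isWeaklyRegular_of_ofList hd hsm
  have hB : ∀ (b : B) (x : X), b • x = algebraMap B Ω b • x := fun b x =>
    (algebraMap_smul Ω b x).symm
  have c3 : SMulCommClass B Ω X := ⟨fun a x y => by
    rw [hB, hB, smul_smul, smul_smul, mul_comm]⟩
  rw [← chiX_residue_eq_chi Λ X hs hsm hK hKl (algebraMap B Ω) hB (Nat.lt_succ_self _)]
  refine chiX_residue_eq_zero Λ X hd hK hKl (fun i => ?_) hb₀ hX
  rw [hX_residue_eq_kh Λ X hs hsm hK (algebraMap B Ω) hB]
  exact hXf i

/-- **the quotient `(Ω/J)^r` has value `0`** -/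
theorem val_quot {s : List B} (hd : ringKrullDim B = s.length)
    (hsm : Ideal.ofList s = maximalIdeal B) (F : MCx R) {D : ℕ} (hF : F.Len D) (φ : R →+* A)
    (ρ : R →+* Matrix (Fin r) (Fin r) B) (eN : N ≃ₗ[B] (Fin r → B))
    (heN : ∀ a x c, eN (a • x) c = ∑ t, ρ a c t • eN x t)
    (hN : ∀ i, hX (AddLen.ofLength.{w, w} B) F N i ≠ ⊤)
    (b : V ≃ₗ[Ω] (Fin r → Ω))
    (hb : ∀ a x c, b (φ a • x) c = ∑ t, algebraMap B Ω (ρ a c t) * b x t)
    (J : Ideal Ω) {b₀ : B} (hb₀ : b₀ ≠ 0) (hbJ : algebraMap B Ω b₀ ∈ J)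
    (hJ : KFin Λ (Ω ⧸ J) (s.map (algebraMap B Ω))) :
    (∀ i, hX (Λ.restrict (algebraMap Ω A)) (F.map φ) (V ⧸ Flg.JV A b J) i ≠ ⊤) ∧
    chiX (Λ.restrict (algebraMap Ω A)) (F.map φ) (V ⧸ Flg.JV A b J) (D + 1) = 0 := by
  obtain ⟨h1, h2⟩ := val_push (A := A) Λ hd hsm F hF φ ρ eN heN hN (W := V ⧸ Flg.JV A b J)
    (X := Ω ⧸ J) (quotEquiv b J) (fun a x c => by
      obtain ⟨x, rfl⟩ := Submodule.Quotient.mk_surjective _ x
      rw [← Submodule.Quotient.mk_smul, quotEquiv_mk, hb]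
      have h3 : (Submodule.Quotient.mk (∑ t, algebraMap B Ω (ρ a c t) * b x t) : Ω ⧸ J) =
          ∑ t, Submodule.Quotient.mk (algebraMap B Ω (ρ a c t) * b x t) :=
        map_sum J.mkQ _ _
      rw [h3]
      refine Finset.sum_congr rfl fun t _ => ?_
      rw [quotEquiv_mk, ← Submodule.Quotient.mk_smul, Algebra.smul_def]) hJ
  refine ⟨h1, ?_⟩
  rw [h2, chi_eq_zero_of_smul Λ hd hsm hb₀ (fun x => ?_) hJ, mul_zero]
  obtain ⟨y, rfl⟩ := Submodule.Quotient.mk_surjective _ x
  rw [← Submodule.Quotient.mk_smul, Submodule.Quotient.mk_eq_zero, Algebra.smul_def]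
  exact J.mul_mem_right _ hbJ

end quot

/-! ### `LeftSide` -/

section left

variable {p : ℕ} [hp : Fact p.Prime] {k : Type} [Field k] [CharP k p] [IsAlgClosed k] {b : ℕ}

variable {R A M : Type} [CommRing R] [IsRegularLocalRing R] [CommRing A] [Algebra R A]
  [Algebra (BB p k b) A] [AddCommGroup M] [Module R M] {d a : ℕ}

lemma isLocalRing_A (s : Sit p k b R A M d a) : IsLocalRing A := by
  have := s.ntA
  exact IsLocalRing.of_surjective' (algebraMap R A) s.surjA

/-- `B → A/𝔪` is onto -/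
lemma residue_A [IsLocalRing A] (s : Sit p k b R A M d a) (x : A) :
    ∃ y : BB p k b, x - algebraMap (BB p k b) A y ∈ maximalIdeal A := by
  have := s.ntA
  obtain ⟨r, rfl⟩ := s.surjA x
  obtain ⟨z, rfl⟩ := s.π_surj r
  refine ⟨MvPowerSeries.C (MvPowerSeries.constantCoeff z), ?_⟩
  rw [s.comm, ← map_sub, ← map_sub]
  have hσ : Function.Surjective ((algebraMap R A).comp s.π) := s.surjA.comp s.π_surj
  have hloc : IsLocalHom ((algebraMap R A).comp s.π) := IsLocalHom.of_surjective _ hσ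
  rw [mem_maximalIdeal, mem_nonunits_iff]
  intro hu
  have h1 : IsUnit (z - MvPowerSeries.C (MvPowerSeries.constantCoeff z)) :=
    isUnit_of_map_unit ((algebraMap R A).comp s.π) _ hu
  rw [MvPowerSeries.isUnit_iff_constantCoeff, map_sub, MvPowerSeries.constantCoeff_C, sub_self] at h1
  exact not_isUnit_zero h1

variable (N : Type) [AddCommGroup N] [Module A N] [Module R N] [IsScalarTower R A N]
    [Module (BB p k b) N] [IsScalarTower (BB p k b) A N]

/-- actions through `A` commute -/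
lemma smulComm_of_tower {R A C N : Type} [CommRing R] [CommRing A] [CommRing C] [Algebra R A]
    [Algebra C A] [AddCommGroup N] [Module A N] [Module R N] [IsScalarTower R A N]
    [Module C N] [IsScalarTower C A N] : SMulCommClass R C N := ⟨fun x y n => by
  rw [← algebraMap_smul A x (y • n), ← algebraMap_smul A y n, ← algebraMap_smul A x n,
    ← algebraMap_smul A y (algebraMap R A x • n), smul_smul, smul_smul, mul_comm]⟩

/-- finiteness of the lengths over `B` and comparison with `R` -/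
lemma length_B_R (s : Sit p k b R A M d a) [SMulCommClass R (BB p k b) N] (F : MCx R) (i : ℕ) :
    hX (AddLen.ofLength.{0, 0} (BB p k b)) F N i = hX (AddLen.ofLength.{0, 0} R) F N i := by
  have := isLocalRing_A s
  have c1 : SMulCommClass R A N := ⟨fun x y n => by
    rw [← algebraMap_smul A x, ← algebraMap_smul A x n, smul_smul, smul_smul, mul_comm]⟩
  rw [hX_eq, hX_eq, AddLen.ofLength_L, AddLen.ofLength_L,
    length_HX_local' (T := A) s.surjA (residue_A s) F i]

lemma finite_R_N (s : Sit p k b R A M d a) {r : ℕ} (e : Module.Basis (Fin r) (BB p k b) N) :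
    Module.Finite R N := by
  have h1 : Module.Finite (BB p k b) N := Module.Finite.of_basis e
  have h2 : Module.Finite A N := Module.Finite.of_restrictScalars_finite (BB p k b) A N
  have h3 : Module.Finite R A :=
    Module.Finite.of_surjective (Algebra.linearMap R A) s.surjA
  exact Module.Finite.trans A N

lemma isFiniteLength_N [Module.Finite R M] (s : Sit p k b R A M d a) [Module.Finite R N] :
    IsFiniteLength R (N ⊗[R] M) := by
  have h3 : Module.Finite R A :=
    Module.Finite.of_surjective (Algebra.linearMap R A) s.surjA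
  have h1 : Top.Proper R M A := Top.proper_iff.2 s.proper
  have h2 : Top.Proper R M N := h1.mono le_rfl (fun x hx => by
    rw [Module.mem_annihilator] at hx ⊢
    intro n
    have h4 := hx 1
    rw [Algebra.smul_def, mul_one] at h4
    rw [← algebraMap_smul A x n, h4, zero_smul])
  exact Top.proper_iff.1 h2.symm

/-- **`LeftSide`** -/
theorem leftSide (W : World p k b) : LeftSide W := by
  intro R A M _ _ _ _ _ _ _ hfM d a s F ε hF hFl N _ _ _ _ _ _ r e
  have hreg := regBB p k b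
  have hd := dimBB' p k b
  have hsm := maxBB p k b
  have cRB : SMulCommClass R (BB p k b) N := smulComm_of_tower (A := A)
  have hfN := finite_R_N N s e
  have hlen := isFiniteLength_N N s
  have hN : ∀ i, hX (AddLen.ofLength.{0, 0} (BB p k b)) F N i ≠ ⊤ := fun i => by
    rw [length_B_R N s F i]
    exact hX_length_ne_top hlen hF i
  have hchi : chiX (AddLen.ofLength.{0, 0} (BB p k b)) F N (d + 1) = Top.pair R d M N := by
    rw [Top.pair_eq hF, chiX_eq, chiX_eq]
    exact Finset.sum_congr rfl fun i _ => by rw [length_B_R N s F i]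
  -- the matrices
  let ρ : R →+* Matrix (Fin r) (Fin r) (BB p k b) :=
    ((Tri.actMatrix (A := A) e : A →ₐ[BB p k b] Matrix (Fin r) (Fin r) (BB p k b)) :
      A →+* Matrix (Fin r) (Fin r) (BB p k b)).comp (algebraMap R A)
  have heN : ∀ (x : R) (n : N) (c : Fin r), e.equivFun (x • n) c =
      ∑ t, ρ x c t • e.equivFun n t := by
    intro x n c
    rw [← algebraMap_smul A x n, ← Tri.actMatrix_mulVec e (algebraMap R A x) n]
    rfl
  have hb : ∀ (x : R) (v : Tri.OmV (Om W.ξ) (Tri.actMatrix (A := A) e)) (c : Fin r),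
      Tri.OmV.coord (Om W.ξ) (Tri.actMatrix (A := A) e) (rA W A x • v) c =
        ∑ t, algebraMap (BB p k b) (Om W.ξ) (ρ x c t) *
          Tri.OmV.coord (Om W.ξ) (Tri.actMatrix (A := A) e) v t := by
    intro x v c
    rw [Tri.OmV.coord_smul]
    have h1 : rA W A x = (1 : Om W.ξ) ⊗ₜ[BB p k b] (algebraMap R A x) := rfl
    rw [h1, Tri.matHom_tmul, one_smul]
    rfl
  refine ⟨?_, ?_⟩
  · have hK : KFin (LOm W.ξ W.Λ) (Om W.ξ)
        ((List.ofFn (tB p k b)).map (algebraMap (BB p k b) (Om W.ξ))) := by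
      rw [map_tB]; exact kfin_tOm W
    obtain ⟨h1, h2⟩ := val_push (A := AO W A) (LOm W.ξ W.Λ) hd hsm F hFl (rA W A) ρ e.equivFun
      heN hN (W := Tri.OmV (Om W.ξ) (Tri.actMatrix (A := A) e)) (X := Om W.ξ)
      (Tri.OmV.coord (Om W.ξ) (Tri.actMatrix (A := A) e)) (fun x v c => by
        rw [hb]
        exact Finset.sum_congr rfl fun t _ => (Algebra.smul_def _ _).symm) hK
    refine ⟨h1, ?_⟩
    rw [map_tB, chi_tOm, hchi] at h2
    exact h2
  · rintro J ⟨c, hc, hcJ⟩ hJ
    have hK : KFin (LOm W.ξ W.Λ) (Om W.ξ ⧸ J)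
        ((List.ofFn (tB p k b)).map (algebraMap (BB p k b) (Om W.ξ))) := by
      rw [map_tB]; exact hJ
    exact val_quot (A := AO W A) (LOm W.ξ W.Λ) hd hsm F hFl (rA W A) ρ e.equivFun heN hN
      (Tri.OmV.coord (Om W.ξ) (Tri.actMatrix (A := A) e)) hb J hc hcJ hK

end left

end Crest.Agent.R188.PerfC
end

-- ▼ part R188/SX4
section

/-!
# R188, S-level (helper546), part 4: adjoining one nilpotent variable `q`, `q^n = 0`
-/

set_option autoImplicit false

namespace Crest.Agent.R188.SX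

open scoped ENNReal Pointwise Polynomial
open Polynomial
open Crest.Agent.R183 Crest.Agent.R183.Res
open Crest.Agent.R188.Kos Crest.Agent.R188.Chi

universe u v w v₁ v₂ v₃

section restrictLemmas

variable {A : Type u} [CommRing A]

theorem addLen_ext {Λ Λ' : AddLen.{u, v} A}
    (h : ∀ (M : Type v) [AddCommGroup M] [Module A M], Λ.L M = Λ'.L M) : Λ = Λ' := by
  cases Λ with
  | mk L z a =>
    cases Λ' with
    | mk L' z' a' =>
      have : L = L' := by
        funext M i j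
        exact h M
      subst this
      rfl

theorem restrict_id (Λ : AddLen.{u, v} A) {f : A →+* A} (hf : f = RingHom.id A) :
    Λ.restrict f = Λ := by
  subst hf
  exact addLen_ext fun M _ _ => AddLen.restrict_L Λ (RingHom.id A) M (fun _ _ => rfl)

theorem restrict_restrict (Λ : AddLen.{u, v} A) {B : Type w} [CommRing B] {C : Type v₁} [CommRing C]
    (f : A →+* B) (g : B →+* C) : (Λ.restrict f).restrict g = Λ.restrict (g.comp f) := by
  refine addLen_ext fun M _ _ => ?_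
  let iB : Module B M := Module.compHom M g
  let iA : Module A M := Module.compHom M f
  rw [AddLen.restrict_L (Λ.restrict f) g M (fun _ _ => rfl),
    AddLen.restrict_L Λ f M (fun _ _ => rfl), AddLen.restrict_L Λ (g.comp f) M (fun _ _ => rfl)]

end restrictLemmas

section mapIso

variable {A : Type u} [CommRing A] {S : Type w} [CommRing S] {X : Type v} [AddCommGroup X]
  [Module A X] [Module S X] [SMulCommClass S A X]

/-- scalar extension of the matrices does not change anything -/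
def FTmapIso (F : MCx S) (φ : S →+* A) (h : ∀ (s : S) (x : X), s • x = φ s • x) :
    (KosG.FT F A X).Iso (KosG.FT (F.map φ) A X) where
  e n := LinearEquiv.refl A (F.ι n → X)
  comm n x := by
    show act X (F.d n) x = act X ((F.d n).map φ) x
    funext a
    rw [act_apply, act_apply]
    exact Finset.sum_congr rfl fun b _ => h _ _

variable (Λ : AddLen.{u, v} A)


theorem hX_map (F : MCx S) (φ : S →+* A) (h : ∀ (s : S) (x : X), s • x = φ s • x)
    (i : ℕ) : hX Λ F X i = hX Λ (F.map φ) X i := (FTmapIso F φ h).l_eq Λ i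

theorem chiX_map (F : MCx S) (φ : S →+* A) (h : ∀ (s : S) (x : X), s • x = φ s • x)
    (N : ℕ) : chiX Λ F X N = chiX Λ (F.map φ) X N := by
  rw [chiX_eq, chiX_eq]
  exact Finset.sum_congr rfl fun i _ => by rw [hX_map Λ F φ h]

end mapIso

section poly

variable {B : Type u} [CommRing B] {E : Type v} [AddCommGroup E] [Module B E]

theorem coeff_X_pow_smul (n : ℕ) (p : PolynomialModule B E) (m : ℕ) :
    ((X ^ n : B[X]) • p).coeff m = if n ≤ m then p.coeff (m - n) else 0 := by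
  rw [← monomial_one_right_eq_X_pow, PolynomialModule.monomial_smul_apply]
  simp

theorem X_pow_regular (n : ℕ) (p : PolynomialModule B E) (h : (X ^ n : B[X]) • p = 0) : p = 0 := by
  apply PolynomialModule.ext
  ext m
  have := congrArg (fun r => r.coeff (m + n)) h
  simp only [coeff_X_pow_smul] at this
  simpa using this

theorem coeff_C_smul (c : B) (p : PolynomialModule B E) (m : ℕ) :
    ((C c : B[X]) • p).coeff m = c • p.coeff m := by
  rw [← monomial_zero_left, PolynomialModule.monomial_smul_apply]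
  simp

theorem X_add_C_regular (c : B) (p : PolynomialModule B E) (h : (X + C c : B[X]) • p = 0) :
    p = 0 := by
  have h1 : ∀ m, p.coeff m = -(c • p.coeff (m + 1)) := by
    intro m
    have := congrArg (fun r => r.coeff (m + 1)) h
    simp only [add_smul, PolynomialModule.coeff_add, Finsupp.add_apply, coeff_C_smul] at this
    have h2 := coeff_X_pow_smul 1 p (m + 1)
    rw [pow_one] at h2
    rw [h2] at this
    simp only [le_add_iff_nonneg_left, zero_le, if_true, Nat.add_sub_cancel] at this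
    exact eq_neg_of_add_eq_zero_left this
  have h2 : ∀ k m, p.coeff m = (-c) ^ k • p.coeff (m + k) := by
    intro k
    induction k with
    | zero => intro m; simp
    | succ k ih =>
      intro m
      rw [ih, h1 (m + k), pow_succ, mul_smul, neg_smul, add_assoc]
  apply PolynomialModule.ext
  ext m
  obtain ⟨k, hk⟩ : ∃ k, p.coeff (m + k) = 0 := by
    by_contra hcon
    push Not at hcon
    have hfin := p.coeff.finite_support
    refine Set.infinite_of_injective_forall_mem (f := fun k : ℕ => m + k) (fun a b hab => ?_)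
      (fun k => ?_) hfin
    · simpa using hab
    · exact hcon k
  rw [h2 k m, hk, smul_zero]
  rfl

theorem eval_eq_zero_iff (c : B) (p : PolynomialModule B E) :
    PolynomialModule.eval (-c) p = 0 ↔ ∃ r, (X + C c : B[X]) • r = p := by
  constructor
  · intro h
    have key : ∀ p : PolynomialModule B E, ∃ r, (X + C c : B[X]) • r =
        p - PolynomialModule.single B 0 (PolynomialModule.eval (-c) p) := by
      intro p
      induction p using PolynomialModule.induction_linear with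
      | zero => exact ⟨0, by simp⟩
      | add p q hp hq =>
        obtain ⟨r, hr⟩ := hp
        obtain ⟨s, hs⟩ := hq
        refine ⟨r + s, ?_⟩
        rw [smul_add, hr, hs, map_add, PolynomialModule.single_add]
        abel
      | single i m =>
        obtain ⟨g, hg⟩ := sub_dvd_pow_sub_pow (X : B[X]) (C (-c)) i
        refine ⟨g • PolynomialModule.single B 0 m, ?_⟩
        rw [smul_smul]
        have e1 : (X + C c : B[X]) * g = X ^ i - C (-c) ^ i := by
          rw [hg, C_neg, sub_neg_eq_add]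
        rw [e1, sub_smul, ← monomial_one_right_eq_X_pow, PolynomialModule.monomial_smul_single,
          ← C_pow, ← monomial_zero_left, PolynomialModule.monomial_smul_single,
          PolynomialModule.eval_single]
        simp
    obtain ⟨r, hr⟩ := key p
    rw [h] at hr
    exact ⟨r, by rw [hr]; simp⟩
  · rintro ⟨r, rfl⟩
    rw [PolynomialModule.eval_smul]
    simp

variable (B E) in
/-- the ring `B[q]/(q^n)` -/
abbrev B1 (n : ℕ) := B[X] ⧸ (Ideal.span {(X : B[X]) ^ n})

variable (B E) in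
/-- the module `E[q]/(q^n)` -/
abbrev E1 (n : ℕ) := PolynomialModule B E ⧸
  ((Ideal.span {(X : B[X]) ^ n}) • (⊤ : Submodule B[X] (PolynomialModule B E)))

variable (B) in
/-- the structure map -/
noncomputable def io (n : ℕ) : B →+* B1 B n := (Ideal.Quotient.mk _).comp C

variable (B) in
/-- the variable -/
noncomputable def qq (n : ℕ) : B1 B n := Ideal.Quotient.mk _ X

theorem qq_pow (n : ℕ) : qq B n ^ n = 0 := by
  rw [qq, ← map_pow, Ideal.Quotient.eq_zero_iff_mem]
  exact Ideal.mem_span_singleton_self _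

variable (B) in
/-- the augmentation `q ↦ 0` -/
noncomputable def ep {n : ℕ} (hn : 1 ≤ n) : B1 B n →+* B :=
  Ideal.Quotient.lift _ (evalRingHom 0) (by
    intro a ha
    rw [Ideal.mem_span_singleton] at ha
    obtain ⟨g, rfl⟩ := ha
    rw [map_mul, map_pow, coe_evalRingHom, eval_X, zero_pow (by omega), zero_mul])

theorem ep_mk {n : ℕ} (hn : 1 ≤ n) (f : B[X]) : ep B hn (Ideal.Quotient.mk _ f) = f.eval 0 := rfl

theorem ep_io {n : ℕ} (hn : 1 ≤ n) (b : B) : ep B hn (io B n b) = b := by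
  show (C b).eval 0 = b
  simp

theorem ep_comp_io {n : ℕ} (hn : 1 ≤ n) : (ep B hn).comp (io B n) = RingHom.id B :=
  RingHom.ext (ep_io hn)

theorem ep_qq {n : ℕ} (hn : 1 ≤ n) : ep B hn (qq B n) = 0 := by
  show (X : B[X]).eval 0 = 0
  simp

theorem mem_smul_top_iff (n : ℕ) (p : PolynomialModule B E) :
    p ∈ ((Ideal.span {(X : B[X]) ^ n}) • (⊤ : Submodule B[X] (PolynomialModule B E))) ↔
      ∃ r, (X ^ n : B[X]) • r = p := by
  rw [Submodule.ideal_span_singleton_smul, Submodule.mem_smul_pointwise_iff_exists]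
  exact ⟨fun ⟨y, _, hy⟩ => ⟨y, hy⟩, fun ⟨y, hy⟩ => ⟨y, trivial, hy⟩⟩

variable (Λ : AddLen.{u, v} B)

/-- **(D1)** -/
theorem h0_E1 (n : ℕ) (c : B) (l : List B) (j : ℕ) :
    h0 (Λ.restrict (io B n)) (l.map (io B n) ++ [io B n c + qq B n]) (E1 B E n) j =
      h0 Λ (l ++ [c ^ n]) E j := by
  let ΛX : AddLen.{u, v} B[X] := Λ.restrict C
  have e1 : h0 (Λ.restrict (io B n)) (l.map (io B n) ++ [io B n c + qq B n]) (E1 B E n) j =
      h0 ΛX (l.map C ++ [X + C c]) (E1 B E n) j := by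
    rw [h0_restrict (Ideal.Quotient.mk (Ideal.span {(X : B[X]) ^ n})) (fun a x => rfl) ΛX
      (l.map C ++ [X + C c]) j, restrict_restrict]
    congr 1
    rw [List.map_append, List.map_map]
    congr 1
    rw [List.map_singleton, map_add, add_comm]
    rfl
  rw [e1, ← h0_cons_regular ΛX (X := PolynomialModule B E) (X ^ n : B[X])
    (l.map C ++ [X + C c]) (Submodule.mkQ _) (X_pow_regular n) (Submodule.mkQ_surjective _)
    (fun x => by
      rw [Submodule.mkQ_apply, Submodule.Quotient.mk_eq_zero]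
      exact mem_smul_top_iff n x) j]
  rw [h0_perm ΛX (l' := (X + C c : B[X]) :: (l.map C ++ [X ^ n])) (by
    refine List.Perm.trans (List.Perm.cons _ (List.perm_append_singleton _ _)) ?_
    refine List.Perm.trans (List.Perm.swap _ _ _) ?_
    exact List.Perm.cons _ (List.perm_append_singleton _ _).symm) j]
  let iE : Module B[X] E := Module.compHom E (evalRingHom (-c))
  have hE : ∀ (f : B[X]) (x : E), f • x = (evalRingHom (-c)) f • x := fun _ _ => rfl
  let g : PolynomialModule B E →ₗ[B[X]] E :=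
    { toFun := PolynomialModule.eval (-c)
      map_add' := map_add _
      map_smul' := fun f p => PolynomialModule.eval_smul f p (-c) }
  rw [h0_cons_regular ΛX (X + C c : B[X]) (l.map C ++ [X ^ n]) g (X_add_C_regular c)
    (fun x => ⟨PolynomialModule.single B 0 x, by
      show PolynomialModule.eval (-c) _ = x
      rw [PolynomialModule.eval_single, pow_zero, one_smul]⟩)
    (fun p => eval_eq_zero_iff c p) j]
  rw [h0_restrict (evalRingHom (-c)) hE, restrict_restrict, restrict_id Λ (by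
    ext b; simp), List.map_append, List.map_map, List.map_singleton]
  have e2 : List.map (⇑(evalRingHom (-c)) ∘ ⇑C) l = l := by
    conv_rhs => rw [← List.map_id l]
    refine List.map_congr_left fun b _ => ?_
    simp
  rw [e2, map_pow, coe_evalRingHom, eval_X]
  rw [h0_perm Λ (List.perm_append_singleton ((-c) ^ n) l), h0_perm Λ
    (List.perm_append_singleton (c ^ n) l)]
  have e3 : (-c) ^ n = (((-1 : Bˣ) ^ n : Bˣ) : B) * c ^ n := by
    rw [Units.val_pow_eq_pow_val, Units.val_neg, Units.val_one, neg_pow]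
  rw [e3, h0_cons_unit]

end poly

end Crest.Agent.R188.SX
end

-- ▼ part R188/SX5
section

/-!
# R188, S-level (helper546), part 5: Euler characteristics over `B[q]/(q^n)`
-/

set_option autoImplicit false

namespace Crest.Agent.R188.SX

open scoped ENNReal Pointwise Polynomial
open Polynomial
open Crest.Agent.R183 Crest.Agent.R183.Res
open Crest.Agent.R188.Kos Crest.Agent.R188.Chi

universe u v w v₁ v₂ v₃

section filt

variable {B : Type u} [CommRing B] {E : Type v} [AddCommGroup E] [Module B E] {n : ℕ}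

variable (B E n) in
/-- `q^i E₁` -/
noncomputable abbrev Wf (i : ℕ) : Submodule (B1 B n) (E1 B E n) :=
  (qq B n ^ i) • (⊤ : Submodule (B1 B n) (E1 B E n))

theorem mem_Wf {i : ℕ} {x : E1 B E n} : x ∈ Wf B E n i ↔ ∃ y, (qq B n ^ i) • y = x := by
  rw [Submodule.mem_smul_pointwise_iff_exists]
  exact ⟨fun ⟨y, _, hy⟩ => ⟨y, hy⟩, fun ⟨y, hy⟩ => ⟨y, trivial, hy⟩⟩

theorem Wf_succ_le (i : ℕ) : Wf B E n (i + 1) ≤ Wf B E n i := by
  intro x hx
  rw [mem_Wf] at hx ⊢
  obtain ⟨y, rfl⟩ := hx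
  exact ⟨qq B n • y, by rw [smul_smul, pow_succ]⟩

/-- class in `E₁` of a polynomial -/
noncomputable def toE1 (p : PolynomialModule B E) : E1 B E n := Submodule.Quotient.mk p

theorem qq_pow_smul (i : ℕ) (p : PolynomialModule B E) :
    (qq B n ^ i) • (toE1 p : E1 B E n) = toE1 ((X ^ i : B[X]) • p) := by
  rw [qq, ← map_pow]
  rfl

theorem toE1_add (p r : PolynomialModule B E) : (toE1 (p + r) : E1 B E n) = toE1 p + toE1 r := rfl

theorem toE1_eq_zero {p : PolynomialModule B E} :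
    (toE1 p : E1 B E n) = 0 ↔ ∃ r, (X ^ n : B[X]) • r = p := by
  unfold toE1
  rw [Submodule.Quotient.mk_eq_zero]
  exact mem_smul_top_iff n p

theorem toE1_surjective (x : E1 B E n) : ∃ p, toE1 p = x := by
  obtain ⟨p, hp⟩ := Submodule.Quotient.mk_surjective _ x
  exact ⟨p, hp⟩

theorem exists_split (p : PolynomialModule B E) :
    ∃ r e, p = (X : B[X]) • r + PolynomialModule.single B 0 e := by
  have h : PolynomialModule.eval (-0) (p - PolynomialModule.single B 0
      (PolynomialModule.eval (0 : B) p)) = 0 := by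
    rw [neg_zero, map_sub, PolynomialModule.eval_single, pow_zero, one_smul, sub_self]
  obtain ⟨r, hr⟩ := (eval_eq_zero_iff (0 : B) _).1 h
  refine ⟨r, PolynomialModule.eval (0 : B) p, ?_⟩
  rw [C_0, add_zero] at hr
  rw [hr]
  abel

theorem poly_smul_single (f : B[X]) (e : E) : f • PolynomialModule.single B 0 e =
    (X : B[X]) • (f.divX • PolynomialModule.single B 0 e) +
      PolynomialModule.single B 0 (f.eval 0 • e) := by
  have h1 : f = X * f.divX + C (f.eval 0) := by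
    conv_lhs => rw [← X_mul_divX_add f, coeff_zero_eq_eval_zero]
  conv_lhs => rw [h1, add_smul, mul_smul]
  congr 1
  rw [← monomial_zero_left, PolynomialModule.monomial_smul_single]

variable (hn : 1 ≤ n)

/-- the graded pieces -/
noncomputable def fE (i : ℕ) [Module (B1 B n) E] (hE : ∀ (b : B1 B n) (e : E), b • e = ep B hn b • e) :
    E →ₗ[B1 B n] (E1 B E n ⧸ Wf B E n (i + 1)) where
  toFun e := Submodule.Quotient.mk ((qq B n ^ i) • (toE1 (PolynomialModule.single B 0 e) : E1 B E n))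
  map_add' e e' := by
    rw [PolynomialModule.single_add, toE1_add, smul_add]
    rfl
  map_smul' b e := by
    obtain ⟨f, rfl⟩ := Ideal.Quotient.mk_surjective b
    rw [RingHom.id_apply, hE, ep_mk, ← Submodule.Quotient.mk_smul, Submodule.Quotient.eq,
      smul_comm, ← smul_sub]
    have h1 : (Ideal.Quotient.mk (Ideal.span {(X : B[X]) ^ n}) f) •
        (toE1 (PolynomialModule.single B 0 e) : E1 B E n) =
        toE1 (f • PolynomialModule.single B 0 e) := rfl
    rw [h1, poly_smul_single, toE1_add]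
    rw [mem_Wf]
    refine ⟨-(toE1 (f.divX • PolynomialModule.single B 0 e)), ?_⟩
    have h2 : (toE1 ((X : B[X]) • (f.divX • PolynomialModule.single B 0 e)) : E1 B E n) =
        qq B n • toE1 (f.divX • PolynomialModule.single B 0 e) := rfl
    rw [h2, pow_succ, mul_smul, smul_neg]
    congr 1
    abel

theorem fE_injective {i : ℕ} (hi : i < n) [Module (B1 B n) E]
    (hE : ∀ (b : B1 B n) (e : E), b • e = ep B hn b • e) :
    Function.Injective (fE hn i hE) := by
  rw [injective_iff_map_eq_zero]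
  intro e he
  have h1 : (qq B n ^ i) • (toE1 (PolynomialModule.single B 0 e) : E1 B E n) ∈ Wf B E n (i + 1) :=
    (Submodule.Quotient.mk_eq_zero _).1 he
  rw [mem_Wf] at h1
  obtain ⟨y, hy⟩ := h1
  obtain ⟨p, rfl⟩ := toE1_surjective y
  rw [qq_pow_smul, qq_pow_smul, ← sub_eq_zero] at hy
  obtain ⟨r, hr⟩ := toE1_eq_zero.1 (show (toE1 ((X ^ (i + 1) : B[X]) • p -
    (X ^ i : B[X]) • PolynomialModule.single B 0 e) : E1 B E n) = 0 from hy)
  have h2 := congrArg (fun r => r.coeff i) hr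
  have h3 : ((X ^ (i + 1) : B[X]) • p).coeff i = 0 := by
    rw [coeff_X_pow_smul, if_neg (by omega)]
  have h4 : ((X ^ i : B[X]) • PolynomialModule.single B 0 e).coeff i = e := by
    rw [coeff_X_pow_smul, if_pos le_rfl]
    simp
  have h5 : ((X ^ n : B[X]) • r).coeff i = 0 := by
    rw [coeff_X_pow_smul, if_neg (by omega)]
  have h6 : ((X ^ (i + 1) : B[X]) • p - (X ^ i : B[X]) • PolynomialModule.single B 0 e).coeff i =
      ((X ^ (i + 1) : B[X]) • p).coeff i -
        ((X ^ i : B[X]) • PolynomialModule.single B 0 e).coeff i := by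
    rw [sub_eq_add_neg, PolynomialModule.coeff_add, Finsupp.add_apply, sub_eq_add_neg]
    rfl
  have h7 : ((X ^ n : B[X]) • r).coeff i = ((X ^ (i + 1) : B[X]) • p -
    (X ^ i : B[X]) • PolynomialModule.single B 0 e).coeff i := h2
  rw [h5, h6, h3, h4, zero_sub] at h7
  exact neg_eq_zero.1 h7.symm

theorem fE_exact (i : ℕ) [Module (B1 B n) E]
    (hE : ∀ (b : B1 B n) (e : E), b • e = ep B hn b • e) :
    Function.Exact (fE hn i hE) (Submodule.factor (Wf_succ_le (B := B) (E := E) (n := n) i)) := by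
  intro x
  obtain ⟨x, rfl⟩ := Submodule.mkQ_surjective _ x
  rw [Submodule.mkQ_apply]
  constructor
  · intro h
    have h1 : x ∈ Wf B E n i := (Submodule.Quotient.mk_eq_zero _).1 h
    rw [mem_Wf] at h1
    obtain ⟨y, rfl⟩ := h1
    obtain ⟨p, rfl⟩ := toE1_surjective y
    obtain ⟨r, e, rfl⟩ := exists_split p
    refine ⟨e, ?_⟩
    show Submodule.Quotient.mk _ = _
    rw [Submodule.Quotient.eq, ← smul_sub, toE1_add, mem_Wf]
    refine ⟨-(toE1 r), ?_⟩
    have h2 : (toE1 ((X : B[X]) • r) : E1 B E n) = qq B n • toE1 r := rfl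
    rw [h2, pow_succ, mul_smul, smul_neg]
    congr 1
    abel
  · rintro ⟨e, he⟩
    rw [← he]
    show (Submodule.Quotient.mk ((qq B n ^ i) • (toE1 (PolynomialModule.single B 0 e) :
      E1 B E n)) : E1 B E n ⧸ Wf B E n i) = 0
    rw [Submodule.Quotient.mk_eq_zero, mem_Wf]
    exact ⟨_, rfl⟩

variable (Λ : AddLen.{u, v} B) (F : MCx (B1 B n))

theorem hX_E (hn : 1 ≤ n) [Module (B1 B n) E]
    (hE : ∀ (b : B1 B n) (e : E), b • e = ep B hn b • e) (i : ℕ) :
    hX (Λ.restrict (io B n)) F E i = hX Λ (F.map (ep B hn)) E i := by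
  have hc : SMulCommClass (B1 B n) B E := ⟨fun a b x => by rw [hE, hE, smul_comm]⟩
  rw [hX_restrict F hE (Λ.restrict (io B n)) i, restrict_restrict, restrict_id Λ (ep_comp_io hn),
    hX_map Λ F (ep B hn) hE]

theorem hX_Z_le (i : ℕ) (hi : i ≤ n) (j : ℕ) :
    hX (Λ.restrict (io B n)) F (E1 B E n ⧸ Wf B E n i) j ≤
      i * hX Λ (F.map (ep B hn)) E j := by
  let iE : Module (B1 B n) E := Module.compHom E (ep B hn)
  have hE : ∀ (b : B1 B n) (e : E), b • e = ep B hn b • e := fun _ _ => rfl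
  induction i with
  | zero =>
    have : Subsingleton (E1 B E n ⧸ Wf B E n 0) := by
      rw [Submodule.Quotient.subsingleton_iff, eq_top_iff]
      intro x _
      rw [mem_Wf]
      exact ⟨x, by rw [pow_zero, one_smul]⟩
    rw [hX_subsingleton]
    exact zero_le
  | succ i ih =>
    have h1 := hX_mid_le (Λ.restrict (io B n)) (f := fE hn i hE)
      (g := Submodule.factor (Wf_succ_le (B := B) (E := E) (n := n) i)) F
      (fun a x => map_smul _ a x) (fun a x => map_smul _ a x) (fE_injective hn (by omega) hE)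
      (Submodule.factor_surjective _) (fE_exact hn i hE) j
    refine h1.trans ?_
    rw [hX_E Λ F hn hE j]
    push_cast
    rw [add_mul, one_mul, add_comm]
    gcongr
    exact ih (by omega)

theorem chiX_Z (N : ℕ) (hf : ∀ j < N, hX Λ (F.map (ep B hn)) E j ≠ ⊤)
    (h0 : hX Λ (F.map (ep B hn)) E N = 0) (i : ℕ) (hi : i ≤ n) :
    chiX (Λ.restrict (io B n)) F (E1 B E n ⧸ Wf B E n i) N =
      i * chiX Λ (F.map (ep B hn)) E N := by
  let iE : Module (B1 B n) E := Module.compHom E (ep B hn)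
  have hE : ∀ (b : B1 B n) (e : E), b • e = ep B hn b • e := fun _ _ => rfl
  induction i with
  | zero =>
    have : Subsingleton (E1 B E n ⧸ Wf B E n 0) := by
      rw [Submodule.Quotient.subsingleton_iff, eq_top_iff]
      intro x _
      rw [mem_Wf]
      exact ⟨x, by rw [pow_zero, one_smul]⟩
    rw [chiX_eq]
    simp [hX_subsingleton]
  | succ i ih =>
    have hfin : ∀ j < N, hX (Λ.restrict (io B n)) F (E1 B E n ⧸ Wf B E n i) j ≠ ⊤ := fun j hj =>
      ne_top_of_le_ne_top (ENNReal.mul_ne_top (ENNReal.natCast_ne_top _) (hf j hj))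
        (hX_Z_le hn Λ F i (by omega) j)
    have hz : hX (Λ.restrict (io B n)) F (E1 B E n ⧸ Wf B E n i) N = 0 := by
      have := hX_Z_le hn Λ F (E := E) i (by omega) N
      rw [h0, mul_zero] at this
      exact le_antisymm this zero_le
    have h1 := chiX_add (Λ.restrict (io B n)) (f := fE hn i hE)
      (g := Submodule.factor (Wf_succ_le (B := B) (E := E) (n := n) i)) F
      (fun a x => map_smul _ a x) (fun a x => map_smul _ a x) (fE_injective hn (by omega) hE)
      (Submodule.factor_surjective _) (fE_exact hn i hE) N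
      (fun j hj => by rw [hX_E Λ F hn hE j]; exact hf j hj) hfin hz
    have h2 : chiX (Λ.restrict (io B n)) F E N = chiX Λ (F.map (ep B hn)) E N := by
      rw [chiX_eq, chiX_eq]
      exact Finset.sum_congr rfl fun j _ => by rw [hX_E Λ F hn hE j]
    rw [h1, ih (by omega), h2]
    push_cast
    ring

/-- `Z_n = E₁` -/
noncomputable def Zn : (E1 B E n ⧸ Wf B E n n) ≃ₗ[B1 B n] E1 B E n :=
  Submodule.quotEquivOfEqBot _ (by
    rw [eq_bot_iff]
    intro x hx
    rw [mem_Wf] at hx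
    obtain ⟨y, hy⟩ := hx
    have h1 : (qq B n ^ n) • y = 0 := by rw [qq_pow]; exact zero_smul (B1 B n) y
    rw [← hy, h1]
    exact Submodule.zero_mem _)

/-- **(D2)**, lengths -/
theorem hX_E1_le (j : ℕ) :
    hX (Λ.restrict (io B n)) F (E1 B E n) j ≤ n * hX Λ (F.map (ep B hn)) E j := by
  rw [← hX_congr (Λ.restrict (io B n)) F (Zn (B := B) (E := E) (n := n))
    (fun a x => map_smul _ a x) j]
  exact hX_Z_le hn Λ F n le_rfl j

/-- **(D2)**, Euler characteristics -/
theorem chiX_E1 (N : ℕ) (hf : ∀ j < N, hX Λ (F.map (ep B hn)) E j ≠ ⊤)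
    (h0 : hX Λ (F.map (ep B hn)) E N = 0) :
    chiX (Λ.restrict (io B n)) F (E1 B E n) N = n * chiX Λ (F.map (ep B hn)) E N := by
  rw [← chiX_congr (Λ.restrict (io B n)) F (Zn (B := B) (E := E) (n := n))
    (fun a x => map_smul _ a x) N]
  exact chiX_Z hn Λ F N hf h0 n le_rfl

end filt

end Crest.Agent.R188.SX
end

-- ▼ part R188/SX6
section

/-!
# R188, S-level (helper546), part 6: the tower `Γ[q_1..q_d]/(q_i^n)`
-/

set_option autoImplicit false

namespace Crest.Agent.R188.SX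

open scoped ENNReal Pointwise Polynomial
open Polynomial
open Crest.Agent.R183 Crest.Agent.R183.Res
open Crest.Agent.R188.Kos Crest.Agent.R188.Chi

universe u v w v₁ v₂ v₃

/-- The result of adjoining nilpotent variables `q_c` (`c ∈ cs`), `q_c^n = 0`. -/
structure Tow {Γ : Type u} [CommRing Γ] (Λ : AddLen.{u, v} Γ) (D : Type v) [AddCommGroup D]
    [Module Γ D] (n : ℕ) (cs : List Γ) where
  B : Type u
  [ring : CommRing B]
  ι : Γ →+* B
  ρ : B →+* Γ
  ρι : ρ.comp ι = RingHom.id Γ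
  q : List B
  len : q.length = cs.length
  ρq : ∀ x ∈ q, ρ x = 0
  qn : ∀ x ∈ q, x ^ n = 0
  nil : RingHom.ker ρ ^ (cs.length * n + 1) = ⊥
  E : Type v
  [grp : AddCommGroup E]
  [mod : Module B E]
  h0eq : ∀ (l : List Γ) (j : ℕ), h0 (Λ.restrict ι)
    (l.map ι ++ List.zipWith (fun c x => ι c + x) cs q) E j = h0 Λ (l ++ cs.map (· ^ n)) D j
  hXle : ∀ (F : MCx B) (j : ℕ), hX (Λ.restrict ι) F E j ≤
    ((n ^ cs.length : ℕ) : ℝ≥0∞) * hX Λ (F.map ρ) D j
  chi : ∀ (F : MCx B) (N : ℕ), (∀ j < N, hX Λ (F.map ρ) D j ≠ ⊤) → hX Λ (F.map ρ) D N = 0 →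
    chiX (Λ.restrict ι) F E N = ((n ^ cs.length : ℕ) : ℝ) * chiX Λ (F.map ρ) D N
  lift : ∀ (T : Type u) [CommRing T] (ψ : Γ →+* T) (r : List T), r.length = cs.length →
    (∀ x ∈ r, x ^ n = 0) → ∃ ψ' : B →+* T, ψ'.comp ι = ψ ∧ q.map ψ' = r
  η : D →+ E
  ηs : ∀ (a : Γ) (x : D), η (a • x) = ι a • η x
  ext : ∀ (Y : Type v) [AddCommGroup Y] [Module B Y] (g : D →+ Y),
    (∀ (a : Γ) (x : D), g (a • x) = ι a • g x) → ∃ g' : E →ₗ[B] Y, ∀ x, g' (η x) = g x

attribute [instance] Tow.ring Tow.grp Tow.mod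

section base

variable {Γ : Type u} [CommRing Γ] (Λ : AddLen.{u, v} Γ) (D : Type v) [AddCommGroup D]
    [Module Γ D] (n : ℕ)

theorem MCx_map_id (F : MCx Γ) : F.map (RingHom.id Γ) = F := by
  cases F with
  | mk ι fin dec d dd =>
    refine MCx.ext' fun n => ?_
    ext i j
    rfl

/-- no variable -/
noncomputable def towNil : Tow Λ D n [] where
  B := Γ
  ι := RingHom.id Γ
  ρ := RingHom.id Γ
  ρι := rfl
  q := []
  len := rfl
  ρq := fun x hx => absurd hx List.not_mem_nil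
  qn := fun x hx => absurd hx List.not_mem_nil
  nil := by
    rw [List.length_nil, zero_mul, zero_add, pow_one, eq_bot_iff]
    intro x hx
    exact hx
  E := D
  h0eq := fun l j => by
    rw [restrict_id Λ rfl]
    simp
  hXle := fun F j => by
    rw [restrict_id Λ rfl, MCx_map_id]
    simp
  chi := fun F N _ _ => by
    rw [restrict_id Λ rfl, MCx_map_id]
    simp
  lift := fun T _ ψ r hr _ => ⟨ψ, rfl, (List.eq_nil_of_length_eq_zero hr).symm⟩
  η := AddMonoidHom.id D
  ηs := fun _ _ => rfl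
  ext := fun Y _ _ g hg => ⟨{ toFun := g, map_add' := map_add g, map_smul' := hg }, fun _ => rfl⟩

end base

section step

variable {B : Type u} [CommRing B] {E : Type v} [AddCommGroup E] [Module B E] {n : ℕ}

theorem sub_io_ep_mem (hn : 1 ≤ n) (b : B1 B n) : b - io B n (ep B hn b) ∈ Ideal.span {qq B n} := by
  obtain ⟨f, rfl⟩ := Ideal.Quotient.mk_surjective b
  rw [ep_mk]
  have h1 : (X : B[X]) ∣ f - C (f.eval 0) := by
    rw [X_dvd_iff]
    simp [coeff_zero_eq_eval_zero]
  obtain ⟨g, hg⟩ := h1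
  rw [Ideal.mem_span_singleton]
  refine ⟨Ideal.Quotient.mk _ g, ?_⟩
  rw [qq, ← map_mul, ← hg, map_sub]
  rfl

/-- extension of semilinear maps -/
theorem exists_extE (Y : Type v) [AddCommGroup Y] [Module (B1 B n) Y] (g : E →+ Y)
    (hg : ∀ (a : B) (x : E), g (a • x) = io B n a • g x) :
    ∃ g' : E1 B E n →ₗ[B1 B n] Y, ∀ x, g' (toE1 (PolynomialModule.single B 0 x)) = g x := by
  let iY : Module B[X] Y := Module.compHom Y (Ideal.Quotient.mk (Ideal.span {(X : B[X]) ^ n}))
  have hY : ∀ (f : B[X]) (y : Y), f • y = (Ideal.Quotient.mk (Ideal.span {(X : B[X]) ^ n}) f) • y :=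
    fun _ _ => rfl
  -- the map on polynomials
  let G : PolynomialModule B E →+ Y :=
    { toFun := fun p => p.coeff.sum fun i e => (X ^ i : B[X]) • g e
      map_zero' := Finsupp.sum_zero_index
      map_add' := fun p r => by
        rw [PolynomialModule.coeff_add]
        exact Finsupp.sum_add_index' (fun i => by rw [map_zero, smul_zero])
          (fun i a b => by rw [map_add, smul_add]) }
  have hG : ∀ i e, G (PolynomialModule.single B i e) = (X ^ i : B[X]) • g e := by
    intro i e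
    show (PolynomialModule.single B i e).coeff.sum (fun i e => (X ^ i : B[X]) • g e) = _
    rw [PolynomialModule.coeff_single]
    exact Finsupp.sum_single_index (by rw [map_zero, smul_zero])
  have hGl : ∀ (f : B[X]) (p : PolynomialModule B E), G (f • p) = f • G p := by
    intro f p
    induction p using PolynomialModule.induction_linear with
    | zero => rw [smul_zero, map_zero, smul_zero]
    | add p r hp hr => rw [smul_add, map_add, hp, hr, map_add, smul_add]
    | single i e =>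
      induction f using Polynomial.induction_on' with
      | add f h hf hh => rw [add_smul, map_add, hf, hh, add_smul]
      | monomial k b =>
        rw [PolynomialModule.monomial_smul_single, hG, hG, hg, smul_smul,
          ← C_mul_X_pow_eq_monomial, mul_assoc, ← pow_add, mul_comm (C b), mul_smul]
        rfl
  let G' : PolynomialModule B E →ₗ[B[X]] Y :=
    { toFun := G, map_add' := map_add G, map_smul' := hGl }
  have hk : ((Ideal.span {(X : B[X]) ^ n}) • (⊤ : Submodule B[X] (PolynomialModule B E))) ≤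
      LinearMap.ker G' := by
    intro p hp
    rw [mem_smul_top_iff] at hp
    obtain ⟨r, rfl⟩ := hp
    rw [LinearMap.mem_ker, map_smul, hY, map_pow]
    have := qq_pow (B := B) n
    rw [qq] at this
    rw [this]
    exact zero_smul (B1 B n) (G' r)
  let G'' := Submodule.liftQ _ G' hk
  refine ⟨{ toFun := G'', map_add' := map_add G'', map_smul' := ?_ }, ?_⟩
  · intro b x
    obtain ⟨f, rfl⟩ := Ideal.Quotient.mk_surjective b
    exact map_smul G'' f x
  · intro x
    show G (PolynomialModule.single B 0 x) = g x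
    rw [hG, pow_zero, one_smul]

theorem exists_liftB1 (T : Type u) [CommRing T] (ψ : B →+* T) (r : T) (hr : r ^ n = 0) :
    ∃ ψ' : B1 B n →+* T, ψ'.comp (io B n) = ψ ∧ ψ' (qq B n) = r := by
  refine ⟨Ideal.Quotient.lift _ (eval₂RingHom ψ r) ?_, ?_, ?_⟩
  · intro a ha
    rw [Ideal.mem_span_singleton] at ha
    obtain ⟨g, rfl⟩ := ha
    rw [map_mul, map_pow, coe_eval₂RingHom, eval₂_X, hr, zero_mul]
  · ext b
    show eval₂ ψ r (C b) = ψ b
    simp
  · show eval₂ ψ r X = r
    simp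

end step

section cons

variable {Γ : Type u} [CommRing Γ] {Λ : AddLen.{u, v} Γ} {D : Type v} [AddCommGroup D]
    [Module Γ D] {n : ℕ} {cs : List Γ}

/-- one more variable -/
noncomputable def Tow.cons (hn : 1 ≤ n) (T : Tow Λ D n cs) (c : Γ) : Tow Λ D n (c :: cs) where
  B := B1 T.B n
  ι := (io T.B n).comp T.ι
  ρ := T.ρ.comp (ep T.B hn)
  ρι := by
    rw [RingHom.comp_assoc, ← RingHom.comp_assoc T.ι, ep_comp_io, RingHom.id_comp, T.ρι]
  q := qq T.B n :: T.q.map (io T.B n)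
  len := by simp [T.len]
  ρq := by
    intro x hx
    rw [List.mem_cons] at hx
    rcases hx with rfl | hx
    · rw [RingHom.comp_apply, ep_qq, map_zero]
    · rw [List.mem_map] at hx
      obtain ⟨y, hy, rfl⟩ := hx
      rw [RingHom.comp_apply, ep_io, T.ρq y hy]
  qn := by
    intro x hx
    rw [List.mem_cons] at hx
    rcases hx with rfl | hx
    · exact qq_pow n
    · rw [List.mem_map] at hx
      obtain ⟨y, hy, rfl⟩ := hx
      rw [← map_pow, T.qn y hy, map_zero]
  nil := by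
    have h1 : RingHom.ker (T.ρ.comp (ep T.B hn)) ≤
        (RingHom.ker T.ρ).map (io T.B n) ⊔ Ideal.span {qq T.B n} := by
      intro b hb
      rw [← sub_add_cancel b (io T.B n (ep T.B hn b))]
      refine Ideal.add_mem _ (Ideal.mem_sup_right (sub_io_ep_mem hn b))
        (Ideal.mem_sup_left (Ideal.mem_map_of_mem _ ?_))
      exact hb
    have h2 : (c :: cs).length * n + 1 = (cs.length * n + 1) + n := by
      rw [List.length_cons]; ring
    rw [eq_bot_iff, h2]
    refine (Ideal.pow_right_mono h1 _).trans (Ideal.sup_pow_add_le_pow_sup_pow.trans ?_)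
    rw [← Ideal.map_pow, T.nil, Ideal.map_bot, Ideal.span_singleton_pow, qq_pow]
    simp
  E := E1 T.B T.E n
  h0eq := by
    intro l j
    have e1 : List.zipWith (fun c x => ((io T.B n).comp T.ι) c + x) (c :: cs)
        (qq T.B n :: T.q.map (io T.B n)) = (io T.B n (T.ι c) + qq T.B n) ::
        (List.zipWith (fun c x => T.ι c + x) cs T.q).map (io T.B n) := by
      rw [List.zipWith_cons_cons, List.map_zipWith, List.zipWith_map_right]
      simp
    rw [e1, ← restrict_restrict]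
    have e2 : (l.map ((io T.B n).comp T.ι) ++ ((io T.B n (T.ι c) + qq T.B n) ::
        (List.zipWith (fun c x => T.ι c + x) cs T.q).map (io T.B n))).Perm
        ((l.map T.ι ++ List.zipWith (fun c x => T.ι c + x) cs T.q).map (io T.B n) ++
          [io T.B n (T.ι c) + qq T.B n]) := by
      rw [List.map_append, List.map_map, List.append_assoc]
      exact List.Perm.append_left _ (List.perm_append_singleton _ _).symm
    rw [h0_perm _ e2, h0_E1]
    have e3 : ((l.map T.ι ++ List.zipWith (fun c x => T.ι c + x) cs T.q) ++ [T.ι c ^ n]).Perm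
        ((c ^ n :: l).map T.ι ++ List.zipWith (fun c x => T.ι c + x) cs T.q) := by
      rw [List.map_cons, List.cons_append, map_pow]
      exact List.perm_append_singleton _ _
    rw [h0_perm _ e3, T.h0eq]
    refine h0_perm _ ?_ j
    rw [List.map_cons, List.cons_append]
    exact List.perm_middle.symm
  hXle := by
    intro F j
    rw [← restrict_restrict]
    refine (hX_E1_le hn (Λ.restrict T.ι) F j).trans ?_
    have h1 := T.hXle (F.map (ep T.B hn)) j
    rw [List.length_cons, pow_succ', Nat.cast_mul, mul_assoc]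
    gcongr
    exact h1
  chi := by
    intro F N hf h0
    have h1 : hX (Λ.restrict T.ι) (F.map (ep T.B hn)) T.E N = 0 := by
      have := T.hXle (F.map (ep T.B hn)) N
      have h2 : hX Λ ((F.map (ep T.B hn)).map T.ρ) D N = 0 := h0
      rw [h2, mul_zero] at this
      exact le_antisymm this zero_le
    have h2 : ∀ j < N, hX (Λ.restrict T.ι) (F.map (ep T.B hn)) T.E j ≠ ⊤ := fun j hj =>
      ne_top_of_le_ne_top (ENNReal.mul_ne_top (ENNReal.natCast_ne_top _) (hf j hj))
        (T.hXle (F.map (ep T.B hn)) j)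
    rw [← restrict_restrict, chiX_E1 hn (Λ.restrict T.ι) F N h2 h1,
      T.chi (F.map (ep T.B hn)) N hf h0, List.length_cons, pow_succ']
    push_cast
    rw [mul_assoc]
    rfl
  lift := by
    intro R _ ψ r hr hrn
    cases r with
    | nil => simp at hr
    | cons r₀ r =>
      obtain ⟨ψ₁, h1, h2⟩ := T.lift R ψ r (by simpa using hr)
        (fun x hx => hrn x (List.mem_cons_of_mem _ hx))
      obtain ⟨ψ₂, h3, h4⟩ := exists_liftB1 (n := n) R ψ₁ r₀ (hrn _ List.mem_cons_self)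
      refine ⟨ψ₂, ?_, ?_⟩
      · rw [← RingHom.comp_assoc, h3, h1]
      · rw [List.map_cons, h4, List.map_map, ← h2]
        congr 1
        refine List.map_congr_left fun x _ => ?_
        rw [← h3]
        rfl
  η :=
    { toFun := fun x => toE1 (PolynomialModule.single T.B 0 (T.η x))
      map_zero' := by rw [map_zero, PolynomialModule.single_zero]; rfl
      map_add' := fun x y => by rw [map_add, PolynomialModule.single_add]; rfl }
  ηs := by
    intro a x
    show toE1 (PolynomialModule.single T.B 0 (T.η (a • x))) = _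
    rw [T.ηs]
    have : PolynomialModule.single T.B 0 (T.ι a • T.η x) =
        (C (T.ι a) : T.B[X]) • PolynomialModule.single T.B 0 (T.η x) := by
      rw [← monomial_zero_left, PolynomialModule.monomial_smul_single]
    rw [this]
    rfl
  ext := by
    intro Y _ _ g hg
    let iY : Module T.B Y := Module.compHom Y (io T.B n)
    obtain ⟨g₁, h1⟩ := T.ext Y g hg
    obtain ⟨g₂, h2⟩ := exists_extE (n := n) Y g₁.toAddMonoidHom (fun a x => map_smul g₁ a x)
    exact ⟨g₂, fun x => (h2 _).trans (h1 x)⟩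

variable (Λ D n) in
/-- the tower exists -/
noncomputable def tow (hn : 1 ≤ n) : ∀ cs : List Γ, Tow Λ D n cs
  | [] => towNil Λ D n
  | (c :: cs) => (tow hn cs).cons hn c

end cons

end Crest.Agent.R188.SX
end

-- ▼ part R188/SX7
section

/-!
# R188, S-level (helper546), part 7: VANISH and POSITIVE (abstract form)
-/

set_option autoImplicit false

namespace Crest.Agent.R188.SX

open scoped ENNReal Pointwise
open IsLocalRing
open Crest.Agent.R183 Crest.Agent.R183.Res
open Crest.Agent.R188.Kos Crest.Agent.R188.Chi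

universe u v w v₁ v₂ v₃

section nh

variable {S : Type w} [CommRing S] {Γ : Type u} [CommRing Γ] {B : Type u} [CommRing B]

/-- null-homotopic powers -/
theorem pow_mem_Nh {ρ : B →+* Γ} (hρ : Function.Surjective ρ) {e : ℕ}
    (hnil : RingHom.ker ρ ^ e = ⊥) {τ : S →+* B} {φ : S →+* Γ} (hτ : ρ.comp τ = φ)
    {M : Type v₁} [AddCommGroup M] [Module S M] {F : MCx S} {ε : (F.ι 0 → S) →ₗ[S] M}
    (hF : IsRes F ε) {X : Type v} [AddCommGroup X] [Module B X] [Module S X] [SMulCommClass S B X]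
    (hX : ∀ (s : S) (x : X), s • x = τ s • x) {b : B} {K : ℕ}
    (hb : ρ b ^ K ∈ (Module.annihilator S M).map φ) {m : ℕ} (hm : K * (1 + e) ≤ m) :
    b ^ m ∈ (KosG.FT F B X).Nh := by
  set J : Ideal B := (Module.annihilator S M).map τ with hJ
  have h1 : J ≤ (KosG.FT F B X).Nh := by
    rw [hJ, Ideal.map_le_iff_le_comap]
    intro a ha
    rw [Ideal.mem_comap]
    exact mem_Nh_FT (hF.nhom fun y => Module.mem_annihilator.1 ha y) (hX a)
  have h2 : b ^ K ∈ J ⊔ RingHom.ker ρ := by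
    have h3 : b ^ K ∈ (J.map ρ).comap ρ := by
      rw [Ideal.mem_comap, map_pow, hJ, Ideal.map_map, hτ]
      exact hb
    rw [Ideal.comap_map_of_surjective ρ hρ] at h3
    exact h3
  have h3 : (b ^ K) ^ (1 + e) ∈ J := by
    have h4 : (J ⊔ RingHom.ker ρ) ^ (1 + e) ≤ J ^ 1 ⊔ (RingHom.ker ρ) ^ e :=
      Ideal.sup_pow_add_le_pow_sup_pow
    have h5 := h4 (Ideal.pow_mem_pow h2 (1 + e))
    rwa [pow_one, hnil, sup_bot_eq] at h5
  apply h1
  obtain ⟨k, rfl⟩ := Nat.exists_eq_add_of_le hm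
  rw [pow_add, pow_mul]
  exact Ideal.mul_mem_right _ _ h3

end nh

section bounds

variable {S : Type w} [CommRing S] {A : Type u} [CommRing A] (Λ : AddLen.{u, v} A)
variable {X : Type v} [AddCommGroup X] [Module A X] [Module S X] [SMulCommClass S A X]

theorem hX_le_hK (F : MCx S) {l : List A} (hl : ∀ b ∈ l, b ∈ (KosG.FT F A X).Nh) (i : ℕ) :
    hX Λ F X i ≤ hK Λ l F X i := by
  have h1 : hK Λ l F X i = sh^[l.length] ((KosG.FT F A X).l Λ) i := l_kos_eq_sh Λ hl i
  rw [h1]
  exact le_sh_iterate _ _ _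

theorem hX_le_hK_add (F : MCx S) {l : List A} (hl : ∀ b ∈ l, b ∈ (KosG.FT F A X).Nh) (i : ℕ) :
    hX Λ F X i ≤ hK Λ l F X (i + l.length) := by
  have h1 : hK Λ l F X (i + l.length) = sh^[l.length] ((KosG.FT F A X).l Λ) (i + l.length) :=
    l_kos_eq_sh Λ hl _
  rw [h1]
  exact le_sh_iterate_add _ _ _

theorem h0_pow_le (l : List A) (a : A) (m j : ℕ) :
    h0 Λ (a :: l.map (· ^ m)) X j ≤ (m : ℝ≥0∞) ^ l.length * h0 Λ (a :: l) X j := by
  have e1 : ∀ l' : List A, h0 Λ (a :: l') X j = (Kos.kos l' ((deg0 A X).cone a)).l Λ j := fun l' =>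
    ((kos_cone_comm l' a (deg0 A X)).some.l_eq Λ j).symm
  rw [e1, e1]
  exact l_kos_pow_le Λ l _ m j

end bounds

section abstract

variable {S : Type w} [CommRing S] {Γ : Type u} [CommRing Γ] {Λ : AddLen.{u, v} Γ}
  {D : Type v} [AddCommGroup D] [Module Γ D] {s0 : S} {xs : List S} {φ : S →+* Γ}

/-- the reference numbers of the tower -/
theorem bn_tow_le {n : ℕ} (T : Tow Λ D n (xs.map φ)) (τ : S →+* T.B)
    (hτ0 : τ s0 = T.ι (φ s0))
    (hτx : xs.map τ = List.zipWith (fun c x => T.ι c + x) (xs.map φ) T.q)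
    [Module S T.E] [SMulCommClass S T.B T.E] (l : List Γ) (j : ℕ) :
    bn τ (Λ.restrict T.ι) (s0 :: xs) (l.map T.ι) T.E j ≤
      sh^[xs.length] (h0 Λ (φ s0 :: l) D) j := by
  rw [bn_eq, List.map_cons, hτ0, hτx]
  have e1 : ((T.ι (φ s0) :: List.zipWith (fun c x => T.ι c + x) (xs.map φ) T.q) ++
      l.map T.ι).Perm ((φ s0 :: l).map T.ι ++
      List.zipWith (fun c x => T.ι c + x) (xs.map φ) T.q) := by
    rw [List.map_cons, List.cons_append, List.cons_append]
    exact List.Perm.cons _ List.perm_append_comm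
  rw [h0_perm _ e1, T.h0eq]
  have e2 : ((φ s0 :: l) ++ (xs.map φ).map (· ^ n)).Perm ((xs.map φ).map (· ^ n) ++ (φ s0 :: l)) :=
    List.perm_append_comm
  rw [h0_perm _ e2]
  have h := h0_le_sh (X := D) Λ ((xs.map φ).map (· ^ n)) (φ s0 :: l) j
  rw [List.length_map, List.length_map] at h
  exact h

/-- the reference numbers at the bottom -/
theorem bn_le [Module S D] [SMulCommClass S Γ D] (l : List Γ) (j : ℕ) :
    bn φ Λ (s0 :: xs) l D j ≤ sh^[xs.length] (h0 Λ (φ s0 :: l) D) j := by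
  rw [bn_eq, List.map_cons]
  have e1 : ((φ s0 :: xs.map φ) ++ l).Perm (xs.map φ ++ (φ s0 :: l)) := by
    rw [List.cons_append]
    exact List.perm_middle.symm
  rw [h0_perm _ e1]
  have h := h0_le_sh (X := D) Λ (xs.map φ) (φ s0 :: l) j
  rwa [List.length_map] at h

theorem sh_const_le {h : ℕ → ℝ≥0∞} {c : ℝ≥0∞} (H : ∀ j, h j ≤ c) (e j : ℕ) :
    sh^[e] h j ≤ 2 ^ e * c := sh_iterate_le fun m _ _ => H m

variable [IsNoetherianRing S] [IsLocalRing S]
  (hs : RingTheory.Sequence.IsWeaklyRegular S (s0 :: xs))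
  (hsm : Ideal.ofList (s0 :: xs) = maximalIdeal S)
  {M : Type v₁} [AddCommGroup M] [Module S M] [Module.Finite S M]
  {F : MCx S} {ε : (F.ι 0 → S) →ₗ[S] M} (hF : IsRes F ε) {t : List S}
  (hM : ∃ N : ℕ, maximalIdeal S ^ N ≤ Module.annihilator S M ⊔ Ideal.ofList t)
  {v : List Γ} {K : ℕ}
  (hv : ∀ x ∈ v, x ^ K ∈ (Module.annihilator S M).map φ)
  (ht : ∀ x ∈ t, φ x ^ K ∈ (Module.annihilator S M).map φ)

include hs hsm hF hM hv ht in
/-- finiteness -/
theorem hX_finite [Module S D] [SMulCommClass S Γ D] (hφ : ∀ (s : S) (x : D), s • x = φ s • x)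
    (hfin : ∀ m, 1 ≤ m → ∀ j, h0 Λ (φ s0 :: v.map (· ^ m)) D j ≠ ⊤) (i : ℕ) :
    hX Λ F D i ≠ ⊤ := by
  obtain ⟨C, m₀, H⟩ := bd_main.{u, v} hs hsm t M hM
  set m := max (max m₀ (2 * K)) 1 with hm
  have hm0 : m₀ ≤ m := le_trans (le_max_left _ _) (le_max_left _ _)
  have hmK : K * (1 + 1) ≤ m := by
    rw [mul_comm]
    exact le_trans (le_max_right _ _) (le_max_left _ _)
  have hm1 : 1 ≤ m := le_max_right _ _
  have hker : RingHom.ker (RingHom.id Γ) ^ 1 = ⊥ := by
    rw [pow_one, eq_bot_iff]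
    intro x hx
    exact hx
  have hNh : ∀ b ∈ t.map (fun x => φ x ^ m) ++ v.map (· ^ m), b ∈ (KosG.FT F Γ D).Nh := by
    intro b hb
    rw [List.mem_append, List.mem_map, List.mem_map] at hb
    rcases hb with ⟨x, hx, rfl⟩ | ⟨x, hx, rfl⟩
    · exact pow_mem_Nh (ρ := RingHom.id Γ) Function.surjective_id hker rfl hF hφ (ht x hx) hmK
    · exact pow_mem_Nh (ρ := RingHom.id Γ) Function.surjective_id hker rfl hF hφ (hv x hx) hmK
  have h1 := H m hm0 Γ φ Λ D hφ (v.map (· ^ m)) F ε hF i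
  have h2 : ∀ j, bn φ Λ (s0 :: xs) (v.map (· ^ m)) D j ≠ ⊤ := fun j =>
    ne_top_of_le_ne_top (sh_iterate_ne_top (hfin m hm1) _ _) (bn_le _ j)
  have h3 : (m : ℝ≥0∞) * hK Λ (t.map (fun x => φ x ^ m) ++ v.map (· ^ m)) F D i ≠ ⊤ := by
    refine ne_top_of_le_ne_top ?_ h1
    refine ENNReal.mul_ne_top (ENNReal.natCast_ne_top _) (ENNReal.add_ne_top.2 ⟨?_, ?_⟩)
    · exact ENNReal.mul_ne_top (ENNReal.pow_ne_top (ENNReal.natCast_ne_top _)) (h2 i)
    · refine ENNReal.mul_ne_top (ENNReal.pow_ne_top (ENNReal.natCast_ne_top _)) ?_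
      exact ENNReal.sum_ne_top.2 fun j _ => h2 j
  refine ne_top_of_le_ne_top h3 ((hX_le_hK Λ F hNh i).trans ?_)
  exact le_mul_of_one_le_left zero_le (by exact_mod_cast hm1)

end abstract

/-- cancellation -/
theorem le_of_nat_mul_le {m : ℕ} (hm : 1 ≤ m) {x y : ℝ≥0∞} (h : (m : ℝ≥0∞) * x ≤ m * y) :
    x ≤ y := by
  have h0 : (m : ℝ≥0∞) ≠ 0 := by
    have : m ≠ 0 := by omega
    exact_mod_cast this
  exact (ENNReal.mul_le_mul_iff_right h0 (ENNReal.natCast_ne_top m)).1 h

end Crest.Agent.R188.SX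
end

-- ▼ part R188/SX8
section

/-!
# R188, S-level (helper546), part 8: VANISH and POSITIVE (abstract form), continued
-/

set_option autoImplicit false

namespace Crest.Agent.R188.SX

open scoped ENNReal Pointwise
open IsLocalRing
open Crest.Agent.R183 Crest.Agent.R183.Res
open Crest.Agent.R188.Kos Crest.Agent.R188.Chi

universe u v w v₁ v₂ v₃

theorem MCx_map_map {A : Type u} [CommRing A] {B : Type v} [CommRing B] {C : Type w} [CommRing C]
    (F : MCx A) (f : A →+* B) (g : B →+* C) : (F.map f).map g = F.map (g.comp f) := rfl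

/-- Taylor data: for every `n`, a lift `τ_n` of `φ` to the tower -/
structure TData {S : Type w} [CommRing S] {Γ : Type u} [CommRing Γ] (Λ : AddLen.{u, v} Γ)
    (D : Type v) [AddCommGroup D] [Module Γ D] (s0 : S) (xs : List S) (φ : S →+* Γ) (n : ℕ) where
  T : Tow Λ D n (xs.map φ)
  τ : S →+* T.B
  τ0 : τ s0 = T.ι (φ s0)
  τx : xs.map τ = List.zipWith (fun c x => T.ι c + x) (xs.map φ) T.q
  τρ : T.ρ.comp τ = φ

section abstract

variable {S : Type w} [CommRing S] {Γ : Type u} [CommRing Γ] {Λ : AddLen.{u, v} Γ}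
  {D : Type v} [AddCommGroup D] [Module Γ D] {s0 : S} {xs : List S} {φ : S →+* Γ} {n : ℕ}

namespace TData

variable (Θ : TData Λ D s0 xs φ n)

/-- the length over the tower ring -/
noncomputable abbrev ΛB : AddLen.{u, v} Θ.T.B := Λ.restrict Θ.T.ι

/-- the complex `G_n` -/
noncomputable abbrev G (F : MCx S) : MCx Θ.T.B := F.map Θ.τ

theorem chi_G (F : MCx S) (N : ℕ) (hf : ∀ j < N, hX Λ (F.map φ) D j ≠ ⊤)
    (h0 : hX Λ (F.map φ) D N = 0) :
    chiX Θ.ΛB (Θ.G F) Θ.T.E N = ((n ^ xs.length : ℕ) : ℝ) * chiX Λ (F.map φ) D N := by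
  have e : (Θ.G F).map Θ.T.ρ = F.map φ := by rw [G, MCx_map_map, Θ.τρ]
  have := Θ.T.chi (Θ.G F) N (by rw [e]; exact hf) (by rw [e]; exact h0)
  rw [this, e, List.length_map]

variable {M : Type v₁} [AddCommGroup M] [Module S M]
  {F : MCx S} {ε : (F.ι 0 → S) →ₗ[S] M} (hF : IsRes F ε) {t : List S}
  {v : List Γ} {K : ℕ}
  (hv : ∀ x ∈ v, x ^ K ∈ (Module.annihilator S M).map φ)
  (ht : ∀ x ∈ t, φ x ^ K ∈ (Module.annihilator S M).map φ)

include hF hv ht in
/-- all estimates for one `n` -/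
theorem step {C m₀ : ℕ} (H : ∀ m, m₀ ≤ m → ∀ (A : Type u) [CommRing A] (φ : S →+* A)
    (Λ : AddLen.{u, v} A)
    (X : Type v) [AddCommGroup X] [Module A X] [Module S X] [SMulCommClass S A X]
    (_ : ∀ (a : S) (x : X), a • x = φ a • x) (l : List A) (F : MCx S)
    (ε : (F.ι 0 → S) →ₗ[S] M) (_ : IsRes F ε) (i : ℕ),
    (m : ℝ≥0∞) * hK Λ (t.map (fun x => φ x ^ m) ++ l) F X i ≤
      C * ((m : ℝ≥0∞) ^ (t.length + 1) * bn φ Λ (s0 :: xs) l X i +
        (m : ℝ≥0∞) ^ t.length * ∑ j ∈ Finset.range i, bn φ Λ (s0 :: xs) l X j))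
    {m : ℕ} (hm : m₀ ≤ m) (hmK : K * (1 + (xs.length * n + 1)) ≤ m) :
    ∃ hk b : ℕ → ℝ≥0∞, (∀ i, (m : ℝ≥0∞) * hk i ≤ C * ((m : ℝ≥0∞) ^ (t.length + 1) * b i +
        (m : ℝ≥0∞) ^ t.length * ∑ j ∈ Finset.range i, b j)) ∧
      (∀ i, hX Θ.ΛB (Θ.G F) Θ.T.E i ≤ hk i) ∧
      (∀ i, hX Θ.ΛB (Θ.G F) Θ.T.E i ≤ hk (i + (t.length + v.length))) ∧
      (∀ j, b j ≤ sh^[xs.length] (h0 Λ (φ s0 :: v.map (· ^ m)) D) j) := by
  let iE : Module S Θ.T.E := Module.compHom Θ.T.E Θ.τ
  have hE : ∀ (s : S) (x : Θ.T.E), s • x = Θ.τ s • x := fun _ _ => rfl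
  have hc : SMulCommClass S Θ.T.B Θ.T.E := ⟨fun a b x => by rw [hE, hE, smul_comm]⟩
  have hρ : Function.Surjective Θ.T.ρ := fun x => ⟨Θ.T.ι x, RingHom.congr_fun Θ.T.ρι x⟩
  have hnil := Θ.T.nil
  rw [List.length_map] at hnil
  have hNh : ∀ b ∈ t.map (fun x => Θ.τ x ^ m) ++ (v.map (· ^ m)).map Θ.T.ι,
      b ∈ (KosG.FT F Θ.T.B Θ.T.E).Nh := by
    intro b hb
    rw [List.mem_append, List.mem_map, List.mem_map] at hb
    rcases hb with ⟨x, hx, rfl⟩ | ⟨y, hy, rfl⟩
    · refine pow_mem_Nh hρ hnil Θ.τρ hF hE ?_ hmK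
      have : Θ.T.ρ (Θ.τ x) = φ x := RingHom.congr_fun Θ.τρ x
      rw [this]
      exact ht x hx
    · rw [List.mem_map] at hy
      obtain ⟨x, hx, rfl⟩ := hy
      rw [map_pow]
      refine pow_mem_Nh hρ hnil Θ.τρ hF hE ?_ hmK
      have : Θ.T.ρ (Θ.T.ι x) = x := RingHom.congr_fun Θ.T.ρι x
      rw [this]
      exact hv x hx
  refine ⟨hK Θ.ΛB (t.map (fun x => Θ.τ x ^ m) ++ (v.map (· ^ m)).map Θ.T.ι) F Θ.T.E,
    bn Θ.τ Θ.ΛB (s0 :: xs) ((v.map (· ^ m)).map Θ.T.ι) Θ.T.E, ?_, ?_, ?_, ?_⟩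
  · intro i
    exact H m hm Θ.T.B Θ.τ Θ.ΛB Θ.T.E hE ((v.map (· ^ m)).map Θ.T.ι) F ε hF i
  · intro i
    rw [← hX_map Θ.ΛB F Θ.τ hE]
    exact hX_le_hK Θ.ΛB F hNh i
  · intro i
    rw [← hX_map Θ.ΛB F Θ.τ hE]
    have h := hX_le_hK_add Θ.ΛB F hNh i
    simpa only [List.length_append, List.length_map] using h
  · intro j
    exact bn_tow_le Θ.T Θ.τ Θ.τ0 Θ.τx (v.map (· ^ m)) j

end TData

variable [IsNoetherianRing S] [IsLocalRing S]
  (hs : RingTheory.Sequence.IsWeaklyRegular S (s0 :: xs))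
  (hsm : Ideal.ofList (s0 :: xs) = maximalIdeal S)
  {M : Type v₁} [AddCommGroup M] [Module S M] [Module.Finite S M]
  {F : MCx S} {ε : (F.ι 0 → S) →ₗ[S] M} (hF : IsRes F ε) {t : List S}
  (hM : ∃ N : ℕ, maximalIdeal S ^ N ≤ Module.annihilator S M ⊔ Ideal.ofList t)
  {v : List Γ} {K : ℕ}
  (hv : ∀ x ∈ v, x ^ K ∈ (Module.annihilator S M).map φ)
  (ht : ∀ x ∈ t, φ x ^ K ∈ (Module.annihilator S M).map φ)
  (Θ : ∀ n, 1 ≤ n → TData Λ D s0 xs φ n)

theorem abs_chiX_le {A : Type u} [CommRing A] (Λ : AddLen.{u, v} A) (F : MCx A) {X : Type v}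
    [AddCommGroup X] [Module A X] (N : ℕ) :
    |chiX Λ F X N| ≤ ∑ i ∈ Finset.range N, (hX Λ F X i).toReal := by
  rw [chiX_eq]
  refine (Finset.abs_sum_le_sum_abs _ _).trans (Finset.sum_le_sum fun i _ => ?_)
  rw [abs_mul, abs_pow, abs_neg, abs_one, one_pow, one_mul, abs_of_nonneg ENNReal.toReal_nonneg]

include hs hsm hF hM hv ht Θ in
/-- **VANISH** -/
theorem vanish [Module S D] [SMulCommClass S Γ D] (hφ : ∀ (s : S) (x : D), s • x = φ s • x)
    {Dd : ℕ} (hlen : F.Len Dd) {N : ℕ} (hN : Dd < N) {C' b' : ℕ}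
    (hgr : ∀ m : ℕ, 1 ≤ m → ∀ j, h0 Λ (φ s0 :: v.map (· ^ m)) D j ≤ C' * (m : ℝ≥0∞) ^ b')
    (hab : t.length + b' < xs.length) : chiX Λ F D N = 0 := by
  -- enlarge `K`
  have hv' : ∀ x ∈ v, x ^ (K + 1) ∈ (Module.annihilator S M).map φ := fun x hx => by
    rw [pow_succ]; exact Ideal.mul_mem_right _ _ (hv x hx)
  have ht' : ∀ x ∈ t, φ x ^ (K + 1) ∈ (Module.annihilator S M).map φ := fun x hx => by
    rw [pow_succ]; exact Ideal.mul_mem_right _ _ (ht x hx)
  have hfin : ∀ i, hX Λ F D i ≠ ⊤ := hX_finite hs hsm hF hM hv ht hφ (fun m hm j =>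
    ne_top_of_le_ne_top (ENNReal.mul_ne_top (ENNReal.natCast_ne_top _)
      (ENNReal.pow_ne_top (ENNReal.natCast_ne_top _))) (hgr m hm j))
  obtain ⟨C, m₀, H⟩ := bd_main.{u, v} hs hsm t M hM
  set d := xs.length with hd
  set a := t.length with ha
  -- the constant
  set K1 : ℕ := C * ((1 + N) * (2 ^ d * C')) * ((K + 1) * (d + 2)) ^ (a + b') with hK1
  have hd1 : 1 ≤ d := by omega
  have key : ∀ n : ℕ, m₀ ≤ n → ∀ hn : 1 ≤ n, ∀ i < N,
      hX (Θ n hn).ΛB ((Θ n hn).G F) (Θ n hn).T.E i ≤ ((K1 * n ^ (a + b') : ℕ) : ℝ≥0∞) := by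
    intro n hn0 hn i hi
    set m := (K + 1) * (1 + (d * n + 1)) with hm
    have hmn : n ≤ m := by
      rw [hm]
      calc n ≤ d * n := Nat.le_mul_of_pos_left n (by omega)
        _ ≤ 1 * (1 + (d * n + 1)) := by omega
        _ ≤ (K + 1) * (1 + (d * n + 1)) := Nat.mul_le_mul_right _ (by omega)
    have hm1 : 1 ≤ m := le_trans hn hmn
    have hm2 : m ≤ (K + 1) * (d + 2) * n := by
      rw [hm, mul_assoc]
      refine Nat.mul_le_mul_left _ ?_
      have : 1 + (d * n + 1) ≤ d * n + 2 * n := by omega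
      exact this.trans (le_of_eq (by ring))
    obtain ⟨hk, b, h1, h2, -, h4⟩ := (Θ n hn).step hF hv' ht' H (hn0.trans hmn) le_rfl
    have h5 : ∀ j, b j ≤ ((2 ^ d * C' * m ^ b' : ℕ) : ℝ≥0∞) := by
      intro j
      refine (h4 j).trans ((sh_const_le (hgr m hm1) _ _).trans (le_of_eq ?_))
      push_cast
      ring
    have h6 : hk i ≤ ((C * ((1 + N) * (2 ^ d * C')) * m ^ (a + b') : ℕ) : ℝ≥0∞) := by
      refine le_of_nat_mul_le hm1 ((h1 i).trans ?_)
      have h7 : ∑ j ∈ Finset.range i, b j ≤ ((N * (2 ^ d * C' * m ^ b') : ℕ) : ℝ≥0∞) := by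
        calc ∑ j ∈ Finset.range i, b j ≤ ∑ j ∈ Finset.range i,
              ((2 ^ d * C' * m ^ b' : ℕ) : ℝ≥0∞) := Finset.sum_le_sum fun j _ => h5 j
          _ = ((i * (2 ^ d * C' * m ^ b') : ℕ) : ℝ≥0∞) := by
              rw [Finset.sum_const, Finset.card_range, nsmul_eq_mul]
              push_cast
              ring
          _ ≤ _ := by
              exact_mod_cast Nat.mul_le_mul_right _ hi.le
      calc (C : ℝ≥0∞) * ((m : ℝ≥0∞) ^ (a + 1) * b i + (m : ℝ≥0∞) ^ a * ∑ j ∈ Finset.range i, b j)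
          ≤ (C : ℝ≥0∞) * ((m : ℝ≥0∞) ^ (a + 1) * ((2 ^ d * C' * m ^ b' : ℕ) : ℝ≥0∞) +
            (m : ℝ≥0∞) ^ a * ((N * (2 ^ d * C' * m ^ b') : ℕ) : ℝ≥0∞)) := by
            gcongr
            exact h5 i
        _ = ((C * (m ^ (a + 1) * (2 ^ d * C' * m ^ b') +
            m ^ a * (N * (2 ^ d * C' * m ^ b'))) : ℕ) : ℝ≥0∞) := by push_cast; ring
        _ ≤ ((C * (m ^ (a + 1) * (2 ^ d * C' * m ^ b') +
            m ^ (a + 1) * (N * (2 ^ d * C' * m ^ b'))) : ℕ) : ℝ≥0∞) := by
            have : m ^ a ≤ m ^ (a + 1) := Nat.pow_le_pow_right hm1 (Nat.le_succ a)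
            exact_mod_cast Nat.mul_le_mul_left _ (Nat.add_le_add_left
              (Nat.mul_le_mul_right _ this) _)
        _ = _ := by push_cast; ring
    refine (h2 i).trans (h6.trans ?_)
    have h8 : m ^ (a + b') ≤ ((K + 1) * (d + 2)) ^ (a + b') * n ^ (a + b') := by
      rw [← mul_pow]
      exact Nat.pow_le_pow_left hm2 _
    have h9 : C * ((1 + N) * (2 ^ d * C')) * m ^ (a + b') ≤ K1 * n ^ (a + b') := by
      rw [hK1, mul_assoc (C * ((1 + N) * (2 ^ d * C')))]
      exact Nat.mul_le_mul_left _ h8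
    exact_mod_cast h9
  have hmap : ∀ i, hX Λ (F.map φ) D i = hX Λ F D i := fun i => (hX_map Λ F φ hφ i).symm
  have hchi : chiX Λ (F.map φ) D N = chiX Λ F D N := (chiX_map Λ F φ hφ N).symm
  have hz : hX Λ F D N = 0 := hX_eq_zero_of_len Λ F D hlen hN
  refine KosG.eq_zero_of_growth (K := N * K1) hab fun N₁ => ?_
  refine ⟨max (max N₁ m₀) 1, le_trans (le_max_left _ _) (le_max_left _ _), ?_⟩
  set n := max (max N₁ m₀) 1 with hn
  have hn0 : m₀ ≤ n := le_trans (le_max_right _ _) (le_max_left _ _)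
  have hn1 : 1 ≤ n := le_max_right _ _
  have e1 := (Θ n hn1).chi_G F N (fun j _ => by rw [hmap]; exact hfin j) (by rw [hmap]; exact hz)
  rw [hchi] at e1
  have e2 : (n : ℝ) ^ d * |chiX Λ F D N| =
      |chiX (Θ n hn1).ΛB ((Θ n hn1).G F) (Θ n hn1).T.E N| := by
    rw [e1, abs_mul, Nat.cast_pow, abs_of_nonneg (by positivity : (0 : ℝ) ≤ (n : ℝ) ^ d)]
  rw [e2]
  refine (abs_chiX_le _ _ _).trans ?_
  calc ∑ i ∈ Finset.range N, (hX (Θ n hn1).ΛB ((Θ n hn1).G F) (Θ n hn1).T.E i).toReal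
      ≤ ∑ i ∈ Finset.range N, (K1 : ℝ) * (n : ℝ) ^ (a + b') := by
        refine Finset.sum_le_sum fun i hi => ?_
        have := ENNReal.toReal_mono (ENNReal.natCast_ne_top _)
          (key n hn0 hn1 i (Finset.mem_range.1 hi))
        rw [ENNReal.toReal_natCast] at this
        exact this.trans (le_of_eq (by push_cast; ring))
    _ = _ := by
        rw [Finset.sum_const, Finset.card_range, nsmul_eq_mul]
        ring

include hs hsm hF hM hv ht Θ in
/-- **POSITIVE** -/
theorem positive [Module S D] [SMulCommClass S Γ D] (hφ : ∀ (s : S) (x : D), s • x = φ s • x)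
    {Dd : ℕ} (hlen : F.Len Dd) {N : ℕ} (hN : Dd < N)
    (hreg : ∀ j, 1 ≤ j → h0 Λ (φ s0 :: v) D j = 0) (hne : h0 Λ (φ s0 :: v) D 0 ≠ ⊤)
    {d' : ℕ} (hd' : xs.length = d' + 1) (hab : t.length + v.length = xs.length)
    {c : ℝ} (hc : 0 < c) (hlow : ∀ N₁ : ℕ, ∃ n₁, N₁ ≤ n₁ ∧ ∀ hn : 1 ≤ n₁,
      ENNReal.ofReal (c * (n₁ : ℝ) ^ xs.length) ≤
        hX (Θ n₁ hn).ΛB ((Θ n₁ hn).G F) (Θ n₁ hn).T.E 0) :
    0 < chiX Λ F D N := by
  -- enlarge `K`
  have hv' : ∀ x ∈ v, x ^ (K + 1) ∈ (Module.annihilator S M).map φ := fun x hx => by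
    rw [pow_succ]; exact Ideal.mul_mem_right _ _ (hv x hx)
  have ht' : ∀ x ∈ t, φ x ^ (K + 1) ∈ (Module.annihilator S M).map φ := fun x hx => by
    rw [pow_succ]; exact Ideal.mul_mem_right _ _ (ht x hx)
  obtain ⟨C', hC'⟩ : ∃ C' : ℕ, h0 Λ (φ s0 :: v) D 0 ≤ C' := by
    obtain ⟨C', h⟩ := ENNReal.exists_nat_gt hne
    exact ⟨C', h.le⟩
  have hgr : ∀ m : ℕ, ∀ j, h0 Λ (φ s0 :: v.map (· ^ m)) D j ≤
      (C' : ℝ≥0∞) * (m : ℝ≥0∞) ^ v.length := by
    intro m j
    refine (h0_pow_le Λ v (φ s0) m j).trans ?_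
    rw [mul_comm (C' : ℝ≥0∞)]
    gcongr
    rcases Nat.eq_zero_or_pos j with rfl | hj
    · exact hC'
    · rw [hreg j hj]; exact zero_le
  have hz0 : ∀ m : ℕ, ∀ j, 0 < j → h0 Λ (φ s0 :: v.map (· ^ m)) D j = 0 := by
    intro m j hj
    have := h0_pow_le (X := D) Λ v (φ s0) m j
    rw [hreg j hj, mul_zero] at this
    exact le_antisymm this zero_le
  have hfin : ∀ i, hX Λ F D i ≠ ⊤ := hX_finite hs hsm hF hM hv ht hφ (fun m hm j =>
    ne_top_of_le_ne_top (ENNReal.mul_ne_top (ENNReal.natCast_ne_top _)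
      (ENNReal.pow_ne_top (ENNReal.natCast_ne_top _))) (hgr m j))
  obtain ⟨C, m₀, H⟩ := bd_main.{u, v} hs hsm t M hM
  set d := xs.length with hd
  set a := t.length with ha
  set b' := v.length with hb'
  -- the constant
  set K1 : ℕ := C * ((N + d) * (2 ^ d * C')) * ((K + 1) * (d + 2)) ^ d' with hK1
  have hd1 : 1 ≤ d := by omega
  have key : ∀ n : ℕ, m₀ ≤ n → ∀ hn : 1 ≤ n, ∀ i < N, 1 ≤ i →
      hX (Θ n hn).ΛB ((Θ n hn).G F) (Θ n hn).T.E i ≤ ((K1 * n ^ d' : ℕ) : ℝ≥0∞) := by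
    intro n hn0 hn i hi hi1
    set m := (K + 1) * (1 + (d * n + 1)) with hm
    have hmn : n ≤ m := by
      rw [hm]
      calc n ≤ d * n := Nat.le_mul_of_pos_left n (by omega)
        _ ≤ 1 * (1 + (d * n + 1)) := by omega
        _ ≤ (K + 1) * (1 + (d * n + 1)) := Nat.mul_le_mul_right _ (by omega)
    have hm1 : 1 ≤ m := le_trans hn hmn
    have hm2 : m ≤ (K + 1) * (d + 2) * n := by
      rw [hm, mul_assoc]
      refine Nat.mul_le_mul_left _ ?_
      have : 1 + (d * n + 1) ≤ d * n + 2 * n := by omega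
      exact this.trans (le_of_eq (by ring))
    obtain ⟨hk, b, h1, -, h2, h4⟩ := (Θ n hn).step hF hv' ht' H (hn0.trans hmn) le_rfl
    have h5 : ∀ j, b j ≤ ((2 ^ d * C' * m ^ b' : ℕ) : ℝ≥0∞) := by
      intro j
      refine (h4 j).trans ((sh_const_le (hgr m) _ _).trans (le_of_eq ?_))
      push_cast
      ring
    have h50 : b (i + d) = 0 := by
      refine le_antisymm ((h4 _).trans ?_) zero_le
      exact (sh_iterate_eq_zero (m := 0) (hz0 m) d (i + d) (by omega)).le
    have h2i := h2 i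
    rw [hab] at h2i
    have h6 : hk (i + d) ≤ ((C * ((N + d) * (2 ^ d * C')) * m ^ d' : ℕ) : ℝ≥0∞) := by
      refine le_of_nat_mul_le hm1 ((h1 (i + d)).trans ?_)
      have h7 : ∑ j ∈ Finset.range (i + d), b j ≤
          (((N + d) * (2 ^ d * C' * m ^ b') : ℕ) : ℝ≥0∞) := by
        calc ∑ j ∈ Finset.range (i + d), b j ≤ ∑ j ∈ Finset.range (i + d),
              ((2 ^ d * C' * m ^ b' : ℕ) : ℝ≥0∞) := Finset.sum_le_sum fun j _ => h5 j
          _ = (((i + d) * (2 ^ d * C' * m ^ b') : ℕ) : ℝ≥0∞) := by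
              rw [Finset.sum_const, Finset.card_range, nsmul_eq_mul]
              push_cast
              ring
          _ ≤ _ := by
              have : i + d ≤ N + d := by omega
              exact_mod_cast Nat.mul_le_mul_right _ this
      rw [h50, mul_zero, zero_add]
      have e1 : m ^ a * m ^ b' = m * m ^ d' := by
        rw [← pow_add, ← pow_succ']
        congr 1
        omega
      calc (C : ℝ≥0∞) * ((m : ℝ≥0∞) ^ a * ∑ j ∈ Finset.range (i + d), b j)
          ≤ (C : ℝ≥0∞) * ((m : ℝ≥0∞) ^ a *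
            (((N + d) * (2 ^ d * C' * m ^ b') : ℕ) : ℝ≥0∞)) := by gcongr
        _ = ((C * ((N + d) * (2 ^ d * C')) * (m ^ a * m ^ b') : ℕ) : ℝ≥0∞) := by
            push_cast; ring
        _ = _ := by rw [e1]; push_cast; ring
    refine h2i.trans (h6.trans ?_)
    have h8 : m ^ d' ≤ ((K + 1) * (d + 2)) ^ d' * n ^ d' := by
      rw [← mul_pow]
      exact Nat.pow_le_pow_left hm2 _
    have h9 : C * ((N + d) * (2 ^ d * C')) * m ^ d' ≤ K1 * n ^ d' := by
      rw [hK1, mul_assoc (C * ((N + d) * (2 ^ d * C')))]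
      exact Nat.mul_le_mul_left _ h8
    exact_mod_cast h9
  have hmap : ∀ i, hX Λ (F.map φ) D i = hX Λ F D i := fun i => (hX_map Λ F φ hφ i).symm
  have hchi : chiX Λ (F.map φ) D N = chiX Λ F D N := (chiX_map Λ F φ hφ N).symm
  have hz : hX Λ F D N = 0 := hX_eq_zero_of_len Λ F D hlen hN
  refine KosG.pos_of_growth (K := N * K1) (c := c) (d := d') hc fun N₁ => ?_
  obtain ⟨n, hnN, hlow'⟩ := hlow (max (max N₁ m₀) 1)
  have hn0 : m₀ ≤ n := le_trans (le_trans (le_max_right _ _) (le_max_left _ _)) hnN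
  have hn1 : 1 ≤ n := le_trans (le_max_right _ _) hnN
  refine ⟨n, le_trans (le_trans (le_max_left _ _) (le_max_left _ _)) hnN, ?_⟩
  have e1 := (Θ n hn1).chi_G F N (fun j _ => by rw [hmap]; exact hfin j) (by rw [hmap]; exact hz)
  rw [hchi] at e1
  rw [← hd'] 
  have e2 : (n : ℝ) ^ d * chiX Λ F D N =
      chiX (Θ n hn1).ΛB ((Θ n hn1).G F) (Θ n hn1).T.E N := by
    rw [e1, Nat.cast_pow]
  rw [e2, chiX_eq]
  obtain ⟨N', rfl⟩ : ∃ N', N = N' + 1 := ⟨N - 1, by omega⟩
  rw [Finset.sum_range_succ']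
  have hG0 : hX (Θ n hn1).ΛB ((Θ n hn1).G F) (Θ n hn1).T.E 0 ≠ ⊤ := by
    have h1 := (Θ n hn1).T.hXle ((Θ n hn1).G F) 0
    refine ne_top_of_le_ne_top (ENNReal.mul_ne_top (ENNReal.natCast_ne_top _) ?_) h1
    have e : ((Θ n hn1).G F).map (Θ n hn1).T.ρ = F.map φ := by
      rw [TData.G, MCx_map_map, (Θ n hn1).τρ]
    rw [e, hmap]
    exact hfin 0
  have h10 : c * (n : ℝ) ^ d ≤ (hX (Θ n hn1).ΛB ((Θ n hn1).G F) (Θ n hn1).T.E 0).toReal := by
    have := ENNReal.toReal_mono hG0 (hlow' hn1)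
    rwa [ENNReal.toReal_ofReal (by positivity)] at this
  have h11 : |∑ i ∈ Finset.range N', (-1 : ℝ) ^ (i + 1) *
      (hX (Θ n hn1).ΛB ((Θ n hn1).G F) (Θ n hn1).T.E (i + 1)).toReal| ≤
      ((N' + 1 : ℕ) : ℝ) * K1 * (n : ℝ) ^ d' := by
    refine (Finset.abs_sum_le_sum_abs _ _).trans ?_
    calc ∑ i ∈ Finset.range N', |(-1 : ℝ) ^ (i + 1) *
          (hX (Θ n hn1).ΛB ((Θ n hn1).G F) (Θ n hn1).T.E (i + 1)).toReal|
        ≤ ∑ i ∈ Finset.range N', (K1 : ℝ) * (n : ℝ) ^ d' := by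
          refine Finset.sum_le_sum fun i hi => ?_
          rw [abs_mul, abs_pow, abs_neg, abs_one, one_pow, one_mul,
            abs_of_nonneg ENNReal.toReal_nonneg]
          have := ENNReal.toReal_mono (ENNReal.natCast_ne_top _)
            (key n hn0 hn1 (i + 1) (by have := Finset.mem_range.1 hi; omega) (by omega))
          rw [ENNReal.toReal_natCast] at this
          exact this.trans (le_of_eq (by push_cast; ring))
      _ = (N' : ℝ) * (K1 * (n : ℝ) ^ d') := by
          rw [Finset.sum_const, Finset.card_range, nsmul_eq_mul]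
      _ ≤ ((N' + 1 : ℕ) : ℝ) * (K1 * (n : ℝ) ^ d') := by
          have : (N' : ℝ) ≤ ((N' + 1 : ℕ) : ℝ) := by push_cast; linarith
          exact mul_le_mul_of_nonneg_right this (by positivity)
      _ = _ := by ring
  have h12 := (abs_le.1 h11).1
  rw [pow_zero, one_mul]
  linarith

end abstract

end Crest.Agent.R188.SX
end

-- ▼ part R188/SX9
section

/-!
# R188, S-level (helper546), part 9: `Asm.SVanish`
-/

set_option autoImplicit false

namespace Crest.Agent.R188.SX

open scoped ENNReal Pointwise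
open IsLocalRing
open Crest.Agent.R183 Crest.Agent.R183.Res
open Crest.Agent.R188.Kos Crest.Agent.R188.Chi

universe u v w v₁ v₂ v₃

section taylor

variable {d : ℕ} {W : Type u} [CommRing W] [IsNoetherianRing W] {Γ : Type u} [CommRing Γ]
  {Λ : AddLen.{u, v} Γ} {D : Type v} [AddCommGroup D] [Module Γ D]
  (φ : MvPowerSeries (Fin d) W →+* Γ) {n : ℕ}

/-- the variables of the power series ring -/
noncomputable abbrev xsL (d : ℕ) (W : Type u) [CommRing W] : List (MvPowerSeries (Fin d) W) :=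
  List.ofFn fun i : Fin d => (MvPowerSeries.X i : MvPowerSeries (Fin d) W)

variable {φ} in
theorem q_length (T : Tow Λ D n ((xsL d W).map φ)) : T.q.length = d := by
  rw [T.len, List.length_map, List.length_ofFn]

/-- `Q d n Γ → T.B` -/
noncomputable def qB (T : Tow Λ D n ((xsL d W).map φ)) : Tay.Q d n Γ →+* T.B :=
  Ideal.Quotient.lift (Tay.pI d n Γ)
    (MvPolynomial.eval₂Hom T.ι fun i : Fin d => T.q.get (Fin.cast (q_length T).symm i)) (by
      intro a ha
      have h1 : Tay.pI d n Γ ≤ RingHom.ker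
          (MvPolynomial.eval₂Hom T.ι fun i : Fin d => T.q.get (Fin.cast (q_length T).symm i)) := by
        rw [Tay.pI, Ideal.span_le]
        rintro _ ⟨i, rfl⟩
        change MvPolynomial.eval₂Hom _ _ (MvPolynomial.X i ^ n) = 0
        rw [map_pow, MvPolynomial.eval₂Hom_X']
        exact T.qn _ (List.get_mem _ _)
      exact RingHom.mem_ker.1 (h1 ha))

theorem qB_algebraMap (T : Tow Λ D n ((xsL d W).map φ)) (c : Γ) :
    qB φ T (algebraMap Γ (Tay.Q d n Γ) c) = T.ι c := by
  rw [Tay.algebraMap_Q, qB, Ideal.Quotient.lift_mk, MvPolynomial.eval₂Hom_C]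

theorem qB_q (T : Tow Λ D n ((xsL d W).map φ)) (i : Fin d) :
    qB φ T (Tay.q i) = T.q.get (Fin.cast (q_length T).symm i) := by
  rw [Tay.q, qB, Ideal.Quotient.lift_mk, MvPolynomial.eval₂Hom_X']

variable (Λ D) in
/-- Taylor data for power series rings -/
noncomputable def tdata (s0 : W) (hn : 1 ≤ n) :
    TData Λ D (MvPowerSeries.C s0 : MvPowerSeries (Fin d) W) (xsL d W) φ n where
  T := tow Λ D n hn ((xsL d W).map φ)
  τ := (qB φ (tow Λ D n hn ((xsL d W).map φ))).comp (Tay.tau n φ)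
  τ0 := by
    rw [RingHom.comp_apply, Tay.tau_C, qB_algebraMap]
  τx := by
    have hl := q_length (tow Λ D n hn ((xsL d W).map φ))
    refine List.ext_getElem ?_ ?_
    · rw [List.length_map, List.length_ofFn, List.length_zipWith, List.length_map,
        List.length_ofFn, hl, min_self]
    · intro i h1 h2
      rw [List.getElem_map, List.getElem_zipWith, List.getElem_map, List.getElem_ofFn,
        RingHom.comp_apply, Tay.tau_X, map_add, qB_algebraMap, qB_q]
      rfl
  τρ := by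
    set T := tow Λ D n hn ((xsL d W).map φ) with hT
    have h1 : ∀ x ∈ Tay.qI d n Γ, T.ρ (qB φ T x) = 0 := by
      have h2 : Tay.qI d n Γ ≤ RingHom.ker (T.ρ.comp (qB φ T)) := by
        rw [Tay.qI, Ideal.span_le]
        rintro _ ⟨i, rfl⟩
        change T.ρ (qB φ T (Tay.q i)) = 0
        rw [qB_q]
        exact T.ρq _ (List.get_mem _ _)
      intro x hx
      exact h2 hx
    ext f
    have h2 := h1 _ (Tay.tau_sub_mem n φ f)
    rw [map_sub, map_sub, qB_algebraMap, sub_eq_zero] at h2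
    rw [RingHom.comp_apply, RingHom.comp_apply, h2]
    exact RingHom.congr_fun T.ρι _

end taylor

section h0kh

variable {A : Type u} [CommRing A] (Λ : AddLen.{u, v} A) {X : Type v} [AddCommGroup X] [Module A X]

theorem h0_eq_kh (l : List A) (j : ℕ) : h0 Λ l X j = KosG.kh Λ l X j :=
  PerfB.hK_one Λ l j

end h0kh

section witt

variable {p : ℕ} [hp : Fact p.Prime] {k : Type} [Field k] [CharP k p] [IsAlgClosed k] {d : ℕ}

theorem sys_max : Ideal.ofList ((MvPowerSeries.C (p : WittVector p k) :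
    MvPowerSeries (Fin d) (WittVector p k)) :: xsL d (WittVector p k)) =
    maximalIdeal (MvPowerSeries (Fin d) (WittVector p k)) := by
  rw [Crest.Agent.R183.BInf.maximalIdeal_tb]
  unfold Ideal.ofList Crest.Agent.R183.BInf.tb
  rw [Fin.range_cons, map_natCast]
  congr 1
  ext x
  simp only [List.mem_cons, List.mem_ofFn, Set.mem_insert_iff, Set.mem_range, Set.mem_ofPred_eq]

theorem mB_eq : Asm.mB p k d = maximalIdeal (MvPowerSeries (Fin d) (WittVector p k)) := by
  rw [Crest.Agent.R183.BInf.maximalIdeal_tb]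
  rfl

theorem dim_S : ringKrullDim (MvPowerSeries (Fin d) (WittVector p k)) = ((d + 1 : ℕ) : ℕ∞) := by
  have h1 : ringKrullDim (WittVector p k) = 1 :=
    IsDiscreteValuationRing.ringKrullDim_eq_one _
  rw [Cohen.ringKrullDim_mvPowerSeries, h1, add_comm]
  rfl

theorem sys_reg : RingTheory.Sequence.IsWeaklyRegular (MvPowerSeries (Fin d) (WittVector p k))
    ((MvPowerSeries.C (p : WittVector p k) :
    MvPowerSeries (Fin d) (WittVector p k)) :: xsL d (WittVector p k)) := by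
  have hregW : IsRegularLocalRing (WittVector p k) :=
    (Cohen.isCohen_witt p k).isRegularLocalRing
  refine PerfB.isWeaklyRegular_of_ofList ?_ sys_max
  rw [List.length_cons, List.length_ofFn, dim_S]
  rfl

theorem exists_uniform {A : Type u} [CommRing A] (J : Ideal A) (l : List A)
    (h : ∀ x ∈ l, ∃ K : ℕ, x ^ K ∈ J) : ∃ K : ℕ, ∀ x ∈ l, x ^ K ∈ J := by
  induction l with
  | nil => exact ⟨0, fun x hx => absurd hx List.not_mem_nil⟩
  | cons a l ih =>
    obtain ⟨K, hK⟩ := ih fun x hx => h x (List.mem_cons_of_mem _ hx)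
    obtain ⟨K', hK'⟩ := h a List.mem_cons_self
    refine ⟨K + K', fun x hx => ?_⟩
    rw [List.mem_cons] at hx
    rcases hx with rfl | hx
    · rw [pow_add]; exact Ideal.mul_mem_left _ _ hK'
    · rw [pow_add]; exact Ideal.mul_mem_right _ _ (hK x hx)

theorem kh_bound {A : Type u} [CommRing A] (Λ : AddLen.{u, v} A) (l : List A) {X : Type v}
    [AddCommGroup X] [Module A X] (h : ∀ j, h0 Λ l X j ≠ ⊤) : ∃ C : ℕ, ∀ j, h0 Λ l X j ≤ C := by
  have h1 : ∑ j ∈ Finset.range (l.length + 1), h0 Λ l X j ≠ ⊤ :=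
    ENNReal.sum_ne_top.2 fun j _ => h j
  obtain ⟨C, hC⟩ := ENNReal.exists_nat_gt h1
  refine ⟨C, fun j => ?_⟩
  by_cases hj : j < l.length + 1
  · refine le_trans ?_ hC.le
    exact Finset.single_le_sum (f := fun j => h0 Λ l X j) (fun _ _ => zero_le)
      (Finset.mem_range.2 hj)
  · rw [h0_eq_kh, KosG.kh_eq_zero Λ X l j (Or.inr (by exact_mod_cast (by omega : l.length < j)))]
    exact zero_le

/-- **`Asm.SVanish`** -/
theorem svanish : Asm.SVanish p k := by
  intro d M _ _ _ F ε hF D₀ hD₀ Γ _ φ Λ D _ _ t v hM htm hφm hvK hfin hab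
  let iD : Module (MvPowerSeries (Fin d) (WittVector p k)) D := Module.compHom D φ
  have hD : ∀ (s : MvPowerSeries (Fin d) (WittVector p k)) (x : D), s • x = φ s • x :=
    fun _ _ => rfl
  have hc : SMulCommClass (MvPowerSeries (Fin d) (WittVector p k)) Γ D :=
    ⟨fun a b x => by rw [hD, hD, smul_comm]⟩
  have hregW : IsRegularLocalRing (WittVector p k) :=
    (Cohen.isCohen_witt p k).isRegularLocalRing
  obtain ⟨K₁, hK₁⟩ := exists_uniform _ v hvK
  obtain ⟨K₂, hK₂⟩ := exists_uniform ((Module.annihilator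
    (MvPowerSeries (Fin d) (WittVector p k)) M).map φ) (t.map φ) (by
      intro x hx
      rw [List.mem_map] at hx
      obtain ⟨y, hy, rfl⟩ := hx
      exact hφm y (htm y hy))
  have hv : ∀ x ∈ v, x ^ (K₁ + K₂) ∈ (Module.annihilator
      (MvPowerSeries (Fin d) (WittVector p k)) M).map φ := fun x hx => by
    rw [pow_add]; exact Ideal.mul_mem_right _ _ (hK₁ x hx)
  have ht : ∀ x ∈ t, φ x ^ (K₁ + K₂) ∈ (Module.annihilator
      (MvPowerSeries (Fin d) (WittVector p k)) M).map φ := fun x hx => by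
    rw [pow_add]; exact Ideal.mul_mem_left _ _ (hK₂ _ (List.mem_map_of_mem hx))
  have hM' : ∃ N : ℕ, maximalIdeal (MvPowerSeries (Fin d) (WittVector p k)) ^ N ≤
      Module.annihilator (MvPowerSeries (Fin d) (WittVector p k)) M ⊔ Ideal.ofList t := by
    rw [← mB_eq]; exact hM
  have hp0 : φ (MvPowerSeries.C (p : WittVector p k)) = (p : Γ) := by
    rw [map_natCast, map_natCast]
  have hperm : ((p : Γ) :: v).Perm (v ++ [(p : Γ)]) := (List.perm_append_singleton _ _).symm
  have hfin' : ∀ j, h0 Λ ((p : Γ) :: v) D j ≠ ⊤ := fun j => by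
    rw [h0_perm Λ hperm, h0_eq_kh]
    exact hfin j
  obtain ⟨C', hC'⟩ := kh_bound Λ _ hfin'
  have hgr : ∀ m : ℕ, 1 ≤ m → ∀ j, h0 Λ (φ (MvPowerSeries.C (p : WittVector p k)) ::
      v.map (· ^ m)) D j ≤ C' * (m : ℝ≥0∞) ^ v.length := by
    intro m _ j
    rw [hp0]
    refine (h0_pow_le Λ v (p : Γ) m j).trans ?_
    rw [mul_comm (C' : ℝ≥0∞)]
    gcongr
    exact hC' j
  refine ⟨fun i => ?_, ?_⟩
  · rw [← hX_map Λ F φ hD]
    exact hX_finite sys_reg sys_max hF hM' hv ht hD (fun m hm j =>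
      ne_top_of_le_ne_top (ENNReal.mul_ne_top (ENNReal.natCast_ne_top _)
        (ENNReal.pow_ne_top (ENNReal.natCast_ne_top _))) (hgr m hm j)) i
  · rw [← chiX_map Λ F φ hD]
    refine vanish sys_reg sys_max hF hM' hv ht (fun n hn => tdata Λ D φ (p : WittVector p k) hn)
      hD hD₀ (Nat.lt_succ_self D₀) hgr ?_
    rw [List.length_ofFn]
    exact hab

end witt

end Crest.Agent.R188.SX
end

-- ▼ part R188/SX10

/-!
# R188, S-level (helper546), part 10: `Asm.SPositive`
-/

set_option autoImplicit false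

namespace Crest.Agent.R188.SX

open scoped ENNReal Pointwise
open IsLocalRing
open Crest.Agent.R183 Crest.Agent.R183.Res
open Crest.Agent.R188.Kos Crest.Agent.R188.Chi

universe u v w v₁ v₂ v₃

section bridge

variable {d : ℕ} {W : Type u} [CommRing W] [IsNoetherianRing W] {Γ : Type u} [CommRing Γ]
  {Λ : AddLen.{u, u} Γ} {φ : MvPowerSeries (Fin d) W →+* Γ} {n : ℕ}

/-- the lower bound of helper415 in terms of the tower -/
theorem hX_Q_le (T : Tow Λ Γ n ((xsL d W).map φ)) (G : MCx (Tay.Q d n Γ)) :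
    hX (Λ.restrict (algebraMap Γ (Tay.Q d n Γ))) G (Tay.Q d n Γ) 0 ≤
      hX (Λ.restrict T.ι) (G.map (qB φ T)) T.E 0 := by
  obtain ⟨β, h1, h2⟩ := T.lift (Tay.Q d n Γ) (algebraMap Γ (Tay.Q d n Γ))
    (List.ofFn fun i : Fin d => (Tay.q i : Tay.Q d n Γ))
    (by rw [List.length_ofFn, List.length_map, List.length_ofFn])
    (by
      intro x hx
      rw [List.mem_ofFn] at hx
      obtain ⟨i, rfl⟩ := hx
      exact Tay.q_pow i)
  have h3 : β.comp (qB φ T) = RingHom.id _ := by
    apply Tay.Q_hom_ext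
    · intro c
      rw [RingHom.comp_apply, qB_algebraMap]
      exact RingHom.congr_fun h1 c
    · intro i
      rw [RingHom.comp_apply, qB_q, RingHom.id_apply]
      have hl := q_length T
      have h4 : (T.q.map β).get (Fin.cast (by rw [List.length_map, hl]) i) = Tay.q i := by
        have h5 : ∀ (l : List (Tay.Q d n Γ)) (hl : d = l.length)
            (_ : l = List.ofFn fun i : Fin d => (Tay.q i : Tay.Q d n Γ)),
            l.get (Fin.cast hl i) = Tay.q i := by
          intro l hl h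
          subst h
          simp
        exact h5 _ _ h2
      rw [← h4]
      simp
  let iQ : Module T.B (Tay.Q d n Γ) := Module.compHom _ β
  have hQ : ∀ (b : T.B) (x : Tay.Q d n Γ), b • x = β b • x := fun _ _ => rfl
  have hc : SMulCommClass T.B (Tay.Q d n Γ) (Tay.Q d n Γ) :=
    ⟨fun a b x => by rw [hQ, hQ, smul_comm]⟩
  have e1 : hX (Λ.restrict (algebraMap Γ (Tay.Q d n Γ))) G (Tay.Q d n Γ) 0 =
      hX (Λ.restrict T.ι) (G.map (qB φ T)) (Tay.Q d n Γ) 0 := by
    rw [hX_restrict (f := β) (G.map (qB φ T)) hQ (Λ.restrict T.ι) 0, restrict_restrict, h1,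
      hX_map (Λ.restrict (algebraMap Γ (Tay.Q d n Γ))) (G.map (qB φ T)) β hQ 0]
    congr 1
    have e2 : (G.map (qB φ T)).map β = G.map (β.comp (qB φ T)) := rfl
    rw [e2, h3, MCx_map_id]
  rw [e1]
  obtain ⟨g', hg'⟩ := T.ext (Tay.Q d n Γ) (algebraMap Γ (Tay.Q d n Γ)).toAddMonoidHom (by
    intro a x
    show algebraMap Γ (Tay.Q d n Γ) (a • x) = T.ι a • algebraMap Γ (Tay.Q d n Γ) x
    rw [hQ, smul_eq_mul, smul_eq_mul, map_mul]
    congr 1
    exact (RingHom.congr_fun h1 a).symm)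
  have hs : Function.Surjective g' := by
    intro x
    refine ⟨qB φ T x • T.η 1, ?_⟩
    rw [map_smul, hg', hQ]
    show β (qB φ T x) • algebraMap Γ (Tay.Q d n Γ) 1 = x
    rw [map_one, smul_eq_mul, mul_one]
    exact RingHom.congr_fun h3 x
  exact hX_right_le_zero (Λ.restrict T.ι) (f := (LinearMap.ker g').subtype) (g := g')
    (G.map (qB φ T)) (fun a x => rfl) (fun a x => map_smul g' a x)
    (Submodule.subtype_injective _) hs (LinearMap.exact_subtype_ker_map g')

end bridge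

section zero

variable {S : Type w} [CommRing S] {Γ : Type u} [CommRing Γ] {Λ : AddLen.{u, v} Γ}
  {D : Type v} [AddCommGroup D] [Module Γ D] {s0 : S} {φ : S →+* Γ}
  [IsNoetherianRing S] [IsLocalRing S]
  (hs : RingTheory.Sequence.IsWeaklyRegular S [s0])
  (hsm : Ideal.ofList [s0] = maximalIdeal S)
  {M : Type v₁} [AddCommGroup M] [Module S M] [Module.Finite S M]
  {F : MCx S} {ε : (F.ι 0 → S) →ₗ[S] M} (hF : IsRes F ε)
  (hM : ∃ N : ℕ, maximalIdeal S ^ N ≤ Module.annihilator S M)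

include hs hsm hF hM in
/-- the case without variables: higher homology vanishes -/
theorem hX_eq_zero_of_reg [Module S D] [SMulCommClass S Γ D]
    (hφ : ∀ (s : S) (x : D), s • x = φ s • x)
    (hreg : ∀ j, 1 ≤ j → h0 Λ [φ s0] D j = 0) (hne : h0 Λ [φ s0] D 0 ≠ ⊤) (i : ℕ) (hi : 1 ≤ i) :
    hX Λ F D i = 0 := by
  obtain ⟨C, m₀, H⟩ := bd_main.{u, v} hs hsm [] M (by
    obtain ⟨N, hN⟩ := hM
    exact ⟨N, by rw [Ideal.ofList_nil, sup_bot_eq]; exact hN⟩)
  have hb : ∀ j, bn φ Λ [s0] [] D j = h0 Λ [φ s0] D j := fun j => by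
    rw [bn_eq]
    rfl
  by_contra hne0
  have hfin : ∀ j, h0 Λ [φ s0] D j ≠ ⊤ := by
    intro j
    rcases Nat.eq_zero_or_pos j with rfl | hj
    · exact hne
    · rw [hreg j hj]; exact ENNReal.zero_ne_top
  have hB : (C : ℝ≥0∞) * ∑ j ∈ Finset.range i, h0 Λ [φ s0] D j ≠ ⊤ :=
    ENNReal.mul_ne_top (ENNReal.natCast_ne_top _) (ENNReal.sum_ne_top.2 fun j _ => hfin j)
  obtain ⟨n, hn⟩ := ENNReal.exists_nat_mul_gt hne0 hB
  have h1 := H (max n m₀) (le_max_right _ _) Γ φ Λ D hφ [] F ε hF i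
  rw [hb, hreg i hi, mul_zero, zero_add, List.length_nil, pow_zero, one_mul] at h1
  have h2 : hK Λ (([] : List S).map (fun x => φ x ^ (max n m₀)) ++ []) F D i = hX Λ F D i := rfl
  rw [h2] at h1
  simp only [hb] at h1
  have h3 : (n : ℝ≥0∞) * hX Λ F D i ≤ ((max n m₀ : ℕ) : ℝ≥0∞) * hX Λ F D i := by
    gcongr
    exact le_max_left _ _
  exact absurd (h3.trans h1) (not_le.2 hn)

end zero

section witt

variable {p : ℕ} [hp : Fact p.Prime] {k : Type} [Field k] [CharP k p] [IsAlgClosed k]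

/-- **`Asm.SPositive`** -/
theorem spositive : Asm.SPositive p k := by
  intro d M _ _ _ F ε hF D₀ hD₀ Γ _ φ Λ t v hM htm hφm hvK hφv hdim hab hreg hpos htop
  have hregW : IsRegularLocalRing (WittVector p k) :=
    (Cohen.isCohen_witt p k).isRegularLocalRing
  let iD : Module (MvPowerSeries (Fin d) (WittVector p k)) Γ := Module.compHom Γ φ
  have hD : ∀ (s : MvPowerSeries (Fin d) (WittVector p k)) (x : Γ), s • x = φ s • x :=
    fun _ _ => rfl
  have hc : SMulCommClass (MvPowerSeries (Fin d) (WittVector p k)) Γ Γ :=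
    ⟨fun a b x => by rw [hD, hD, smul_comm]⟩
  obtain ⟨K₁, hK₁⟩ := exists_uniform _ v hvK
  obtain ⟨K₂, hK₂⟩ := exists_uniform ((Module.annihilator
    (MvPowerSeries (Fin d) (WittVector p k)) M).map φ) (t.map φ) (by
      intro x hx
      rw [List.mem_map] at hx
      obtain ⟨y, hy, rfl⟩ := hx
      exact hφm y (htm y hy))
  have hv : ∀ x ∈ v, x ^ (K₁ + K₂) ∈ (Module.annihilator
      (MvPowerSeries (Fin d) (WittVector p k)) M).map φ := fun x hx => by
    rw [pow_add]; exact Ideal.mul_mem_right _ _ (hK₁ x hx)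
  have ht : ∀ x ∈ t, φ x ^ (K₁ + K₂) ∈ (Module.annihilator
      (MvPowerSeries (Fin d) (WittVector p k)) M).map φ := fun x hx => by
    rw [pow_add]; exact Ideal.mul_mem_left _ _ (hK₂ _ (List.mem_map_of_mem hx))
  have hM' : ∃ N : ℕ, maximalIdeal (MvPowerSeries (Fin d) (WittVector p k)) ^ N ≤
      Module.annihilator (MvPowerSeries (Fin d) (WittVector p k)) M ⊔ Ideal.ofList t := by
    rw [← mB_eq]; exact hM
  have hp0 : φ (MvPowerSeries.C (p : WittVector p k)) = (p : Γ) := by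
    rw [map_natCast, map_natCast]
  have hperm : ((p : Γ) :: v).Perm (v ++ [(p : Γ)]) := (List.perm_append_singleton _ _).symm
  have hkhperm : ∀ j, KosG.kh Λ ((p : Γ) :: v) Γ j = KosG.kh Λ (v ++ [(p : Γ)]) Γ j := fun j =>
    KosG.kh_perm Λ Γ hperm j
  have hkh0 : KosG.kh Λ (v ++ [(p : Γ)]) Γ 0 = Λ.L (Γ ⧸ Ideal.ofList (v ++ [(p : Γ)])) := by
    have h1 := KosG.kh_zero (C := Γ) Λ (v ++ [(p : Γ)])
    rw [h1]
    have h2 : (Ideal.ofList (v ++ [(p : Γ)]) • (⊤ : Submodule Γ Γ)) =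
        Ideal.ofList (v ++ [(p : Γ)]) := by
      rw [smul_eq_mul, Ideal.mul_top]
    rw [h2]
  have hr1 : ∀ j, 1 ≤ j → h0 Λ (φ (MvPowerSeries.C (p : WittVector p k)) :: v) Γ j = 0 := by
    intro j hj
    rw [hp0, h0_eq_kh, hkhperm]
    exact hreg j (by exact_mod_cast hj)
  have hn1 : h0 Λ (φ (MvPowerSeries.C (p : WittVector p k)) :: v) Γ 0 ≠ ⊤ := by
    rw [hp0, h0_eq_kh, hkhperm]
    rw [Nat.cast_zero, hkh0]
    exact htop
  -- finiteness
  have hfin : ∀ i, hX Λ F Γ i ≠ ⊤ := by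
    refine hX_finite sys_reg sys_max hF hM' hv ht hD (fun m hm j => ?_)
    refine ne_top_of_le_ne_top ?_ (h0_pow_le Λ v _ m j)
    refine ENNReal.mul_ne_top (ENNReal.pow_ne_top (ENNReal.natCast_ne_top _)) ?_
    rcases Nat.eq_zero_or_pos j with rfl | hj
    · exact hn1
    · rw [hr1 j hj]; exact ENNReal.zero_ne_top
  -- the lower bound
  let iW : Algebra (WittVector p k) Γ := (φ.comp MvPowerSeries.C).toAlgebra
  have halg : ∀ w, φ (MvPowerSeries.C w) = algebraMap (WittVector p k) Γ w := fun _ => rfl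
  have halgp : algebraMap (WittVector p k) Γ (p : WittVector p k) = (p : Γ) := map_natCast _ _
  have hlow := Tay.lower_asymp_M' (φ := φ) Λ (ϖ := (p : WittVector p k))
    (Cohen.maximalIdeal_witt p k) halg M hF t (fun a ha => by
      rw [← mB_eq]; exact htm a ha) hM' hdim v (by
      obtain ⟨K, hK⟩ := exists_uniform (Ideal.ofList (v ++ [(p : Γ)]))
        ((xsL d (WittVector p k)).map φ) (by
          intro x hx
          rw [List.mem_map] at hx
          obtain ⟨y, hy, rfl⟩ := hx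
          rw [List.mem_ofFn] at hy
          obtain ⟨i, rfl⟩ := hy
          refine hφv _ ?_
          rw [mB_eq, ← sys_max]
          refine Ideal.subset_span ?_
          refine List.mem_cons_of_mem _ ?_
          rw [List.mem_ofFn]
          exact ⟨i, rfl⟩)
      refine ⟨K, fun i => ?_⟩
      have h1 := hK (φ (MvPowerSeries.X i)) (List.mem_map_of_mem (by
        rw [List.mem_ofFn]
        exact ⟨i, rfl⟩))
      rw [Ideal.ofList_append, Ideal.ofList_singleton, sup_comm] at h1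
      rw [halgp]
      exact h1)
    (fun i hi => by rw [halgp, hkhperm]; exact hreg i hi)
    (by rw [halgp, hkhperm, hkh0]; exact htop)
    (by rw [halgp, hkhperm, hkh0]; exact hpos) hab
  obtain ⟨c, hc0, n₀, hlow⟩ := hlow
  have hlow' : ∀ n, n₀ ≤ n → ∀ hn : 1 ≤ n, ENNReal.ofReal (c * (n : ℝ) ^ d) ≤
      hX (tdata Λ Γ φ (p : WittVector p k) hn).ΛB ((tdata Λ Γ φ (p : WittVector p k) hn).G F)
        (tdata Λ Γ φ (p : WittVector p k) hn).T.E 0 := by
    intro n hn0 hn
    exact (hlow n hn0).trans (hX_Q_le (tow Λ Γ n hn ((xsL d (WittVector p k)).map φ))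
      (F.map (Tay.tau n φ)))
  refine ⟨fun i => ?_, ?_⟩
  · rw [← hX_map Λ F φ hD]
    exact hfin i
  · rw [← chiX_map Λ F φ hD]
    rcases Nat.eq_zero_or_pos d with hd0 | hd1
    · -- no variables
      subst hd0
      have ht0 : t = [] := List.eq_nil_of_length_eq_zero (by omega)
      have hv0 : v = [] := List.eq_nil_of_length_eq_zero (by omega)
      subst ht0 hv0
      have hz : ∀ i, 1 ≤ i → hX Λ F Γ i = 0 := by
        have hx0 : xsL 0 (WittVector p k) = [] := List.ofFn_zero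
        have hsr := sys_reg (p := p) (k := k) (d := 0)
        have hsm := sys_max (p := p) (k := k) (d := 0)
        rw [hx0] at hsr hsm
        obtain ⟨N, hN⟩ := hM'
        rw [Ideal.ofList_nil, sup_bot_eq] at hN
        exact hX_eq_zero_of_reg hsr hsm hF ⟨N, hN⟩ hD hr1 hn1
      have h1 : chiX Λ F Γ (D₀ + 1) = (hX Λ F Γ 0).toReal := by
        rw [chiX_eq, Finset.sum_range_succ', pow_zero, one_mul, Finset.sum_eq_zero, zero_add]
        intro i _
        rw [hz (i + 1) (by omega)]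
        simp
      rw [h1]
      refine ENNReal.toReal_pos ?_ (hfin 0)
      have h2 := hlow' (max n₀ 1) (le_max_left _ _) (le_max_right _ _)
      have h3 := (tdata Λ Γ φ (p : WittVector p k) (le_max_right n₀ 1)).T.hXle
        ((tdata Λ Γ φ (p : WittVector p k) (le_max_right n₀ 1)).G F) 0
      have e : ((tdata Λ Γ φ (p : WittVector p k) (le_max_right n₀ 1)).G F).map
          (tdata Λ Γ φ (p : WittVector p k) (le_max_right n₀ 1)).T.ρ = F.map φ := by
        rw [TData.G, MCx_map_map, (tdata Λ Γ φ (p : WittVector p k) (le_max_right n₀ 1)).τρ]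
      rw [e, ← hX_map Λ F φ hD] at h3
      intro h4
      rw [h4, mul_zero] at h3
      have h5 := h2.trans h3
      rw [pow_zero, mul_one, nonpos_iff_eq_zero, ENNReal.ofReal_eq_zero] at h5
      linarith
    · obtain ⟨d', rfl⟩ : ∃ d', d = d' + 1 := ⟨d - 1, by omega⟩
      refine positive sys_reg sys_max hF hM' hv ht
        (fun n hn => tdata Λ Γ φ (p : WittVector p k) hn) hD hD₀ (Nat.lt_succ_self D₀) hr1 hn1
        (d' := d') List.length_ofFn (by rw [List.length_ofFn]; exact hab) hc0 (fun N₁ => ?_)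
      refine ⟨max N₁ n₀, le_max_left _ _, fun hn => ?_⟩
      rw [List.length_ofFn]
      exact hlow' _ (le_max_right _ _) hn

end witt

end Crest.Agent.R188.SX
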